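import Claimed.Agent.R285.Pot.LinVar

/-!
# ROW 285, POT-LIN block 2 : Thomson duality with pins and penalties; `gEn`, `gTilt` reduced to `gVar` (owner helper83).   Paper-free.

KEY REDUCTION.  `a⁻¹ en v θ + |Bv - c|² = form a v - 2⟨plRow a θ c, v⟩ + plCst a θ c`, hence
`gEn a θ c = plCst a θ c - gVar a (plRow a θ c)`,   `gTilt a θ c f = gVar a (f + plRow a θ c) - plCst a θ c`.
-/

set_option autoImplicit false

namespace Claimed.Agent.R285.Pot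

open scoped Classical

noncomputable section

variable {G : HGraph} (H : HLaw G)

/-! ## 1. row vectors of flows and multipliers -/

theorem pl_pair_div (w : G.E → ℝ) (u : G.V → ℝ) : HLaw.pair (plDiv w) u = ∑ e, w e * plGrad u e := by
  simp only [HLaw.pair, plDiv, Finset.sum_mul]
  rw [Finset.sum_comm]
  refine Finset.sum_congr rfl fun e _ => ?_
  have h1 : ∀ x, w e * ((if G.tgt e = x then 1 else 0) - (if G.src e = x then 1 else 0)) * u x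
      = w e * ((if G.tgt e = x then u x else 0) - (if G.src e = x then u x else 0)) := by
    intro x
    split_ifs <;> ring
  simp only [h1, ← Finset.mul_sum, Finset.sum_sub_distrib, Finset.sum_ite_eq, Finset.mem_univ, if_true, plGrad]

theorem pl_pair_obsT (s : H.O → ℝ) (u : G.V → ℝ) : HLaw.pair (plObsT H s) u = ∑ o, s o * H.obs u o := by
  simp only [HLaw.pair, plObsT, HLaw.obs, Finset.sum_mul, Finset.mul_sum]
  rw [Finset.sum_comm]
  exact Finset.sum_congr rfl fun o _ => Finset.sum_congr rfl fun x _ => by ring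

theorem pl_gradRow_eq (u : G.V → ℝ) : HLaw.gradRow u = plDiv (plGrad u) := rfl

theorem pl_rep_iff (f : G.V → ℝ) (w : G.E → ℝ) (s : H.O → ℝ) :
    plRep H f w s ↔ ∀ u ∈ H.rspan, HLaw.pair f u = HLaw.pair (plDiv w + plObsT H s) u := by
  simp only [plRep, pl_pair_add_left, pl_pair_div, pl_pair_obsT]

theorem pl_rep_self (w : G.E → ℝ) (s : H.O → ℝ) : plRep H (plDiv w + plObsT H s) w s :=
  (pl_rep_iff H _ w s).2 fun _ _ => rfl

theorem pl_adm_of_rep {f : G.V → ℝ} {w : G.E → ℝ} {s : H.O → ℝ} (h : plRep H f w s) : plAdm H f := fun v hv h1 h2 => by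
  rw [h v hv]; simp [h1, h2]

theorem pl_adm_div (w : G.E → ℝ) : plAdm H (plDiv w) := fun v _ h1 _ => by
  rw [pl_pair_div]; simp [h1]

theorem pl_adm_obsT (s : H.O → ℝ) : plAdm H (plObsT H s) := fun v _ _ h2 => by
  rw [pl_pair_obsT]; simp [h2]

theorem pl_adm_row (a : ℝ) (θ : G.E → ℝ) (c : H.O → ℝ) : plAdm H (plRow H a θ c) :=
  pl_adm_sub H (pl_adm_obsT H c) (pl_adm_smul H _ (pl_adm_div H θ))

theorem pl_form_expand (a : ℝ) (v : G.V → ℝ) : H.form a v = a⁻¹ * ∑ e, plGrad v e ^ 2 + ∑ o, H.obs v o ^ 2 := by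
  simp only [pl_form_eq, plB, sq]

/-! ## 2. Thomson principle for `gVar` -/

/-- **trial flow**: upper bound of the variance -/
theorem pl_gVar_le_flow {a : ℝ} (ha : 0 < a) {f : G.V → ℝ} {w : G.E → ℝ} {s : H.O → ℝ} (h : plRep H f w s) :
    H.gVar a f ≤ a * ∑ e, w e ^ 2 + ∑ o, s o ^ 2 := by
  rw [pl_gVar_def]
  apply ciSup_le
  intro u
  rw [h _ u.2, pl_form_expand]
  have h1 : 2 * ∑ e, w e * plGrad (u : G.V → ℝ) e - a⁻¹ * ∑ e, plGrad (u : G.V → ℝ) e ^ 2 ≤ a * ∑ e, w e ^ 2 := by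
    rw [Finset.mul_sum, Finset.mul_sum, Finset.mul_sum, ← Finset.sum_sub_distrib]
    refine Finset.sum_le_sum fun e _ => ?_
    have : 0 ≤ a * (w e - a⁻¹ * plGrad (u : G.V → ℝ) e) ^ 2 := by positivity
    have e1 : a * (w e - a⁻¹ * plGrad (u : G.V → ℝ) e) ^ 2
        = a * w e ^ 2 - 2 * (w e * plGrad (u : G.V → ℝ) e) + a⁻¹ * plGrad (u : G.V → ℝ) e ^ 2 := by
      field_simp; ring
    linarith
  have h2 : 2 * ∑ o, s o * H.obs (u : G.V → ℝ) o - ∑ o, H.obs (u : G.V → ℝ) o ^ 2 ≤ ∑ o, s o ^ 2 := by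
    rw [Finset.mul_sum, ← Finset.sum_sub_distrib]
    refine Finset.sum_le_sum fun o _ => ?_
    nlinarith [sq_nonneg (s o - H.obs (u : G.V → ℝ) o)]
  linarith

/-- the optimal flow -/
theorem pl_rep_of_opt {a : ℝ} {f v : G.V → ℝ} (hv : plIsOpt H a f v) : plRep H f (a⁻¹ • plGrad v) (H.obs v) := fun u hu => by
  rw [← hv.2 u hu, plB, Finset.mul_sum]
  simp only [Pi.smul_apply, smul_eq_mul, mul_assoc]

theorem pl_flow_cost_of_opt {a : ℝ} (ha : 0 < a) (v : G.V → ℝ) :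
    a * ∑ e, (a⁻¹ • plGrad v) e ^ 2 + ∑ o, H.obs v o ^ 2 = H.form a v := by
  rw [pl_form_expand, Finset.mul_sum, Finset.mul_sum]
  congr 1
  refine Finset.sum_congr rfl fun e _ => ?_
  simp only [Pi.smul_apply, smul_eq_mul]
  field_simp

/-- **strong duality** -/
theorem pl_gVar_flow_exists {a : ℝ} (ha : 0 < a) {f : G.V → ℝ} (hf : plAdm H f) :
    ∃ (w : G.E → ℝ) (s : H.O → ℝ), plRep H f w s ∧ H.gVar a f = a * ∑ e, w e ^ 2 + ∑ o, s o ^ 2 := by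
  obtain ⟨v, hv⟩ := pl_opt_exists H ha hf
  exact ⟨_, _, pl_rep_of_opt H hv, by rw [pl_flow_cost_of_opt H ha, pl_gVar_eq_form H ha hv]⟩

/-- `gVar a f = min { a|w|² + |s|² : div w + Bᵀ s = f on rspan }` -/
theorem pl_gVar_isLeast {a : ℝ} (ha : 0 < a) {f : G.V → ℝ} (hf : plAdm H f) :
    IsLeast {t : ℝ | ∃ (w : G.E → ℝ) (s : H.O → ℝ), plRep H f w s ∧ t = a * ∑ e, w e ^ 2 + ∑ o, s o ^ 2} (H.gVar a f) := by
  refine ⟨pl_gVar_flow_exists H ha hf, ?_⟩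
  rintro _ ⟨w, s, h, rfl⟩
  exact pl_gVar_le_flow H ha h

theorem pl_adm_iff_rep (f : G.V → ℝ) : plAdm H f ↔ ∃ (w : G.E → ℝ) (s : H.O → ℝ), plRep H f w s := by
  refine ⟨fun hf => ?_, fun ⟨w, s, h⟩ => pl_adm_of_rep H h⟩
  obtain ⟨w, s, h, _⟩ := pl_gVar_flow_exists H one_pos hf
  exact ⟨w, s, h⟩

/-! ## 3. the affine cost -/

/-- expansion of the affine cost -/
theorem pl_cost_expand (a : ℝ) (θ : G.E → ℝ) (c : H.O → ℝ) (v : G.V → ℝ) :
    a⁻¹ * HLaw.en v θ + ∑ o, (H.obs v o - c o) ^ 2 = H.form a v - 2 * HLaw.pair (plRow H a θ c) v + plCst H a θ c := by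
  rw [plRow, pl_pair_sub_left, pl_pair_smul_left, pl_pair_div, pl_pair_obsT, pl_form_expand, plCst]
  have h1 : HLaw.en v θ = ∑ e, plGrad v e ^ 2 + 2 * ∑ e, θ e * plGrad v e + ∑ e, θ e ^ 2 := by
    rw [HLaw.en, Finset.mul_sum, ← Finset.sum_add_distrib, ← Finset.sum_add_distrib]
    exact Finset.sum_congr rfl fun e _ => by simp only [plGrad]; ring
  have h2 : ∑ o, (H.obs v o - c o) ^ 2 = ∑ o, H.obs v o ^ 2 - 2 * ∑ o, c o * H.obs v o + ∑ o, c o ^ 2 := by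
    rw [Finset.mul_sum, ← Finset.sum_sub_distrib, ← Finset.sum_add_distrib]
    exact Finset.sum_congr rfl fun o _ => by ring
  rw [h1, h2]; ring

theorem pl_cost_nonneg {a : ℝ} (ha : 0 < a) (θ : G.E → ℝ) (c : H.O → ℝ) (v : G.V → ℝ) :
    0 ≤ a⁻¹ * HLaw.en v θ + ∑ o, (H.obs v o - c o) ^ 2 :=
  add_nonneg (mul_nonneg (inv_pos.2 ha).le (Finset.sum_nonneg fun e _ => sq_nonneg _)) (Finset.sum_nonneg fun o _ => sq_nonneg _)

theorem pl_gEn_bdd {a : ℝ} (ha : 0 < a) (θ : G.E → ℝ) (c : H.O → ℝ) :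
    BddBelow (Set.range fun v : H.rspan => a⁻¹ * HLaw.en (v : G.V → ℝ) θ + ∑ o, (H.obs (v : G.V → ℝ) o - c o) ^ 2) :=
  ⟨0, by rintro _ ⟨v, rfl⟩; exact pl_cost_nonneg H ha θ c _⟩

/-- **trial field** for the cost (`S23.gEn_le`, verbatim) -/
theorem pl_gEn_le {a : ℝ} (ha : 0 < a) (θ : G.E → ℝ) (c : H.O → ℝ) (v : G.V → ℝ) (hv : v ∈ H.rspan) :
    H.gEn a θ c ≤ a⁻¹ * HLaw.en v θ + ∑ o, (H.obs v o - c o) ^ 2 :=
  ciInf_le (pl_gEn_bdd H ha θ c) ⟨v, hv⟩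

theorem pl_gEn_nonneg {a : ℝ} (ha : 0 < a) (θ : G.E → ℝ) (c : H.O → ℝ) : 0 ≤ H.gEn a θ c :=
  le_ciInf fun v => pl_cost_nonneg H ha θ c _

/-- **`gEn` through `gVar`** -/
theorem pl_gEn_eq {a : ℝ} (ha : 0 < a) (θ : G.E → ℝ) (c : H.O → ℝ) :
    H.gEn a θ c = plCst H a θ c - H.gVar a (plRow H a θ c) := by
  obtain ⟨v, hv⟩ := pl_opt_exists H ha (pl_adm_row H a θ c)
  apply le_antisymm
  · refine (pl_gEn_le H ha θ c v hv.1).trans ?_
    rw [pl_cost_expand, pl_gVar_eq_form H ha hv, pl_opt_pair H hv]; linarith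
  · refine le_ciInf fun u => ?_
    rw [pl_cost_expand]
    linarith [pl_le_gVar H ha (pl_adm_row H a θ c) u.2]

/-- the minimiser of the cost = the optimiser of `plRow` -/
theorem pl_gEn_eq_at {a : ℝ} (ha : 0 < a) {θ : G.E → ℝ} {c : H.O → ℝ} {v : G.V → ℝ} (hv : plIsOpt H a (plRow H a θ c) v) :
    H.gEn a θ c = a⁻¹ * HLaw.en v θ + ∑ o, (H.obs v o - c o) ^ 2 := by
  rw [pl_gEn_eq H ha, pl_cost_expand, pl_gVar_eq_form H ha hv, pl_opt_pair H hv]; ring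

/-- Euler-Lagrange equations of the cost -/
theorem pl_opt_row_iff {a : ℝ} (θ : G.E → ℝ) (c : H.O → ℝ) (v : G.V → ℝ) :
    plIsOpt H a (plRow H a θ c) v ↔ v ∈ H.rspan ∧ ∀ u ∈ H.rspan,
      a⁻¹ * ∑ e, (plGrad v e + θ e) * plGrad u e + ∑ o, (H.obs v o - c o) * H.obs u o = 0 := by
  have key : ∀ u, a⁻¹ * ∑ e, (plGrad v e + θ e) * plGrad u e + ∑ o, (H.obs v o - c o) * H.obs u o
      = plB H a v u - HLaw.pair (plRow H a θ c) u := by
    intro u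
    rw [plRow, pl_pair_sub_left, pl_pair_smul_left, pl_pair_div, pl_pair_obsT, plB]
    simp only [add_mul, sub_mul, Finset.sum_add_distrib, Finset.sum_sub_distrib]; ring
  simp only [plIsOpt, key, sub_eq_zero]

theorem pl_gEn_min_exists {a : ℝ} (ha : 0 < a) (θ : G.E → ℝ) (c : H.O → ℝ) :
    ∃ v, plIsOpt H a (plRow H a θ c) v ∧ H.gEn a θ c = a⁻¹ * HLaw.en v θ + ∑ o, (H.obs v o - c o) ^ 2 := by
  obtain ⟨v, hv⟩ := pl_opt_exists H ha (pl_adm_row H a θ c)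
  exact ⟨v, hv, pl_gEn_eq_at H ha hv⟩

/-- Pythagoras at the minimiser -/
theorem pl_cost_eq_gEn_add {a : ℝ} (ha : 0 < a) {θ : G.E → ℝ} {c : H.O → ℝ} {v : G.V → ℝ} (hv : plIsOpt H a (plRow H a θ c) v)
    {u : G.V → ℝ} (hu : u ∈ H.rspan) :
    a⁻¹ * HLaw.en u θ + ∑ o, (H.obs u o - c o) ^ 2 = H.gEn a θ c + H.form a (u - v) := by
  rw [pl_cost_expand, pl_gEn_eq H ha, pl_gVar_eq_form H ha hv]
  have := pl_opt_square H hv hu
  linarith

/-- **trial flow with multipliers**: lower bound of the cost -/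
theorem pl_le_gEn' {a : ℝ} (ha : 0 < a) (θ : G.E → ℝ) (c : H.O → ℝ) (w : G.E → ℝ) (s : H.O → ℝ)
    (hw : ∀ v ∈ H.rspan, ∑ e, w e * plGrad v e + ∑ o, s o * H.obs v o = 0) :
    2 * ∑ e, w e * θ e - 2 * ∑ o, s o * c o - a * ∑ e, w e ^ 2 - ∑ o, s o ^ 2 ≤ H.gEn a θ c := by
  refine le_ciInf fun v => ?_
  have h0 := hw _ v.2
  have h1 : 2 * ∑ e, w e * (plGrad (v : G.V → ℝ) e + θ e) - a * ∑ e, w e ^ 2 ≤ a⁻¹ * HLaw.en (v : G.V → ℝ) θ := by
    rw [HLaw.en, Finset.mul_sum, Finset.mul_sum, Finset.mul_sum, ← Finset.sum_sub_distrib]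
    refine Finset.sum_le_sum fun e _ => ?_
    have : 0 ≤ a * (w e - a⁻¹ * (plGrad (v : G.V → ℝ) e + θ e)) ^ 2 := by positivity
    have e1 : a * (w e - a⁻¹ * (plGrad (v : G.V → ℝ) e + θ e)) ^ 2
        = a * w e ^ 2 - 2 * (w e * (plGrad (v : G.V → ℝ) e + θ e)) + a⁻¹ * (plGrad (v : G.V → ℝ) e + θ e) ^ 2 := by
      field_simp; ring
    simp only [plGrad] at this e1 ⊢
    linarith
  have h2 : 2 * ∑ o, s o * (H.obs (v : G.V → ℝ) o - c o) - ∑ o, s o ^ 2 ≤ ∑ o, (H.obs (v : G.V → ℝ) o - c o) ^ 2 := by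
    rw [Finset.mul_sum, ← Finset.sum_sub_distrib]
    refine Finset.sum_le_sum fun o _ => ?_
    nlinarith [sq_nonneg (s o - (H.obs (v : G.V → ℝ) o - c o))]
  simp only [mul_add, mul_sub, Finset.sum_add_distrib, Finset.sum_sub_distrib] at h1 h2
  linarith

/-- **trial flow** (`S23.le_gEn`, verbatim) -/
theorem pl_le_gEn {a : ℝ} (ha : 0 < a) (θ : G.E → ℝ) (c : H.O → ℝ) (w : G.E → ℝ)
    (hw : ∀ v ∈ H.rspan, ∑ e, w e * (v (G.tgt e) - v (G.src e)) = 0) :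
    2 * ∑ e, w e * θ e - a * ∑ e, w e ^ 2 ≤ H.gEn a θ c := by
  have := pl_le_gEn' H ha θ c w 0 (fun v hv => by simpa [plGrad] using hw v hv)
  simpa using this

/-- **strong duality for the cost**: the flow `w* = a⁻¹(∇v* + θ)`, `s* = Bv* - c` of the minimiser -/
theorem pl_gEn_dual_at {a : ℝ} (ha : 0 < a) {θ : G.E → ℝ} {c : H.O → ℝ} {v : G.V → ℝ} (hv : plIsOpt H a (plRow H a θ c) v) :
    (∀ u ∈ H.rspan, ∑ e, (a⁻¹ * (plGrad v e + θ e)) * plGrad u e + ∑ o, (H.obs v o - c o) * H.obs u o = 0) ∧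
    H.gEn a θ c = 2 * ∑ e, (a⁻¹ * (plGrad v e + θ e)) * θ e - 2 * ∑ o, (H.obs v o - c o) * c o
      - a * ∑ e, (a⁻¹ * (plGrad v e + θ e)) ^ 2 - ∑ o, (H.obs v o - c o) ^ 2 ∧
    H.gEn a θ c = a * ∑ e, (a⁻¹ * (plGrad v e + θ e)) ^ 2 + ∑ o, (H.obs v o - c o) ^ 2 := by
  have hEL := ((pl_opt_row_iff H θ c v).1 hv).2
  have h1 : ∀ u ∈ H.rspan, ∑ e, (a⁻¹ * (plGrad v e + θ e)) * plGrad u e + ∑ o, (H.obs v o - c o) * H.obs u o = 0 := by
    intro u hu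
    have := hEL u hu
    rw [Finset.mul_sum] at this
    simpa only [mul_assoc] using this
  have h3 : H.gEn a θ c = a * ∑ e, (a⁻¹ * (plGrad v e + θ e)) ^ 2 + ∑ o, (H.obs v o - c o) ^ 2 := by
    rw [pl_gEn_eq_at H ha hv, HLaw.en, Finset.mul_sum, Finset.mul_sum]
    congr 1
    refine Finset.sum_congr rfl fun e _ => ?_
    simp only [plGrad]; field_simp
  refine ⟨h1, ?_, h3⟩
  have h4 := h1 v hv.1
  have h5 : a * ∑ e, (a⁻¹ * (plGrad v e + θ e)) ^ 2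
      = ∑ e, (a⁻¹ * (plGrad v e + θ e)) * plGrad v e + ∑ e, (a⁻¹ * (plGrad v e + θ e)) * θ e := by
    rw [Finset.mul_sum, ← Finset.sum_add_distrib]
    refine Finset.sum_congr rfl fun e _ => ?_
    field_simp
  have h6 : ∑ o, (H.obs v o - c o) ^ 2 = ∑ o, (H.obs v o - c o) * H.obs v o - ∑ o, (H.obs v o - c o) * c o := by
    rw [← Finset.sum_sub_distrib]
    exact Finset.sum_congr rfl fun o _ => by ring
  rw [h3]
  linarith

theorem pl_gEn_dual_exists {a : ℝ} (ha : 0 < a) (θ : G.E → ℝ) (c : H.O → ℝ) :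
    ∃ (w : G.E → ℝ) (s : H.O → ℝ), (∀ v ∈ H.rspan, ∑ e, w e * plGrad v e + ∑ o, s o * H.obs v o = 0) ∧
      H.gEn a θ c = 2 * ∑ e, w e * θ e - 2 * ∑ o, s o * c o - a * ∑ e, w e ^ 2 - ∑ o, s o ^ 2 := by
  obtain ⟨v, hv⟩ := pl_opt_exists H ha (pl_adm_row H a θ c)
  obtain ⟨h1, h2, _⟩ := pl_gEn_dual_at H ha hv
  exact ⟨_, _, h1, h2⟩

theorem pl_gEn_le_cst {a : ℝ} (ha : 0 < a) (θ : G.E → ℝ) (c : H.O → ℝ) : H.gEn a θ c ≤ plCst H a θ c := by
  rw [pl_gEn_eq H ha]; linarith [pl_gVar_nonneg H ha (plRow H a θ c)]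

theorem pl_gEn_zero {a : ℝ} (ha : 0 < a) : H.gEn a 0 0 = 0 :=
  le_antisymm ((pl_gEn_le_cst H ha 0 0).trans (by simp [plCst])) (pl_gEn_nonneg H ha 0 0)

/-- **gauge invariance**: `θ ↦ θ + ∇u`, `c ↦ c - Bu` with `u ∈ rspan` -/
theorem pl_gEn_gauge {a : ℝ} (ha : 0 < a) (θ : G.E → ℝ) (c : H.O → ℝ) {u : G.V → ℝ} (hu : u ∈ H.rspan) :
    H.gEn a (θ + plGrad u) (c - H.obs u) = H.gEn a θ c := by
  have key : ∀ (θ : G.E → ℝ) (c : H.O → ℝ) (u : G.V → ℝ), u ∈ H.rspan → H.gEn a (θ + plGrad u) (c - H.obs u) ≤ H.gEn a θ c := by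
    intro θ c u hu
    refine le_ciInf fun v => ?_
    refine (pl_gEn_le H ha _ _ ((v : G.V → ℝ) - u) (H.rspan.sub_mem v.2 hu)).trans (le_of_eq ?_)
    congr 1
    · congr 1
      refine Finset.sum_congr rfl fun e _ => ?_
      simp only [Pi.sub_apply, Pi.add_apply, plGrad]; ring
    · refine Finset.sum_congr rfl fun o _ => ?_
      rw [pl_obs_sub]; simp only [Pi.sub_apply]; ring
  refine le_antisymm (key θ c u hu) ?_
  have := key (θ + plGrad u) (c - H.obs u) (-u) (H.rspan.neg_mem hu)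
  have e1 : θ + plGrad u + plGrad (-u) = θ := by rw [pl_grad_neg]; abel
  have e2 : c - H.obs u - H.obs (-u) = c := by
    funext o; simp only [Pi.sub_apply, pl_obs_neg]; ring
  rwa [e1, e2] at this

/-- **general comparison principle** for the cost -/
theorem pl_gEn_compare {G' : HGraph} (H' : HLaw G') {a a' : ℝ} (ha : 0 < a) (θ : G.E → ℝ) (c : H.O → ℝ) (θ' : G'.E → ℝ) (c' : H'.O → ℝ)
    (φ : (G'.V → ℝ) → (G.V → ℝ)) (h1 : ∀ v ∈ H'.rspan, φ v ∈ H.rspan)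
    (h2 : ∀ v ∈ H'.rspan, a⁻¹ * HLaw.en (φ v) θ + ∑ o, (H.obs (φ v) o - c o) ^ 2 ≤ a'⁻¹ * HLaw.en v θ' + ∑ o, (H'.obs v o - c' o) ^ 2) :
    H.gEn a θ c ≤ H'.gEn a' θ' c' :=
  le_ciInf fun v => (pl_gEn_le H ha θ c _ (h1 _ v.2)).trans (h2 _ v.2)

theorem pl_row_smul (a t : ℝ) (θ : G.E → ℝ) (c : H.O → ℝ) : plRow H a (t • θ) (t • c) = t • plRow H a θ c := by
  funext x
  simp only [plRow, plObsT, plDiv, Pi.sub_apply, Pi.smul_apply, smul_eq_mul, mul_sub, Finset.mul_sum]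
  congr 1
  · exact Finset.sum_congr rfl fun o _ => by ring
  · exact Finset.sum_congr rfl fun e _ => by ring

theorem pl_row_add (a : ℝ) (θ θ' : G.E → ℝ) (c c' : H.O → ℝ) :
    plRow H a (θ + θ') (c + c') = plRow H a θ c + plRow H a θ' c' := by
  funext x
  simp only [plRow, plObsT, plDiv, Pi.sub_apply, Pi.add_apply, Pi.smul_apply, smul_eq_mul, add_mul, Finset.sum_add_distrib]
  ring

theorem pl_gEn_smul {a : ℝ} (ha : 0 < a) (t : ℝ) (θ : G.E → ℝ) (c : H.O → ℝ) :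
    H.gEn a (t • θ) (t • c) = t ^ 2 * H.gEn a θ c := by
  rw [pl_gEn_eq H ha, pl_gEn_eq H ha, pl_row_smul, pl_gVar_smul H ha, plCst, plCst]
  simp only [Pi.smul_apply, smul_eq_mul, mul_pow, ← Finset.mul_sum]; ring

/-- `gEn (d + d') ≤ (1+ε) gEn d + (1+1/ε) gEn d'` -/
theorem pl_gEn_add_le_eps {a : ℝ} (ha : 0 < a) (θ θ' : G.E → ℝ) (c c' : H.O → ℝ) {ε : ℝ} (hε : 0 < ε) :
    H.gEn a (θ + θ') (c + c') ≤ (1 + ε) * H.gEn a θ c + (1 + ε⁻¹) * H.gEn a θ' c' := by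
  obtain ⟨v, hv, ev⟩ := pl_gEn_min_exists H ha θ c
  obtain ⟨v', hv', ev'⟩ := pl_gEn_min_exists H ha θ' c'
  refine (pl_gEn_le H ha _ _ (v + v') (H.rspan.add_mem hv.1 hv'.1)).trans ?_
  rw [ev, ev']
  have sq_le : ∀ x y : ℝ, (x + y) ^ 2 ≤ (1 + ε) * x ^ 2 + (1 + ε⁻¹) * y ^ 2 := by
    intro x y
    have h : 0 ≤ ε⁻¹ * (ε * x - y) ^ 2 := by positivity
    have e : ε⁻¹ * (ε * x - y) ^ 2 = ε * x ^ 2 - 2 * (x * y) + ε⁻¹ * y ^ 2 := by field_simp; ring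
    nlinarith
  have h1 : HLaw.en (v + v') (θ + θ') ≤ (1 + ε) * HLaw.en v θ + (1 + ε⁻¹) * HLaw.en v' θ' := by
    simp only [HLaw.en, Finset.mul_sum, ← Finset.sum_add_distrib]
    refine Finset.sum_le_sum fun e _ => ?_
    have := sq_le (v (G.tgt e) - v (G.src e) + θ e) (v' (G.tgt e) - v' (G.src e) + θ' e)
    simp only [Pi.add_apply]
    calc _ = (v (G.tgt e) - v (G.src e) + θ e + (v' (G.tgt e) - v' (G.src e) + θ' e)) ^ 2 := by ring
      _ ≤ _ := this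
  have h2 : ∑ o, (H.obs (v + v') o - (c + c') o) ^ 2
      ≤ (1 + ε) * ∑ o, (H.obs v o - c o) ^ 2 + (1 + ε⁻¹) * ∑ o, (H.obs v' o - c' o) ^ 2 := by
    simp only [Finset.mul_sum, ← Finset.sum_add_distrib]
    refine Finset.sum_le_sum fun o _ => ?_
    have := sq_le (H.obs v o - c o) (H.obs v' o - c' o)
    rw [pl_obs_add]; simp only [Pi.add_apply]
    calc _ = (H.obs v o - c o + (H.obs v' o - c' o)) ^ 2 := by ring
      _ ≤ _ := this
  have h3 := mul_le_mul_of_nonneg_left h1 (inv_pos.2 ha).le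
  nlinarith

/-! ## 4. the tilted cost -/

theorem pl_gTilt_zero (a : ℝ) (f : G.V → ℝ) : H.gTilt a 0 0 f = H.gVar a f := by
  simp only [HLaw.gTilt, HLaw.gVar, HLaw.form, Pi.zero_apply, sub_zero, sub_sub]

/-- **`gTilt` through `gVar`** -/
theorem pl_gTilt_eq {a : ℝ} (ha : 0 < a) (θ : G.E → ℝ) (c : H.O → ℝ) {f : G.V → ℝ} (hf : plAdm H f) :
    H.gTilt a θ c f = H.gVar a (f + plRow H a θ c) - plCst H a θ c := by
  have hadm := pl_adm_add H hf (pl_adm_row H a θ c)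
  have key : ∀ v : G.V → ℝ, 2 * ∑ x, f x * v x - a⁻¹ * HLaw.en v θ - ∑ o, (H.obs v o - c o) ^ 2
      = 2 * HLaw.pair (f + plRow H a θ c) v - H.form a v - plCst H a θ c := by
    intro v
    have := pl_cost_expand H a θ c v
    rw [pl_pair_add_left]
    simp only [HLaw.pair] at this ⊢
    linarith
  obtain ⟨v, hv⟩ := pl_opt_exists H ha hadm
  simp only [HLaw.gTilt, key]
  apply le_antisymm
  · refine ciSup_le fun u => ?_
    linarith [pl_le_gVar H ha hadm u.2]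
  · have hb : BddAbove (Set.range fun u : H.rspan =>
        2 * HLaw.pair (f + plRow H a θ c) (u : G.V → ℝ) - H.form a (u : G.V → ℝ) - plCst H a θ c) := by
      refine ⟨H.gVar a (f + plRow H a θ c) - plCst H a θ c, ?_⟩
      rintro _ ⟨u, rfl⟩
      simp only
      linarith [pl_le_gVar H ha hadm u.2]
    refine le_trans (le_of_eq ?_) (le_ciSup hb ⟨v, hv.1⟩)
    simp only
    rw [pl_gVar_eq_form H ha hv, pl_opt_pair H hv]; ring

/-- **`gTilt = gVar - gEn + 2⟨f, v_{θ,c}⟩`**, `v_{θ,c}` = the minimiser of the cost -/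
theorem pl_gTilt_eq_at {a : ℝ} (ha : 0 < a) {θ : G.E → ℝ} {c : H.O → ℝ} {f : G.V → ℝ} (hf : plAdm H f)
    {v : G.V → ℝ} (hv : plIsOpt H a (plRow H a θ c) v) :
    H.gTilt a θ c f = H.gVar a f - H.gEn a θ c + 2 * HLaw.pair f v := by
  rw [pl_gTilt_eq H ha θ c hf, pl_gVar_add H ha hf (pl_adm_row H a θ c), pl_cov_eq_pair H ha hf hv, pl_gEn_eq H ha]; ring

theorem pl_gTilt_test_zero {a : ℝ} (ha : 0 < a) (θ : G.E → ℝ) (c : H.O → ℝ) : H.gTilt a θ c 0 = - H.gEn a θ c := by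
  rw [pl_gTilt_eq H ha θ c (pl_adm_zero H), zero_add, pl_gEn_eq H ha]; ring

end

end Claimed.Agent.R285.Pot
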