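import Claimed.Agent.R285.Pot.LinCond

/-!
# ROW 285, POT-LIN leaf L-LIN-MEAN : the mean of the Gaussian pin ratio.   Paper-free.   (helper83)
-/

set_option autoImplicit false

namespace Claimed.Agent.R285.Pot

open MeasureTheory ProbabilityTheory
open scoped Classical

noncomputable section

variable {G : HGraph} (H : HLaw G)

theorem pl_res_continuous (P : Set G.V) : Continuous (plRes P : (G.V → ℝ) → G.V → ℝ) := by
  refine continuous_pi fun x => ?_
  by_cases hx : x ∈ P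
  · simp only [plRes, hx, if_true]; exact continuous_apply _
  · simp only [plRes, hx, if_false]; exact continuous_const

theorem pl_harm_continuous (a : ℝ) (P : Set G.V) : Continuous (plHarm H a P) := by
  have h1 : ∀ x, Continuous fun u : G.V → ℝ => plRes P u x := fun x => (continuous_apply x).comp (pl_res_continuous P)
  refine continuous_pi fun x => ?_
  unfold plHarm
  fun_prop

theorem pl_en_continuous (a : ℝ) (P : Set G.V) : Continuous (plEn H a P) :=
  (pl_form_continuous H a).comp (pl_harm_continuous H a P)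

theorem pl_gap_continuous (a : ℝ) (P A : Set G.V) : Continuous (plGap H a P A) :=
  ((pl_en_continuous H a (P ∪ A)).comp (pl_res_continuous P)).sub (pl_en_continuous H a P)

theorem pl_res_congr {P : Set G.V} {u u' : G.V → ℝ} (h : ∀ x ∈ P, u x = u' x) : plRes P u = plRes P u' := by
  funext x
  by_cases hx : x ∈ P
  · simp [plRes, hx, h x hx]
  · simp [plRes, hx]

theorem pl_gap_congr {a : ℝ} (ha : 0 < a) {P : Set G.V} (h : plPD H P) (A : Set G.V) {u u' : G.V → ℝ} (huu : ∀ x ∈ P, u x = u' x) :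
    plGap H a P A u = plGap H a P A u' := by
  rw [plGap, plGap, pl_res_congr huu, pl_en_congr H ha h huu]

/-- a functional of the data comes out of the conditional integral -/
theorem pl_Z_data_fun (a : ℝ) (P : Set G.V) (u : G.V → ℝ) (r : (G.V → ℝ) → ℝ) (hr : ∀ v, r (plExt P u v) = r u) (F : (G.V → ℝ) → ℝ) :
    plZ H a P u (fun φ => r φ * F φ) = r u * plZ H a P u F := by
  simp only [plZ, hr, mul_assoc, integral_const_mul]

theorem pl_Z_one_integrable' {a : ℝ} (ha : 0 < a) {P : Set G.V} (h : plPD H P) :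
    Integrable (fun v : {x : G.V // x ∉ P} → ℝ =>
      (fun _ : G.V → ℝ => (1 : ℝ)) (plExt P 0 v) * Real.exp (-(H.form a (plExt P 0 v)) / 2)) := by
  simpa only [one_mul] using pl_Z_one_integrable H ha h

/-- **`E r^g = e^{-gPin}`** -/
theorem pl_rPin_mean {a : ℝ} (ha : 0 < a) {P₀ : Set G.V} (h : plPD H P₀) (A p : Set G.V) (hd : A ∩ p ⊆ P₀) :
    ∫ φ, plrPin H a (P₀ ∪ p) A φ ∂plMeas H a P₀ = Real.exp (-(H.gPin a P₀ A p)) := by
  have hP := pl_PD_mono H h (Set.subset_union_left (t := p))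
  have hA := pl_PD_mono H h (Set.subset_union_left (t := A))
  have hPA := pl_PD_mono H hP (Set.subset_union_left (t := A))
  have z0 := pl_Z_one_pos H ha h
  have zP := pl_Z_one_pos H ha hP
  have zA := pl_Z_one_pos H ha hA
  have zPA := pl_Z_one_pos H ha hPA
  set D : Set G.V := p \ P₀ with hDdef
  have hD0 : ∀ x ∈ D, x ∉ P₀ := fun x hx => hx.2
  have hD1 : ∀ x ∈ D, x ∉ P₀ ∪ A := by
    rintro x hx (h1 | h1)
    · exact hx.2 h1
    · exact hx.2 (hd ⟨h1, hx.1⟩)
  have e0 : P₀ ∪ D = P₀ ∪ p := Set.union_sdiff_self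
  have e1 : P₀ ∪ A ∪ D = P₀ ∪ p ∪ A := by
    rw [Set.union_right_comm, e0]
  have e2 : P₀ ∪ A ∪ p = P₀ ∪ p ∪ A := Set.union_right_comm _ _ _
  have hr : (fun φ => plrPin H a (P₀ ∪ p) A φ) = fun φ => Real.exp (-(plGap H a (P₀ ∪ p) A φ) / 2) := by
    funext φ; exact pl_rPin_eq H ha hP A φ
  -- integrability
  have hint : Integrable (fun v : {x : G.V // x ∉ P₀} → ℝ =>
      Real.exp (-(plGap H a (P₀ ∪ p) A (plExt P₀ 0 v)) / 2) * Real.exp (-(H.form a (plExt P₀ 0 v)) / 2)) := by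
    refine (pl_Z_one_integrable H ha h).bdd_mul (c := 1) ?_ (Filter.Eventually.of_forall fun v => ?_)
    · have : Continuous fun v : {x : G.V // x ∉ P₀} → ℝ => plGap H a (P₀ ∪ p) A (plExt P₀ 0 v) :=
        (pl_gap_continuous H a _ A).comp (pl_ext_continuous P₀ 0)
      exact (by fun_prop : Continuous fun v : {x : G.V // x ∉ P₀} → ℝ =>
        Real.exp (-(plGap H a (P₀ ∪ p) A (plExt P₀ 0 v)) / 2)).aestronglyMeasurable
    · rw [Real.norm_eq_abs, abs_of_pos (Real.exp_pos _), Real.exp_le_one_iff]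
      linarith [pl_gap_nonneg H ha hP A (plExt P₀ 0 v)]
  -- the inner integral
  have inner : ∀ y : {x : G.V // x ∈ D} → ℝ,
      plZ H a (P₀ ∪ p) (plMix D 0 y) (fun φ => Real.exp (-(plGap H a (P₀ ∪ p) A φ) / 2))
        = (plZ H a (P₀ ∪ p) 0 (fun _ => 1) / plZ H a (P₀ ∪ p ∪ A) 0 fun _ => 1) * plZ H a (P₀ ∪ p ∪ A) (plMix D 0 y) fun _ => 1 := by
    intro y
    set u := plMix D 0 y with hu
    have hres : plRes (P₀ ∪ p) u = u := by
      funext x
      by_cases hx : x ∈ P₀ ∪ p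
      · simp [plRes, hx]
      · have hxD : x ∉ D := fun hxD => hx (Or.inr hxD.1)
        simp [plRes, hx, hu, plMix, hxD]
    have k1 := pl_Z_data_fun H a (P₀ ∪ p) u (fun φ => Real.exp (-(plGap H a (P₀ ∪ p) A φ) / 2))
      (fun v => by
        rw [pl_gap_congr H ha hP A (u := plExt (P₀ ∪ p) u v) (u' := u) fun x hx => pl_ext_of_mem u v hx]) (fun _ => 1)
    simp only [mul_one] at k1
    rw [k1, pl_Z_data_one H ha hP u, pl_Z_data_one H ha hPA u, plGap, hres]
    rw [show -(plEn H a (P₀ ∪ p ∪ A) u - plEn H a (P₀ ∪ p) u) / 2 = -(plEn H a (P₀ ∪ p ∪ A) u) / 2 - -(plEn H a (P₀ ∪ p) u) / 2 by ring,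
      Real.exp_sub]
    field_simp
  have f0 := pl_Z_fubini H a P₀ D hD0 0 (fun φ => Real.exp (-(plGap H a (P₀ ∪ p) A φ) / 2)) hint
  have f1 := pl_Z_fubini H a (P₀ ∪ A) D hD1 0 (fun _ => 1) (pl_Z_one_integrable' H ha hA)
  simp only [e0] at f0
  simp only [e1] at f1
  simp only [inner] at f0
  rw [integral_const_mul, ← f1] at f0
  rw [hr, pl_meas_integral H ha h, f0, pl_gPin_eq_log H ha h A p hd, e2]
  rw [show -(Real.log (plZ H a (P₀ ∪ p ∪ A) 0 fun _ => 1) + Real.log (plZ H a P₀ 0 fun _ => 1)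
      - Real.log (plZ H a (P₀ ∪ A) 0 fun _ => 1) - Real.log (plZ H a (P₀ ∪ p) 0 fun _ => 1))
      = Real.log (plZ H a (P₀ ∪ A) 0 fun _ => 1) + Real.log (plZ H a (P₀ ∪ p) 0 fun _ => 1)
        - Real.log (plZ H a (P₀ ∪ p ∪ A) 0 fun _ => 1) - Real.log (plZ H a P₀ 0 fun _ => 1) by ring,
    Real.exp_sub, Real.exp_sub, Real.exp_add, Real.exp_log zA, Real.exp_log zP, Real.exp_log zPA, Real.exp_log z0]
  field_simp

theorem pl_rPin_mean' {a : ℝ} (ha : 0 < a) {P₀ : Set G.V} (h : plPD H P₀) (A p : Set G.V) (hd : A ∩ p ⊆ P₀) :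
    plExT H a P₀ 0 (plrPin H a (P₀ ∪ p) A) = Real.exp (-(H.gPin a P₀ A p)) := by
  rw [pl_ExT_eq H ha h, ← pl_rPin_mean H ha h A p hd]
  have : plGf H a P₀ 0 = 0 := by funext x; simp [plGf]
  simp only [this, add_zero]

end

end Claimed.Agent.R285.Pot
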