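import Claimed.Agent.R285.Pot.LinPin

/-!
# ROW 285, POT-LIN leaf L-LIN-OK : bridge from the height side to real properness.   Paper-free.
-/

set_option autoImplicit false

namespace Claimed.Agent.R285.Pot

open scoped Classical

noncomputable section

variable {G : HGraph} (H : HLaw G)

/-- `pl_PD_of_ok` in plain types -/
theorem pl_PD_of_ok_aux {P : Set G.V} (hΛ : H.Λ = HLaw.pinned P) (hP : H.Proper) (n : ℕ)
    (w : Fin n → (G.E → ℤ) × (H.O → ℝ))
    (hli : LinearIndependent ℝ
      (fun i => ((fun e => ((w i).1 e : ℝ), (w i).2) : (G.E → ℝ) × (H.O → ℝ))))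
    (hL : H.Λ.map H.coord = AddSubgroup.closure (Set.range w)) : plPD H P := by
  -- preimages of the basis
  have hw : ∀ i, ∃ h ∈ H.Λ, H.coord h = w i := by
    intro i
    have h1 : w i ∈ H.Λ.map H.coord := by
      rw [hL]; exact AddSubgroup.subset_closure ⟨i, rfl⟩
    exact AddSubgroup.mem_map.1 h1
  choose h hhΛ hhw using hw
  -- the coordinate vectors are integral combinations
  have hδ : ∀ x, x ∉ P → ∃ c : Fin n → ℤ, (Pi.single x 1 : G.V → ℤ) = ∑ i, c i • h i := by
    intro x hx
    have h1 : (Pi.single x 1 : G.V → ℤ) ∈ H.Λ := by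
      rw [hΛ]
      intro y hy
      have hyx : y ≠ x := fun e => hx (e ▸ hy)
      simp [hyx]
    have h2 : H.coord (Pi.single x 1) ∈ AddSubgroup.closure (Set.range w) := by
      rw [← hL]; exact AddSubgroup.mem_map_of_mem _ h1
    have h2' : H.coord (Pi.single x 1) ∈ Submodule.span ℤ (Set.range w) := by
      rw [← Submodule.mem_toAddSubgroup, Submodule.span_int_eq_addSubgroupClosure]
      exact h2
    obtain ⟨c, hc⟩ := (Submodule.mem_span_range_iff_exists_fun ℤ).1 h2'
    refine ⟨c, ?_⟩
    have h3 : ((Pi.single x 1 : G.V → ℤ) - ∑ i, c i • h i) ∈ H.Λ :=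
      sub_mem h1 (sum_mem fun i _ => zsmul_mem (hhΛ i) _)
    have h4 : H.coord ((Pi.single x 1 : G.V → ℤ) - ∑ i, c i • h i) = 0 := by
      rw [map_sub, map_sum]
      simp only [map_zsmul, hhw]
      rw [sub_eq_zero]
      exact hc.symm
    exact sub_eq_zero.1 (hP _ h3 h4)
  choose! c hc using hδ
  intro v hv hg ho
  -- real coefficients
  set a : Fin n → ℝ := fun i => ∑ x, v x * (c x i : ℝ) with ha
  have hva : ∀ y, v y = ∑ i, a i * (h i y : ℝ) := by
    intro y
    have e1 : ∀ x, v x * ((Pi.single x 1 : G.V → ℤ) y : ℝ) = v x * ∑ i, (c x i : ℝ) * (h i y : ℝ) := by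
      intro x
      by_cases hx : x ∈ P
      · rw [hv x hx, zero_mul, zero_mul]
      · rw [hc x hx]
        simp [Finset.sum_apply]
    have e2 : v y = ∑ x, v x * ((Pi.single x 1 : G.V → ℤ) y : ℝ) := by
      rw [Finset.sum_eq_single y]
      · simp
      · intro x _ hxy
        simp [hxy.symm]
      · intro hy; exact absurd (Finset.mem_univ y) hy
    rw [e2, Finset.sum_congr rfl fun x _ => e1 x]
    simp only [ha, Finset.mul_sum, Finset.sum_mul]
    rw [Finset.sum_comm]
    refine Finset.sum_congr rfl fun i _ => Finset.sum_congr rfl fun x _ => ?_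
    ring
  have hz : ∑ i, a i • ((fun e => ((w i).1 e : ℝ), (w i).2) : (G.E → ℝ) × (H.O → ℝ)) = 0 := by
    refine Prod.ext ?_ ?_
    · funext e
      have e1 : ∀ i, ((w i).1 e : ℝ) = (h i (G.tgt e) : ℝ) - (h i (G.src e) : ℝ) := by
        intro i
        rw [← hhw i]
        simp [HLaw.coord]
      have := hg e
      rw [plGrad, hva (G.tgt e), hva (G.src e), ← Finset.sum_sub_distrib] at this
      simp only [Prod.fst_sum, Prod.smul_fst, Finset.sum_apply, Pi.smul_apply, smul_eq_mul, e1,
        Prod.fst_zero, Pi.zero_apply]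
      rw [← this]
      exact Finset.sum_congr rfl fun i _ => by ring
    · funext o
      have e1 : ∀ i, (w i).2 o = ∑ x, H.B o x * (2 * Real.pi * (h i x : ℝ)) := by
        intro i
        rw [← hhw i]
        simp [HLaw.coord]
      have := ho o
      rw [HLaw.obs] at this
      simp only [Prod.snd_sum, Prod.smul_snd, Finset.sum_apply, Pi.smul_apply, smul_eq_mul, e1,
        Prod.snd_zero, Pi.zero_apply]
      have e2 : ∑ i, a i * ∑ x, H.B o x * (2 * Real.pi * (h i x : ℝ)) =
          2 * Real.pi * ∑ x, H.B o x * v x := by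
        simp only [hva, Finset.mul_sum]
        rw [Finset.sum_comm]
        refine Finset.sum_congr rfl fun x _ => Finset.sum_congr rfl fun i _ => ?_
        ring
      rw [e2, this, mul_zero]
  have ha0 := Fintype.linearIndependent_iff.1 hli a hz
  funext y
  rw [hva y]
  simp [ha0]

/-- L-LIN-OK.  BRIDGE from the height side: a proper lattice system with coordinate pins is really proper.
Plan: `coord` is injective on `Λ = pinned P ≅ ℤ^{Pᶜ}`; `L = coord Λ` has a `ℤ`-basis of `n` vectors independent over `ℝ`, and `n = |Pᶜ|` (rank); the real linear extension of `coord` maps `ℝ^{Pᶜ}`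
onto the real span of `L`, of dimension `n`: it is injective. -/
theorem pl_PD_of_ok {P : Set G.V} (hΛ : H.Λ = HLaw.pinned P) (b : ℝ) (hOk : (H.sys b).Ok) (hP : H.Proper) : plPD H P := by
  obtain ⟨-, n, w, hli, hL⟩ := hOk
  exact pl_PD_of_ok_aux H hΛ hP n w hli hL

end

end Claimed.Agent.R285.Pot
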