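import Claimed.Agent.R285.Pot.LinDual

/-!
# ROW 285, POT-LIN block 3a : coordinate pins, precision matrix, Green function, harmonic extension (owner helper83).   Paper-free, deterministic.

`plPin H P` = rows of `H`, pins `P`.  `plPD H P` = the form is definite on `{v = 0 on P}` (real properness).  Under `plPD`:
`plGf H a P f` (Green function applied to `f`) is THE optimiser of `f`;  `plHarm H a P u` is THE harmonic extension of `u|_P`;  `plEn H a P u = form (plHarm u)` = minimal energy of the data.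
-/

set_option autoImplicit false

namespace Claimed.Agent.R285.Pot

open scoped Classical

noncomputable section

variable {G : HGraph} (H : HLaw G)

/-! ## 1. the law `plPin` -/

theorem pl_pin_form (P : Set G.V) (a : ℝ) (v : G.V → ℝ) : (plPin H P).form a v = H.form a v := rfl

theorem pl_pin_B (P : Set G.V) (a : ℝ) (u v : G.V → ℝ) : plB (plPin H P) a u v = plB H a u v := rfl

theorem pl_mem_rspan_pin (P : Set G.V) (v : G.V → ℝ) : v ∈ (plPin H P).rspan ↔ ∀ x ∈ P, v x = 0 := by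
  constructor
  · intro hv
    let W : Submodule ℝ (G.V → ℝ) :=
      { carrier := {v | ∀ x ∈ P, v x = 0}
        zero_mem' := fun _ _ => rfl
        add_mem' := fun {u v} hu hv x hx => by simp [hu x hx, hv x hx]
        smul_mem' := fun t v hv x hx => by simp [hv x hx] }
    have hle : (plPin H P).rspan ≤ W := by
      refine Submodule.span_le.2 ?_
      rintro _ ⟨h, hh, rfl⟩ x hx
      have : h x = 0 := hh x hx
      simp [this]
    exact hle hv
  · intro hv
    have e : v = ∑ x, v x • (Pi.single x (1 : ℝ) : G.V → ℝ) := by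
      funext y
      simp [Finset.sum_apply, Pi.single_apply]
    rw [e]
    refine Submodule.sum_mem _ fun x _ => ?_
    by_cases hx : x ∈ P
    · rw [hv x hx, zero_smul]; exact Submodule.zero_mem _
    · refine Submodule.smul_mem _ _ (Submodule.subset_span ⟨Pi.single x (1 : ℤ), ?_, ?_⟩)
      · intro y hy
        have : y ≠ x := fun h => hx (h ▸ hy)
        simp [Pi.single_apply, this]
      · funext y
        by_cases hy : y = x <;> simp [Pi.single_apply, hy]

theorem pl_law_eq_pin {P : Set G.V} (h : H.Λ = HLaw.pinned P) : H = plPin H P := by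
  cases H; simp only at h; subst h; rfl

theorem pl_pinned_inf (P A : Set G.V) : (HLaw.pinned P ⊓ HLaw.pinned A : AddSubgroup (G.V → ℤ)) = HLaw.pinned (P ∪ A) := by
  ext h
  simp only [AddSubgroup.mem_inf]
  constructor
  · rintro ⟨h1, h2⟩ v (hv | hv)
    · exact h1 v hv
    · exact h2 v hv
  · intro h1
    exact ⟨fun v hv => h1 v (Or.inl hv), fun v hv => h1 v (Or.inr hv)⟩

theorem pl_addPin_pin (P A : Set G.V) : (plPin H P).addPin A = plPin H (P ∪ A) := by
  simp only [HLaw.addPin, plPin, pl_pinned_inf]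
  rfl

theorem pl_pin_pin (P A : Set G.V) : plPin (plPin H P) A = plPin H A := rfl

theorem pl_PD_mono {P P' : Set G.V} (h : plPD H P) (hP : P ⊆ P') : plPD H P' :=
  fun v hv => h v fun x hx => hv x (hP hx)

theorem pl_adm_of_PD {P : Set G.V} (h : plPD H P) (f : G.V → ℝ) : plAdm (plPin H P) f := fun v hv h1 h2 => by
  rw [h v ((pl_mem_rspan_pin H P v).1 hv) h1 h2, pl_pair_zero_right]

theorem pl_PD_form {P : Set G.V} (h : plPD H P) {a : ℝ} (ha : 0 < a) {v : G.V → ℝ} (hv : ∀ x ∈ P, v x = 0) (h0 : H.form a v = 0) :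
    v = 0 := by
  obtain ⟨h1, h2⟩ := (pl_form_eq_zero_iff H ha v).1 h0
  exact h v hv h1 h2

/-! ## 2. precision matrix -/

theorem pl_grad_eq_sum (u : G.V → ℝ) (e : G.E) :
    plGrad u e = ∑ x, u x * ((if G.tgt e = x then (1 : ℝ) else 0) - (if G.src e = x then 1 else 0)) := by
  simp [plGrad, mul_sub, Finset.sum_sub_distrib]

theorem pl_B_prec (a : ℝ) (u v : G.V → ℝ) : plB H a u v = ∑ x, ∑ y, u x * H.prec a x y * v y := by
  have h1 : ∀ e, plGrad u e * plGrad v e = ∑ x, ∑ y, u x * (((if G.tgt e = x then (1 : ℝ) else 0) - (if G.src e = x then 1 else 0)) *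
      ((if G.tgt e = y then (1 : ℝ) else 0) - (if G.src e = y then 1 else 0))) * v y := by
    intro e
    rw [pl_grad_eq_sum u e, pl_grad_eq_sum v e, Finset.sum_mul_sum]
    exact Finset.sum_congr rfl fun x _ => Finset.sum_congr rfl fun y _ => by ring
  have h2 : ∀ o, H.obs u o * H.obs v o = ∑ x, ∑ y, u x * (H.B o x * H.B o y) * v y := by
    intro o
    rw [HLaw.obs, HLaw.obs, Finset.sum_mul_sum]
    exact Finset.sum_congr rfl fun x _ => Finset.sum_congr rfl fun y _ => by ring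
  simp only [plB, h1, h2, HLaw.prec]
  rw [Finset.sum_comm, Finset.mul_sum, Finset.sum_comm (s := (Finset.univ : Finset H.O)), ← Finset.sum_add_distrib]
  refine Finset.sum_congr rfl fun x _ => ?_
  rw [Finset.sum_comm, Finset.mul_sum, Finset.sum_comm (s := (Finset.univ : Finset H.O)), ← Finset.sum_add_distrib]
  refine Finset.sum_congr rfl fun y _ => ?_
  rw [mul_add, add_mul, Finset.mul_sum, Finset.mul_sum, Finset.mul_sum, Finset.sum_mul, Finset.mul_sum, Finset.sum_mul]
  congr 1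
  exact Finset.sum_congr rfl fun e _ => by ring

theorem pl_prec_symm (a : ℝ) (x y : G.V) : H.prec a x y = H.prec a y x := by
  simp only [HLaw.prec, mul_comm]

theorem pl_detOff_eq (a : ℝ) (P : Set G.V) : H.detOff a P = (plPrec H a P).det := rfl

/-- a sum over all vertices of a function vanishing on `P` -/
theorem pl_sum_off (P : Set G.V) (F : G.V → ℝ) (hF : ∀ x ∈ P, F x = 0) : ∑ x, F x = ∑ x : {x : G.V // x ∉ P}, F x.1 := by
  rw [← Fintype.sum_subtype_add_sum_subtype (fun x => x ∈ P) F]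
  have : ∑ i : {x // x ∈ P}, F i.1 = 0 := Finset.sum_eq_zero fun i _ => hF i.1 i.2
  rw [this, zero_add]

theorem pl_B_ext (a : ℝ) (P : Set G.V) (v w : {x : G.V // x ∉ P} → ℝ) :
    plB H a (plExt P 0 v) (plExt P 0 w) = v ⬝ᵥ (plPrec H a P).mulVec w := by
  rw [pl_B_prec, pl_sum_off P _ (fun x hx => by simp [plExt, hx])]
  simp only [dotProduct, Matrix.mulVec, Finset.mul_sum]
  refine Finset.sum_congr rfl fun x _ => ?_
  rw [pl_sum_off P _ (fun y hy => by simp [plExt, hy])]
  refine Finset.sum_congr rfl fun y _ => ?_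
  simp [plExt, x.2, y.2, plPrec, mul_assoc]

theorem pl_pair_ext (P : Set G.V) (f : G.V → ℝ) (v : {x : G.V // x ∉ P} → ℝ) : HLaw.pair f (plExt P 0 v) = plOff P f ⬝ᵥ v := by
  rw [HLaw.pair, pl_sum_off P _ (fun x hx => by simp [plExt, hx])]
  simp only [dotProduct, plOff]
  refine Finset.sum_congr rfl fun x _ => ?_
  simp [plExt, x.2]

theorem pl_prec_isSymm (a : ℝ) (P : Set G.V) : (plPrec H a P).IsSymm := by
  ext x y
  simp only [Matrix.transpose_apply, plPrec, Matrix.submatrix_apply]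
  simp only [HLaw.prec, mul_comm]

theorem pl_prec_posDef {a : ℝ} (ha : 0 < a) {P : Set G.V} (h : plPD H P) : (plPrec H a P).PosDef := by
  rw [Matrix.posDef_iff_dotProduct_mulVec]
  refine ⟨?_, fun v hv => ?_⟩
  · rw [Matrix.IsHermitian, Matrix.conjTranspose_eq_transpose_of_trivial]; exact pl_prec_isSymm H a P
  · rw [star_trivial, ← pl_B_ext, ← pl_form_eq]
    refine lt_of_le_of_ne (pl_form_nonneg H ha _) fun h0 => hv ?_
    obtain ⟨h1, h2⟩ := (pl_form_eq_zero_iff H ha _).1 h0.symm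
    have h3 := h _ (fun x hx => by simp [plExt, hx]) h1 h2
    funext x
    have := congrFun h3 x.1
    simpa [plExt, x.2] using this

theorem pl_detOff_pos {a : ℝ} (ha : 0 < a) {P : Set G.V} (h : plPD H P) : 0 < H.detOff a P :=
  (pl_prec_posDef H ha h).det_pos

/-! ## 3. extension / restriction -/

theorem pl_ext_of_mem {P : Set G.V} (u : G.V → ℝ) (v : {x : G.V // x ∉ P} → ℝ) {x : G.V} (hx : x ∈ P) : plExt P u v x = u x := by
  simp [plExt, hx]

theorem pl_ext_of_not_mem {P : Set G.V} (u : G.V → ℝ) (v : {x : G.V // x ∉ P} → ℝ) {x : G.V} (hx : x ∉ P) :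
    plExt P u v x = v ⟨x, hx⟩ := by
  simp [plExt, hx]

theorem pl_ext_eq_add (P : Set G.V) (u : G.V → ℝ) (v : {x : G.V // x ∉ P} → ℝ) : plExt P u v = plRes P u + plExt P 0 v := by
  funext x
  by_cases hx : x ∈ P <;> simp [plExt, plRes, hx]

theorem pl_ext_add (P : Set G.V) (v w : {x : G.V // x ∉ P} → ℝ) : plExt P 0 (v + w) = plExt P 0 v + plExt P 0 w := by
  funext x
  by_cases hx : x ∈ P <;> simp [plExt, hx]

theorem pl_ext_smul (P : Set G.V) (t : ℝ) (v : {x : G.V // x ∉ P} → ℝ) : plExt P 0 (t • v) = t • plExt P 0 v := by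
  funext x
  by_cases hx : x ∈ P <;> simp [plExt, hx]

theorem pl_ext_off {P : Set G.V} {w : G.V → ℝ} (hw : ∀ x ∈ P, w x = 0) : plExt P 0 (plOff P w) = w := by
  funext x
  by_cases hx : x ∈ P <;> simp [plExt, plOff, hx, hw]

theorem pl_off_ext (P : Set G.V) (u : G.V → ℝ) (v : {x : G.V // x ∉ P} → ℝ) : plOff P (plExt P u v) = v := by
  funext x
  simp [plExt, plOff, x.2]

theorem pl_ext_off' (P : Set G.V) (u : G.V → ℝ) : plExt P u (plOff P u) = u := by
  funext x
  by_cases hx : x ∈ P <;> simp [plExt, plOff, hx]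

theorem pl_res_of_mem {P : Set G.V} (u : G.V → ℝ) {x : G.V} (hx : x ∈ P) : plRes P u x = u x := by simp [plRes, hx]

theorem pl_res_of_not_mem {P : Set G.V} (u : G.V → ℝ) {x : G.V} (hx : x ∉ P) : plRes P u x = 0 := by simp [plRes, hx]

/-! ## 4. Green function -/

theorem pl_green_of_mem_left (a : ℝ) {P : Set G.V} {x : G.V} (hx : x ∈ P) (y : G.V) : plGreen H a P x y = 0 := by
  simp [plGreen, hx]

theorem pl_green_of_mem_right (a : ℝ) {P : Set G.V} (x : G.V) {y : G.V} (hy : y ∈ P) : plGreen H a P x y = 0 := by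
  simp [plGreen, hy]

theorem pl_green_symm (a : ℝ) (P : Set G.V) (x y : G.V) : plGreen H a P x y = plGreen H a P y x := by
  have hs : ((plPrec H a P)⁻¹).IsSymm := by
    rw [Matrix.IsSymm, Matrix.transpose_nonsing_inv, (pl_prec_isSymm H a P).eq]
  by_cases hx : x ∈ P
  · simp [plGreen, hx]
  by_cases hy : y ∈ P
  · simp [plGreen, hy]
  simp only [plGreen, hx, hy, not_false_eq_true, and_self, dite_true]
  exact (hs.apply _ _)

theorem pl_Gf_eq_ext (a : ℝ) (P : Set G.V) (f : G.V → ℝ) :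
    plGf H a P f = plExt P 0 ((plPrec H a P)⁻¹.mulVec (plOff P f)) := by
  funext x
  by_cases hx : x ∈ P
  · simp [plGf, plExt, hx, plGreen]
  · rw [plGf, pl_sum_off P _ (fun y hy => by simp [plGreen, hy])]
    simp only [plExt, hx, dite_false, Matrix.mulVec, dotProduct, plOff]
    refine Finset.sum_congr rfl fun y _ => ?_
    simp [plGreen, hx, y.2]

/-- `G f` solves the normal equations -/
theorem pl_Gf_opt {a : ℝ} (ha : 0 < a) {P : Set G.V} (h : plPD H P) (f : G.V → ℝ) : plIsOpt (plPin H P) a f (plGf H a P f) := by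
  have hmem : plGf H a P f ∈ (plPin H P).rspan := by
    rw [pl_mem_rspan_pin, pl_Gf_eq_ext]
    intro x hx
    simp [plExt, hx]
  refine ⟨hmem, fun u hu => ?_⟩
  have hu0 := (pl_mem_rspan_pin H P u).1 hu
  have hdet : IsUnit (plPrec H a P).det := (pl_prec_posDef H ha h).det_pos.ne'.isUnit
  rw [pl_pin_B, pl_B_comm, pl_Gf_eq_ext, ← pl_ext_off hu0, pl_B_ext, Matrix.mulVec_mulVec, Matrix.mul_nonsing_inv _ hdet,
    Matrix.one_mulVec, pl_pair_ext, dotProduct_comm]

theorem pl_opt_unique {a : ℝ} (ha : 0 < a) {P : Set G.V} (h : plPD H P) {f v w : G.V → ℝ} (hv : plIsOpt (plPin H P) a f v)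
    (hw : plIsOpt (plPin H P) a f w) : v = w := by
  have h1 : v - w ∈ (plPin H P).rspan := (plPin H P).rspan.sub_mem hv.1 hw.1
  have h2 : H.form a (v - w) = 0 := by
    rw [pl_form_eq, pl_B_sub_left]
    have e1 := hv.2 _ h1
    have e2 := hw.2 _ h1
    rw [pl_pin_B] at e1 e2
    rw [e1, e2, sub_self]
  exact sub_eq_zero.1 (pl_PD_form H h ha ((pl_mem_rspan_pin H P _).1 h1) h2)

theorem pl_gVar_green {a : ℝ} (ha : 0 < a) {P : Set G.V} (h : plPD H P) (f : G.V → ℝ) :
    (plPin H P).gVar a f = ∑ x, ∑ y, f x * plGreen H a P x y * f y := by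
  rw [pl_gVar_eq_pair _ ha (pl_Gf_opt H ha h f)]
  simp only [HLaw.pair, plGf, Finset.mul_sum, mul_assoc]

theorem pl_cov_green {a : ℝ} (ha : 0 < a) {P : Set G.V} (h : plPD H P) (f g : G.V → ℝ) :
    plCov (plPin H P) a f g = ∑ x, ∑ y, f x * plGreen H a P x y * g y := by
  rw [pl_cov_eq_pair _ ha (pl_adm_of_PD H h f) (pl_Gf_opt H ha h g)]
  simp only [HLaw.pair, plGf, Finset.mul_sum, mul_assoc]

/-! ## 5. harmonic extension and minimal energy -/

theorem pl_harm_of_mem (a : ℝ) {P : Set G.V} (u : G.V → ℝ) {x : G.V} (hx : x ∈ P) : plHarm H a P u x = u x := by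
  simp [plHarm, plGreen, plRes, hx]

theorem pl_harm_eq (a : ℝ) (P : Set G.V) (u : G.V → ℝ) :
    plHarm H a P u = plRes P u - plGf H a P (fun y => ∑ z, H.prec a y z * plRes P u z) := rfl

/-- harmonicity -/
theorem pl_harm_orth {a : ℝ} (ha : 0 < a) {P : Set G.V} (h : plPD H P) (u : G.V → ℝ) {w : G.V → ℝ} (hw : ∀ x ∈ P, w x = 0) :
    plB H a (plHarm H a P u) w = 0 := by
  have h1 := (pl_Gf_opt H ha h (fun y => ∑ z, H.prec a y z * plRes P u z)).2 w ((pl_mem_rspan_pin H P w).2 hw)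
  rw [pl_pin_B] at h1
  rw [pl_harm_eq, pl_B_sub_left, h1, pl_B_prec, HLaw.pair, Finset.sum_comm, sub_eq_zero]
  refine Finset.sum_congr rfl fun y _ => ?_
  rw [Finset.sum_mul]
  refine Finset.sum_congr rfl fun x _ => ?_
  rw [pl_prec_symm H a x y]; ring

/-- Pythagoras -/
theorem pl_form_eq_en_add {a : ℝ} (ha : 0 < a) {P : Set G.V} (h : plPD H P) (u : G.V → ℝ) {v : G.V → ℝ} (hv : ∀ x ∈ P, v x = u x) :
    H.form a v = plEn H a P u + H.form a (v - plHarm H a P u) := by
  have hw : ∀ x ∈ P, (v - plHarm H a P u) x = 0 := fun x hx => by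
    rw [Pi.sub_apply, pl_harm_of_mem H a u hx, hv x hx, sub_self]
  have e : v = plHarm H a P u + (v - plHarm H a P u) := by abel
  conv_lhs => rw [e]
  rw [pl_form_add, pl_harm_orth H ha h u hw, plEn]; ring

/-- **trial field** for the minimal energy -/
theorem pl_en_le {a : ℝ} (ha : 0 < a) {P : Set G.V} (h : plPD H P) (u : G.V → ℝ) {v : G.V → ℝ} (hv : ∀ x ∈ P, v x = u x) :
    plEn H a P u ≤ H.form a v := by
  rw [pl_form_eq_en_add H ha h u hv]; linarith [pl_form_nonneg H ha (v - plHarm H a P u)]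

theorem pl_en_nonneg {a : ℝ} (ha : 0 < a) (P : Set G.V) (u : G.V → ℝ) : 0 ≤ plEn H a P u := pl_form_nonneg H ha _

theorem pl_harm_unique {a : ℝ} (ha : 0 < a) {P : Set G.V} (h : plPD H P) (u : G.V → ℝ) {v : G.V → ℝ} (hv : ∀ x ∈ P, v x = u x)
    (ho : ∀ w : G.V → ℝ, (∀ x ∈ P, w x = 0) → plB H a v w = 0) : v = plHarm H a P u := by
  have hw : ∀ x ∈ P, (v - plHarm H a P u) x = 0 := fun x hx => by
    rw [Pi.sub_apply, pl_harm_of_mem H a u hx, hv x hx, sub_self]
  have h2 : H.form a (v - plHarm H a P u) = 0 := by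
    rw [pl_form_eq, pl_B_sub_left, ho _ hw, pl_harm_orth H ha h u hw, sub_self]
  exact sub_eq_zero.1 (pl_PD_form H h ha hw h2)

theorem pl_harm_congr {a : ℝ} (ha : 0 < a) {P : Set G.V} (h : plPD H P) {u u' : G.V → ℝ} (huu : ∀ x ∈ P, u x = u' x) :
    plHarm H a P u = plHarm H a P u' :=
  pl_harm_unique H ha h u' (fun x hx => by rw [pl_harm_of_mem H a u hx, huu x hx]) fun w hw => pl_harm_orth H ha h u hw

theorem pl_harm_add {a : ℝ} (ha : 0 < a) {P : Set G.V} (h : plPD H P) (u u' : G.V → ℝ) :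
    plHarm H a P (u + u') = plHarm H a P u + plHarm H a P u' :=
  (pl_harm_unique H ha h _ (fun x hx => by simp [pl_harm_of_mem H a _ hx]) fun w hw => by
    rw [pl_B_add_left, pl_harm_orth H ha h u hw, pl_harm_orth H ha h u' hw, add_zero]).symm

theorem pl_harm_smul {a : ℝ} (ha : 0 < a) {P : Set G.V} (h : plPD H P) (t : ℝ) (u : G.V → ℝ) :
    plHarm H a P (t • u) = t • plHarm H a P u :=
  (pl_harm_unique H ha h _ (fun x hx => by simp [pl_harm_of_mem H a _ hx]) fun w hw => by
    rw [pl_B_smul_left, pl_harm_orth H ha h u hw, mul_zero]).symm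

theorem pl_harm_zero {a : ℝ} (ha : 0 < a) {P : Set G.V} (h : plPD H P) : plHarm H a P 0 = 0 :=
  (pl_harm_unique H ha h _ (fun _ _ => rfl) fun w _ => pl_B_zero_left H a w).symm

theorem pl_en_zero {a : ℝ} (ha : 0 < a) {P : Set G.V} (h : plPD H P) : plEn H a P 0 = 0 := by
  rw [plEn, pl_harm_zero H ha h, pl_form_zero]

theorem pl_en_congr {a : ℝ} (ha : 0 < a) {P : Set G.V} (h : plPD H P) {u u' : G.V → ℝ} (huu : ∀ x ∈ P, u x = u' x) :
    plEn H a P u = plEn H a P u' := by
  rw [plEn, plEn, pl_harm_congr H ha h huu]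

theorem pl_en_smul {a : ℝ} (ha : 0 < a) {P : Set G.V} (h : plPD H P) (t : ℝ) (u : G.V → ℝ) :
    plEn H a P (t • u) = t ^ 2 * plEn H a P u := by
  rw [plEn, plEn, pl_harm_smul H ha h, pl_form_smul]

/-- tower property of harmonic extensions -/
theorem pl_harm_harm {a : ℝ} (ha : 0 < a) {P P' : Set G.V} (h : plPD H P) (hP : P ⊆ P') (u : G.V → ℝ) :
    plHarm H a P' (plHarm H a P u) = plHarm H a P u :=
  (pl_harm_unique H ha (pl_PD_mono H h hP) _ (fun _ _ => rfl) fun w hw => pl_harm_orth H ha h u fun x hx => hw x (hP hx)).symm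

/-- more pins cost more energy -/
theorem pl_gap_nonneg {a : ℝ} (ha : 0 < a) {P : Set G.V} (h : plPD H P) (A : Set G.V) (u : G.V → ℝ) : 0 ≤ plGap H a P A u := by
  have := pl_en_le H ha h u (v := plHarm H a (P ∪ A) (plRes P u)) fun x hx => by
    rw [pl_harm_of_mem H a _ (Or.inl hx), pl_res_of_mem u hx]
  rw [plGap, plEn]; linarith

/-- **trial field for the gap**: if `g` vanishes on `P` and equals the harmonic extension of `u` on `A \ P`, then `plGap ≤ form g` -/
theorem pl_gap_le {a : ℝ} (ha : 0 < a) {P : Set G.V} (h : plPD H P) (A : Set G.V) (u : G.V → ℝ) {g : G.V → ℝ}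
    (hg : ∀ x ∈ P, g x = 0) (hgA : ∀ x ∈ A, x ∉ P → g x = plHarm H a P u x) : plGap H a P A u ≤ H.form a g := by
  have h1 := pl_en_le H ha (pl_PD_mono H h (Set.subset_union_left (t := A))) (plRes P u) (v := plHarm H a P u - g) (by
    rintro x hx
    by_cases hxP : x ∈ P
    · rw [Pi.sub_apply, pl_harm_of_mem H a u hxP, hg x hxP, pl_res_of_mem u hxP, sub_zero]
    · have hxA : x ∈ A := hx.resolve_left hxP
      rw [Pi.sub_apply, hgA x hxA hxP, sub_self, pl_res_of_not_mem u hxP])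
  rw [pl_form_sub, pl_harm_orth H ha h u hg] at h1
  rw [plGap]
  simp only [plEn] at h1 ⊢
  linarith

/-- the gap is attained: `plGap = form (harm_P u - harm_{P∪A} (u,0))` -/
theorem pl_gap_eq {a : ℝ} (ha : 0 < a) {P : Set G.V} (h : plPD H P) (A : Set G.V) (u : G.V → ℝ) :
    plGap H a P A u = H.form a (plHarm H a (P ∪ A) (plRes P u) - plHarm H a P u) := by
  have := pl_form_eq_en_add H ha h u (v := plHarm H a (P ∪ A) (plRes P u)) fun x hx => by
    rw [pl_harm_of_mem H a _ (Or.inl hx), pl_res_of_mem u hx]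
  rw [plGap, plEn, this]; ring

theorem pl_cost_shift (a : ℝ) (v w : G.V → ℝ) :
    a⁻¹ * HLaw.en v (plGrad w) + ∑ o, (H.obs v o - (- H.obs w o)) ^ 2 = H.form a (v + w) := by
  rw [HLaw.form]
  congr 1
  · congr 1
    refine Finset.sum_congr rfl fun e _ => ?_
    simp only [plGrad, Pi.add_apply, Pi.zero_apply]; ring
  · refine Finset.sum_congr rfl fun o _ => ?_
    rw [pl_obs_add]; ring

/-- the minimal energy as a cost of `Base/Geom` -/
theorem pl_en_eq_gEn {a : ℝ} (ha : 0 < a) {P : Set G.V} (h : plPD H P) (u : G.V → ℝ) :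
    plEn H a P u = (plPin H P).gEn a (plGrad (plRes P u)) (fun o => - H.obs (plRes P u) o) := by
  apply le_antisymm
  · refine le_ciInf fun v => ?_
    have h1 := pl_cost_shift H a (v : G.V → ℝ) (plRes P u)
    have h2 := pl_en_le H ha h u (v := (v : G.V → ℝ) + plRes P u) fun x hx => by
      rw [Pi.add_apply, (pl_mem_rspan_pin H P _).1 v.2 x hx, pl_res_of_mem u hx, zero_add]
    exact h2.trans (le_of_eq h1.symm)
  · have hm : plHarm H a P u - plRes P u ∈ (plPin H P).rspan := by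
      rw [pl_mem_rspan_pin]
      intro x hx
      rw [Pi.sub_apply, pl_harm_of_mem H a u hx, pl_res_of_mem u hx, sub_self]
    refine (pl_gEn_le (plPin H P) ha _ _ _ hm).trans (le_of_eq ?_)
    have h1 := pl_cost_shift H a (plHarm H a P u - plRes P u) (plRes P u)
    rw [sub_add_cancel] at h1
    exact h1

/-- law of total variance: `gVar_P f = gVar_{P'} f + gVar_P (f ∘ harm_{P'})` in the form `⟨f, G_P f⟩ = ⟨f, G_{P'} f⟩ + en_{P'}(G_P f)` -/
theorem pl_gVar_total {a : ℝ} (ha : 0 < a) {P P' : Set G.V} (h : plPD H P) (hP : P ⊆ P') (f : G.V → ℝ) :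
    (plPin H P).gVar a f = (plPin H P').gVar a f + plEn H a P' (plGf H a P f) := by
  have h' := pl_PD_mono H h hP
  have hg := pl_Gf_opt H ha h f
  set g := plGf H a P f with hgdef
  have hr : plIsOpt (plPin H P') a f (g - plHarm H a P' g) := by
    refine ⟨?_, fun w hw => ?_⟩
    · rw [pl_mem_rspan_pin]
      intro x hx
      rw [Pi.sub_apply, pl_harm_of_mem H a g hx, sub_self]
    · have hw0 := (pl_mem_rspan_pin H P' w).1 hw
      have hwP : w ∈ (plPin H P).rspan := (pl_mem_rspan_pin H P w).2 fun x hx => hw0 x (hP hx)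
      have e1 := hg.2 w hwP
      rw [pl_pin_B] at e1 ⊢
      rw [pl_B_sub_left, e1, pl_harm_orth H ha h' g hw0, sub_zero]
  rw [pl_gVar_eq_form _ ha hg, pl_gVar_eq_form _ ha hr, pl_pin_form, pl_pin_form,
    pl_form_eq_en_add H ha h' g (v := g) fun _ _ => rfl]
  ring

end

end Claimed.Agent.R285.Pot
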