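import Claimed.Agent.R285.Pot.RoGeo

/-!
# ROW 285, POT-REGOPT: the components of a `NoDiag` geometry   (leaves L-RO-GC1, L-RO-GC2; helper283; architect helper170)

`ro_poly_comp'`  : the components of a `NoDiag` geometry are polygons (`Poly`).
`ro_bonds_comp'` : the graph of a `NoDiag` geometry is the disjoint union of the PLAIN graphs of its components.
Same statements as `ro_poly_comp`, `ro_bonds_comp` of `Pot/RegOpt.lean`.   No sorry; self-contained (only the definitions and `ro_mem_cell`, `ro_mem_region` are used).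
-/

set_option autoImplicit false

namespace Claimed.Agent.R285.Pot

open scoped Classical
open Finset

noncomputable section

variable {m₁ m₂ : ℕ}

/-! ## 1. Connectivity -/

theorem ro_cg_adj_symm (Γ : CGeom m₁ m₂) {κ κ' : Fin m₁ × Fin m₂} (h : Γ.Adj κ κ') : Γ.Adj κ' κ := by
  obtain ⟨h1, h2, h3⟩ := h
  refine ⟨h2, h1, ?_⟩
  rcases h3 with ⟨a, b, c⟩ | ⟨a, b, c⟩ | ⟨a, b, c⟩ | ⟨a, b, c⟩
  · exact Or.inr (Or.inr (Or.inl ⟨a, b.symm, c⟩))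
  · exact Or.inr (Or.inr (Or.inr ⟨a.symm, b, c⟩))
  · exact Or.inl ⟨a, b.symm, c⟩
  · exact Or.inr (Or.inl ⟨a.symm, b, c⟩)

theorem ro_rtg_symm {α : Type} {r : α → α → Prop} (hr : ∀ a b, r a b → r b a) {a b : α} (h : Relation.ReflTransGen r a b) :
    Relation.ReflTransGen r b a := by
  induction h with
  | refl => exact Relation.ReflTransGen.refl
  | tail _ hbc ih => exact Relation.ReflTransGen.head (hr _ _ hbc) ih

theorem ro_cg_conn_symm (Γ : CGeom m₁ m₂) {κ κ' : Fin m₁ × Fin m₂} (h : Γ.Conn κ κ') : Γ.Conn κ' κ :=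
  ro_rtg_symm (fun _ _ => ro_cg_adj_symm Γ) h

theorem ro_cg_conn_trans (Γ : CGeom m₁ m₂) {a b c : Fin m₁ × Fin m₂} (h : Γ.Conn a b) (h' : Γ.Conn b c) : Γ.Conn a c :=
  Relation.ReflTransGen.trans h h'

theorem ro_cg_conn_adj (Γ : CGeom m₁ m₂) {a b : Fin m₁ × Fin m₂} (h : Γ.Adj a b) : Γ.Conn a b :=
  Relation.ReflTransGen.single h

theorem ro_cg_conn_mem (Γ : CGeom m₁ m₂) {κ₀ κ : Fin m₁ × Fin m₂} (h0 : κ₀ ∈ Γ.T) (h : Γ.Conn κ₀ κ) : κ ∈ Γ.T := by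
  rcases Relation.ReflTransGen.cases_tail h with h1 | ⟨b, _, hb⟩
  · exact h1 ▸ h0
  · exact hb.2.1

theorem ro_mem_comp (Γ : CGeom m₁ m₂) (κ₀ κ : Fin m₁ × Fin m₂) : κ ∈ roComp Γ κ₀ ↔ Γ.Conn κ₀ κ := by
  unfold roComp
  rw [mem_filter]
  exact ⟨fun h => h.2, fun h => ⟨mem_univ _, h⟩⟩

theorem ro_comp_subset (Γ : CGeom m₁ m₂) {κ₀ : Fin m₁ × Fin m₂} (h0 : κ₀ ∈ Γ.T) : roComp Γ κ₀ ⊆ Γ.T :=
  fun κ hκ => ro_cg_conn_mem Γ h0 ((ro_mem_comp Γ κ₀ κ).1 hκ)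

theorem ro_cg_adj_roAdj (Γ : CGeom m₁ m₂) {κ κ' : Fin m₁ × Fin m₂} (h : Γ.Adj κ κ') : roAdj κ κ' := by
  obtain ⟨_, _, h3⟩ := h
  rcases h3 with ⟨a, b, _⟩ | ⟨a, b, _⟩ | ⟨a, b, _⟩ | ⟨a, b, _⟩
  · exact Or.inl ⟨a, b⟩
  · exact Or.inr (Or.inr (Or.inl ⟨a, b⟩))
  · exact Or.inr (Or.inl ⟨a, b⟩)
  · exact Or.inr (Or.inr (Or.inr ⟨a, b⟩))

theorem ro_roAdj_symm {κ κ' : Fin m₁ × Fin m₂} (h : roAdj κ κ') : roAdj κ' κ := by
  rcases h with ⟨a, b⟩ | ⟨a, b⟩ | ⟨a, b⟩ | ⟨a, b⟩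
  · exact Or.inr (Or.inl ⟨a, b.symm⟩)
  · exact Or.inl ⟨a, b.symm⟩
  · exact Or.inr (Or.inr (Or.inr ⟨a.symm, b⟩))
  · exact Or.inr (Or.inr (Or.inl ⟨a.symm, b⟩))

/-- every cell of the component is joined to the base cell inside the component -/
theorem ro_comp_path (Γ : CGeom m₁ m₂) (κ₀ : Fin m₁ × Fin m₂) {κ : Fin m₁ × Fin m₂} (h : Γ.Conn κ₀ κ) :
    Relation.ReflTransGen (fun a b => a ∈ roComp Γ κ₀ ∧ b ∈ roComp Γ κ₀ ∧ roAdj a b) κ₀ κ := by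
  induction h with
  | refl => exact Relation.ReflTransGen.refl
  | tail hab hbc ih =>
    exact ih.tail ⟨(ro_mem_comp Γ κ₀ _).2 hab, (ro_mem_comp Γ κ₀ _).2 (Relation.ReflTransGen.tail hab hbc), ro_cg_adj_roAdj Γ hbc⟩

/-- **L-RO-GC1.**  The components of a `NoDiag` geometry are polygons. -/
theorem ro_poly_comp' (Γ : CGeom m₁ m₂) (hΓ : Γ.NoDiag) (κ₀ : Fin m₁ × Fin m₂) (h0 : κ₀ ∈ Γ.T) : Poly (roComp Γ κ₀) := by
  refine ⟨?_, ?_⟩
  · intro κ hκ κ' hκ'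
    have h1 := ro_comp_path Γ κ₀ ((ro_mem_comp Γ κ₀ κ).1 hκ)
    have h2 := ro_comp_path Γ κ₀ ((ro_mem_comp Γ κ₀ κ').1 hκ')
    exact (ro_rtg_symm (fun a b h => ⟨h.2.1, h.1, ro_roAdj_symm h.2.2⟩) h1).trans h2
  · intro i i' j j' hi hj
    have hN := hΓ.2 i j i' j' hi hj
    refine ⟨fun ha hb => ?_, fun ha hb => ?_⟩
    · rw [ro_mem_comp] at ha hb
      have hTa := ro_cg_conn_mem Γ h0 ha
      have hTb := ro_cg_conn_mem Γ h0 hb
      rcases hN.1 (ro_cg_conn_trans Γ (ro_cg_conn_symm Γ ha) hb) hTa hTb with ⟨hT, hc, _⟩ | ⟨hT, hc, _⟩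
      · left
        rw [ro_mem_comp]
        exact ha.tail ⟨hTa, hT, Or.inl ⟨hi, rfl, hc⟩⟩
      · right
        rw [ro_mem_comp]
        exact ha.tail ⟨hTa, hT, Or.inr (Or.inl ⟨rfl, hj, hc⟩)⟩
    · rw [ro_mem_comp] at ha hb
      have hTa := ro_cg_conn_mem Γ h0 ha
      have hTb := ro_cg_conn_mem Γ h0 hb
      rcases hN.2 (ro_cg_conn_trans Γ (ro_cg_conn_symm Γ ha) hb) hTa hTb with ⟨hT, hc, _⟩ | ⟨hT, hc, _⟩
      · left
        rw [ro_mem_comp]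
        exact ha.tail ⟨hTa, hT, Or.inr (Or.inr (Or.inl ⟨hi, rfl, hc⟩))⟩
      · right
        rw [ro_mem_comp]
        exact ha.tail ⟨hTa, hT, Or.inr (Or.inl ⟨rfl, hj, hc⟩)⟩

/-! ## 2. Bonds -/

/-- 1D: a point lies in at most one interval of a strictly increasing family of lines -/
theorem ro_line_unique {m : ℕ} {X : Fin (m + 1) → ℤ} (hX : StrictMono X) {i i' : Fin m} {t : ℤ}
    (h1 : X i.castSucc ≤ t) (h2 : t < X i.succ) (h1' : X i'.castSucc ≤ t) (h2' : t < X i'.succ) : i = i' := by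
  rcases lt_trichotomy i i' with h | h | h
  · have : X i.succ ≤ X i'.castSucc := hX.monotone (by
      rw [Fin.le_def]; simp only [Fin.val_succ, Fin.val_castSucc]; exact h)
    omega
  · exact h
  · have : X i'.succ ≤ X i.castSucc := hX.monotone (by
      rw [Fin.le_def]; simp only [Fin.val_succ, Fin.val_castSucc]; exact h)
    omega

/-- 1D: consecutive points lie in the same interval or in consecutive intervals -/
theorem ro_line_step {m : ℕ} {X : Fin (m + 1) → ℤ} (hX : StrictMono X) {i i' : Fin m} {t : ℤ}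
    (h1 : X i.castSucc ≤ t) (h2 : t < X i.succ) (h1' : X i'.castSucc ≤ t + 1) (h2' : t + 1 < X i'.succ) :
    i = i' ∨ i.1 + 1 = i'.1 := by
  rcases lt_trichotomy i i' with h | h | h
  · right
    by_contra hne
    have hlt : i.1 + 1 < i'.1 := by
      have : i.1 < i'.1 := h
      omega
    have : X i.succ < X i'.castSucc := hX (by
      rw [Fin.lt_def]; simp only [Fin.val_succ, Fin.val_castSucc]; exact hlt)
    omega
  · exact Or.inl h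
  · have : X i'.succ ≤ X i.castSucc := hX.monotone (by
      rw [Fin.le_def]; simp only [Fin.val_succ, Fin.val_castSucc]; exact h)
    omega

theorem ro_cell_unique' (g : DGrid m₁ m₂) {κ κ' : Fin m₁ × Fin m₂} {x : ℤ × ℤ} (h : x ∈ g.cell κ) (h' : x ∈ g.cell κ') : κ = κ' := by
  rw [ro_mem_cell] at h h'
  exact Prod.ext (ro_line_unique g.mono₁ h.1 h.2.1 h'.1 h'.2.1) (ro_line_unique g.mono₂ h.2.2.1 h.2.2.2 h'.2.2.1 h'.2.2.2)

/-- a bond between two different cells joins face-adjacent cells, in the direction of the bond -/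
theorem ro_bond_cells (g : DGrid m₁ m₂) {κ κ' : Fin m₁ × Fin m₂} {e : Bond} (h : e.1 ∈ g.cell κ) (h' : e.snd ∈ g.cell κ')
    (hne : κ ≠ κ') :
    (e.2 = true ∧ κ.1.1 + 1 = κ'.1.1 ∧ κ.2 = κ'.2) ∨ (e.2 = false ∧ κ.1 = κ'.1 ∧ κ.2.1 + 1 = κ'.2.1) := by
  rw [ro_mem_cell] at h h'
  obtain ⟨x, d⟩ := e
  cases d with
  | true =>
    left
    have e1 : Bond.snd (x, true) = (x.1 + 1, x.2) := by simp [Bond.snd]
    rw [e1] at h'
    have h2 : κ.2 = κ'.2 := ro_line_unique g.mono₂ h.2.2.1 h.2.2.2 h'.2.2.1 h'.2.2.2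
    rcases ro_line_step g.mono₁ h.1 h.2.1 h'.1 h'.2.1 with h1 | h1
    · exact absurd (Prod.ext h1 h2) hne
    · exact ⟨rfl, h1, h2⟩
  | false =>
    right
    have e1 : Bond.snd (x, false) = (x.1, x.2 + 1) := by simp [Bond.snd]
    rw [e1] at h'
    have h2 : κ.1 = κ'.1 := ro_line_unique g.mono₁ h.1 h.2.1 h'.1 h'.2.1
    rcases ro_line_step g.mono₂ h.2.2.1 h.2.2.2 h'.2.2.1 h'.2.2.2 with h1 | h1
    · exact absurd (Prod.ext h2 h1) hne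
    · exact ⟨rfl, h2, h1⟩

theorem ro_mem_domBonds (D : Finset (ℤ × ℤ)) (cut : Set Bond) (e : Bond) :
    e ∈ domBonds D cut ↔ e.1 ∈ D ∧ e.snd ∈ D ∧ e ∉ cut := by
  unfold domBonds
  rw [mem_filter, mem_product]
  exact ⟨fun h => ⟨h.1.1, h.2.1, h.2.2⟩, fun h => ⟨⟨h.1, mem_univ _⟩, h.2.1, h.2.2⟩⟩

/-- **L-RO-GC2.**  The graph of a `NoDiag` geometry is the disjoint union of the PLAIN graphs of its components. -/
theorem ro_bonds_comp' (Γ : CGeom m₁ m₂) (hΓ : Γ.NoDiag) (g : DGrid m₁ m₂) (e : Bond) :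
    e ∈ domBonds (g.region Γ.T) (Γ.cutB g) ↔ ∃ κ₀ ∈ Γ.T, e ∈ domBonds (g.region (roComp Γ κ₀)) ∅ := by
  constructor
  · intro h
    rw [ro_mem_domBonds, ro_mem_region, ro_mem_region] at h
    obtain ⟨⟨κ, hκ, h1⟩, ⟨κ', hκ', h2⟩, hc⟩ := h
    refine ⟨κ, hκ, ?_⟩
    rw [ro_mem_domBonds, ro_mem_region, ro_mem_region]
    refine ⟨⟨κ, (ro_mem_comp Γ κ κ).2 Relation.ReflTransGen.refl, h1⟩, ⟨κ', ?_, h2⟩, fun h => h⟩
    rw [ro_mem_comp]
    by_cases hne : κ = κ'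
    · rw [hne]; exact Relation.ReflTransGen.refl
    · have hnot : e.snd ∉ g.cell κ := fun h3 => hne (ro_cell_unique' g h3 h2)
      refine ro_cg_conn_adj Γ ⟨hκ, hκ', ?_⟩
      rcases ro_bond_cells g h1 h2 hne with ⟨hd, ha, hb⟩ | ⟨hd, ha, hb⟩
      · exact Or.inl ⟨ha, hb, fun hf => hc ⟨(κ, true), hf, hd, h1, hnot⟩⟩
      · exact Or.inr (Or.inl ⟨ha, hb, fun hf => hc ⟨(κ, false), hf, hd, h1, hnot⟩⟩)
  · rintro ⟨κ₀, h0, h⟩
    rw [ro_mem_domBonds, ro_mem_region, ro_mem_region] at h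
    obtain ⟨⟨κ, hκ, h1⟩, ⟨κ', hκ', h2⟩, _⟩ := h
    have hT := ro_comp_subset Γ h0 hκ
    have hT' := ro_comp_subset Γ h0 hκ'
    rw [ro_mem_domBonds, ro_mem_region, ro_mem_region]
    refine ⟨⟨κ, hT, h1⟩, ⟨κ', hT', h2⟩, ?_⟩
    rintro ⟨f, hf, hd, hf1, hf2⟩
    have hfκ : f.1 = κ := ro_cell_unique' g hf1 h1
    have hne : κ ≠ κ' := fun h3 => hf2 (by rw [hfκ, h3]; exact h2)
    have hconn : Γ.Conn κ κ' :=
      ro_cg_conn_trans Γ (ro_cg_conn_symm Γ ((ro_mem_comp Γ κ₀ κ).1 hκ)) ((ro_mem_comp Γ κ₀ κ').1 hκ')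
    refine hΓ.1 κ κ' hT hT' ?_ hconn
    rcases ro_bond_cells g h1 h2 hne with ⟨hd', ha, hb⟩ | ⟨hd', ha, hb⟩
    · refine Or.inl ⟨ha, hb, ?_⟩
      have : f = (κ, true) := Prod.ext hfκ (by rw [← hd, hd'])
      rw [← this]; exact hf
    · refine Or.inr ⟨ha, hb, ?_⟩
      have : f = (κ, false) := Prod.ext hfκ (by rw [← hd, hd'])
      rw [← this]; exact hf

end

end Claimed.Agent.R285.Pot
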