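import Claimed.Agent.R285.Pot.RoMain
import Claimed.Agent.R285.Pot.RoComp

/-!
# ROW 285, POT-REGOPT: regular ambient approximation of reference optimisers   (design helper115; architect helper170; prefix `ro`)

## WHAT.   `pot_regopt`: `U` = a face-connected set of cells without opposite-only contact (`Poly U` = one component of a `CGeom` with `NoDiag`, `ro_poly_comp`), `D = g.region U` with ALL n.n. bonds (`ro_bonds_comp`),
`P = g.region (U ∩ Pn)` the pinned cells.  Every `v` with `v = 0` on `P` and `|A_D v| ≤ Tb/ν²` on `D \ P` (`A_D` = free Laplacian; = the optimiser of `gVar`, `gTilt`, `gEn` for cell tests, rows moved to the right side)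
is within `ε` in Dirichlet energy ON `D` of an AMBIENT `w : ℤ² → ℝ` with (i) `w = 0` at all points of `ℤ²` within `δν` of `P`, (iii) `ν² ∑_{x ∈ R} (A_R w)² ≤ C` on the enclosing rectangle `R = roRc g`.
`C, δ` depend only on `(U, Pn, K, Tb, ε)`: UNIFORM IN THE MESH.   This is the discrete uniform form of "smooth ambient functions vanishing near `p` are dense" ([B]D3.11, L3.12, [C]T3.1 prose).
USE (PINS/T31, SEC): by `C2.reg_smear` `w` is `C2.Reg` on `R`; saturation on `R` (`free_var`, `free_laplace`), cutting `R` along the walls of `D` and into cells (`free_partial_upper`, `lsys_var_mono`) gives both bounds on `D`;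
`X_v - X_w` costs `≤ β ε` in reference cost (`ref_var`, `ref_mgf`).

## PROOF PLAN (paper-free; everything is built from 1D profiles which are LOCALLY CONSTANT ACROSS ALL GRID LINES, so no boundary term ever appears)
NOTATION `E = roDir D`, `A = roLap D`, `B(z,r) = roBall g z r` (`ℓ^∞` ball around the grid VERTEX `z`), all radii `≤ ν/8`.
* (G) gap identity `ro_gap`: if `A v = f` on `D \ P` and `u = v = 0` on `P` then `E(v - u) = E u - E v - 2 ∑_{D} f (u - v)`.  So it suffices to build `u` on `D` with `E u ≤ E v + ε/2`, `∑_D |u - v| ≤ ε ν²/(4 Tb)`.  NO equation is used after this point,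
  only `E ≤ E₀` (A PRIORI: `E v = ∑ f (v - c) ≤ …` by `ro_poinc_cells`) and the running quantity `L(u) = ∑_{D \ P} (A u)²`.
* (T) tools: `ro_step` (1D step with 1st/2nd differences `≤ 1/q, 1/q²`: double sum of a tent), bumps `= ` differences of steps; a cut-off is `GridFlat` if it takes equal values at the two ends of every bond leaving a cell;
  then `A_D χ = A_{ℤ²} χ` on `D` and `ro_leibniz`: `A(χ u) = χ A u + u A_{ℤ²}χ - ∑_y (χ x - χ y)(u x - u y)`.   `ro_poinc_rect`, `ro_poinc_family` (gluing along an overlap graph), `ro_poinc_cells` (any face-connected set of cells; family = dominoes),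
  `ro_friedrichs`, `ro_hardy`.
* (B) FLATTEN AT EVERY GRID VERTEX `z` (no classification of vertices): `u' = c + χ_z (u - c)`, `χ_z = 1 - β(x₁ - X)β(x₂ - Y)`, `β = 1` on `[-3r/2+.., 3r/2-..)`, `0` off `[-2r, 2r)`.  `c` = mean of `u` over the sector `S_r = D ∩ B(z,2r) \ B(z,r)`, or `0` if `z` touches a
  pinned cell.  `E u' ≤ E u + E(u; S_r) + (C/r²) ∑_{S_r} (u - c)² ≤ E u + C' E(u; S_r)`: Poincare on `S_r` = `ro_poinc_cells` for the LOCAL `4 × 4` grid with lines `X-2r, X-r, X, X+r, X+2r` and the outer cells of the present quadrants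
  (face-connected because of `Poly.loc`).   PIGEONHOLE over `r = 4^j r₀`, `j < J`: the sectors are disjoint, so one of them has `E(u;S_r) ≤ E₀/J`.   `∑ |u' - u| ≤ C r² √E₀` (Poincare on `D ∩ B(z,2r)`, same local grid).
  `L(u') ≤ 3 L(u) + C E₀/r²`.   Iterate over the finitely many `z` (balls disjoint).   RESULT `ro_flatten`: `u` constant on every `D ∩ B(z, r₁)`, zero there if `z` touches `P`.
* (C) COLLAR: `χ_s = ∏_{κ ∈ U ∩ Pn} (1 - ψ^κ_1 ⊗ ψ^κ_2)`, `ψ^κ_i = 1` within `s` of the side interval of `κ`, `0` beyond `2s`; `u' = χ_s u`.  `E u' ≤ E u + E(u;T_s) + (C/s²) ∑_{T_s} u²`, `T_s = {s < dist(x,P) ≤ 2s}`.  PIGEONHOLE over dyadic `s ≤ r₁/4` with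
  HARDY `∑_{0 < d(x) ≤ r₁/2} u(x)²/d(x)² ≤ 16 E u`: where `u x ≠ 0` the point is outside all `B(z,r₁)`, so the nearest pinned cell is a FACE neighbour of the cell of `x` and the perpendicular segment stays in `D`: 1D `ro_hardy`.
  Now `A u' = 0` near `P` and `∑_{ALL D} (A u')² ≤ 3 L(u) + C E₀/s²`.   RESULT `ro_collar`.
* (D) EXTENSION: fold map `π_κ` = coordinatewise reflection into the cell `κ` (`t ↦ 2X_i - 1 - t` left of the cell, `t ↦ 2X_{i+1} - 1 - t` right of it).  `w₀ = u` on `D`, `w₀ x = u (π_κ x)` for ANY `κ ∈ U` within `r₂ = r₁/4` of `x ∉ D`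
  (INDEPENDENT of `κ`: two different cells near `x ∉ D` share a vertex `z` with the cell of `x`, `x ∈ B(z,r₂+1)`, and `u` is constant on `D ∩ B(z,r₁)`).   At every `x ∈ R` within `r₂` of `D`: either `w₀` is constant on `x` and its neighbours, or
  `A_R w₀ x = A_D u (π_κ x)` (the bond across the wall has zero gradient; walls on `∂R` are respected because a reflection across a vertical line preserves horizontal lines).  `π_κ` is at most `9`-to-one.
  `w = Θ w₀`, `Θ = 1 - ∏_{κ ∈ U} (1 - ψ^κ_1 ⊗ ψ^κ_2)` at scale `r₂/4` (`GridFlat`), `ro_leibniz` on `R`; free case: subtract the mean of `u` first (`∑_D u² ≤ C ν² E`).   RESULT `ro_extend`.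
SIZE: about 20 leaves of 100-350 lines.   `pot_regopt`, `ro_poly_comp`, `ro_bonds_comp` are the CONTRACT.
ARCHITECT (helper170, 16:10Z): vocabulary moved to `Pot/RoDefs.lean`; tools without sorry in `Pot/RoBasic.lean`; the FINAL cut into leaves (it differs from the plan above in stages B-D: one modification lemma, scale-free triple, decompose-then-extend) is in the headers of `Pot/RoCalc.lean`, `RoGeo.lean`, `RoStage.lean`.
-/

set_option autoImplicit false

namespace Claimed.Agent.R285.Pot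

open scoped Classical

noncomputable section

/-! ## 1. THE CONTRACT -/

/-- **regular ambient approximation of reference optimisers, uniform in the mesh** -/
theorem pot_regopt {m₁ m₂ : ℕ} (U Pn : Finset (Fin m₁ × Fin m₂)) (hU : Poly U) (K : ℕ) (Tb ε : ℝ) (hε : 0 < ε) :
    ∃ (C δ : ℝ) (ν₀ : ℕ), 0 < δ ∧ ∀ (g : DGrid m₁ m₂) (ν : ℕ), ν₀ ≤ ν → g.SideGe ν → g.SideLe (K * ν) →
      ∀ v : ℤ × ℤ → ℝ, (∀ y ∈ g.region (U ∩ Pn), v y = 0) →
        (∀ x ∈ g.region U, x ∉ g.region (U ∩ Pn) → |roLap (g.region U) v x| ≤ Tb / (ν : ℝ) ^ 2) →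
        ∃ w : ℤ × ℤ → ℝ,
          (∀ x, roNear (g.region (U ∩ Pn)) (δ * ν) x → w x = 0) ∧
          roDir (g.region U) (fun x => v x - w x) ≤ ε ∧
          (ν : ℝ) ^ 2 * ∑ x ∈ (roRc g).set, (roRc g).lap w x ^ 2 ≤ C := pot_regopt' U Pn hU K Tb ε hε

/-- the components of a `NoDiag` geometry are polygons -/
theorem ro_poly_comp {m₁ m₂ : ℕ} (Γ : CGeom m₁ m₂) (hΓ : Γ.NoDiag) (κ₀ : Fin m₁ × Fin m₂) (h0 : κ₀ ∈ Γ.T) : Poly (roComp Γ κ₀) := ro_poly_comp' Γ hΓ κ₀ h0

/-- the graph of a `NoDiag` geometry is the disjoint union of the PLAIN graphs of its components -/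
theorem ro_bonds_comp {m₁ m₂ : ℕ} (Γ : CGeom m₁ m₂) (hΓ : Γ.NoDiag) (g : DGrid m₁ m₂) (e : Bond) :
    e ∈ domBonds (g.region Γ.T) (Γ.cutB g) ↔ ∃ κ₀ ∈ Γ.T, e ∈ domBonds (g.region (roComp Γ κ₀)) ∅ := ro_bonds_comp' Γ hΓ g e

end

end Claimed.Agent.R285.Pot
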