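import Claimed.Agent.R285.Pot.LinMeas

/-!
# ROW 285, POT-LIN leaf L-LIN-LAW : linear statistics of the Gaussian reference measure are real Gaussians; moments.   Paper-free.   (helper83)
-/

set_option autoImplicit false

namespace Claimed.Agent.R285.Pot

open MeasureTheory ProbabilityTheory
open scoped Classical

noncomputable section

variable {G : HGraph} (H : HLaw G)

theorem pl_meas_mgf_fun {a : ℝ} (ha : 0 < a) {P : Set G.V} (h : plPD H P) (f : G.V → ℝ) :
    mgf (fun φ => HLaw.pair f φ) (plMeas H a P) = fun t => Real.exp ((plPin H P).gVar a f * t ^ 2 / 2) := by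
  funext t
  have := pl_meas_mgf H ha h (t • f)
  rw [pl_gVar_smul _ ha] at this
  simp only [pl_pair_smul_left] at this
  rw [mgf, this]
  congr 1; ring

theorem pl_meas_expSet {a : ℝ} (ha : 0 < a) {P : Set G.V} (h : plPD H P) (f : G.V → ℝ) :
    integrableExpSet (fun φ => HLaw.pair f φ) (plMeas H a P) = Set.univ := by
  ext t
  simp only [Set.mem_univ, iff_true, integrableExpSet, Set.mem_ofPred_eq]
  have := pl_meas_exp_integrable H ha h (t • f)
  simpa only [pl_pair_smul_left] using this

/-- every linear statistic is a centred real Gaussian -/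
theorem pl_meas_map_pair {a : ℝ} (ha : 0 < a) {P : Set G.V} (h : plPD H P) (f : G.V → ℝ) :
    (plMeas H a P).map (fun φ => HLaw.pair f φ) = gaussianReal 0 ((plPin H P).gVar a f).toNNReal := by
  have := pl_meas_prob H ha h
  have hm : mgf (fun φ => HLaw.pair f φ) (plMeas H a P) = mgf id (gaussianReal 0 ((plPin H P).gVar a f).toNNReal) := by
    rw [pl_meas_mgf_fun H ha h, mgf_id_gaussianReal]
    funext t
    rw [Real.coe_toNNReal _ (pl_gVar_nonneg _ ha f)]
    congr 1; ring
  have hc : complexMGF (fun φ => HLaw.pair f φ) (plMeas H a P) = complexMGF id (gaussianReal 0 ((plPin H P).gVar a f).toNNReal) := by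
    funext z
    refine eqOn_complexMGF_of_mgf hm ?_
    rw [pl_meas_expSet H ha h]
    simp
  have := Measure.ext_of_complexMGF_eq (pl_pair_continuous f).aemeasurable aemeasurable_id hc
  rwa [Measure.map_id] at this

theorem pl_meas_pair_memLp {a : ℝ} (ha : 0 < a) {P : Set G.V} (h : plPD H P) (f : G.V → ℝ) (p : NNReal) :
    MemLp (fun φ => HLaw.pair f φ) p (plMeas H a P) := by
  have h1 : MemLp id p ((plMeas H a P).map (fun φ => HLaw.pair f φ)) := by
    rw [pl_meas_map_pair H ha h]; exact memLp_id_gaussianReal p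
  exact (memLp_map_measure_iff aestronglyMeasurable_id (pl_pair_continuous f).aemeasurable).1 h1

theorem pl_meas_mean {a : ℝ} (ha : 0 < a) {P : Set G.V} (h : plPD H P) (f : G.V → ℝ) :
    ∫ φ, HLaw.pair f φ ∂plMeas H a P = 0 := by
  have h1 : ∫ x, x ∂((plMeas H a P).map (fun φ => HLaw.pair f φ)) = 0 := by
    rw [pl_meas_map_pair H ha h]; exact integral_id_gaussianReal
  have h2 := integral_map (μ := plMeas H a P) (φ := fun φ => HLaw.pair f φ) (pl_pair_continuous f).aemeasurable
    (f := fun x : ℝ => x) aestronglyMeasurable_id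
  rw [h2] at h1
  exact h1

/-- second moment -/
theorem pl_meas_sq {a : ℝ} (ha : 0 < a) {P : Set G.V} (h : plPD H P) (f : G.V → ℝ) :
    ∫ φ, HLaw.pair f φ ^ 2 ∂plMeas H a P = (plPin H P).gVar a f := by
  have h1 : Var[fun x => x; (plMeas H a P).map (fun φ => HLaw.pair f φ)] = (plPin H P).gVar a f := by
    rw [pl_meas_map_pair H ha h, variance_fun_id_gaussianReal, Real.coe_toNNReal _ (pl_gVar_nonneg _ ha f)]
  have h2 := variance_map (μ := plMeas H a P) (Y := fun φ => HLaw.pair f φ) (X := fun x : ℝ => x) aemeasurable_id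
    (pl_pair_continuous f).aemeasurable
  rw [h2, variance_of_integral_eq_zero (by exact (pl_pair_continuous f).aemeasurable) (by exact pl_meas_mean H ha h f)] at h1
  exact h1

theorem pl_meas_pair_mul_integrable {a : ℝ} (ha : 0 < a) {P : Set G.V} (h : plPD H P) (f g : G.V → ℝ) :
    Integrable (fun φ => HLaw.pair f φ * HLaw.pair g φ) (plMeas H a P) :=
  MemLp.integrable_mul (p := 2) (q := 2) (by exact_mod_cast pl_meas_pair_memLp H ha h f 2)
    (by exact_mod_cast pl_meas_pair_memLp H ha h g 2)

/-- covariance -/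
theorem pl_meas_cov {a : ℝ} (ha : 0 < a) {P : Set G.V} (h : plPD H P) (f g : G.V → ℝ) :
    ∫ φ, HLaw.pair f φ * HLaw.pair g φ ∂plMeas H a P = plCov (plPin H P) a f g := by
  have e : ∀ φ, HLaw.pair f φ * HLaw.pair g φ = (HLaw.pair (f + g) φ ^ 2 - HLaw.pair (f - g) φ ^ 2) / 4 := by
    intro φ; rw [pl_pair_add_left, pl_pair_sub_left]; ring
  have i1 : Integrable (fun φ => HLaw.pair (f + g) φ ^ 2) (plMeas H a P) := by
    simpa only [sq] using pl_meas_pair_mul_integrable H ha h (f + g) (f + g)
  have i2 : Integrable (fun φ => HLaw.pair (f - g) φ ^ 2) (plMeas H a P) := by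
    simpa only [sq] using pl_meas_pair_mul_integrable H ha h (f - g) (f - g)
  simp only [e]
  rw [integral_div, integral_sub i1 i2, pl_meas_sq H ha h, pl_meas_sq H ha h, plCov]

end

end Claimed.Agent.R285.Pot
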