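import Claimed.Agent.R285.Pot.LogPin

/-!
# ROW 285, POT-LOG (BP-POT-LOG #13334): OUTPUT `lg_pot_center : F23.PotCenter` (in `LogCen`), `lg_pot_pair : F23.PotPair` (here)      (architect helper281)

## PLAN OF THE PACKAGE (paper-free; all files `R285/Pot/Log*.lean`, prefix `lg`)
1. `LogDefs` (no sorry): discrete Laplacian, max principle, solvability, `lgG n y` = killed Green function of the primal box `(-n,n)²`, `lgHarm`, planar duality vocabulary.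
2. `LogSum`, `LogGreen`: summation by parts, truncation, reproducing property, symmetry, crude bounds.
3. `LogErr`, `LogShell`, `LogFlux`: `lgL = -(4π)⁻¹ log |x|²`, error charge `lgErr = Δ lgL + δ₀ = O(|x|⁻⁴)`, its moments, its total mass `0` (flux of `lgL` through large squares → `-1`).
4. `LogBrandt`: interior gradient estimate for discrete harmonic functions by a barrier.
5. `LogAsy`: `G_n(·,y) = lgL(· - y) + lgH n y + lgP n y`, `lgP → 0` uniformly at macroscopic distance; `lgG_center`, `lgG_pair`.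
6. `LogConst`: the regular part `lgA n = lgH n 0 0 - log n/(2π)` converges (from helper271's exact `G_n(0,0)`: `Obs/Green.lean`).
7. `LogDual`: rotated gradients, Poincare lemma, conjugate function; the two sandwich inequalities `lg_sand_lower`, `lg_sand_upper`.
8. `LogLev`: level bounds on lattice discs by the max principle.   `LogStair`: staircase geometry, bridge `F23.En` ↔ `lgEn`.
9. `LogCen`: centre exterior.   `LogPair`: pair exterior, free.   `LogPin`: cut-off of the conjugate function (pinned rim).   `LogOut`: numerics of the pair.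

## LEAVES OF THIS FILE
* L-LOG-PAIR-NUM `lg_pair_bounds` (~300 l., real numbers + eventually-filters).   `N = 8 q r = 8 (q r)` (`Nat.mul_assoc`), `ϱ = M s`, `ϱ' = (M-2) s`, `c := c₁/(32 q)`.
  `∀ᶠ N, P N` gives `∀ᶠ r, P (8 (q r))`  (`Filter.Tendsto.eventually`, `tendsto_atTop_mono` with `r ≤ 8 (q r)`).   `s ≥ 1` because `M s ≥ c₁ r > 0`.
  Hypotheses of `lg_pair_sand`, `lg_pair_pin`: `ϱ' ≥ ϱ/2 ≥ c₁ r/2 ≥ c N + 1 = c₁ r/4 + 1` for `r ≥ 4/c₁`;  `2 (ϱ + 1) ≤ r/4 + 2 ≤ r` for `r ≥ 3`;  `r/N = 1/(8q)`.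
  lower: `lg_le_En` + `lg_pair_sand`: `En ≥ 4π log ((r-ϱ-1)/(ϱ+1)) - 8π² (ε + 1/(8q))`;  `log (r/ϱ) - log ((r-ϱ-1)/(ϱ+1)) = log (r/(r-ϱ-1)) + log ((ϱ+1)/ϱ) ≤ (ϱ+1)/(r-ϱ-1) + 1/ϱ ≤ 2(ϱ+1)/r + 1/(c₁ r) ≤ 2ϱ/r + ε` for large `r` (`Real.log_le_sub_one_of_pos`).
  upper (both): the field `v` of `lg_pair_pin` vanishes off `lgFc (6 q r)` (`mem_lgFc_iff`), i.e. on `F23.rim q r`; `lg_En_le` with `P = ∅` and with `P = rim q r`;
  `log ((r+ϱ')/(ϱ'-1)) - log (r/ϱ) = log (1 + ϱ'/r) + log (ϱ/(ϱ'-1)) ≤ ϱ/r + (2s+1)/(ϱ'-1) ≤ ϱ/r + 6/M`  (`(2s+1)/((M-2)s-1) ≤ 3s/((M-3)s) ≤ 6/M` for `M ≥ 6`).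
* L-LOG-PAIR-FIN `lg_pot_pair` (~120 l.): given `δ`: `π ≤ 4`, `π² ≤ 10`.   Apply `lg_pair_bounds` with `ε := 1/q`:  both errors `≤ 90/q + 16/q + 32 c₂ + 96/M + 20480000/q² ≤ 20480200/q + 32 c₂ + 96/M`.
  `q₀ := max 4 ⌈3 · 20480200/δ⌉`, `c₂ := min (1/8) (δ/96)`, `M₀ := max 8 ⌈288/δ⌉`.
-/

set_option autoImplicit false

namespace Claimed.Agent.R285.Pot

open Filter Topology
open scoped Classical

noncomputable section

theorem lg_num_lower {r ϱ : ℝ} (hϱ : 0 < ϱ) (h : 2 * (ϱ + 1) ≤ r) :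
    Real.log (r / ϱ) - Real.log ((r - ϱ - 1) / (ϱ + 1)) ≤ 2 * (ϱ + 1) / r + 1 / ϱ := by
  have hr : 0 < r := by linarith
  have hd : 0 < r - ϱ - 1 := by linarith
  have hϱ1 : 0 < ϱ + 1 := by linarith
  have e : Real.log (r / ϱ) - Real.log ((r - ϱ - 1) / (ϱ + 1))
      = Real.log (r / (r - ϱ - 1)) + Real.log ((ϱ + 1) / ϱ) := by
    rw [Real.log_div hr.ne' hϱ.ne', Real.log_div hd.ne' hϱ1.ne', Real.log_div hr.ne' hd.ne',
      Real.log_div hϱ1.ne' hϱ.ne']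
    ring
  rw [e]
  have l1 : Real.log (r / (r - ϱ - 1)) ≤ r / (r - ϱ - 1) - 1 := Real.log_le_sub_one_of_pos (by positivity)
  have l2 : Real.log ((ϱ + 1) / ϱ) ≤ (ϱ + 1) / ϱ - 1 := Real.log_le_sub_one_of_pos (by positivity)
  have e1 : r / (r - ϱ - 1) - 1 = (ϱ + 1) / (r - ϱ - 1) := by
    rw [div_sub_one hd.ne']
    congr 1
    ring
  have e2 : (ϱ + 1) / ϱ - 1 = 1 / ϱ := by
    rw [div_sub_one hϱ.ne']
    congr 1
    ring
  have l3 : (ϱ + 1) / (r - ϱ - 1) ≤ 2 * (ϱ + 1) / r := by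
    rw [div_le_div_iff₀ hd hr]
    nlinarith [mul_nonneg hϱ1.le (by linarith : (0:ℝ) ≤ r - 2 * (ϱ + 1))]
  linarith

theorem lg_num_upper {r m σ : ℝ} (hr : 0 < r) (hm : 8 ≤ m) (hσ : 1 ≤ σ) :
    Real.log ((r + (m - 2) * σ) / ((m - 2) * σ - 1)) - Real.log (r / (m * σ)) ≤ m * σ / r + 6 / m := by
  have hm0 : 0 < m := by linarith
  have hσ0 : 0 < σ := by linarith
  have hmσ : 0 < m * σ := by positivity
  have h6 : 6 ≤ (m - 2) * σ := by nlinarith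
  have hd : 0 < (m - 2) * σ - 1 := by linarith
  have hn : 0 < r + (m - 2) * σ := by linarith
  have e : Real.log ((r + (m - 2) * σ) / ((m - 2) * σ - 1)) - Real.log (r / (m * σ))
      = Real.log ((r + (m - 2) * σ) / r) + Real.log (m * σ / ((m - 2) * σ - 1)) := by
    rw [Real.log_div hn.ne' hd.ne', Real.log_div hr.ne' hmσ.ne', Real.log_div hn.ne' hr.ne',
      Real.log_div hmσ.ne' hd.ne']
    ring
  rw [e]
  have l1 : Real.log ((r + (m - 2) * σ) / r) ≤ (r + (m - 2) * σ) / r - 1 :=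
    Real.log_le_sub_one_of_pos (by positivity)
  have l2 : Real.log (m * σ / ((m - 2) * σ - 1)) ≤ m * σ / ((m - 2) * σ - 1) - 1 :=
    Real.log_le_sub_one_of_pos (by positivity)
  have e1 : (r + (m - 2) * σ) / r - 1 = (m - 2) * σ / r := by
    rw [div_sub_one hr.ne']
    congr 1
    ring
  have e2 : m * σ / ((m - 2) * σ - 1) - 1 = (2 * σ + 1) / ((m - 2) * σ - 1) := by
    rw [div_sub_one hd.ne']
    congr 1
    ring
  have l3 : (m - 2) * σ / r ≤ m * σ / r := by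
    apply div_le_div_of_nonneg_right _ hr.le
    nlinarith
  have l4 : (2 * σ + 1) / ((m - 2) * σ - 1) ≤ 6 / m := by
    rw [div_le_div_iff₀ hd hm0]
    nlinarith [mul_nonneg (by linarith : (0:ℝ) ≤ σ - 1) (by linarith : (0:ℝ) ≤ 4 * m - 12)]
  linarith

theorem lg_pair_bounds (q : ℕ) (hq : 4 ≤ q) (c₁ ε : ℝ) (hc₁ : 0 < c₁) (hε : 0 < ε) : ∀ᶠ r : ℕ in atTop, ∀ M s : ℕ, 8 ≤ M →
    c₁ * r ≤ ((M * s : ℕ) : ℝ) → ((M * s : ℕ) : ℝ) ≤ (r : ℝ) / 8 →
    4 * Real.pi * Real.log ((r : ℝ) / (M * s : ℕ))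
        - (8 * Real.pi ^ 2 * (ε + 1 / (8 * (q : ℝ))) + 4 * Real.pi * (2 * ((M * s : ℕ) : ℝ) / r + ε))
      ≤ F23.En (F23.extP M q r s) ∅ (F23.segConn (0, 0) r) ∧
    F23.En (F23.extP M q r s) ∅ (F23.segConn (0, 0) r) ≤ 4 * Real.pi * Real.log ((r : ℝ) / (M * s : ℕ))
        + (8 * Real.pi ^ 2 * (ε + 1 / (8 * (q : ℝ))) + 4 * Real.pi * (((M * s : ℕ) : ℝ) / r + 6 / (M : ℝ))
          + 512000 * Real.pi ^ 2 * (ε + 1 / (q : ℝ)) ^ 2) ∧
    F23.En (F23.extP M q r s) (F23.rim q r) (F23.segConn (0, 0) r) ≤ 4 * Real.pi * Real.log ((r : ℝ) / (M * s : ℕ))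
        + (8 * Real.pi ^ 2 * (ε + 1 / (8 * (q : ℝ))) + 4 * Real.pi * (((M * s : ℕ) : ℝ) / r + 6 / (M : ℝ))
          + 512000 * Real.pi ^ 2 * (ε + 1 / (q : ℝ)) ^ 2) := by
  have hq0 : (0 : ℝ) < q := by exact_mod_cast (by omega : 0 < q)
  have hπ := Real.pi_pos
  obtain ⟨c, hcdef⟩ : ∃ c : ℝ, c = c₁ / (32 * q) := ⟨_, rfl⟩
  have hc : 0 < c := by rw [hcdef]; positivity
  have htend : Tendsto (fun r : ℕ => 8 * (q * r)) atTop atTop := by
    refine tendsto_atTop_mono (fun r => ?_) tendsto_id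
    show r ≤ 8 * (q * r)
    have : r ≤ q * r := Nat.le_mul_of_pos_left _ (by omega)
    omega
  filter_upwards [htend.eventually (lg_pair_sand c ε hc hε), htend.eventually (lg_pair_pin c ε hc hε),
    eventually_ge_atTop 3, eventually_ge_atTop ⌈4 / c₁⌉₊, eventually_ge_atTop ⌈(2 + 1 / c₁) / ε⌉₊]
    with r hsand hpin hr3 hr4 hr5 M s hM h1 h2
  have hr0 : (0 : ℝ) < r := by exact_mod_cast (by omega : 0 < r)
  have hr4' : 4 / c₁ ≤ (r : ℝ) := (Nat.le_ceil _).trans (by exact_mod_cast hr4)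
  have hr5' : (2 + 1 / c₁) / ε ≤ (r : ℝ) := (Nat.le_ceil _).trans (by exact_mod_cast hr5)
  have hr4'' : 4 ≤ c₁ * r := by
    rw [div_le_iff₀ hc₁] at hr4'
    linarith
  have hr5'' : 2 + 1 / c₁ ≤ ε * r := by
    rw [div_le_iff₀ hε] at hr5'
    linarith
  have hϱpos : (0 : ℝ) < ((M * s : ℕ) : ℝ) := by linarith
  have hs : 1 ≤ s := by
    rcases Nat.eq_zero_or_pos s with h | h
    · subst h
      simp at hϱpos
    · exact h
  have hsR : (1 : ℝ) ≤ (s : ℝ) := by exact_mod_cast hs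
  have hMR : (8 : ℝ) ≤ (M : ℝ) := by exact_mod_cast hM
  have eϱ : ((M * s : ℕ) : ℝ) = (M : ℝ) * s := by push_cast; ring
  have eϱ' : (((M - 2) * s : ℕ) : ℝ) = ((M : ℝ) - 2) * s := by
    rw [Nat.cast_mul, Nat.cast_sub (by omega : 2 ≤ M)]
    norm_num
  have eN : ((8 * (q * r) : ℕ) : ℝ) = 8 * ((q : ℝ) * r) := by push_cast; ring
  have erN : (r : ℝ) / ((8 * (q * r) : ℕ) : ℝ) = 1 / (8 * (q : ℝ)) := by
    rw [eN]
    field_simp
  have g1 : c * ((8 * (q * r) : ℕ) : ℝ) + 1 ≤ (((M - 2) * s : ℕ) : ℝ) := by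
    have e1 : c * ((8 * (q * r) : ℕ) : ℝ) = c₁ * r / 4 := by
      rw [eN, hcdef]
      field_simp
      ring
    rw [e1, eϱ']
    rw [eϱ] at h1
    nlinarith
  have g2 : 2 * (M * s + 1) ≤ r := by
    have : (2 : ℝ) * (((M * s : ℕ) : ℝ) + 1) ≤ r := by
      have : (3 : ℝ) ≤ r := by exact_mod_cast hr3
      linarith
    exact_mod_cast this
  have g2R : (2 : ℝ) * (((M * s : ℕ) : ℝ) + 1) ≤ r := by exact_mod_cast g2
  have g3 : 4 * r ≤ 8 * (q * r) := by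
    have : 4 * r ≤ q * r := Nat.mul_le_mul_right r hq
    omega
  have hD : F23.extP M q r s = lgExtP (8 * (q * r)) M r s := by rw [lg_extP_eq, Nat.mul_assoc]
  have hτ : F23.segConn (0, 0) r = lgSeg 0 r := rfl
  obtain ⟨hlow, -⟩ := hsand r M s (by omega) hs g3 g1 g2
  obtain ⟨v, hv0, hvE⟩ := hpin q r M s rfl hq (by omega) hs g1 g2
  rw [erN] at hlow hvE
  rw [hD, hτ]
  obtain ⟨ϱ, hϱ⟩ : ∃ ϱ : ℝ, ϱ = ((M * s : ℕ) : ℝ) := ⟨_, rfl⟩
  -- upper value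
  have hup : lgEn (lgExtP (8 * (q * r)) M r s) v (lgSeg 0 r)
      ≤ 4 * Real.pi * Real.log ((r : ℝ) / (M * s : ℕ))
        + (8 * Real.pi ^ 2 * (ε + 1 / (8 * (q : ℝ))) + 4 * Real.pi * (((M * s : ℕ) : ℝ) / r + 6 / (M : ℝ))
          + 512000 * Real.pi ^ 2 * (ε + 1 / (q : ℝ)) ^ 2) := by
    refine hvE.trans ?_
    have hB := lg_num_upper hr0 hMR hsR
    rw [eϱ', eϱ]
    generalize Real.log (((r : ℝ) + ((M : ℝ) - 2) * s) / (((M : ℝ) - 2) * s - 1)) = L1 at *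
    generalize Real.log ((r : ℝ) / ((M : ℝ) * s)) = L2 at *
    have e1 : 4 * Real.pi ^ 2 * (2 * (L1 / (2 * Real.pi) + ε + 1 / (8 * (q : ℝ))))
        = 4 * Real.pi * L1 + 8 * Real.pi ^ 2 * (ε + 1 / (8 * (q : ℝ))) := by
      field_simp
      ring
    rw [e1]
    have h4 : 4 * Real.pi * (L1 - L2) ≤ 4 * Real.pi * ((M : ℝ) * s / r + 6 / M) :=
      mul_le_mul_of_nonneg_left hB (by positivity)
    linarith
  refine ⟨?_, ?_, ?_⟩
  · refine lg_le_En _ _ _ _ (fun w => le_trans ?_ (hlow w))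
    have hA := lg_num_lower hϱpos g2R
    rw [← hϱ] at hA h1 hϱpos ⊢
    generalize Real.log ((r : ℝ) / ϱ) = L2 at *
    generalize Real.log (((r : ℝ) - ϱ - 1) / (ϱ + 1)) = L1 at *
    have e1 : 4 * Real.pi ^ 2 * (2 * (L1 / (2 * Real.pi) - ε - 1 / (8 * (q : ℝ))))
        = 4 * Real.pi * L1 - 8 * Real.pi ^ 2 * (ε + 1 / (8 * (q : ℝ))) := by
      field_simp
      ring
    rw [e1]
    have h5 : 2 * (ϱ + 1) / r + 1 / ϱ ≤ 2 * ϱ / r + ε := by
      have a1 : 1 / ϱ ≤ 1 / (c₁ * r) := one_div_le_one_div_of_le (by positivity) h1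
      have a2 : 2 / (r : ℝ) + 1 / (c₁ * r) = (2 + 1 / c₁) / r := by
        field_simp
      have a3 : (2 + 1 / c₁) / r ≤ ε := by
        rw [div_le_iff₀ hr0]
        exact hr5''
      have a4 : 2 * (ϱ + 1) / r = 2 * ϱ / r + 2 / r := by ring
      linarith
    have h4 : 4 * Real.pi * (L2 - L1) ≤ 4 * Real.pi * (2 * ϱ / r + ε) :=
      mul_le_mul_of_nonneg_left (hA.trans h5) (by positivity)
    linarith
  · exact (lg_En_le _ _ _ v (fun x hx => absurd hx (Set.notMem_empty x))).trans hup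
  · refine (lg_En_le _ _ _ v (fun x hx _ => hv0 x ?_)).trans hup
    have hx' : x ∉ lgFc (6 * q * r) := fun hmem => hx (Finset.mem_coe.2 hmem)
    rw [mem_lgFc_iff, not_lt] at hx'
    push_cast at hx' ⊢
    linarith

theorem lg_pi_sq_le : Real.pi ^ 2 ≤ 10 := by
  have h1 := Real.pi_lt_d2
  have h0 := Real.pi_pos
  nlinarith

/-- **`F23.PotPair`** -/
theorem lg_pot_pair : F23.PotPair := by
  intro δ hδ
  refine ⟨max 4 ⌈3 * 20480200 / δ⌉₊, fun q hq => ?_⟩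
  have hq4 : 4 ≤ q := (le_max_left _ _).trans hq
  have hq0 : (0 : ℝ) < q := by exact_mod_cast (by omega : 0 < q)
  have hq1 : (1 : ℝ) ≤ q := by exact_mod_cast (by omega : 1 ≤ q)
  have hqδ : 20480200 / (q : ℝ) ≤ δ / 3 := by
    have h1 : 3 * 20480200 / δ ≤ (q : ℝ) :=
      (Nat.le_ceil _).trans (by exact_mod_cast (le_max_right _ _).trans hq)
    rw [div_le_iff₀ hδ] at h1
    rw [div_le_iff₀ hq0]
    linarith
  refine ⟨min (1 / 8) (δ / 96), max 8 ⌈288 / δ⌉₊, lt_min (by norm_num) (by positivity),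
    lt_of_le_of_lt (min_le_left _ _) (by norm_num), fun M hM c₁ hc₁ => ?_⟩
  have hM8 : 8 ≤ M := (le_max_left _ _).trans hM
  have hM0 : (0 : ℝ) < M := by exact_mod_cast (by omega : 0 < M)
  have hMδ : 96 / (M : ℝ) ≤ δ / 3 := by
    have h1 : 288 / δ ≤ (M : ℝ) :=
      (Nat.le_ceil _).trans (by exact_mod_cast (le_max_right _ _).trans hM)
    rw [div_le_iff₀ hδ] at h1
    rw [div_le_iff₀ hM0]
    linarith
  filter_upwards [lg_pair_bounds q hq4 c₁ (1 / (q : ℝ)) hc₁ (by positivity), eventually_ge_atTop 1]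
    with r hr hr1 s h1 h2
  have hr0 : (0 : ℝ) < r := by exact_mod_cast (by omega : 0 < r)
  have h2a : ((M * s : ℕ) : ℝ) ≤ (r : ℝ) / 8 := by
    refine h2.trans ?_
    have := mul_le_mul_of_nonneg_right (min_le_left (1 / 8) (δ / 96)) hr0.le
    linarith
  have h2b : ((M * s : ℕ) : ℝ) / r ≤ δ / 96 := by
    rw [div_le_iff₀ hr0]
    exact h2.trans (mul_le_mul_of_nonneg_right (min_le_right _ _) hr0.le)
  obtain ⟨b1, b2, b3⟩ := hr M s hM8 h1 h2a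
  have hπ0 := Real.pi_pos
  have hπ4 := Real.pi_le_four
  have hπ2 := lg_pi_sq_le
  have hπ20 : 0 ≤ Real.pi ^ 2 := by positivity
  obtain ⟨u, hu⟩ : ∃ u : ℝ, u = 1 / (q : ℝ) := ⟨_, rfl⟩
  have hu0 : 0 < u := by rw [hu]; positivity
  have hu1 : u ≤ 1 := by
    rw [hu, div_le_one hq0]
    exact hq1
  have hu8 : 1 / (8 * (q : ℝ)) = u / 8 := by
    rw [hu]
    field_simp
  have huδ : 20480200 * u ≤ δ / 3 := by
    rw [hu]
    have e : 20480200 * (1 / (q : ℝ)) = 20480200 / (q : ℝ) := by ring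
    rw [e]
    exact hqδ
  obtain ⟨w, hw⟩ : ∃ w : ℝ, w = ((M * s : ℕ) : ℝ) / r := ⟨_, rfl⟩
  have hw0 : 0 ≤ w := by rw [hw]; positivity
  have e2w : 2 * ((M * s : ℕ) : ℝ) / r = 2 * w := by rw [hw]; ring
  obtain ⟨t, ht⟩ : ∃ t : ℝ, t = 6 / (M : ℝ) := ⟨_, rfl⟩
  have ht0 : 0 ≤ t := by rw [ht]; positivity
  have htδ : 16 * t ≤ δ / 3 := by
    rw [ht]
    have e : 16 * (6 / (M : ℝ)) = 96 / (M : ℝ) := by ring
    rw [e]
    exact hMδ
  rw [e2w, hu8, ← hu] at b1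
  rw [hu8, ← hu, ← hw, ← ht] at b2 b3
  rw [← hw] at h2b
  have E1 : 8 * Real.pi ^ 2 * (u + u / 8) ≤ 90 * u := by
    have : 8 * Real.pi ^ 2 * (u + u / 8) = Real.pi ^ 2 * (9 * u) := by ring
    rw [this]
    have := mul_le_mul_of_nonneg_right hπ2 (by positivity : (0:ℝ) ≤ 9 * u)
    linarith
  have E2 : 4 * Real.pi * (2 * w + u) ≤ 16 * (2 * w + u) := by
    have := mul_le_mul_of_nonneg_right hπ4 (by positivity : (0:ℝ) ≤ 2 * w + u)
    linarith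
  have E3 : 4 * Real.pi * (w + t) ≤ 16 * (w + t) := by
    have := mul_le_mul_of_nonneg_right hπ4 (by positivity : (0:ℝ) ≤ w + t)
    linarith
  have E4 : 512000 * Real.pi ^ 2 * (u + u) ^ 2 ≤ 20480000 * u := by
    have a1 : (u + u) ^ 2 ≤ 4 * u := by nlinarith
    have a2 : Real.pi ^ 2 * (u + u) ^ 2 ≤ 10 * (4 * u) :=
      mul_le_mul hπ2 a1 (by positivity) (by norm_num)
    linarith
  refine ⟨?_, ?_⟩
  · rw [abs_le]
    constructor <;> linarith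
  · linarith

end

end Claimed.Agent.R285.Pot
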