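import Claimed.Agent.R285.Pot.DecLaw
import Claimed.Agent.R285.Pot.LinMean

/-!
# ROW 285, POT-DECAY × POT-LIN, package GA (architect helper145), file 1: THE DICTIONARY between a Gaussian reference `(H, a, pins P)` and a system of rows `S : PdSys G.V I`.   Paper-free, no sorry.

* **A.** `PdDict H a P S` (`S.bil = plB H a`, `S.Adm v ↔ v = 0 on P`): `potd_form`, `potd_PD`, **`potd_gPin_abs`** (= `pd_law_gPin_le` for ANY system with a dictionary), `potd_gf_eq_cov`, `potd_gf_eq_gVar`, `potd_En_eq_gEn`.   (moved verbatim from `C5/PotD.lean`)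
* **B.** `gaLaw S : HLaw (gaG G)` = the rows of `S` as observation rows on the EDGELESS graph with the vertices of `G`; `ga_dict : PdDict (gaLaw S) 1 S.pin S`.
  All Gaussian functionals depend on `(H, a)` only through `H.form a`: `ga_Z_congr`, `ga_cLap_congr`, `ga_rPin_congr`, `ga_ExT_congr`.   So laws which live on DIFFERENT graphs with the same vertices (cut / restored) become laws on ONE `HGraph`.
-/

set_option autoImplicit false

namespace Claimed.Agent.R285.Pot

open MeasureTheory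
open scoped Classical

noncomputable section

/-! ## A. dictionary law ↔ system of rows -/

section dict

variable {G : HGraph} {I : Type} [Fintype I]

/-- dictionary between the Gaussian reference `(H, a)` with pins `P` and a system of rows -/
structure PdDict (H : HLaw G) (a : ℝ) (P : Set G.V) (S : PdSys G.V I) : Prop where
  bil : ∀ v w, S.bil v w = plB H a v w
  adm : ∀ v, S.Adm v ↔ ∀ x ∈ P, v x = 0

variable {H : HLaw G} {a : ℝ} {P : Set G.V} {S : PdSys G.V I} {A : PdAmb G.V I} {σ CP K CR : ℝ}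

theorem potd_form (d : PdDict H a P S) (v : G.V → ℝ) : S.form v = H.form a v := by
  rw [pd_form_eq_bil, d.bil, pl_form_eq]

theorem potd_PD (ha : 0 < a) (d : PdDict H a P S) (h : PdOk A S σ CP K) : plPD H P := fun v hv h1 h2 =>
  pd_eq_zero_of_form h ((d.adm v).2 hv) (by rw [potd_form d, (pl_form_eq_zero_iff H ha v).2 ⟨h1, h2⟩])

/-- **the Gaussian pin interaction of two far sets of sites**, any system with a dictionary (copy of `pd_law_gPin_le`) -/
theorem potd_gPin_abs (ha : 0 < a) (d : PdDict H a P S) (h : PdOk A S σ CP K) (hCR : 0 ≤ CR) (hR : PdRes A S σ CR)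
    (A₁ p : Set G.V) {ρ : I → ℕ} (hρ : A.Lay ρ) (h0 : ∀ i ∈ A.cellsV A₁, ρ i = 0) {r : ℕ} (hr : 1 ≤ r)
    (Q : Finset I) (hQ : A.nb (A.nb (A.nb (A.nb (A.cellsV p)))) ⊆ (Q : Set I)) (hfar : (Q : Set I) ⊆ A.far ρ r) :
    H.gPin a P A₁ p ≤ Q.card * pdE CP K r * (pdM CP K + 16 / 3 * (2 * K * CR) ^ 2) / 2 := by
  have hPD : plPD H P := potd_PD ha d h
  have hPA : plPD H (P ∪ A₁) := pl_PD_mono H hPD Set.subset_union_left
  have hnb : ∀ x ∈ A₁, A.blk x ∉ A.nb (A.cellsV p) := fun x hx hmem => by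
    have h1 : A.blk x ∈ A.far ρ r :=
      hfar (hQ (pd_subset_nb h _ (pd_subset_nb h _ (pd_subset_nb h _ hmem))))
    have h2 : ρ (A.blk x) = 0 := h0 _ ⟨x, hx, rfl⟩
    have h3 : r ≤ ρ (A.blk x) := h1
    omega
  have hd : ∀ x ∈ A₁, x ∉ p := fun x hx hxp => hnb x hx (pd_subset_nb h _ ⟨x, hxp, rfl⟩)
  obtain ⟨n, u, huP, huo, hon, hle⟩ := pl_gPin_le_sum' H ha hPD A₁ p fun x hx => absurd hx.2 (hd x hx.1)
  have htr := pd_trace_cut h hCR hR (P := A₁) (J := A.cellsV p) hρ h0 hr Q hQ hfar u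
    (fun j => ⟨(d.adm _).2 (huP j), fun φ hφ hφA => by
      rw [d.bil]
      exact huo j φ fun x hx => hx.elim ((d.adm φ).1 hφ x) (hφA x)⟩)
    (fun i j => by rw [d.bil]; exact hon i j)
  have hgap : ∀ j, plGap H a (P ∪ A₁) p (u j) ≤ S.form (A.cut (A.cellsV p) * u j) := fun j => by
    rw [potd_form d]
    refine pl_gap_le H ha hPA p (u j) (fun x hx => ?_) (fun x hx _ => ?_)
    · rcases hx with hx | hx
      · rw [Pi.mul_apply, huP j x hx, mul_zero]
      · rw [Pi.mul_apply, h.amb.cut_zero _ x (hnb x hx), zero_mul]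
    · rw [Pi.mul_apply, h.amb.cut_one (A.cellsV p) x ⟨x, hx, rfl⟩, one_mul,
        ← pl_harm_unique H ha hPA (u j) (v := u j) (fun _ _ => rfl) (huo j)]
  have hsum : ∑ j, plGap H a (P ∪ A₁) p (u j) ≤ Q.card * pdE CP K r * (pdM CP K + 16 / 3 * (2 * K * CR) ^ 2) :=
    (Finset.sum_le_sum fun j _ => hgap j).trans htr
  linarith

/-! ### (D4) Green form, variances, affine costs -/

omit [Fintype I] in
/-- solutions of the system = optimisers of the law -/
theorem potd_isSol_iff (d : PdDict H a P S) (f v : G.V → ℝ) : S.IsSol (pdRowF f) v ↔ plIsOpt (plPin H P) a f v := by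
  constructor
  · rintro ⟨h1, h2⟩
    refine ⟨(pl_mem_rspan_pin H P v).2 ((d.adm v).1 h1), fun w hw => ?_⟩
    rw [pl_pin_B, ← d.bil]
    exact h2 w ((d.adm w).2 ((pl_mem_rspan_pin H P w).1 hw))
  · rintro ⟨h1, h2⟩
    refine ⟨(d.adm v).2 ((pl_mem_rspan_pin H P v).1 h1), fun w hw => ?_⟩
    rw [d.bil, ← pl_pin_B H P]
    exact h2 w ((pl_mem_rspan_pin H P w).2 ((d.adm w).1 hw))

theorem potd_sol_opt (d : PdDict H a P S) (h : PdOk A S σ CP K) (f : G.V → ℝ) : plIsOpt (plPin H P) a f (S.sol (pdRowF f)) :=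
  (potd_isSol_iff d f _).1 (pd_sol_spec h _)

/-- **(D4) Green form = reference covariance** -/
theorem potd_gf_eq_cov (ha : 0 < a) (d : PdDict H a P S) (h : PdOk A S σ CP K) (f g : G.V → ℝ) :
    S.gf (pdRowF f) (pdRowF g) = plCov (plPin H P) a f g := by
  rw [pl_cov_comm _ ha, pl_cov_eq_pair _ ha (pl_adm_of_PD H (potd_PD ha d h) g) (potd_sol_opt d h f)]
  rfl

/-- **(D4) Green form on the diagonal = reference variance** -/
theorem potd_gf_eq_gVar (ha : 0 < a) (d : PdDict H a P S) (h : PdOk A S σ CP K) (f : G.V → ℝ) :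
    S.gf (pdRowF f) (pdRowF f) = (plPin H P).gVar a f := by
  rw [potd_gf_eq_cov ha d h, pl_cov_self _ ha]

omit [Fintype I] in
/-- **(D4) minimal affine cost = reference cost**, for any encoding `z` of the datum `(θ, c)` -/
theorem potd_En_eq_gEn (d : PdDict H a P S) {z : S.Tm → ℝ} {θ : G.E → ℝ} {c : H.O → ℝ}
    (hz : ∀ w, S.aff z w = a⁻¹ * HLaw.en w θ + ∑ o, (H.obs w o - c o) ^ 2) : S.En z = (plPin H P).gEn a θ c := by
  unfold PdSys.En HLaw.gEn
  refine Equiv.iInf_congr (Equiv.subtypeEquivRight fun w => ((d.adm w).trans (pl_mem_rspan_pin H P w).symm)) fun w => ?_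
  exact (hz w.1).symm

end dict

/-! ## B. rows as a law on the edgeless graph -/

section rows

/-- the edgeless graph on the vertices of `G` -/
abbrev gaG (G : HGraph) : HGraph where
  V := G.V
  E := Empty
  src := Empty.elim
  tgt := Empty.elim

variable {G : HGraph} {I : Type}

/-- the rows of `S` as observation rows, pins of `S` -/
def gaLaw (S : PdSys G.V I) : HLaw (gaG G) where
  Λ := HLaw.pinned (G := gaG G) S.pin
  O := S.Tm
  B := S.R

theorem ga_defs_eqns_cite : True := by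
  have := @gaG.eq_1; have := @gaLaw.eq_1; trivial

theorem ga_B (S : PdSys G.V I) (a : ℝ) (v w : G.V → ℝ) : plB (gaLaw S) a v w = S.bil v w := by
  unfold plB
  have h0 : ∑ e : (gaG G).E, plGrad (G := gaG G) v e * plGrad (G := gaG G) w e = 0 := Finset.sum_eq_zero fun e _ => e.elim
  rw [h0, mul_zero, zero_add]
  rfl

theorem ga_form (S : PdSys G.V I) (a : ℝ) (v : G.V → ℝ) : (gaLaw S).form a v = S.form v := by
  rw [pl_form_eq, ga_B]
  exact (Finset.sum_congr rfl fun t _ => (sq _).symm)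

/-- the dictionary of the law of the rows (any coefficient) -/
theorem ga_dict (S : PdSys G.V I) (a : ℝ) : PdDict (gaLaw S) a S.pin S where
  bil v w := (ga_B S a v w).symm
  adm _ := Iff.rfl

/-- more pins -/
theorem potd_dict_addPin {H : HLaw G} {a : ℝ} {P : Set G.V} {S : PdSys G.V I} (d : PdDict H a P S) (P' : Set G.V) :
    PdDict H a (P ∪ P') (S.addPin P') where
  bil := d.bil
  adm v := ⟨fun h x hx => hx.elim (fun hx => (d.adm v).1 (fun y hy => h y (Or.inl hy)) x hx) fun hx => h x (Or.inr hx),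
    fun h x hx => hx.elim (fun hx => (d.adm v).2 (fun y hy => h y (Or.inl hy)) x hx) fun hx => h x (Or.inr hx)⟩

variable {H : HLaw G} {a : ℝ} {S : PdSys G.V I}

/-- **the Gaussian integrals depend only on the form** -/
theorem ga_Z_congr (hf : ∀ v, H.form a v = S.form v) (P : Set G.V) (u : G.V → ℝ) (F : (G.V → ℝ) → ℝ) :
    plZ H a P u F = plZ (gaLaw S) 1 P u F := by
  unfold plZ
  refine integral_congr_ae (Filter.Eventually.of_forall fun v => ?_)
  show F (plExt P u v) * Real.exp (-(H.form a (plExt P u v)) / 2) = F (plExt P u v) * Real.exp (-((gaLaw S).form 1 (plExt P u v)) / 2)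
  rw [hf, ga_form]
  rfl

theorem ga_cLap_congr (hf : ∀ v, H.form a v = S.form v) (P : Set G.V) (f u : G.V → ℝ) :
    plcLap H a P f u = plcLap (gaLaw S) 1 P f u := by
  unfold plcLap
  rw [ga_Z_congr hf, ga_Z_congr hf]
  rfl

theorem ga_rPin_congr (hf : ∀ v, H.form a v = S.form v) (P A : Set G.V) (u : G.V → ℝ) :
    plrPin H a P A u = plrPin (gaLaw S) 1 P A u := by
  unfold plrPin plcPin
  rw [ga_Z_congr hf, ga_Z_congr hf, ga_Z_congr hf, ga_Z_congr hf]
  rfl

theorem ga_ExT_congr (hf : ∀ v, H.form a v = S.form v) (P₀ : Set G.V) (fL : G.V → ℝ) (Ψ : (G.V → ℝ) → ℝ) :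
    plExT H a P₀ fL Ψ = plExT (gaLaw S) 1 P₀ fL Ψ := by
  unfold plExT
  rw [ga_Z_congr hf, ga_Z_congr hf]
  rfl

end rows

end

end Claimed.Agent.R285.Pot
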