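import Claimed.Agent.R285.Base.Geom

/-!
# ROW 285, POT-DECAY / POT-SEC-LOC : GEOMETRY OF INTEGER RECTANGLES AND PRODUCT GRIDS (architect helper126).   Paper-free; only `Bond`, `domBonds`, `DGrid` of `Base/Geom` are used.   Prefix `geo`.

Everything is a statement on functions `f : ℤ × ℤ → ℝ` and finite subsets of `ℤ²`; NOTHING depends on the abstract decay core, so the file serves every instance (`Sec/LocSys.lean`, ENTRY, C5).
* A `L-GEO-EN`    the energy `geoEn D f = ∑_{bonds inside D} (∇f)²`: monotone, superadditive on disjoint pieces; explicit form on a rectangle.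
* B `L-GEO-POIN`  Poincaré on a rectangle with sides `≤ L`:  `∑ f² ≤ L (L-1) geoEn` for mean-free `f` (NO aspect ratio; `= 0` for single sites).
* C `L-GEO-RES`   resolution: `4^k` sub-rectangles; if all their sums vanish then `∑_D f² ≤ 2 W² 4^{-k} geoEn D f`  (sides `≤ W`).   Replaces the cosine modes of [S]L3.2.
* D `L-GEO-CELL`  cells of a `DGrid`: disjoint, bonds join adjacent cells, cardinalities, non adjacent cells are at distance `> ν`.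
* E `L-GEO-CUT`   Lipschitz cutoffs at the scale of one cell: `χ = (1 - infDist(·, region J)/ν)⁺`.
-/

set_option autoImplicit false

namespace Claimed.Agent.R285.Pot

open scoped Classical

noncomputable section

/-- Dirichlet energy on the n.n. bonds with both ends in `D` -/
def geoEn (D : Finset (ℤ × ℤ)) (f : ℤ × ℤ → ℝ) : ℝ := ∑ e ∈ domBonds D ∅, (f e.snd - f e.1) ^ 2

/-- the rectangle `[p₁,q₁) × [p₂,q₂)` -/
def geoRect (p₁ q₁ p₂ q₂ : ℤ) : Finset (ℤ × ℤ) := Finset.Ico p₁ q₁ ×ˢ Finset.Ico p₂ q₂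

/-- adjacency of cells: sup-distance of the indices `≤ 1` (contact through a face or a corner; reflexive) -/
def geoAdj {m₁ m₂ : ℕ} (κ κ' : Fin m₁ × Fin m₂) : Prop :=
  (κ.1.1 ≤ κ'.1.1 + 1 ∧ κ'.1.1 ≤ κ.1.1 + 1) ∧ (κ.2.1 ≤ κ'.2.1 + 1 ∧ κ'.2.1 ≤ κ.2.1 + 1)

/-- sup-distance of the indices of two cells -/
def geoDist {m₁ m₂ : ℕ} (κ κ' : Fin m₁ × Fin m₂) : ℕ :=
  max (max (κ.1.1 - κ'.1.1) (κ'.1.1 - κ.1.1)) (max (κ.2.1 - κ'.2.1) (κ'.2.1 - κ.2.1))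

theorem geo_defs_eqns_cite : True := by
  have := @geoEn.eq_1; have := @geoRect.eq_1; have := @geoAdj.eq_1; have := @geoDist.eq_1; trivial

/-! ## A. the energy (`L-GEO-EN`) -/

theorem geo_en_nonneg (D : Finset (ℤ × ℤ)) (f : ℤ × ℤ → ℝ) : 0 ≤ geoEn D f :=
  Finset.sum_nonneg fun _ _ => sq_nonneg _

theorem geo_en_congr {D : Finset (ℤ × ℤ)} {f f' : ℤ × ℤ → ℝ} (h : ∀ x ∈ D, f x = f' x) : geoEn D f = geoEn D f' :=
  Finset.sum_congr rfl fun e he => by rw [h _ (domBonds_fst he), h _ (domBonds_snd he)]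

/-- adding a constant does not change the energy -/
theorem geo_en_sub_const (D : Finset (ℤ × ℤ)) (f : ℤ × ℤ → ℝ) (c : ℝ) : geoEn D (fun x => f x - c) = geoEn D f :=
  Finset.sum_congr rfl fun e _ => by ring

theorem geo_mem_domBonds {D : Finset (ℤ × ℤ)} {cut : Set Bond} {e : Bond} :
    e ∈ domBonds D cut ↔ e.1 ∈ D ∧ e.snd ∈ D ∧ e ∉ cut := by
  simp [domBonds]

/-- superadditivity on disjoint pieces.   Plan: `domBonds (B j) ∅ ⊆ domBonds D ∅`, pairwise disjoint (first endpoints); `Finset.sum_biUnion` + `Finset.sum_le_sum_of_subset_of_nonneg`. -/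
theorem geo_en_sum_le {ι : Type} [Fintype ι] (D : Finset (ℤ × ℤ)) (B : ι → Finset (ℤ × ℤ)) (hB : ∀ j, B j ⊆ D)
    (hd : ∀ i j, i ≠ j → Disjoint (B i) (B j)) (f : ℤ × ℤ → ℝ) : ∑ j, geoEn (B j) f ≤ geoEn D f := by
  unfold geoEn
  rw [← Finset.sum_biUnion]
  · refine Finset.sum_le_sum_of_subset_of_nonneg ?_ fun _ _ _ => sq_nonneg _
    intro e he
    obtain ⟨j, -, hj⟩ := Finset.mem_biUnion.1 he
    have := geo_mem_domBonds.1 hj
    exact geo_mem_domBonds.2 ⟨hB j this.1, hB j this.2.1, this.2.2⟩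
  · intro i _ j _ hij
    refine Finset.disjoint_left.2 fun e hi hj => ?_
    exact Finset.disjoint_left.1 (hd i j hij) (domBonds_fst hi) (domBonds_fst hj)

/-- the energy: horizontal and vertical bonds -/
theorem geo_en_split (D : Finset (ℤ × ℤ)) (f : ℤ × ℤ → ℝ) :
    geoEn D f = (∑ x ∈ D.filter (fun x => (x.1 + 1, x.2) ∈ D), (f (x.1 + 1, x.2) - f x) ^ 2)
      + ∑ x ∈ D.filter (fun x => (x.1, x.2 + 1) ∈ D), (f (x.1, x.2 + 1) - f x) ^ 2 := by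
  unfold geoEn domBonds
  rw [Finset.sum_filter, Finset.sum_product, Finset.sum_filter, Finset.sum_filter,
    ← Finset.sum_add_distrib]
  refine Finset.sum_congr rfl fun x _ => ?_
  rw [Fintype.sum_bool]
  simp [Bond.snd]

/-- the energy of a rectangle: horizontal and vertical bonds. -/
theorem geo_en_rect (p₁ q₁ p₂ q₂ : ℤ) (f : ℤ × ℤ → ℝ) :
    geoEn (geoRect p₁ q₁ p₂ q₂) f =
      (∑ x ∈ Finset.Ico p₁ (q₁ - 1) ×ˢ Finset.Ico p₂ q₂, (f (x.1 + 1, x.2) - f x) ^ 2)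
        + ∑ x ∈ Finset.Ico p₁ q₁ ×ˢ Finset.Ico p₂ (q₂ - 1), (f (x.1, x.2 + 1) - f x) ^ 2 := by
  rw [geo_en_split]
  congr 1
  · refine Finset.sum_congr ?_ fun _ _ => rfl
    ext x
    simp only [geoRect, Finset.mem_filter, Finset.mem_product, Finset.mem_Ico]
    omega
  · refine Finset.sum_congr ?_ fun _ _ => rfl
    ext x
    simp only [geoRect, Finset.mem_filter, Finset.mem_product, Finset.mem_Ico]
    omega

/-- at most four bonds at a site.   Plan: the filter is contained in the image of the explicit list `{(x,true), (x,false), ((x.1-1,x.2),true), ((x.1,x.2-1),false)}`; `Finset.card_le_card`, `Finset.card_le_four`. -/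
theorem geo_deg (D : Finset (ℤ × ℤ)) (cut : Set Bond) (x : ℤ × ℤ) :
    ((domBonds D cut).filter fun e => e.1 = x ∨ e.snd = x).card ≤ 4 := by
  refine le_trans (Finset.card_le_card (t := {(x, true), (x, false), ((x.1 - 1, x.2), true), ((x.1, x.2 - 1), false)}) ?_)
    Finset.card_le_four
  rintro ⟨y, b⟩ he
  have h1 := (Finset.mem_filter.1 he).2
  simp only [Finset.mem_insert, Finset.mem_singleton, Prod.mk.injEq]
  rcases h1 with h1 | h1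
  · have h1' : y = x := h1
    subst h1'
    cases b <;> simp
  · cases b
    · have h2 : (y.1, y.2 + 1) = x := by simpa [Bond.snd] using h1
      subst h2
      simp
    · have h2 : (y.1 + 1, y.2) = x := by simpa [Bond.snd] using h1
      subst h2
      simp

/-! ## B. Poincaré (`L-GEO-POIN`) -/

/-- telescoping on an integer interval -/
theorem geo_telescope (u : ℤ → ℝ) (s : ℤ) (n : ℕ) :
    ∑ i ∈ Finset.Ico s (s + n), (u (i + 1) - u i) = u (s + n) - u s := by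
  induction n with
  | zero => simp
  | succ n ih =>
    have e : Finset.Ico s (s + (n + 1 : ℕ)) = insert (s + n) (Finset.Ico s (s + n)) := by
      ext i
      simp only [Finset.mem_insert, Finset.mem_Ico, Nat.cast_add, Nat.cast_one]
      omega
    rw [e, Finset.sum_insert (by simp), ih]
    push_cast
    rw [add_assoc]
    ring

theorem geo_line_sq_le_aux (u : ℤ → ℝ) {p q s t : ℤ} (hs : s ∈ Finset.Ico p q) (ht : t ∈ Finset.Ico p q) (hst : s ≤ t) :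
    (u t - u s) ^ 2 ≤ ((q - p - 1 : ℤ) : ℝ) * ∑ i ∈ Finset.Ico p (q - 1), (u (i + 1) - u i) ^ 2 := by
  rw [Finset.mem_Ico] at hs ht
  obtain ⟨n, rfl⟩ : ∃ n : ℕ, t = s + n := ⟨(t - s).toNat, by omega⟩
  rw [← geo_telescope u s n]
  refine (sq_sum_le_card_mul_sum_sq).trans ?_
  have h1 : ((Finset.Ico s (s + n)).card : ℝ) ≤ ((q - p - 1 : ℤ) : ℝ) := by
    rw [Int.card_Ico]
    have : (((s + n - s).toNat : ℕ) : ℤ) ≤ q - p - 1 := by omega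
    exact_mod_cast this
  have h2 : ∑ i ∈ Finset.Ico s (s + n), (u (i + 1) - u i) ^ 2 ≤
      ∑ i ∈ Finset.Ico p (q - 1), (u (i + 1) - u i) ^ 2 := by
    refine Finset.sum_le_sum_of_subset_of_nonneg ?_ fun _ _ _ => sq_nonneg _
    intro i hi
    rw [Finset.mem_Ico] at hi ⊢
    omega
  exact mul_le_mul h1 h2 (Finset.sum_nonneg fun _ _ => sq_nonneg _) ((Nat.cast_nonneg _).trans h1)

/-- one dimension, two points: telescoping + Cauchy-Schwarz. -/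
theorem geo_line_sq_le (u : ℤ → ℝ) {p q s t : ℤ} (hs : s ∈ Finset.Ico p q) (ht : t ∈ Finset.Ico p q) :
    (u t - u s) ^ 2 ≤ ((q - p - 1 : ℤ) : ℝ) * ∑ i ∈ Finset.Ico p (q - 1), (u (i + 1) - u i) ^ 2 := by
  rcases le_total s t with h | h
  · exact geo_line_sq_le_aux u hs ht h
  · have := geo_line_sq_le_aux u ht hs h
    rwa [show (u t - u s) ^ 2 = (u s - u t) ^ 2 by ring]

/-- the double sum of the squared differences -/
theorem geo_double_sum {α : Type} (s : Finset α) (f : α → ℝ) :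
    ∑ x ∈ s, ∑ y ∈ s, (f x - f y) ^ 2 = 2 * (s.card : ℝ) * ∑ x ∈ s, f x ^ 2 - 2 * (∑ x ∈ s, f x) ^ 2 := by
  have e : ∀ x y, (f x - f y) ^ 2 = f x ^ 2 - 2 * (f x * f y) + f y ^ 2 := fun x y => by ring
  simp only [e, Finset.sum_add_distrib, Finset.sum_sub_distrib, Finset.sum_const, nsmul_eq_mul,
    ← Finset.mul_sum, ← Finset.sum_mul]
  ring

/-- one dimension, mean-free: `∑ u² = (2n)⁻¹ ∑_{s,t} (u_s - u_t)² ≤ n (n-1)/2 · ∑ (∇u)²`, `n = q - p`. -/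
theorem geo_poincare_line (u : ℤ → ℝ) {p q : ℤ} (h0 : ∑ i ∈ Finset.Ico p q, u i = 0) :
    ∑ i ∈ Finset.Ico p q, u i ^ 2 ≤ ((q - p : ℤ) : ℝ) * ((q - p - 1 : ℤ) : ℝ) / 2 * ∑ i ∈ Finset.Ico p (q - 1), (u (i + 1) - u i) ^ 2 := by
  rcases le_or_gt q p with hqp | hqp
  · rw [Finset.Ico_eq_empty (by omega), Finset.Ico_eq_empty (by omega)]
    simp
  set E := ∑ i ∈ Finset.Ico p (q - 1), (u (i + 1) - u i) ^ 2 with hE
  have hcard : ((Finset.Ico p q).card : ℝ) = ((q - p : ℤ) : ℝ) := by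
    rw [Int.card_Ico]
    have : (((q - p).toNat : ℕ) : ℤ) = q - p := by omega
    exact_mod_cast this
  have hn : (0 : ℝ) < ((q - p : ℤ) : ℝ) := by exact_mod_cast (by omega : 0 < q - p)
  have h1 := geo_double_sum (Finset.Ico p q) u
  rw [h0, hcard] at h1
  have h2 : ∑ x ∈ Finset.Ico p q, ∑ y ∈ Finset.Ico p q, (u x - u y) ^ 2 ≤
      ∑ x ∈ Finset.Ico p q, ∑ y ∈ Finset.Ico p q, ((q - p - 1 : ℤ) : ℝ) * E :=
    Finset.sum_le_sum fun x hx => Finset.sum_le_sum fun y hy => geo_line_sq_le u hy hx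
  simp only [Finset.sum_const, nsmul_eq_mul, hcard] at h2
  rw [h1] at h2
  have h3 : ((q - p : ℤ) : ℝ) * (2 * ∑ x ∈ Finset.Ico p q, u x ^ 2) ≤
      ((q - p : ℤ) : ℝ) * (((q - p : ℤ) : ℝ) * (((q - p - 1 : ℤ) : ℝ) * E)) := by linarith
  have h4 := le_of_mul_le_mul_left h3 hn
  linarith

/-- **Poincaré on a rectangle with sides `≤ L`.**
Plan: `m x₂` = mean of the row `x₂`;  `∑ f² = ∑_{x₂} ∑_{x₁} (f - m x₂)² + a ∑_{x₂} (m x₂)²` (`a = q₁ - p₁`);  rows: `geo_poincare_line`;  `m` is mean-free: `geo_poincare_line`, and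
`a (m (x₂+1) - m x₂)² ≤ ∑_{x₁} (f (x₁,x₂+1) - f (x₁,x₂))²` (Cauchy-Schwarz);  `geo_en_rect`;  `n (n-1)/2 ≤ L (L-1)`.   (Or the double sum `∑_{x,y} (f x - f y)²` directly with `geo_line_sq_le`.) -/
theorem geo_poincare_rect {p₁ q₁ p₂ q₂ : ℤ} {L : ℕ} (h₁ : q₁ - p₁ ≤ L) (h₂ : q₂ - p₂ ≤ L) (f : ℤ × ℤ → ℝ)
    (h0 : ∑ x ∈ geoRect p₁ q₁ p₂ q₂, f x = 0) :
    ∑ x ∈ geoRect p₁ q₁ p₂ q₂, f x ^ 2 ≤ (L : ℝ) * ((L : ℝ) - 1) * geoEn (geoRect p₁ q₁ p₂ q₂) f := by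
  have hLL : 0 ≤ (L : ℝ) * ((L : ℝ) - 1) := by
    rcases Nat.eq_zero_or_pos L with h | h
    · subst h; simp
    · have : (1 : ℝ) ≤ L := by exact_mod_cast h
      exact mul_nonneg (by linarith) (by linarith)
  rcases le_or_gt q₁ p₁ with hq₁ | hq₁
  · have : geoRect p₁ q₁ p₂ q₂ = ∅ := by
      rw [geoRect, Finset.Ico_eq_empty (by omega), Finset.empty_product]
    rw [this, Finset.sum_empty]
    exact mul_nonneg hLL (geo_en_nonneg _ _)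
  rcases le_or_gt q₂ p₂ with hq₂ | hq₂
  · have : geoRect p₁ q₁ p₂ q₂ = ∅ := by
      rw [geoRect, Finset.Ico_eq_empty (a := p₂) (by omega), Finset.product_empty]
    rw [this, Finset.sum_empty]
    exact mul_nonneg hLL (geo_en_nonneg _ _)
  set a : ℝ := ((q₁ - p₁ : ℤ) : ℝ) with ha
  set b : ℝ := ((q₂ - p₂ : ℤ) : ℝ) with hb
  have ha1 : (1 : ℝ) ≤ a := by rw [ha]; exact_mod_cast (by omega : 1 ≤ q₁ - p₁)
  have hb1 : (1 : ℝ) ≤ b := by rw [hb]; exact_mod_cast (by omega : 1 ≤ q₂ - p₂)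
  have haL : a ≤ L := by rw [ha]; exact_mod_cast h₁
  have hbL : b ≤ L := by rw [hb]; exact_mod_cast h₂
  have hc₁ : ((Finset.Ico p₁ q₁).card : ℝ) = a := by
    rw [Int.card_Ico, ha]
    have : (((q₁ - p₁).toNat : ℕ) : ℤ) = q₁ - p₁ := by omega
    exact_mod_cast this
  have hc₂ : ((Finset.Ico p₂ q₂).card : ℝ) = b := by
    rw [Int.card_Ico, hb]
    have : (((q₂ - p₂).toNat : ℕ) : ℤ) = q₂ - p₂ := by omega
    exact_mod_cast this
  have hcard : ((geoRect p₁ q₁ p₂ q₂).card : ℝ) = a * b := by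
    rw [geoRect, Finset.card_product, Nat.cast_mul, hc₁, hc₂]
  set Hh : ℤ → ℝ := fun j => ∑ i ∈ Finset.Ico p₁ (q₁ - 1), (f (i + 1, j) - f (i, j)) ^ 2 with hHh
  set Vv : ℤ → ℝ := fun i => ∑ j ∈ Finset.Ico p₂ (q₂ - 1), (f (i, j + 1) - f (i, j)) ^ 2 with hVv
  have hHn : ∀ j, 0 ≤ Hh j := fun j => Finset.sum_nonneg fun _ _ => sq_nonneg _
  have hVn : ∀ i, 0 ≤ Vv i := fun i => Finset.sum_nonneg fun _ _ => sq_nonneg _
  have hen : geoEn (geoRect p₁ q₁ p₂ q₂) f = (∑ j ∈ Finset.Ico p₂ q₂, Hh j) + ∑ i ∈ Finset.Ico p₁ q₁, Vv i := by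
    rw [geo_en_rect, Finset.sum_product_right, Finset.sum_product]
  have hpt : ∀ x ∈ geoRect p₁ q₁ p₂ q₂, ∀ y ∈ geoRect p₁ q₁ p₂ q₂,
      (f x - f y) ^ 2 ≤ 2 * ((a - 1) * Hh x.2) + 2 * ((b - 1) * Vv y.1) := by
    intro x hx y hy
    rw [geoRect, Finset.mem_product] at hx hy
    have k1 := geo_line_sq_le (fun i => f (i, x.2)) hy.1 hx.1
    have k2 := geo_line_sq_le (fun j => f (y.1, j)) hy.2 hx.2
    have e1 : ((q₁ - p₁ - 1 : ℤ) : ℝ) = a - 1 := by rw [ha]; push_cast; ring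
    have e2 : ((q₂ - p₂ - 1 : ℤ) : ℝ) = b - 1 := by rw [hb]; push_cast; ring
    rw [e1] at k1
    rw [e2] at k2
    have k1' : (f x - f (y.1, x.2)) ^ 2 ≤ (a - 1) * Hh x.2 := k1
    have k2' : (f (y.1, x.2) - f y) ^ 2 ≤ (b - 1) * Vv y.1 := k2
    nlinarith [sq_nonneg ((f x - f (y.1, x.2)) - (f (y.1, x.2) - f y))]
  have h1 := geo_double_sum (geoRect p₁ q₁ p₂ q₂) f
  rw [h0, hcard] at h1
  have h2 : ∑ x ∈ geoRect p₁ q₁ p₂ q₂, ∑ y ∈ geoRect p₁ q₁ p₂ q₂, (f x - f y) ^ 2 ≤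
      ∑ x ∈ geoRect p₁ q₁ p₂ q₂, ∑ y ∈ geoRect p₁ q₁ p₂ q₂,
        (2 * ((a - 1) * Hh x.2) + 2 * ((b - 1) * Vv y.1)) :=
    Finset.sum_le_sum fun x hx => Finset.sum_le_sum fun y hy => hpt x hx y hy
  have s1 : ∑ x ∈ geoRect p₁ q₁ p₂ q₂, Hh x.2 = a * ∑ j ∈ Finset.Ico p₂ q₂, Hh j := by
    rw [geoRect, Finset.sum_product]
    simp only [Finset.sum_const, nsmul_eq_mul, hc₁]
  have s2 : ∑ y ∈ geoRect p₁ q₁ p₂ q₂, Vv y.1 = b * ∑ i ∈ Finset.Ico p₁ q₁, Vv i := by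
    rw [geoRect, Finset.sum_product_right]
    simp only [Finset.sum_const, nsmul_eq_mul, hc₂]
  have h3 : ∑ x ∈ geoRect p₁ q₁ p₂ q₂, ∑ y ∈ geoRect p₁ q₁ p₂ q₂,
        (2 * ((a - 1) * Hh x.2) + 2 * ((b - 1) * Vv y.1)) =
      2 * (a * b) * ((a - 1) * a * ∑ j ∈ Finset.Ico p₂ q₂, Hh j) +
        2 * (a * b) * ((b - 1) * b * ∑ i ∈ Finset.Ico p₁ q₁, Vv i) := by
    simp only [Finset.sum_add_distrib, Finset.sum_const, nsmul_eq_mul, hcard, ← Finset.mul_sum, s1, s2]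
    ring
  rw [h1, h3] at h2
  have hab : 0 < a * b := by positivity
  have h4 : (a * b) * (∑ x ∈ geoRect p₁ q₁ p₂ q₂, f x ^ 2) ≤
      (a * b) * ((a - 1) * a * (∑ j ∈ Finset.Ico p₂ q₂, Hh j) + (b - 1) * b * ∑ i ∈ Finset.Ico p₁ q₁, Vv i) := by
    linarith
  have h5 := le_of_mul_le_mul_left h4 hab
  have hH0 : 0 ≤ ∑ j ∈ Finset.Ico p₂ q₂, Hh j := Finset.sum_nonneg fun j _ => hHn j
  have hV0 : 0 ≤ ∑ i ∈ Finset.Ico p₁ q₁, Vv i := Finset.sum_nonneg fun i _ => hVn i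
  have ca : (a - 1) * a ≤ (L : ℝ) * ((L : ℝ) - 1) := by nlinarith
  have cb : (b - 1) * b ≤ (L : ℝ) * ((L : ℝ) - 1) := by nlinarith
  rw [hen, mul_add]
  exact h5.trans (add_le_add (mul_le_mul_of_nonneg_right ca hH0) (mul_le_mul_of_nonneg_right cb hV0))

/-- Poincaré with the mean: `∑ f² ≤ L (L-1) geoEn + |D|⁻¹ (∑ f)²`. -/
theorem geo_poincare_mean {p₁ q₁ p₂ q₂ : ℤ} {L : ℕ} (h₁ : q₁ - p₁ ≤ L) (h₂ : q₂ - p₂ ≤ L) (f : ℤ × ℤ → ℝ) :
    ∑ x ∈ geoRect p₁ q₁ p₂ q₂, f x ^ 2 ≤ (L : ℝ) * ((L : ℝ) - 1) * geoEn (geoRect p₁ q₁ p₂ q₂) f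
      + (((geoRect p₁ q₁ p₂ q₂).card : ℝ))⁻¹ * (∑ x ∈ geoRect p₁ q₁ p₂ q₂, f x) ^ 2 := by
  set D := geoRect p₁ q₁ p₂ q₂ with hD
  rcases Nat.eq_zero_or_pos D.card with hc | hc
  · have hE : D = ∅ := Finset.card_eq_zero.1 hc
    have := geo_poincare_rect h₁ h₂ f (by rw [← hD, hE]; simp)
    rw [← hD] at this
    rw [hE] at this ⊢
    simpa using this
  have hc' : (0 : ℝ) < (D.card : ℝ) := by exact_mod_cast hc
  set c : ℝ := (D.card : ℝ)⁻¹ * ∑ x ∈ D, f x with hcdef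
  have hmean : ∑ x ∈ D, (f x - c) = 0 := by
    rw [Finset.sum_sub_distrib, Finset.sum_const, nsmul_eq_mul, hcdef, ← mul_assoc,
      mul_inv_cancel₀ hc'.ne', one_mul, sub_self]
  have h1 := geo_poincare_rect h₁ h₂ (fun x => f x - c) hmean
  rw [← hD, geo_en_sub_const] at h1
  have h2 : ∑ x ∈ D, (f x - c) ^ 2 = ∑ x ∈ D, f x ^ 2 - (D.card : ℝ)⁻¹ * (∑ x ∈ D, f x) ^ 2 := by
    have e : ∀ x, (f x - c) ^ 2 = f x ^ 2 - 2 * c * f x + c ^ 2 := fun x => by ring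
    simp only [e, Finset.sum_add_distrib, Finset.sum_sub_distrib, Finset.sum_const, nsmul_eq_mul,
      ← Finset.mul_sum]
    rw [hcdef]
    field_simp
    ring
  rw [h2] at h1
  linarith

/-! ## C. resolution (`L-GEO-RES`) -/

theorem geo_mem_rect {p₁ q₁ p₂ q₂ : ℤ} {x : ℤ × ℤ} :
    x ∈ geoRect p₁ q₁ p₂ q₂ ↔ (p₁ ≤ x.1 ∧ x.1 < q₁) ∧ (p₂ ≤ x.2 ∧ x.2 < q₂) := by
  simp only [geoRect, Finset.mem_product, Finset.mem_Ico]

/-- the index of the block of a point is unique -/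
theorem geo_blk_unique {p x : ℤ} {L i j : ℕ} (h1 : p + i * L ≤ x) (h2 : x < p + (i + 1) * L)
    (h3 : p + j * L ≤ x) (h4 : x < p + (j + 1) * L) : i = j := by
  have a : (i : ℤ) * L < (j + 1) * L := by linarith
  have b : (j : ℤ) * L < (i + 1) * L := by linarith
  have a' := lt_of_mul_lt_mul_right a (by positivity)
  have b' := lt_of_mul_lt_mul_right b (by positivity)
  omega

/-- every point lies in a block -/
theorem geo_blk_exists {p q x : ℤ} {L n : ℕ} (hL : 0 < L) (h : q - p ≤ (L : ℤ) * n) (h1 : p ≤ x) (h2 : x < q) :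
    ∃ j : Fin n, p + (j.1 : ℤ) * L ≤ x ∧ x < p + ((j.1 : ℤ) + 1) * L := by
  have hLz : (0 : ℤ) < L := by exact_mod_cast hL
  have d0 : 0 ≤ (x - p) / (L : ℤ) := Int.ediv_nonneg (by omega) hLz.le
  have e1 : (x - p) / (L : ℤ) * L ≤ x - p := Int.ediv_mul_le _ hLz.ne'
  have e2 : x - p < ((x - p) / (L : ℤ) + 1) * L := Int.lt_ediv_add_one_mul_self _ hLz
  have e3 : (x - p) / (L : ℤ) < n := by
    have : (x - p) / (L : ℤ) * L < n * L := by linarith [mul_comm (L : ℤ) n]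
    exact lt_of_mul_lt_mul_right this hLz.le
  have e4 : ((((x - p) / (L : ℤ)).toNat : ℕ) : ℤ) = (x - p) / (L : ℤ) := Int.toNat_of_nonneg d0
  refine ⟨⟨((x - p) / (L : ℤ)).toNat, by omega⟩, ?_, ?_⟩
  · simp only [e4]; linarith
  · simp only [e4]; linarith

/-- blocks of side `L`: Poincaré on every block -/
theorem geo_res_aux {p₁ q₁ p₂ q₂ : ℤ} {L n : ℕ} (hL : 0 < L) (h₁ : q₁ - p₁ ≤ (L : ℤ) * n) (h₂ : q₂ - p₂ ≤ (L : ℤ) * n)
    (f : ℤ × ℤ → ℝ)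
    (h0 : ∀ j : Fin n × Fin n, ∑ x ∈ geoRect (p₁ + (j.1.1 : ℤ) * L) (min q₁ (p₁ + ((j.1.1 : ℤ) + 1) * L))
      (p₂ + (j.2.1 : ℤ) * L) (min q₂ (p₂ + ((j.2.1 : ℤ) + 1) * L)), f x = 0) :
    ∑ x ∈ geoRect p₁ q₁ p₂ q₂, f x ^ 2 ≤ (L : ℝ) * ((L : ℝ) - 1) * geoEn (geoRect p₁ q₁ p₂ q₂) f := by
  set B : Fin n × Fin n → Finset (ℤ × ℤ) := fun j =>
    geoRect (p₁ + (j.1.1 : ℤ) * L) (min q₁ (p₁ + ((j.1.1 : ℤ) + 1) * L))
      (p₂ + (j.2.1 : ℤ) * L) (min q₂ (p₂ + ((j.2.1 : ℤ) + 1) * L)) with hB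
  have hLL : 0 ≤ (L : ℝ) * ((L : ℝ) - 1) := by
    have : (1 : ℝ) ≤ L := by exact_mod_cast hL
    exact mul_nonneg (by linarith) (by linarith)
  have hsub : ∀ j, B j ⊆ geoRect p₁ q₁ p₂ q₂ := by
    intro j x hx
    rw [hB, geo_mem_rect] at hx
    rw [geo_mem_rect]
    have a1 : (0 : ℤ) ≤ (j.1.1 : ℤ) * L := by positivity
    have a2 : (0 : ℤ) ≤ (j.2.1 : ℤ) * L := by positivity
    have b1 := lt_min_iff.1 hx.1.2
    have b2 := lt_min_iff.1 hx.2.2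
    exact ⟨⟨by linarith [hx.1.1], b1.1⟩, ⟨by linarith [hx.2.1], b2.1⟩⟩
  have hdis : ∀ i j, i ≠ j → Disjoint (B i) (B j) := by
    intro i j hij
    refine Finset.disjoint_left.2 fun x hi hj => hij ?_
    rw [hB, geo_mem_rect] at hi hj
    have c1 := geo_blk_unique hi.1.1 (lt_min_iff.1 hi.1.2).2 hj.1.1 (lt_min_iff.1 hj.1.2).2
    have c2 := geo_blk_unique hi.2.1 (lt_min_iff.1 hi.2.2).2 hj.2.1 (lt_min_iff.1 hj.2.2).2
    exact Prod.ext (Fin.ext c1) (Fin.ext c2)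
  have hcov : geoRect p₁ q₁ p₂ q₂ ⊆ Finset.univ.biUnion B := by
    intro x hx
    rw [geo_mem_rect] at hx
    obtain ⟨j₁, a1, a2⟩ := geo_blk_exists hL h₁ hx.1.1 hx.1.2
    obtain ⟨j₂, b1, b2⟩ := geo_blk_exists hL h₂ hx.2.1 hx.2.2
    refine Finset.mem_biUnion.2 ⟨(j₁, j₂), Finset.mem_univ _, ?_⟩
    rw [hB, geo_mem_rect]
    exact ⟨⟨a1, lt_min hx.1.2 a2⟩, ⟨b1, lt_min hx.2.2 b2⟩⟩
  calc ∑ x ∈ geoRect p₁ q₁ p₂ q₂, f x ^ 2 ≤ ∑ x ∈ Finset.univ.biUnion B, f x ^ 2 :=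
        Finset.sum_le_sum_of_subset_of_nonneg hcov fun _ _ _ => sq_nonneg _
    _ = ∑ j, ∑ x ∈ B j, f x ^ 2 := Finset.sum_biUnion fun i _ j _ hij => hdis i j hij
    _ ≤ ∑ j, (L : ℝ) * ((L : ℝ) - 1) * geoEn (B j) f := by
        refine Finset.sum_le_sum fun j _ => ?_
        refine geo_poincare_rect ?_ ?_ f (h0 j)
        · have := min_le_right q₁ (p₁ + ((j.1.1 : ℤ) + 1) * L)
          linarith
        · have := min_le_right q₂ (p₂ + ((j.2.1 : ℤ) + 1) * L)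
          linarith
    _ = (L : ℝ) * ((L : ℝ) - 1) * ∑ j, geoEn (B j) f := by rw [Finset.mul_sum]
    _ ≤ (L : ℝ) * ((L : ℝ) - 1) * geoEn (geoRect p₁ q₁ p₂ q₂) f :=
        mul_le_mul_of_nonneg_left (geo_en_sum_le _ B hsub hdis f) hLL

/-- the constant of the resolution -/
theorem geo_res_const {W : ℕ} (k : ℕ) :
    ((⌈(W : ℝ) / 2 ^ k⌉₊ : ℕ) : ℝ) * (((⌈(W : ℝ) / 2 ^ k⌉₊ : ℕ) : ℝ) - 1) ≤ 2 * (W : ℝ) ^ 2 * ((4 : ℝ) ^ k)⁻¹ := by
  set w : ℝ := (W : ℝ) / 2 ^ k with hw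
  have hw0 : 0 ≤ w := by positivity
  have e : 2 * (W : ℝ) ^ 2 * ((4 : ℝ) ^ k)⁻¹ = 2 * w * w := by
    rw [hw, show (4 : ℝ) ^ k = 2 ^ k * 2 ^ k by rw [← mul_pow]; norm_num]
    field_simp
  rw [e]
  have h1 : ((⌈w⌉₊ : ℕ) : ℝ) < w + 1 := Nat.ceil_lt_add_one hw0
  have h0 : (0 : ℝ) ≤ ((⌈w⌉₊ : ℕ) : ℝ) := Nat.cast_nonneg _
  rcases le_or_gt ((⌈w⌉₊ : ℕ) : ℝ) 1 with h2 | h2
  · have : ((⌈w⌉₊ : ℕ) : ℝ) * (((⌈w⌉₊ : ℕ) : ℝ) - 1) ≤ 0 :=
      mul_nonpos_of_nonneg_of_nonpos h0 (by linarith)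
    have : 0 ≤ 2 * w * w := by positivity
    linarith
  · have h3 : (2 : ℝ) ≤ ((⌈w⌉₊ : ℕ) : ℝ) := by
      have : 1 < ⌈w⌉₊ := by exact_mod_cast h2
      exact_mod_cast this
    have h4 : 1 < w := by linarith
    exact mul_le_mul (by linarith) (by linarith) (by linarith) (by linarith)

/-- **resolution.**   Plan: `L = ⌈W / 2^k⌉₊` (`W = 0`: the rectangle is empty).  Blocks `B (j₁,j₂) = {x ∈ D : (x.1 - p₁) / L = j₁, (x.2 - p₂) / L = j₂}`, `j₁, j₂ < 2^k` (`Fin (4^k) ≃ Fin (2^k) × Fin (2^k)`: `finProdFinEquiv`, `4^k = 2^k * 2^k`);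
every block is a rectangle `geoRect` with sides `≤ L`; they are disjoint and cover `D` (offsets `< W ≤ L 2^k`);  `geo_poincare_rect` on each block, `geo_en_sum_le`;
`L (L - 1) ≤ 2 W² / 4^k`:  `L - 1 < W/2^k`; if `L ≤ 1` the left side is `≤ 0`, otherwise `1 < W / 2^k` and `L < 2 W / 2^k`. -/
theorem geo_res_rect {p₁ q₁ p₂ q₂ : ℤ} {W : ℕ} (h₁ : q₁ - p₁ ≤ W) (h₂ : q₂ - p₂ ≤ W) (k : ℕ) :
    ∃ B : Fin (4 ^ k) → Finset (ℤ × ℤ), (∀ j, B j ⊆ geoRect p₁ q₁ p₂ q₂) ∧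
      ∀ f : ℤ × ℤ → ℝ, (∀ j, ∑ x ∈ B j, f x = 0) →
        ∑ x ∈ geoRect p₁ q₁ p₂ q₂, f x ^ 2 ≤ 2 * (W : ℝ) ^ 2 * ((4 : ℝ) ^ k)⁻¹ * geoEn (geoRect p₁ q₁ p₂ q₂) f := by
  rcases Nat.eq_zero_or_pos W with hW | hW
  · subst hW
    refine ⟨fun _ => ∅, fun _ => Finset.empty_subset _, fun f _ => ?_⟩
    have : geoRect p₁ q₁ p₂ q₂ = ∅ := by
      rw [geoRect, Finset.Ico_eq_empty (by simp at h₁; omega), Finset.empty_product]
    rw [this]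
    simp
  have hL : 0 < ⌈(W : ℝ) / 2 ^ k⌉₊ := Nat.ceil_pos.2 (by positivity)
  have hWL : (W : ℤ) ≤ ((⌈(W : ℝ) / 2 ^ k⌉₊ : ℕ) : ℤ) * ((2 ^ k : ℕ) : ℤ) := by
    have h := Nat.le_ceil ((W : ℝ) / 2 ^ k)
    rw [div_le_iff₀ (by positivity)] at h
    exact_mod_cast h
  set L := ⌈(W : ℝ) / 2 ^ k⌉₊ with hLdef
  let e : Fin (4 ^ k) ≃ Fin (2 ^ k) × Fin (2 ^ k) :=
    (finCongr (by rw [← mul_pow]; norm_num)).trans finProdFinEquiv.symm
  refine ⟨fun j => geoRect (p₁ + ((e j).1.1 : ℤ) * L) (min q₁ (p₁ + (((e j).1.1 : ℤ) + 1) * L))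
      (p₂ + ((e j).2.1 : ℤ) * L) (min q₂ (p₂ + (((e j).2.1 : ℤ) + 1) * L)), fun j x hx => ?_, fun f h0 => ?_⟩
  · rw [geo_mem_rect] at hx ⊢
    have a1 : (0 : ℤ) ≤ ((e j).1.1 : ℤ) * L := by positivity
    have a2 : (0 : ℤ) ≤ ((e j).2.1 : ℤ) * L := by positivity
    have b1 := lt_min_iff.1 hx.1.2
    have b2 := lt_min_iff.1 hx.2.2
    exact ⟨⟨by linarith [hx.1.1], b1.1⟩, ⟨by linarith [hx.2.1], b2.1⟩⟩
  · have h3 := geo_res_aux hL (h₁.trans hWL) (h₂.trans hWL) f fun j => by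
      have := h0 (e.symm j)
      simpa only [Equiv.apply_symm_apply] using this
    exact h3.trans (mul_le_mul_of_nonneg_right (geo_res_const k) (geo_en_nonneg _ _))

/-! ## D. cells of a product grid (`L-GEO-CELL`) -/

section cell

variable {m₁ m₂ : ℕ} (g : DGrid m₁ m₂)

theorem geo_cell_eq (κ : Fin m₁ × Fin m₂) :
    g.cell κ = geoRect (g.x₁ κ.1.castSucc) (g.x₁ κ.1.succ) (g.x₂ κ.2.castSucc) (g.x₂ κ.2.succ) := by
  rw [DGrid.cell, geoRect]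

theorem geo_adj_refl (κ : Fin m₁ × Fin m₂) : geoAdj κ κ := ⟨⟨by omega, by omega⟩, ⟨by omega, by omega⟩⟩

theorem geo_adj_symm {κ κ' : Fin m₁ × Fin m₂} (h : geoAdj κ κ') : geoAdj κ' κ := ⟨⟨h.1.2, h.1.1⟩, ⟨h.2.2, h.2.1⟩⟩

theorem geo_adj_iff (κ κ' : Fin m₁ × Fin m₂) : geoAdj κ κ' ↔ geoDist κ κ' ≤ 1 := by
  unfold geoAdj geoDist
  omega

theorem geo_dist_self (κ : Fin m₁ × Fin m₂) : geoDist κ κ = 0 := by
  unfold geoDist
  omega

theorem geo_dist_comm (κ κ' : Fin m₁ × Fin m₂) : geoDist κ κ' = geoDist κ' κ := by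
  unfold geoDist
  omega

theorem geo_dist_le_iff (κ κ' : Fin m₁ × Fin m₂) (r : ℕ) :
    geoDist κ κ' ≤ r ↔ (κ.1.1 ≤ κ'.1.1 + r ∧ κ'.1.1 ≤ κ.1.1 + r) ∧ (κ.2.1 ≤ κ'.2.1 + r ∧ κ'.2.1 ≤ κ.2.1 + r) := by
  unfold geoDist
  omega

theorem geo_dist_triangle (κ κ' κ'' : Fin m₁ × Fin m₂) : geoDist κ κ'' ≤ geoDist κ κ' + geoDist κ' κ'' := by
  have h1 := (geo_dist_le_iff κ κ' _).1 le_rfl
  have h2 := (geo_dist_le_iff κ' κ'' _).1 le_rfl
  rw [geo_dist_le_iff]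
  omega

/-- one coordinate: the interval of a point is unique, in the monotone form.   Plan: `g.mono₁`; if `i.1 + 1 ≤ i'.1` then `x₁ i.succ ≤ x₁ i'.castSucc`. -/
theorem geo_line_lt {m : ℕ} {x : Fin (m + 1) → ℤ} (hx : StrictMono x) {i i' : Fin m} {s t : ℤ}
    (hs : s < x i.succ) (ht : x i'.castSucc ≤ t) (hst : t ≤ s) : i'.1 ≤ i.1 := by
  have h1 : x i'.castSucc < x i.succ := by omega
  have h2 : i'.castSucc < i.succ := hx.lt_iff_lt.1 h1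
  have h3 : i'.castSucc.1 < i.succ.1 := h2
  simp only [Fin.val_castSucc, Fin.val_succ] at h3
  omega

theorem geo_line_le {m : ℕ} {x : Fin (m + 1) → ℤ} (hx : StrictMono x) {i i' : Fin m}
    (h : x i'.castSucc ≤ x i.succ) : i'.1 ≤ i.1 + 1 := by
  have h2 : i'.castSucc ≤ i.succ := hx.le_iff_le.1 h
  have h3 : i'.castSucc.1 ≤ i.succ.1 := h2
  simpa only [Fin.val_castSucc, Fin.val_succ] using h3

theorem geo_line_far {m : ℕ} {x : Fin (m + 1) → ℤ} (hx : StrictMono x) {ν : ℕ}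
    (hside : ∀ i : Fin m, (ν : ℤ) ≤ x i.succ - x i.castSucc) {i i' : Fin m} (h : i'.1 + 1 < i.1) {s t : ℤ}
    (hs : x i.castSucc ≤ s) (ht : t < x i'.succ) : (ν : ℤ) < s - t := by
  have hj : i'.1 + 1 < m := by have := i.2; omega
  have h1 := hside ⟨i'.1 + 1, hj⟩
  have e1 : (⟨i'.1 + 1, hj⟩ : Fin m).castSucc = i'.succ := Fin.ext rfl
  have h2 : x (⟨i'.1 + 1, hj⟩ : Fin m).succ ≤ x i.castSucc := by
    refine hx.monotone ?_
    show (⟨i'.1 + 1, hj⟩ : Fin m).succ.1 ≤ i.castSucc.1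
    simp only [Fin.val_castSucc, Fin.val_succ]
    omega
  rw [e1] at h1
  omega

theorem geo_mem_cell {κ : Fin m₁ × Fin m₂} {x : ℤ × ℤ} :
    x ∈ g.cell κ ↔ (g.x₁ κ.1.castSucc ≤ x.1 ∧ x.1 < g.x₁ κ.1.succ) ∧ (g.x₂ κ.2.castSucc ≤ x.2 ∧ x.2 < g.x₂ κ.2.succ) := by
  rw [DGrid.cell, Finset.mem_product, Finset.mem_Ico, Finset.mem_Ico]

/-- the cells are disjoint -/
theorem geo_cell_unique {κ κ' : Fin m₁ × Fin m₂} {x : ℤ × ℤ} (h : x ∈ g.cell κ) (h' : x ∈ g.cell κ') : κ = κ' := by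
  rw [geo_mem_cell] at h h'
  have a1 := geo_line_lt g.mono₁ h.1.2 h'.1.1 le_rfl
  have a2 := geo_line_lt g.mono₁ h'.1.2 h.1.1 le_rfl
  have b1 := geo_line_lt g.mono₂ h.2.2 h'.2.1 le_rfl
  have b2 := geo_line_lt g.mono₂ h'.2.2 h.2.1 le_rfl
  exact Prod.ext (Fin.ext (by omega)) (Fin.ext (by omega))

/-- the two ends of a bond lie in adjacent cells -/
theorem geo_cell_bond {κ κ' : Fin m₁ × Fin m₂} {e : Bond} (h : e.1 ∈ g.cell κ) (h' : e.snd ∈ g.cell κ') : geoAdj κ κ' := by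
  rw [geo_mem_cell] at h h'
  have c1 : e.1.1 ≤ e.snd.1 ∧ e.snd.1 ≤ e.1.1 + 1 ∧ e.1.2 ≤ e.snd.2 ∧ e.snd.2 ≤ e.1.2 + 1 := by
    unfold Bond.snd
    split_ifs <;> simp
  obtain ⟨c1, c2, c3, c4⟩ := c1
  have a1 := geo_line_lt g.mono₁ h'.1.2 h.1.1 c1
  have a2 := geo_line_le g.mono₁ (i := κ.1) (i' := κ'.1) (by omega)
  have b1 := geo_line_lt g.mono₂ h'.2.2 h.2.1 c3
  have b2 := geo_line_le g.mono₂ (i := κ.2) (i' := κ'.2) (by omega)
  exact ⟨⟨by omega, a2⟩, ⟨by omega, b2⟩⟩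

/-- a bond inside a cell crosses no coarse face -/
theorem geo_cell_not_cut (Γ : CGeom m₁ m₂) {κ : Fin m₁ × Fin m₂} {e : Bond} (h : e.1 ∈ g.cell κ) (h' : e.snd ∈ g.cell κ) : e ∉ Γ.cutB g := by
  rintro ⟨f, -, -, h1, h2⟩
  have := geo_cell_unique g h h1
  rw [← this] at h2
  exact h2 h'

theorem geo_cell_card (κ : Fin m₁ × Fin m₂) :
    ((g.cell κ).card : ℝ) = ((g.x₁ κ.1.succ - g.x₁ κ.1.castSucc : ℤ) : ℝ) * ((g.x₂ κ.2.succ - g.x₂ κ.2.castSucc : ℤ) : ℝ) := by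
  have h1 : g.x₁ κ.1.castSucc < g.x₁ κ.1.succ := g.mono₁ Fin.castSucc_lt_succ
  have h2 : g.x₂ κ.2.castSucc < g.x₂ κ.2.succ := g.mono₂ Fin.castSucc_lt_succ
  rw [DGrid.cell, Finset.card_product, Int.card_Ico, Int.card_Ico, Nat.cast_mul]
  have e : ∀ z : ℤ, 0 ≤ z → ((z.toNat : ℕ) : ℝ) = (z : ℝ) := by
    intro z hz
    have : ((z.toNat : ℕ) : ℤ) = z := Int.toNat_of_nonneg hz
    exact_mod_cast congrArg (fun t : ℤ => (t : ℝ)) this
  rw [e _ (by omega), e _ (by omega)]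

theorem geo_cell_card_ge {ν : ℕ} (hg : g.SideGe ν) (κ : Fin m₁ × Fin m₂) : (ν : ℝ) ^ 2 ≤ ((g.cell κ).card : ℝ) := by
  rw [geo_cell_card, sq]
  have h1 : (ν : ℝ) ≤ ((g.x₁ κ.1.succ - g.x₁ κ.1.castSucc : ℤ) : ℝ) := by exact_mod_cast hg.1 κ.1
  have h2 : (ν : ℝ) ≤ ((g.x₂ κ.2.succ - g.x₂ κ.2.castSucc : ℤ) : ℝ) := by exact_mod_cast hg.2 κ.2
  exact mul_le_mul h1 h2 (Nat.cast_nonneg _) (le_trans (Nat.cast_nonneg _) h1)

theorem geo_cell_card_le {W : ℕ} (hg : g.SideLe W) (κ : Fin m₁ × Fin m₂) : ((g.cell κ).card : ℝ) ≤ (W : ℝ) ^ 2 := by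
  rw [geo_cell_card, sq]
  have h1 : ((g.x₁ κ.1.succ - g.x₁ κ.1.castSucc : ℤ) : ℝ) ≤ (W : ℝ) := by exact_mod_cast hg.1 κ.1
  have h2 : ((g.x₂ κ.2.succ - g.x₂ κ.2.castSucc : ℤ) : ℝ) ≤ (W : ℝ) := by exact_mod_cast hg.2 κ.2
  have h3 : g.x₂ κ.2.castSucc < g.x₂ κ.2.succ := g.mono₂ Fin.castSucc_lt_succ
  have h4 : (0 : ℝ) ≤ ((g.x₂ κ.2.succ - g.x₂ κ.2.castSucc : ℤ) : ℝ) := by
    have : (0 : ℤ) ≤ g.x₂ κ.2.succ - g.x₂ κ.2.castSucc := by omega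
    exact_mod_cast this
  exact mul_le_mul h1 h2 h4 (Nat.cast_nonneg _)

theorem geo_cell_nonempty (κ : Fin m₁ × Fin m₂) : (g.cell κ).Nonempty := by
  refine ⟨(g.x₁ κ.1.castSucc, g.x₂ κ.2.castSucc), ?_⟩
  rw [geo_mem_cell]
  exact ⟨⟨le_rfl, g.mono₁ Fin.castSucc_lt_succ⟩, ⟨le_rfl, g.mono₂ Fin.castSucc_lt_succ⟩⟩

/-- points of non adjacent cells are at sup-distance `> ν` -/
theorem geo_cell_far {ν : ℕ} (hg : g.SideGe ν) {κ κ' : Fin m₁ × Fin m₂} (hn : ¬ geoAdj κ κ') {x y : ℤ × ℤ}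
    (hx : x ∈ g.cell κ) (hy : y ∈ g.cell κ') : (ν : ℝ) < dist x y := by
  rw [geo_mem_cell] at hx hy
  rw [Prod.dist_eq, lt_max_iff, Int.dist_eq, Int.dist_eq]
  have key : ∀ s t : ℤ, ((ν : ℤ) < s - t ∨ (ν : ℤ) < t - s) → (ν : ℝ) < |(s : ℝ) - (t : ℝ)| := by
    intro s t h
    rcases h with h | h
    · have : (ν : ℝ) < (s : ℝ) - (t : ℝ) := by exact_mod_cast h
      exact lt_of_lt_of_le this (le_abs_self _)
    · have : (ν : ℝ) < (t : ℝ) - (s : ℝ) := by exact_mod_cast h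
      rw [abs_sub_comm]
      exact lt_of_lt_of_le this (le_abs_self _)
  unfold geoAdj at hn
  have hcases : κ'.1.1 + 1 < κ.1.1 ∨ κ.1.1 + 1 < κ'.1.1 ∨ κ'.2.1 + 1 < κ.2.1 ∨ κ.2.1 + 1 < κ'.2.1 := by omega
  rcases hcases with h | h | h | h
  · exact Or.inl (key _ _ (Or.inl (geo_line_far g.mono₁ hg.1 h hx.1.1 hy.1.2)))
  · exact Or.inl (key _ _ (Or.inr (geo_line_far g.mono₁ hg.1 h hy.1.1 hx.1.2)))
  · exact Or.inr (key _ _ (Or.inl (geo_line_far g.mono₂ hg.2 h hx.2.1 hy.2.2)))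
  · exact Or.inr (key _ _ (Or.inr (geo_line_far g.mono₂ hg.2 h hy.2.1 hx.2.2)))

end cell

/-! ## E. cutoffs (`L-GEO-CUT`) -/

/-- the two ends of a bond are at distance one -/
theorem geo_dist_bond (e : Bond) : dist e.snd e.1 = 1 := by
  obtain ⟨⟨a, b⟩, c⟩ := e
  cases c <;> simp [Bond.snd, Prod.dist_eq]

/-- **Lipschitz cutoffs at the scale of one cell.**   Plan: `R = ⋃_{κ ∈ J} g.cell κ ⊆ ℤ²`.  `R = ∅`: `χ = 0`.  Otherwise `χ x = max 0 (1 - Metric.infDist x R / ν)`;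
`Metric.infDist_zero_of_mem`; `dist e.1 e.snd = 1` (sup metric of `ℤ × ℤ`, `Int.dist_eq`) and `|infDist x R - infDist y R| ≤ dist x y` (`Metric.lipschitz_infDist_pt` or `Metric.infDist_le_infDist_add_dist`), `max 0`, `1 - ·` are `1`-Lipschitz;
far cells: `ν ≤ infDist x R` by `Metric.le_infDist` (or `(Metric.le_infDist hne).2`) and `geo_cell_far`. -/
theorem geo_cutoff {m₁ m₂ : ℕ} (g : DGrid m₁ m₂) {ν : ℕ} (hν : 1 ≤ ν) (hg : g.SideGe ν) (J : Set (Fin m₁ × Fin m₂)) :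
    ∃ χ : ℤ × ℤ → ℝ, (∀ x, 0 ≤ χ x ∧ χ x ≤ 1) ∧ (∀ κ ∈ J, ∀ x ∈ g.cell κ, χ x = 1) ∧
      (∀ κ, (∀ κ' ∈ J, ¬ geoAdj κ κ') → ∀ x ∈ g.cell κ, χ x = 0) ∧
      (∀ e : Bond, (χ e.snd - χ e.1) ^ 2 ≤ ((ν : ℝ) ^ 2)⁻¹) ∧
      ∀ x y : ℤ × ℤ, |χ x - χ y| ≤ dist x y / ν := by
  have hν0 : (0 : ℝ) < ν := by exact_mod_cast hν
  -- the bound along bonds follows from the ambient Lipschitz bound
  suffices hs : ∃ χ : ℤ × ℤ → ℝ, (∀ x, 0 ≤ χ x ∧ χ x ≤ 1) ∧ (∀ κ ∈ J, ∀ x ∈ g.cell κ, χ x = 1) ∧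
      (∀ κ, (∀ κ' ∈ J, ¬ geoAdj κ κ') → ∀ x ∈ g.cell κ, χ x = 0) ∧ ∀ x y : ℤ × ℤ, |χ x - χ y| ≤ dist x y / ν by
    obtain ⟨χ, h1, h2, h3, h4⟩ := hs
    refine ⟨χ, h1, h2, h3, fun e => ?_, h4⟩
    have h5 := h4 e.snd e.1
    rw [geo_dist_bond, one_div] at h5
    rw [← sq_abs, ← inv_pow]
    exact pow_le_pow_left₀ (abs_nonneg _) h5 2
  set R : Set (ℤ × ℤ) := {x | ∃ κ ∈ J, x ∈ g.cell κ} with hR
  rcases R.eq_empty_or_nonempty with hE | hne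
  · refine ⟨fun _ => 0, fun _ => ⟨le_rfl, zero_le_one⟩, fun κ hκ x hx => ?_, fun _ _ _ _ => rfl, fun x y => ?_⟩
    · have : x ∈ R := ⟨κ, hκ, hx⟩
      rw [hE] at this
      exact this.elim
    · simp only [sub_self, abs_zero]
      positivity
  refine ⟨fun x => max 0 (1 - Metric.infDist x R / ν), fun x => ⟨le_max_left _ _, ?_⟩, fun κ hκ x hx => ?_,
    fun κ hκ x hx => ?_, fun x y => ?_⟩
  · refine max_le zero_le_one ?_
    have : 0 ≤ Metric.infDist x R / ν := div_nonneg Metric.infDist_nonneg hν0.le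
    linarith
  · have : Metric.infDist x R = 0 := Metric.infDist_zero_of_mem ⟨κ, hκ, hx⟩
    simp [this]
  · have h1 : (ν : ℝ) ≤ Metric.infDist x R := by
      refine (Metric.le_infDist hne).2 ?_
      rintro y ⟨κ', hκ', hy⟩
      exact (geo_cell_far g hg (hκ κ' hκ') hx hy).le
    have h2 : 1 ≤ Metric.infDist x R / ν := (one_le_div hν0).2 h1
    exact max_eq_left (by linarith)
  · have h1 : |max 0 (1 - Metric.infDist x R / ν) - max 0 (1 - Metric.infDist y R / ν)| ≤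
        |(1 - Metric.infDist x R / ν) - (1 - Metric.infDist y R / ν)| := by
      rw [max_comm 0, max_comm 0]
      exact abs_max_sub_max_le_abs _ _ _
    have a1 : Metric.infDist x R ≤ Metric.infDist y R + dist x y := Metric.infDist_le_infDist_add_dist
    have a2 : Metric.infDist y R ≤ Metric.infDist x R + dist x y := by
      have := Metric.infDist_le_infDist_add_dist (s := R) (x := y) (y := x)
      rwa [dist_comm] at this
    have h2 : |(1 - Metric.infDist x R / ν) - (1 - Metric.infDist y R / ν)| ≤ dist x y / ν := by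
      have e1 : (1 - Metric.infDist x R / ν) - (1 - Metric.infDist y R / ν) =
          (Metric.infDist y R - Metric.infDist x R) / (ν : ℝ) := by
        field_simp
        ring
      rw [e1, abs_div, abs_of_pos hν0]
      exact div_le_div_of_nonneg_right (abs_le.2 ⟨by linarith, by linarith⟩) hν0.le
    exact h1.trans h2

end

end Claimed.Agent.R285.Pot
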