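import Claimed.Agent.R285.Pot.LinDet

/-!
# ROW 285, POT-LIN : Parseval form of the Gaussian means; `gPin ≤ ½ ∑_j plGap (u_j)` over an orthonormal family of harmonic fields (helper83).   Paper-free.

`plHsp H a P Q` = fields vanishing on `P`, harmonic off `Q` (`P ⊆ Q`): the energy space of the data on `Q`.  It has a `plB`-orthonormal basis `u_j`, and for every linear `L` which kills the fields vanishing on `Q`:
`E_P form (L φ) = ∑_j form (L u_j)`.
-/

set_option autoImplicit false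

namespace Claimed.Agent.R285.Pot

open MeasureTheory ProbabilityTheory
open scoped Classical

noncomputable section

variable {G : HGraph} (H : HLaw G)

/-- fields vanishing on `P` and harmonic off `Q` -/
def plHsp (a : ℝ) (P Q : Set G.V) : Submodule ℝ (G.V → ℝ) where
  carrier := {u | (∀ x ∈ P, u x = 0) ∧ ∀ w : G.V → ℝ, (∀ x ∈ Q, w x = 0) → plB H a u w = 0}
  zero_mem' := ⟨fun _ _ => rfl, fun w _ => pl_B_zero_left H a w⟩
  add_mem' := by
    rintro u v ⟨hu1, hu2⟩ ⟨hv1, hv2⟩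
    exact ⟨fun x hx => by simp [hu1 x hx, hv1 x hx], fun w hw => by rw [pl_B_add_left, hu2 w hw, hv2 w hw, add_zero]⟩
  smul_mem' := by
    rintro t u ⟨hu1, hu2⟩
    exact ⟨fun x hx => by simp [hu1 x hx], fun w hw => by rw [pl_B_smul_left, hu2 w hw, mul_zero]⟩

/-- the form on `plHsp` -/
def plHform (a : ℝ) (P Q : Set G.V) : LinearMap.BilinForm ℝ (plHsp H a P Q) :=
  LinearMap.mk₂ ℝ (fun u v => plB H a (u : G.V → ℝ) (v : G.V → ℝ))
    (fun _ _ _ => pl_B_add_left H a _ _ _) (fun t _ _ => pl_B_smul_left H a t _ _)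
    (fun _ _ _ => pl_B_add_right H a _ _ _) (fun t _ _ => pl_B_smul_right H a t _ _)

theorem plHsp_eqns_cite : True := by
  have := @plHsp.eq_1; have := @plHform.eq_1; trivial

theorem pl_mem_Hsp (a : ℝ) (P Q : Set G.V) (u : G.V → ℝ) :
    u ∈ plHsp H a P Q ↔ (∀ x ∈ P, u x = 0) ∧ ∀ w : G.V → ℝ, (∀ x ∈ Q, w x = 0) → plB H a u w = 0 := Iff.rfl

/-- an orthonormal family with Parseval's identity -/
structure plONB (a : ℝ) (P Q : Set G.V) (n : ℕ) (u : Fin n → G.V → ℝ) : Prop where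
  mem : ∀ j, u j ∈ plHsp H a P Q
  orth : ∀ i j, plB H a (u i) (u j) = if i = j then 1 else 0
  parseval : ∀ z ∈ plHsp H a P Q, H.form a z = ∑ j, plB H a z (u j) ^ 2

/-- **existence of an orthonormal basis of the energy space of the data** -/
theorem pl_onb_exists {a : ℝ} (ha : 0 < a) {P : Set G.V} (h : plPD H P) (Q : Set G.V) :
    ∃ (n : ℕ) (u : Fin n → G.V → ℝ), plONB H a P Q n u := by
  have hsymm : LinearMap.IsSymm (plHform H a P Q) := ⟨fun u v => pl_B_comm H a _ _⟩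
  obtain ⟨v, hv⟩ := LinearMap.BilinForm.exists_orthogonal_basis hsymm
  have hpos : ∀ j, 0 < plB H a (v j : G.V → ℝ) (v j : G.V → ℝ) := by
    intro j
    rw [← pl_form_eq]
    refine lt_of_le_of_ne (pl_form_nonneg H ha _) fun h0 => v.ne_zero j ?_
    exact Subtype.ext (pl_PD_form H h ha (v j).2.1 h0.symm)
  have hort : ∀ i j, i ≠ j → plB H a (v i : G.V → ℝ) (v j : G.V → ℝ) = 0 := fun i j hij => hv hij
  set d : Fin _ → ℝ := fun j => plB H a (v j : G.V → ℝ) (v j : G.V → ℝ) with hd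
  refine ⟨_, fun j => (Real.sqrt (d j))⁻¹ • (v j : G.V → ℝ), ⟨fun j => (plHsp H a P Q).smul_mem _ (v j).2, ?_, ?_⟩⟩
  · intro i j
    rw [pl_B_smul_left, pl_B_smul_right]
    by_cases hij : i = j
    · subst hij
      have h1 : Real.sqrt (d i) * Real.sqrt (d i) = d i := Real.mul_self_sqrt (hpos i).le
      have h2 : Real.sqrt (d i) ≠ 0 := (Real.sqrt_pos.2 (hpos i)).ne'
      simp only [if_true]
      have : plB H a (v i : G.V → ℝ) (v i : G.V → ℝ) = Real.sqrt (d i) * Real.sqrt (d i) := h1.symm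
      rw [this]; field_simp
    · rw [hort i j hij]; simp [hij]
  · intro z hz
    set c := v.repr ⟨z, hz⟩ with hc
    have hz' : z = ∑ i, c i • (v i : G.V → ℝ) := by
      have := v.sum_repr ⟨z, hz⟩
      have h2 := congrArg (Subtype.val) this
      simp only [Submodule.coe_sum, Submodule.coe_smul] at h2
      exact h2.symm
    have hBsum : ∀ (s : Finset (Fin _)) (w : G.V → ℝ), plB H a (∑ i ∈ s, c i • (v i : G.V → ℝ)) w
        = ∑ i ∈ s, c i * plB H a (v i : G.V → ℝ) w := by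
      intro s w
      induction s using Finset.induction_on with
      | empty => simp [pl_B_zero_left]
      | insert x s hx ih => rw [Finset.sum_insert hx, Finset.sum_insert hx, pl_B_add_left, pl_B_smul_left, ih]
    have hBz : ∀ j, plB H a z (v j : G.V → ℝ) = c j * d j := by
      intro j
      rw [hz', hBsum, Finset.sum_eq_single j]
      · intro i _ hij; rw [hort i j hij, mul_zero]
      · intro hj; exact absurd (Finset.mem_univ j) hj
    have hform : H.form a z = ∑ j, c j * (c j * d j) := by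
      have e0 : plB H a z z = plB H a (∑ i, c i • (v i : G.V → ℝ)) z := by rw [← hz']
      rw [pl_form_eq, e0, hBsum]
      refine Finset.sum_congr rfl fun j _ => ?_
      rw [pl_B_comm, hBz]
    rw [hform]
    refine Finset.sum_congr rfl fun j _ => ?_
    rw [pl_B_smul_right, hBz]
    have h1 : Real.sqrt (d j) ^ 2 = d j := Real.sq_sqrt (hpos j).le
    have h2 : Real.sqrt (d j) ≠ 0 := (Real.sqrt_pos.2 (hpos j)).ne'
    rw [mul_pow, inv_pow, h1]
    have h3 : d j ≠ 0 := (hpos j).ne'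
    field_simp

/-- Parseval for the variance of a test which sees only the data on `Q` -/
theorem pl_gVar_eq_sum {a : ℝ} (ha : 0 < a) {P : Set G.V} (h : plPD H P) {Q : Set G.V} (hPQ : P ⊆ Q) {n : ℕ} {u : Fin n → G.V → ℝ}
    (hu : plONB H a P Q n u) {g : G.V → ℝ} (hg : ∀ w : G.V → ℝ, (∀ x ∈ Q, w x = 0) → HLaw.pair g w = 0) :
    (plPin H P).gVar a g = ∑ j, HLaw.pair g (u j) ^ 2 := by
  have hopt := pl_Gf_opt H ha h g
  have h0 := (pl_mem_rspan_pin H P _).1 hopt.1
  have hB : ∀ w : G.V → ℝ, (∀ x ∈ P, w x = 0) → plB H a (plGf H a P g) w = HLaw.pair g w := fun w hw => by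
    have := hopt.2 w ((pl_mem_rspan_pin H P w).2 hw)
    rwa [pl_pin_B] at this
  have hmem : plGf H a P g ∈ plHsp H a P Q := by
    refine ⟨h0, fun w hw => ?_⟩
    rw [hB w fun x hx => hw x (hPQ hx), hg w hw]
  rw [pl_gVar_eq_form _ ha hopt, pl_pin_form, hu.parseval _ hmem]
  exact Finset.sum_congr rfl fun j _ => by rw [hB _ (hu.mem j).1]

/-- **Parseval form of the Gaussian mean of an energy**: `L` kills the fields vanishing on `Q` -/
theorem pl_form_comp_mean_eq_sum {a : ℝ} (ha : 0 < a) {P : Set G.V} (h : plPD H P) {Q : Set G.V} (hPQ : P ⊆ Q) {n : ℕ}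
    {u : Fin n → G.V → ℝ} (hu : plONB H a P Q n u) (L : (G.V → ℝ) →ₗ[ℝ] (G.V → ℝ))
    (hL : ∀ w : G.V → ℝ, (∀ x ∈ Q, w x = 0) → L w = 0) :
    ∫ φ, H.form a (L φ) ∂plMeas H a P = ∑ j, H.form a (L (u j)) := by
  have hg : ∀ (f w : G.V → ℝ), (∀ x ∈ Q, w x = 0) → HLaw.pair (plPull L f) w = 0 := fun f w hw => by
    rw [← pl_pair_pull, hL w hw, pl_pair_zero_right]
  rw [pl_form_comp_mean H ha h]
  simp only [pl_form_comp_eq, pl_gVar_eq_sum H ha h hPQ hu (hg _)]
  rw [Finset.sum_add_distrib, ← Finset.mul_sum, Finset.sum_comm, Finset.sum_comm (s := (Finset.univ : Finset H.O))]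

theorem pl_gapL_of_zero {a : ℝ} (ha : 0 < a) {Q : Set G.V} (h : plPD H Q) (p : Set G.V) {w : G.V → ℝ} (hw : ∀ x ∈ Q, w x = 0) :
    plGapL H ha h p w = 0 := by
  have e1 : plRes Q w = 0 := by
    funext x
    by_cases hx : x ∈ Q
    · simp [plRes, hx, hw x hx]
    · simp [plRes, hx]
  have e2 : plHarm H a Q w = 0 := by
    rw [pl_harm_congr H ha h (u' := 0) hw, pl_harm_zero H ha h]
  show plHarm H a (Q ∪ p) (plRes Q w) - plHarm H a Q w = 0
  rw [e1, e2, pl_harm_zero H ha (pl_PD_mono H h Set.subset_union_left), sub_zero]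

/-- **`gPin ≤ ½ ∑_j plGap (u_j)`** for EVERY orthonormal basis of the energy space of the data on `P ∪ A` -/
theorem pl_gPin_le_sum_of_onb {a : ℝ} (ha : 0 < a) {P : Set G.V} (h : plPD H P) (A p : Set G.V) (hd : A ∩ p ⊆ P) {n : ℕ}
    {u : Fin n → G.V → ℝ} (hu : plONB H a P (P ∪ A) n u) :
    H.gPin a P A p ≤ (∑ j, plGap H a (P ∪ A) p (u j)) / 2 := by
  have hQ := pl_PD_mono H h (Set.subset_union_left (t := A))
  have h1 := pl_gPin_le_jensen H ha h p A (by rwa [Set.inter_comm])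
  rw [pl_gPin_symm] at h1
  simp only [pl_gap_eq_form_L H ha hQ] at h1 ⊢
  rwa [pl_form_comp_mean_eq_sum H ha h Set.subset_union_left hu _ fun w hw => pl_gapL_of_zero H ha hQ p hw] at h1

/-- **deterministic form of (J)**, general position of the sets -/
theorem pl_gPin_le_sum' {a : ℝ} (ha : 0 < a) {P : Set G.V} (h : plPD H P) (A p : Set G.V) (hd : A ∩ p ⊆ P) :
    ∃ (n : ℕ) (u : Fin n → G.V → ℝ), (∀ j, ∀ x ∈ P, u j x = 0) ∧
      (∀ j (w : G.V → ℝ), (∀ x ∈ P ∪ A, w x = 0) → plB H a (u j) w = 0) ∧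
      (∀ i j, plB H a (u i) (u j) = if i = j then 1 else 0) ∧
      H.gPin a P A p ≤ (∑ j, plGap H a (P ∪ A) p (u j)) / 2 := by
  obtain ⟨n, u, hu⟩ := pl_onb_exists H ha h (P ∪ A)
  exact ⟨n, u, fun j => (hu.mem j).1, fun j => (hu.mem j).2, hu.orth, pl_gPin_le_sum_of_onb H ha h A p hd hu⟩

/-! ## helper126's interface (statement VERBATIM as in his version 0caca32e6; his helper lemmas kept) -/

/-- data on `A`, extended by zero -/
def plZext (A : Set G.V) (g : {x : G.V // x ∈ A} → ℝ) : G.V → ℝ := fun x => if hx : x ∈ A then g ⟨x, hx⟩ else 0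

theorem plZext_eqns_cite : True := by have := @plZext.eq_1; trivial

theorem pl_zext_mem {A : Set G.V} (g : {x : G.V // x ∈ A} → ℝ) (x : {x : G.V // x ∈ A}) : plZext A g x.1 = g x := by
  simp [plZext, x.2]

theorem pl_zext_not_mem {A : Set G.V} (g : {x : G.V // x ∈ A} → ℝ) {x : G.V} (hx : x ∉ A) : plZext A g x = 0 := by
  simp [plZext, hx]

theorem pl_zext_add {A : Set G.V} (g g' : {x : G.V // x ∈ A} → ℝ) : plZext A (g + g') = plZext A g + plZext A g' := by
  funext x
  by_cases hx : x ∈ A <;> simp [plZext, hx]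

/-- polarisation of a quadratic identity -/
theorem pl_polar {a : ℝ} (ha : 0 < a) {P : Set G.V} (h : plPD H P) (A : Set G.V)
    (R : Matrix {x : G.V // x ∈ A} {x : G.V // x ∈ A} ℝ) (hR : R.PosDef)
    (hq : ∀ g : {x : G.V // x ∈ A} → ℝ, g ⬝ᵥ R.mulVec g = plEn H a P (plZext A g)) (g g' : {x : G.V // x ∈ A} → ℝ) :
    plB H a (plHarm H a P (plZext A g)) (plHarm H a P (plZext A g')) = g ⬝ᵥ R.mulVec g' := by
  have h1 := hq (g + g')
  rw [pl_zext_add, plEn, pl_harm_add H ha h, pl_form_add, ← plEn, ← plEn, ← hq g, ← hq g'] at h1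
  have hs : g' ⬝ᵥ R.mulVec g = g ⬝ᵥ R.mulVec g' := by
    have hT : R.transpose = R := by
      have := hR.isHermitian
      rwa [Matrix.IsHermitian, Matrix.conjTranspose_eq_transpose_of_trivial] at this
    rw [Matrix.dotProduct_mulVec, ← Matrix.mulVec_transpose, hT, dotProduct_comm]
  rw [Matrix.mulVec_add, add_dotProduct, dotProduct_add, dotProduct_add, hs] at h1
  linarith

/-- **`gPin ≤ ½ ∑_j plGap (u_j)`** for an orthonormal basis `u_j` of the fields vanishing on `P` and harmonic off `P ∪ A`.   (signature of helper126, POT-SEC-LOC) -/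
theorem pl_gPin_le_sum {a : ℝ} (ha : 0 < a) {P : Set G.V} (h : plPD H P) (A p : Set G.V)
    (hA : ∀ x ∈ A, x ∉ P) (hd : ∀ x ∈ A, x ∉ p) :
    ∃ (n : ℕ) (u : Fin n → G.V → ℝ), (∀ j, ∀ x ∈ P, u j x = 0) ∧
      (∀ j (w : G.V → ℝ), (∀ x ∈ P ∪ A, w x = 0) → plB H a (u j) w = 0) ∧
      (∀ i j, plB H a (u i) (u j) = if i = j then 1 else 0) ∧
      H.gPin a P A p ≤ (∑ j, plGap H a (P ∪ A) p (u j)) / 2 :=
  pl_gPin_le_sum' H ha h A p fun x hx => absurd hx.2 (hd x hx.1)

end

end Claimed.Agent.R285.Pot
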