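import Claimed.Agent.R285.Pot.DecGraph
import Claimed.Agent.R285.Pot.LinSum

/-!
# ROW 285, POT-DECAY × POT-LIN : the decay core applied to the Gaussian reference of ANY law `H : HLaw G` (architect helper126).   Paper-free, no sorry in this file.

`pdLawGr H P cel : PdGr G.V I` = the bonds of `G`, the observation rows of `H` (row `o` carried by the cell `cel o`), pins `P`.   Dictionary: `form = H.form a`, `bil = plB H a`, `Adm v ↔ v = 0 on P`.
**`pd_law_gPin_le`**: the Gaussian pin interaction of two sets of sites at distance `r` (in cells):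
`H.gPin a P A₁ p ≤ |Q| pdE(r) (M + (16/3)(2 K CR)²) / 2`,   `Q ⊇ nb⁴ (cells of p)`, `Q ⊆ {ρ ≥ r}`, `ρ = 0` on the cells of `A₁`.
Proof: `pl_gPin_le_sum` (determinants → orthonormal harmonic family), `pl_gap_le` (trial field `χ u_j`), `pd_trace_cut`.
-/

set_option autoImplicit false

namespace Claimed.Agent.R285.Pot

open scoped Classical

noncomputable section

variable {G : HGraph} (H : HLaw G) {I : Type} [Fintype I]

/-- the graph data of a law: bonds of `G`, rows of `H`, pins `P` -/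
def pdLawGr (P : Set G.V) (cel : H.O → I) : PdGr G.V I where
  E := G.E
  O := H.O
  src := G.src
  tgt := G.tgt
  B := H.B
  cel := cel
  pin := P

theorem pd_law_defs_cite : True := by
  have := @pdLawGr.eq_1; trivial

theorem pd_law_form (A : PdAmb G.V I) (P : Set G.V) (cel : H.O → I) {a : ℝ} (ha : 0 < a) (v : G.V → ℝ) :
    ((pdLawGr H P cel).sys A a).form v = H.form a v :=
  (pd_graph_form A (pdLawGr H P cel) ha v).trans (pl_form_expand H a v).symm

theorem pd_law_bil (A : PdAmb G.V I) (P : Set G.V) (cel : H.O → I) {a : ℝ} (ha : 0 < a) (v w : G.V → ℝ) :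
    ((pdLawGr H P cel).sys A a).bil v w = plB H a v w :=
  pd_graph_bil A (pdLawGr H P cel) ha v w

omit [Fintype I] in
theorem pd_law_adm (A : PdAmb G.V I) (P : Set G.V) (cel : H.O → I) (a : ℝ) (v : G.V → ℝ) :
    ((pdLawGr H P cel).sys A a).Adm v ↔ ∀ x ∈ P, v x = 0 := Iff.rfl

variable {H}

/-- real properness from the cell Poincaré inequality -/
theorem pd_law_PD {A : PdAmb G.V I} {P : Set G.V} {cel : H.O → I} {a σ CP K : ℝ} (ha : 0 < a)
    (h : PdOk A ((pdLawGr H P cel).sys A a) σ CP K) : plPD H P := fun v hv h1 h2 =>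
  pd_eq_zero_of_form h hv (by rw [pd_law_form H A P cel ha, (pl_form_eq_zero_iff H ha v).2 ⟨h1, h2⟩])

/-- **the Gaussian pin interaction of two far sets of sites.** -/
theorem pd_law_gPin_le {A : PdAmb G.V I} {P : Set G.V} {cel : H.O → I} {a σ CP K CR : ℝ} (ha : 0 < a)
    (h : PdOk A ((pdLawGr H P cel).sys A a) σ CP K) (hCR : 0 ≤ CR) (hR : PdRes A ((pdLawGr H P cel).sys A a) σ CR)
    (A₁ p : Set G.V) (hA : ∀ x ∈ A₁, x ∉ P)
    {ρ : I → ℕ} (hρ : A.Lay ρ) (h0 : ∀ i ∈ A.cellsV A₁, ρ i = 0) {r : ℕ} (hr : 1 ≤ r)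
    (Q : Finset I) (hQ : A.nb (A.nb (A.nb (A.nb (A.cellsV p)))) ⊆ (Q : Set I)) (hfar : (Q : Set I) ⊆ A.far ρ r) :
    H.gPin a P A₁ p ≤ Q.card * pdE CP K r * (pdM CP K + 16 / 3 * (2 * K * CR) ^ 2) / 2 := by
  have hPD : plPD H P := pd_law_PD ha h
  have hPA : plPD H (P ∪ A₁) := pl_PD_mono H hPD Set.subset_union_left
  -- the neighbourhood of the cells of `p` is far from the cells of `A₁`
  have hnb : ∀ x ∈ A₁, A.blk x ∉ A.nb (A.cellsV p) := fun x hx hmem => by
    have h1 : A.blk x ∈ A.far ρ r :=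
      hfar (hQ (pd_subset_nb h _ (pd_subset_nb h _ (pd_subset_nb h _ hmem))))
    have h2 : ρ (A.blk x) = 0 := h0 _ ⟨x, hx, rfl⟩
    have h3 : r ≤ ρ (A.blk x) := h1
    omega
  have hd : ∀ x ∈ A₁, x ∉ p := fun x hx hxp => hnb x hx (pd_subset_nb h _ ⟨x, hxp, rfl⟩)
  obtain ⟨n, u, huP, huo, hon, hle⟩ := pl_gPin_le_sum H ha hPD A₁ p hA hd
  have htr := pd_trace_cut h hCR hR (P := A₁) (J := A.cellsV p) hρ h0 hr Q hQ hfar u
    (fun j => ⟨huP j, fun φ hφ hφA => by
      rw [pd_law_bil H A P cel ha]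
      exact huo j φ fun x hx => hx.elim (hφ x) (hφA x)⟩)
    (fun i j => by rw [pd_law_bil H A P cel ha]; exact hon i j)
  have hgap : ∀ j, plGap H a (P ∪ A₁) p (u j) ≤ ((pdLawGr H P cel).sys A a).form (A.cut (A.cellsV p) * u j) := fun j => by
    rw [pd_law_form H A P cel ha]
    refine pl_gap_le H ha hPA p (u j) (fun x hx => ?_) (fun x hx _ => ?_)
    · rcases hx with hx | hx
      · rw [Pi.mul_apply, huP j x hx, mul_zero]
      · rw [Pi.mul_apply, h.amb.cut_zero _ x (hnb x hx), zero_mul]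
    · rw [Pi.mul_apply, h.amb.cut_one (A.cellsV p) x ⟨x, hx, rfl⟩, one_mul,
        ← pl_harm_unique H ha hPA (u j) (v := u j) (fun _ _ => rfl) (huo j)]
  have hsum : ∑ j, plGap H a (P ∪ A₁) p (u j) ≤ Q.card * pdE CP K r * (pdM CP K + 16 / 3 * (2 * K * CR) ^ 2) :=
    (Finset.sum_le_sum fun j _ => hgap j).trans htr
  linarith

end

end Claimed.Agent.R285.Pot
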