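import Claimed.Agent.R285.Pot.DecGreen

/-!
# ROW 285, POT-DECAY: SPLITTING THE AMBIENT DATA ALONG A UNION OF COMPONENTS      (helper226).   Mathlib only, paper-free, no sorry.

Geometry v2 of the marks (`EgWMark.Geo.far`): the core is deep in the interior only INSIDE a union `U` of components of the (restored) geometry; cells off `U` may touch the core across a wall.
So the ambient adjacency (sup-distance `≤ 1`) is too large.   `A.split U`: two cells are adjacent iff they are adjacent in `A` and lie on the same side of `U`;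
the cutoff of `J` is the cutoff of `J ∩ U` on the cells of `U` and the cutoff of `J \ U` off `U`.
**`pd_ok_split`**: if no row of `S` straddles `U`, all structure constants survive.   `l2, SuppIn, Carried, cellsV, sitesOf, PdRes, PdAgree, PdHarm` do not see the change (`rfl`).
`pd_ok_cutT'`, `pd_res_cutT`, `pd_res_addPin`: the resolution of the derived systems.
-/

set_option autoImplicit false

namespace Claimed.Agent.R285.Pot

open scoped Classical

noncomputable section

variable {V I : Type} [Fintype V] [Fintype I]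

/-- the ambient data split along the set of cells `U` -/
def PdAmb.split (A : PdAmb V I) (U : Set I) : PdAmb V I where
  blk := A.blk
  adj i j := A.adj i j ∧ (i ∈ U ↔ j ∈ U)
  cut J x := if A.blk x ∈ U then A.cut (J ∩ U) x else A.cut (J \ U) x

theorem pd_split_eqns_cite : True := by have := @PdAmb.split.eq_1; trivial

variable {A : PdAmb V I} {S : PdSys V I} {σ CP K : ℝ}

omit [Fintype V] [Fintype I] in
theorem pd_split_blk (A : PdAmb V I) (U : Set I) : (A.split U).blk = A.blk := rfl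

omit [Fintype I] in
theorem pd_split_l2 (A : PdAmb V I) (U : Set I) (J : Set I) (v : V → ℝ) : (A.split U).l2 J v = A.l2 J v := rfl

omit [Fintype V] [Fintype I] in
theorem pd_split_cut_of_mem (A : PdAmb V I) (U J : Set I) {x : V} (hx : A.blk x ∈ U) : (A.split U).cut J x = A.cut (J ∩ U) x := if_pos hx

omit [Fintype V] [Fintype I] in
theorem pd_split_cut_of_not_mem (A : PdAmb V I) (U J : Set I) {x : V} (hx : A.blk x ∉ U) : (A.split U).cut J x = A.cut (J \ U) x := if_neg hx

omit [Fintype V] [Fintype I] in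
theorem pd_split_amb_ok (h : A.Ok) (U : Set I) : (A.split U).Ok where
  adj_refl i := ⟨h.adj_refl i, Iff.rfl⟩
  adj_symm i j hij := ⟨h.adj_symm i j hij.1, hij.2.symm⟩
  cut_mem J x := by
    by_cases hx : A.blk x ∈ U
    · rw [pd_split_cut_of_mem A U J hx]; exact h.cut_mem _ x
    · rw [pd_split_cut_of_not_mem A U J hx]; exact h.cut_mem _ x
  cut_one J x hJ := by
    have hJ' : A.blk x ∈ J := hJ
    by_cases hx : A.blk x ∈ U
    · rw [pd_split_cut_of_mem A U J hx]; exact h.cut_one _ x ⟨hJ', hx⟩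
    · rw [pd_split_cut_of_not_mem A U J hx]; exact h.cut_one _ x ⟨hJ', hx⟩
  cut_zero J x hJ := by
    by_cases hx : A.blk x ∈ U
    · rw [pd_split_cut_of_mem A U J hx]
      refine h.cut_zero _ x ?_
      rintro ⟨j, hj, hadj⟩
      exact hJ ⟨j, hj.1, hadj, iff_of_true hx hj.2⟩
    · rw [pd_split_cut_of_not_mem A U J hx]
      refine h.cut_zero _ x ?_
      rintro ⟨j, hj, hadj⟩
      exact hJ ⟨j, hj.1, hadj, iff_of_false hx hj.2⟩

omit [Fintype I] in
theorem pd_l2_split_add (A : PdAmb V I) (U Y : Set I) (v : V → ℝ) : A.l2 (Y ∩ U) v + A.l2 (Y \ U) v = A.l2 Y v := by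
  unfold PdAmb.l2
  rw [← Finset.sum_add_distrib]
  refine Finset.sum_congr rfl fun x _ => ?_
  by_cases h1 : A.blk x ∈ Y <;> by_cases h2 : A.blk x ∈ U <;> simp [h1, h2]

/-- one of the two commutator sums, split along `U` -/
theorem pd_split_sum_le (S : PdSys V I) (U Y : Set I) (hU : ∀ t, S.cs t ⊆ U ∨ S.cs t ⊆ Uᶜ) (X X₁ X₂ : S.Tm → ℝ)
    (h₁ : ∀ t, 0 ≤ X₁ t) (h₂ : ∀ t, 0 ≤ X₂ t) (e₁ : ∀ t, S.cs t ⊆ U → X t = X₁ t) (e₂ : ∀ t, ¬ S.cs t ⊆ U → X t = X₂ t) :
    (∑ t, if S.cs t ⊆ Y then X t else 0) ≤ (∑ t, if S.cs t ⊆ Y ∩ U then X₁ t else 0) + ∑ t, if S.cs t ⊆ Y \ U then X₂ t else 0 := by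
  rw [← Finset.sum_add_distrib]
  refine Finset.sum_le_sum fun t _ => ?_
  have a₁ : 0 ≤ (if S.cs t ⊆ Y ∩ U then X₁ t else 0) := by split_ifs; exacts [h₁ t, le_rfl]
  have a₂ : 0 ≤ (if S.cs t ⊆ Y \ U then X₂ t else 0) := by split_ifs; exacts [h₂ t, le_rfl]
  by_cases hY : S.cs t ⊆ Y
  · rw [if_pos hY]
    by_cases ht : S.cs t ⊆ U
    · rw [if_pos (Set.subset_inter hY ht), e₁ t ht]
      linarith
    · have hc : S.cs t ⊆ Uᶜ := (hU t).resolve_left ht
      have hYU : S.cs t ⊆ Y \ U := fun i hi => ⟨hY hi, hc hi⟩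
      rw [if_pos hYU, e₂ t ht]
      linarith
  · rw [if_neg hY]
    exact add_nonneg a₁ a₂

/-- **the structure constants survive the splitting** -/
theorem pd_ok_split (h : PdOk A S σ CP K) (U : Set I) (hU : ∀ t, S.cs t ⊆ U ∨ S.cs t ⊆ Uᶜ) : PdOk (A.split U) S σ CP K where
  amb := pd_split_amb_ok h.amb U
  σ_pos := h.σ_pos
  CP_nonneg := h.CP_nonneg
  K_nonneg := h.K_nonneg
  supp := h.supp
  clique t i j hi hj := by
    refine ⟨h.clique t i j hi hj, ?_⟩
    rcases hU t with hc | hc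
    · exact iff_of_true (hc hi) (hc hj)
    · exact iff_of_false (hc hi) (hc hj)
  poincare := h.poincare
  com J := by
    obtain ⟨c₁, hc₁, a₁, b₁⟩ := h.com (J ∩ U)
    obtain ⟨c₂, hc₂, a₂, b₂⟩ := h.com (J \ U)
    have r₁ : ∀ (t : S.Tm) (k : ℕ) (v : V → ℝ), S.cs t ⊆ U →
        S.row (fun x => ((A.split U).cut J x - (if S.cs t ⊆ U then c₁ t else c₂ t)) ^ k * v x) t
          = S.row (fun x => (A.cut (J ∩ U) x - c₁ t) ^ k * v x) t := by
      intro t k v ht
      refine pd_row_congr h fun x hx => ?_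
      rw [pd_split_cut_of_mem A U J (ht hx), if_pos ht]
    have r₂ : ∀ (t : S.Tm) (k : ℕ) (v : V → ℝ), ¬ S.cs t ⊆ U →
        S.row (fun x => ((A.split U).cut J x - (if S.cs t ⊆ U then c₁ t else c₂ t)) ^ k * v x) t
          = S.row (fun x => (A.cut (J \ U) x - c₂ t) ^ k * v x) t := by
      intro t k v ht
      have hc : S.cs t ⊆ Uᶜ := (hU t).resolve_left ht
      refine pd_row_congr h fun x hx => ?_
      rw [pd_split_cut_of_not_mem A U J (hc hx), if_neg ht]
    refine ⟨fun t => if S.cs t ⊆ U then c₁ t else c₂ t, fun t => ?_, fun v Y => ?_, fun v Y => ?_⟩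
    · show 0 ≤ (if S.cs t ⊆ U then c₁ t else c₂ t) ∧ (if S.cs t ⊆ U then c₁ t else c₂ t) ≤ 1
      split_ifs
      · exact hc₁ t
      · exact hc₂ t
    · rw [pd_split_l2, ← pd_l2_split_add A U Y v, mul_add]
      refine (pd_split_sum_le S U Y hU _ (fun t => S.row (fun x => (A.cut (J ∩ U) x - c₁ t) * v x) t ^ 2)
        (fun t => S.row (fun x => (A.cut (J \ U) x - c₂ t) * v x) t ^ 2) (fun _ => sq_nonneg _) (fun _ => sq_nonneg _)
        (fun t ht => ?_) (fun t ht => ?_)).trans (add_le_add (a₁ v _) (a₂ v _))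
      · have := r₁ t 1 v ht
        simp only [pow_one] at this
        rw [this]
      · have := r₂ t 1 v ht
        simp only [pow_one] at this
        rw [this]
    · rw [pd_split_l2, ← pd_l2_split_add A U Y v, mul_add]
      refine (pd_split_sum_le S U Y hU _ (fun t => |S.row v t * S.row (fun x => (A.cut (J ∩ U) x - c₁ t) ^ 2 * v x) t|)
        (fun t => |S.row v t * S.row (fun x => (A.cut (J \ U) x - c₂ t) ^ 2 * v x) t|) (fun _ => abs_nonneg _) (fun _ => abs_nonneg _)
        (fun t ht => ?_) (fun t ht => ?_)).trans (add_le_add (b₁ v _) (b₂ v _))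
      · rw [r₁ t 2 v ht]
      · rw [r₂ t 2 v ht]

theorem pd_res_split {CR : ℝ} (hR : PdRes A S σ CR) (U : Set I) : PdRes (A.split U) S σ CR := hR

omit [Fintype I] in
theorem pd_agree_split {S' : PdSys V I} {Y : Set I} (hag : PdAgree A S S' Y) (U : Set I) : PdAgree (A.split U) S S' Y := hag

omit [Fintype V] [Fintype I] in
/-- layer functions of the split data: any layer function inside `U`, a constant outside -/
theorem pd_lay_split {ρ : I → ℕ} (hρ : A.Lay ρ) (U : Set I) (c : ℕ) : (A.split U).Lay fun i => if i ∈ U then ρ i else c := by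
  intro i j hij
  by_cases hi : i ∈ U
  · simp only [if_pos hi, if_pos (hij.2.1 hi)]
    exact hρ i j hij.1
  · have hj : j ∉ U := fun hj => hi (hij.2.2 hj)
    simp only [if_neg hi, if_neg hj]
    omega

omit [Fintype V] [Fintype I] in
/-- the neighbourhood of a set of cells of `U` stays in `U` -/
theorem pd_nb_split_subset {U J : Set I} (hJ : J ⊆ U) : (A.split U).nb J ⊆ U ∩ A.nb J := by
  rintro i ⟨j, hj, hadj⟩
  exact ⟨hadj.2.2 (hJ hj), j, hj, hadj.1⟩

/-! ## resolution of the derived systems -/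

theorem pd_cutT_enI_single (S : PdSys V I) (D : Set S.Tm) (hD : ∀ t ∈ D, ∀ i, ¬ S.cs t ⊆ {i}) (i : I) (v : V → ℝ) :
    (S.cutT D).enI {i} v = S.enI {i} v := by
  have h1 := pd_cutT_sum S D fun t => if S.cs t ⊆ {i} then S.row v t ^ 2 else 0
  unfold PdSys.enI
  refine Eq.trans ?_ (Eq.trans h1 ?_)
  · rfl
  · refine Finset.sum_congr rfl fun t _ => ?_
    by_cases ht : t ∈ D
    · simp [ht, hD t ht i]
    · simp [ht]

theorem pd_res_cutT {CR : ℝ} (hR : PdRes A S σ CR) (D : Set S.Tm) (hD : ∀ t ∈ D, ∀ i, ¬ S.cs t ⊆ {i}) : PdRes A (S.cutT D) σ CR := by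
  intro k i
  obtain ⟨ℓ, hℓ⟩ := hR k i
  refine ⟨ℓ, fun v hv h0 => ?_⟩
  rw [pd_cutT_enI_single S D hD]
  exact hℓ v hv h0

theorem pd_res_addPin {CR : ℝ} (hR : PdRes A S σ CR) (P : Set V) : PdRes A (S.addPin P) σ CR := by
  intro k i
  obtain ⟨ℓ, hℓ⟩ := hR k i
  exact ⟨ℓ, fun v hv h0 => hℓ v (fun x hx => hv x (Or.inl hx)) h0⟩

end

end Claimed.Agent.R285.Pot
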