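import Mathlib

/-!
# ROW 285, POT-DECAY, file 3/5: two INDEPENDENT lemmas of linear algebra / graph combinatorics.   Mathlib only, paper-free.   Architect helper111.

* J `L-PD-ROWSUM`  (5) of the mission, [B] l.1840-1889: a symmetric matrix with zero row sums and exponential off-diagonal decay is bounded by the nearest-neighbour Dirichlet form.
* K `L-PD-TRACE`   trace of a positive semidefinite matrix from bounds on subspaces of finite codimension (replaces min-max / singular values `s_j ≤ C N / j` of [S]L3.2).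
-/

set_option autoImplicit false

namespace Claimed.Agent.R285.Pot

open scoped Classical

noncomputable section

/-! ## J. zero row sums (`L-PD-ROWSUM`) -/

/-- the constant of `pd_rowsum` -/
def pdRowC (c V0 : ℝ) (p : ℕ) : ℝ := (2 / c) * (V0 * ∑' l : ℕ, ((1 : ℝ) + l) ^ p * Real.exp (-(c / 4) * l)) ^ 2

theorem pdRowC_summable (c : ℝ) (hc : 0 < c) (p : ℕ) : Summable fun l : ℕ => ((1 : ℝ) + l) ^ p * Real.exp (-(c / 4) * l) := by
  have h := Real.summable_pow_mul_exp_neg_nat_mul p (r := c / 4) (by positivity)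
  have h1 := ((summable_nat_add_iff 1).2 h).mul_left (Real.exp (c / 4))
  refine h1.congr fun l => ?_
  push_cast
  have e : Real.exp (-(c / 4) * ((l : ℝ) + 1)) = Real.exp (-(c / 4) * l) * Real.exp (-(c / 4)) := by
    rw [← Real.exp_add]; congr 1; ring
  have e2 : Real.exp (c / 4) * Real.exp (-(c / 4)) = 1 := by rw [← Real.exp_add]; simp
  rw [e, add_comm (l : ℝ) 1]
  linear_combination ((1 + (l : ℝ)) ^ p * Real.exp (-(c / 4) * l)) * e2

theorem pd_walk_abs {I : Type} (G : SimpleGraph I) (y : I → ℝ) {u v : I} (w : G.Walk u v) :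
    |y u - y v| ≤ (w.darts.map fun d => |y d.fst - y d.snd|).sum := by
  induction w with
  | nil => simp
  | @cons a b c' h w ih =>
    simp only [SimpleGraph.Walk.darts_cons, List.map_cons, List.sum_cons]
    exact (abs_sub_le (y a) (y b) (y c')).trans (add_le_add le_rfl ih)

theorem pd_geodesic {I : Type} (G : SimpleGraph I) (y : I → ℝ) {i j : I} (h : G.Reachable i j) :
    ∃ P : Finset (I × I), (∀ x ∈ P, G.Adj x.1 x.2 ∧ G.Reachable x.1 i ∧ G.Reachable x.1 j ∧
        G.dist x.1 i ≤ G.dist i j ∧ G.dist x.1 j ≤ G.dist i j) ∧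
      (y i - y j) ^ 2 ≤ G.dist i j * ∑ x ∈ P, (y x.1 - y x.2) ^ 2 := by
  obtain ⟨w, hw⟩ := h.exists_walk_length_eq_dist
  have hpath := w.isPath_of_length_eq_dist hw
  have hnd : (w.darts.map SimpleGraph.Dart.toProd).Nodup :=
    (SimpleGraph.Walk.darts_nodup_of_support_nodup hpath.support_nodup).map SimpleGraph.Dart.toProd_injective
  refine ⟨(w.darts.map SimpleGraph.Dart.toProd).toFinset, ?_, ?_⟩
  · intro x hx
    rw [List.mem_toFinset, List.mem_map] at hx
    obtain ⟨d, hd, rfl⟩ := hx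
    have hs := w.dart_fst_mem_support_of_mem_darts hd
    refine ⟨d.adj, (w.takeUntil _ hs).reachable.symm, (w.dropUntil _ hs).reachable, ?_, ?_⟩
    · rw [SimpleGraph.dist_comm, ← hw]
      exact (SimpleGraph.dist_le (w.takeUntil _ hs)).trans (w.length_takeUntil_le_length hs)
    · rw [← hw]
      exact (SimpleGraph.dist_le (w.dropUntil _ hs)).trans (w.length_dropUntil_le_length hs)
  · have h1 := pd_walk_abs G y w
    have e1 : (w.darts.map fun d => |y d.fst - y d.snd|).sum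
        = ∑ x ∈ (w.darts.map SimpleGraph.Dart.toProd).toFinset, |y x.1 - y x.2| := by
      rw [List.sum_toFinset _ hnd, List.map_map]
      rfl
    rw [e1] at h1
    have hcard : (w.darts.map SimpleGraph.Dart.toProd).toFinset.card = G.dist i j := by
      rw [List.toFinset_card_of_nodup hnd, List.length_map, SimpleGraph.Walk.length_darts, hw]
    have h2 := sq_sum_le_card_mul_sum_sq (s := (w.darts.map SimpleGraph.Dart.toProd).toFinset)
      (f := fun x : I × I => |y x.1 - y x.2|)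
    rw [hcard] at h2
    simp only [sq_abs] at h2
    refine le_trans ?_ h2
    rw [← sq_abs (y i - y j)]
    exact pow_le_pow_left₀ (abs_nonneg _) h1 2

theorem pd_ball_sum {I : Type} [Fintype I] (G : SimpleGraph I) {c V0 : ℝ} {p : ℕ} (hc : 0 < c)
    (hvol : ∀ (i : I) (l : ℕ), ((Finset.univ.filter fun j => G.Reachable i j ∧ G.dist i j ≤ l).card : ℝ) ≤ V0 * ((1 : ℝ) + l) ^ p)
    (x : I) :
    ∑ i, (if G.Reachable x i then Real.exp (-(c / 4) * G.dist x i) else 0)
      ≤ V0 * ∑' l : ℕ, ((1 : ℝ) + l) ^ p * Real.exp (-(c / 4) * l) := by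
  have hV0 : 0 ≤ V0 := by
    have := hvol x 0
    simp only [Nat.cast_zero, add_zero, one_pow, mul_one] at this
    exact le_trans (Nat.cast_nonneg _) this
  rw [← Finset.sum_filter, Finset.sum_comp (fun l : ℕ => Real.exp (-(c / 4) * l)) (fun i => G.dist x i)]
  calc _ ≤ ∑ b ∈ Finset.image (fun i => G.dist x i) (Finset.univ.filter fun i => G.Reachable x i),
        V0 * (((1 : ℝ) + b) ^ p * Real.exp (-(c / 4) * b)) := by
        refine Finset.sum_le_sum fun b _ => ?_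
        rw [nsmul_eq_mul, ← mul_assoc]
        refine mul_le_mul_of_nonneg_right (le_trans ?_ (hvol x b)) (Real.exp_pos _).le
        refine Nat.cast_le.2 (Finset.card_le_card fun a ha => ?_)
        simp only [Finset.mem_filter, Finset.mem_univ, true_and] at ha ⊢
        exact ⟨ha.1, ha.2.le⟩
    _ = V0 * ∑ b ∈ Finset.image (fun i => G.dist x i) (Finset.univ.filter fun i => G.Reachable x i),
        (((1 : ℝ) + b) ^ p * Real.exp (-(c / 4) * b)) := by rw [Finset.mul_sum]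
    _ ≤ _ := by
        refine mul_le_mul_of_nonneg_left ?_ hV0
        exact (pdRowC_summable c hc p).sum_le_tsum _ fun l _ => by positivity

theorem pd_exp_aux {c : ℝ} (hc : 0 < c) (l a b : ℕ) (ha : a ≤ l) (hb : b ≤ l) :
    Real.exp (-c * l) * l ≤ (2 / c) * (Real.exp (-(c / 4) * a) * Real.exp (-(c / 4) * b)) := by
  have hl : (0 : ℝ) ≤ l := Nat.cast_nonneg _
  have ha' : (a : ℝ) ≤ l := Nat.cast_le.2 ha
  have hb' : (b : ℝ) ≤ l := Nat.cast_le.2 hb
  have h1 : c / 2 * l ≤ Real.exp (c / 2 * l) := by linarith [Real.add_one_le_exp (c / 2 * l)]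
  have e1 : Real.exp (-c * l) = Real.exp (-(c / 2) * l) * Real.exp (-(c / 2) * l) := by
    rw [← Real.exp_add]; congr 1; ring
  have e2 : Real.exp (c / 2 * l) * Real.exp (-(c / 2) * l) = 1 := by
    rw [← Real.exp_add]; simp
  have h2 : Real.exp (-(c / 2) * l) * l ≤ 2 / c := by
    rw [le_div_iff₀ hc]
    have := mul_le_mul_of_nonneg_right h1 (Real.exp_pos (-(c / 2) * l)).le
    rw [e2] at this
    linarith
  have h3 : Real.exp (-(c / 2) * l) ≤ Real.exp (-(c / 4) * a) * Real.exp (-(c / 4) * b) := by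
    rw [← Real.exp_add]
    refine Real.exp_le_exp.2 ?_
    have t1 : c / 4 * a ≤ c / 4 * l := mul_le_mul_of_nonneg_left ha' (by positivity)
    have t2 : c / 4 * b ≤ c / 4 * l := mul_le_mul_of_nonneg_left hb' (by positivity)
    linarith
  calc Real.exp (-c * l) * l = (Real.exp (-(c / 2) * l) * l) * Real.exp (-(c / 2) * l) := by rw [e1]; ring
    _ ≤ (2 / c) * (Real.exp (-(c / 4) * a) * Real.exp (-(c / 4) * b)) :=
      mul_le_mul h2 h3 (Real.exp_pos _).le (by positivity)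

/-- **(5) zero row sums.**   `yᵀFy = -½ ∑_{ij} F_ij (y_i - y_j)²`;  along a geodesic walk `(y_i - y_j)² ≤ d(i,j) ∑_{darts of the walk} (∇y)²`;  a dart `(p,q)` of a geodesic from `i` to `j` has `d(i,p), d(j,p) ≤ d(i,j)`,
so `l e^{-cl} ≤ (2/c) e^{-cl/2} ≤ (2/c) e^{-c d(i,p)/4} e^{-c d(j,p)/4}` (`l = d(i,j)`), and `∑_i e^{-c d(i,p)/4} ≤ V0 ∑_l (1+l)^p e^{-cl/4}` (spheres inside balls).
The right side counts every edge twice (both orientations); the factor ½ of the identity is not used. -/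
theorem pd_rowsum {I : Type} [Fintype I] (G : SimpleGraph I) {c V0 δ : ℝ} {p : ℕ} (hc : 0 < c) (hδ : 0 ≤ δ)
    (hvol : ∀ (i : I) (l : ℕ), ((Finset.univ.filter fun j => G.Reachable i j ∧ G.dist i j ≤ l).card : ℝ) ≤ V0 * ((1 : ℝ) + l) ^ p)
    (F : I → I → ℝ) (hsym : ∀ i j, F i j = F j i) (hrow : ∀ i, ∑ j, F i j = 0)
    (hcomp : ∀ i j, ¬ G.Reachable i j → F i j = 0) (hdec : ∀ i j, |F i j| ≤ δ * Real.exp (-c * G.dist i j)) (y : I → ℝ) :
    |∑ i, ∑ j, F i j * y i * y j| ≤ pdRowC c V0 p * δ * ∑ i, ∑ j, if G.Adj i j then (y i - y j) ^ 2 else 0 := by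
  obtain ⟨W, hW⟩ : ∃ W : ℝ, W = V0 * ∑' l : ℕ, ((1 : ℝ) + l) ^ p * Real.exp (-(c / 4) * l) := ⟨_, rfl⟩
  obtain ⟨a, ha⟩ : ∃ a : I → I → ℝ, a = fun x i => if G.Reachable x i then Real.exp (-(c / 4) * G.dist x i) else 0 := ⟨_, rfl⟩
  obtain ⟨E, hE⟩ : ∃ E : I × I → ℝ, E = fun x => if G.Adj x.1 x.2 then (y x.1 - y x.2) ^ 2 else 0 := ⟨_, rfl⟩
  have ha0 : ∀ x i, 0 ≤ a x i := fun x i => by
    rw [ha]; dsimp only; split_ifs
    · exact (Real.exp_pos _).le
    · exact le_rfl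
  have hE0 : ∀ x, 0 ≤ E x := fun x => by
    rw [hE]; dsimp only; split_ifs
    · exact sq_nonneg _
    · exact le_rfl
  have haW : ∀ x, ∑ i, a x i ≤ W := fun x => by
    rw [ha, hW]; exact pd_ball_sum G hc hvol x
  have hsumE : ∑ i, ∑ j, (if G.Adj i j then (y i - y j) ^ 2 else 0) = ∑ x, E x := by
    rw [hE, Fintype.sum_prod_type]
  -- Step 1
  have h1 : ∑ i, ∑ j, F i j * (y i - y j) ^ 2 = -2 * ∑ i, ∑ j, F i j * y i * y j := by
    have t1 : ∑ i, ∑ j, F i j * y i ^ 2 = 0 := by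
      refine Finset.sum_eq_zero fun i _ => ?_
      rw [← Finset.sum_mul, hrow, zero_mul]
    have t2 : ∑ i, ∑ j, F i j * y j ^ 2 = 0 := by
      rw [Finset.sum_comm]
      refine Finset.sum_eq_zero fun j _ => ?_
      rw [← Finset.sum_mul]
      have : ∑ i, F i j = ∑ i, F j i := Finset.sum_congr rfl fun i _ => hsym i j
      rw [this, hrow, zero_mul]
    have t3 : ∑ i, ∑ j, F i j * (y i - y j) ^ 2
        = ∑ i, ∑ j, F i j * y i ^ 2 + -2 * ∑ i, ∑ j, F i j * y i * y j + ∑ i, ∑ j, F i j * y j ^ 2 := by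
      rw [Finset.mul_sum, ← Finset.sum_add_distrib, ← Finset.sum_add_distrib]
      refine Finset.sum_congr rfl fun i _ => ?_
      rw [Finset.mul_sum, ← Finset.sum_add_distrib, ← Finset.sum_add_distrib]
      exact Finset.sum_congr rfl fun j _ => by ring
    rw [t3, t1, t2]; ring
  -- Step 2
  have h2 : ∀ i j, |F i j| * (y i - y j) ^ 2 ≤ δ * (2 / c) * ∑ x, a x.1 i * a x.1 j * E x := by
    intro i j
    have hR0 : 0 ≤ δ * (2 / c) * ∑ x, a x.1 i * a x.1 j * E x := by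
      refine mul_nonneg (by positivity) (Finset.sum_nonneg fun x _ => ?_)
      exact mul_nonneg (mul_nonneg (ha0 _ _) (ha0 _ _)) (hE0 _)
    by_cases hr : G.Reachable i j
    · obtain ⟨P, hP, hy⟩ := pd_geodesic G y hr
      have s1 : |F i j| * (y i - y j) ^ 2
          ≤ δ * Real.exp (-c * G.dist i j) * (G.dist i j * ∑ x ∈ P, (y x.1 - y x.2) ^ 2) :=
        mul_le_mul (hdec i j) hy (sq_nonneg _) (by positivity)
      have s2 : δ * Real.exp (-c * G.dist i j) * (G.dist i j * ∑ x ∈ P, (y x.1 - y x.2) ^ 2)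
          = δ * ∑ x ∈ P, (Real.exp (-c * G.dist i j) * G.dist i j) * (y x.1 - y x.2) ^ 2 := by
        rw [← Finset.mul_sum]; ring
      have s3 : ∑ x ∈ P, (Real.exp (-c * G.dist i j) * G.dist i j) * (y x.1 - y x.2) ^ 2
          ≤ ∑ x ∈ P, (2 / c) * (a x.1 i * a x.1 j * E x) := by
        refine Finset.sum_le_sum fun x hx => ?_
        obtain ⟨p1, p2, p3, p4, p5⟩ := hP x hx
        have e1 : a x.1 i = Real.exp (-(c / 4) * G.dist x.1 i) := by rw [ha]; exact if_pos p2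
        have e2 : a x.1 j = Real.exp (-(c / 4) * G.dist x.1 j) := by rw [ha]; exact if_pos p3
        have e3 : E x = (y x.1 - y x.2) ^ 2 := by rw [hE]; exact if_pos p1
        rw [e1, e2, e3, ← mul_assoc]
        exact mul_le_mul_of_nonneg_right (pd_exp_aux hc _ _ _ p4 p5) (sq_nonneg _)
      have s4 : ∑ x ∈ P, (2 / c) * (a x.1 i * a x.1 j * E x) ≤ ∑ x, (2 / c) * (a x.1 i * a x.1 j * E x) :=
        Finset.sum_le_sum_of_subset_of_nonneg (Finset.subset_univ _) fun x _ _ =>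
          mul_nonneg (by positivity) (mul_nonneg (mul_nonneg (ha0 _ _) (ha0 _ _)) (hE0 _))
      rw [s2] at s1
      refine s1.trans ?_
      rw [mul_assoc, Finset.mul_sum (a := 2 / c)]
      exact mul_le_mul_of_nonneg_left (s3.trans s4) hδ
    · rw [hcomp i j hr]
      simpa using hR0
  -- Step 3
  have h3 : ∑ i, ∑ j, ∑ x, a x.1 i * a x.1 j * E x ≤ W ^ 2 * ∑ x, E x := by
    have e : ∑ i, ∑ j, ∑ x, a x.1 i * a x.1 j * E x = ∑ x, (∑ i, a x.1 i) * (∑ j, a x.1 j) * E x := by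
      have e1 : ∀ i, ∑ j, ∑ x, a x.1 i * a x.1 j * E x = ∑ x, ∑ j, a x.1 i * a x.1 j * E x := fun i => Finset.sum_comm
      simp only [e1]
      rw [Finset.sum_comm]
      refine Finset.sum_congr rfl fun x _ => ?_
      rw [Finset.sum_mul_sum, Finset.sum_mul]
      refine Finset.sum_congr rfl fun i _ => ?_
      rw [Finset.sum_mul]
    rw [e, Finset.mul_sum]
    refine Finset.sum_le_sum fun x _ => mul_le_mul_of_nonneg_right ?_ (hE0 x)
    have hs0 : 0 ≤ ∑ i, a x.1 i := Finset.sum_nonneg fun i _ => ha0 _ _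
    rw [sq]
    exact mul_le_mul (haW _) (haW _) hs0 (hs0.trans (haW _))
  have hEs : 0 ≤ ∑ x, E x := Finset.sum_nonneg fun x _ => hE0 x
  have h4 : |∑ i, ∑ j, F i j * (y i - y j) ^ 2| ≤ δ * (2 / c) * (W ^ 2 * ∑ x, E x) := by
    calc |∑ i, ∑ j, F i j * (y i - y j) ^ 2| ≤ ∑ i, |∑ j, F i j * (y i - y j) ^ 2| := Finset.abs_sum_le_sum_abs _ _
      _ ≤ ∑ i, ∑ j, |F i j * (y i - y j) ^ 2| := Finset.sum_le_sum fun i _ => Finset.abs_sum_le_sum_abs _ _
      _ = ∑ i, ∑ j, |F i j| * (y i - y j) ^ 2 := by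
        refine Finset.sum_congr rfl fun i _ => Finset.sum_congr rfl fun j _ => ?_
        rw [abs_mul, abs_of_nonneg (sq_nonneg (y i - y j))]
      _ ≤ ∑ i, ∑ j, δ * (2 / c) * ∑ x, a x.1 i * a x.1 j * E x :=
        Finset.sum_le_sum fun i _ => Finset.sum_le_sum fun j _ => h2 i j
      _ = δ * (2 / c) * ∑ i, ∑ j, ∑ x, a x.1 i * a x.1 j * E x := by
        rw [Finset.mul_sum]
        exact Finset.sum_congr rfl fun i _ => by rw [Finset.mul_sum]
      _ ≤ _ := mul_le_mul_of_nonneg_left h3 (by positivity)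
  rw [hsumE]
  have e5 : ∑ i, ∑ j, F i j * y i * y j = -(1 / 2) * ∑ i, ∑ j, F i j * (y i - y j) ^ 2 := by rw [h1]; ring
  rw [e5, abs_mul]
  have e6 : |(-(1 / 2) : ℝ)| = 1 / 2 := by rw [abs_neg]; norm_num
  rw [e6]
  have e7 : pdRowC c V0 p * δ * ∑ x, E x = δ * (2 / c) * (W ^ 2 * ∑ x, E x) := by
    unfold pdRowC; rw [← hW]; ring
  rw [e7]
  have := abs_nonneg (∑ i, ∑ j, F i j * (y i - y j) ^ 2)
  linarith

/-! ## K. traces (`L-PD-TRACE`) -/

theorem pd_spectral {n : ℕ} (Q : Matrix (Fin n) (Fin n) ℝ) (hQ : Q.IsHermitian) :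
    ∃ (U : Matrix (Fin n) (Fin n) ℝ) (lam : Fin n → ℝ), U.transpose * U = 1 ∧ Q = U * Matrix.diagonal lam * U.transpose ∧
      Q.trace = ∑ i, lam i := by
  refine ⟨hQ.eigenvectorUnitary, hQ.eigenvalues, ?_, ?_, ?_⟩
  · have := (Matrix.mem_unitaryGroup_iff' (A := (hQ.eigenvectorUnitary : Matrix (Fin n) (Fin n) ℝ))).1 hQ.eigenvectorUnitary.2
    simpa [Matrix.star_eq_conjTranspose, Matrix.conjTranspose_eq_transpose_of_trivial] using this
  · have := hQ.spectral_theorem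
    rw [Unitary.conjStarAlgAut_apply] at this
    simpa [Matrix.star_eq_conjTranspose, Matrix.conjTranspose_eq_transpose_of_trivial] using this
  · have := hQ.trace_eq_sum_eigenvalues
    simpa using this

/-- quadratic form in the eigenbasis -/
theorem pd_quad_diag {n : ℕ} (U : Matrix (Fin n) (Fin n) ℝ) (lam a : Fin n → ℝ) (hU : U.transpose * U = 1) :
    (U.mulVec a) ⬝ᵥ (U * Matrix.diagonal lam * U.transpose).mulVec (U.mulVec a) = ∑ i, lam i * a i ^ 2 ∧
      (U.mulVec a) ⬝ᵥ (U.mulVec a) = ∑ i, a i ^ 2 := by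
  have e0 : ∀ b : Fin n → ℝ, (U.mulVec a) ⬝ᵥ (U.mulVec b) = a ⬝ᵥ b := by
    intro b
    rw [Matrix.dotProduct_mulVec, Matrix.vecMul_mulVec, hU, Matrix.vecMul_one]
  constructor
  · have e1 : (U * Matrix.diagonal lam * U.transpose).mulVec (U.mulVec a) = U.mulVec ((Matrix.diagonal lam).mulVec a) := by
      rw [Matrix.mulVec_mulVec, Matrix.mul_assoc, hU, Matrix.mul_one, ← Matrix.mulVec_mulVec]
    rw [e1, e0]
    simp only [dotProduct, Matrix.mulVec_diagonal]
    exact Finset.sum_congr rfl fun i _ => by ring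
  · rw [e0]
    simp only [dotProduct]
    exact Finset.sum_congr rfl fun i _ => by ring

/-- min-max without ordering: at most `m` eigenvalues exceed a bound valid on the kernel of `m` functionals -/
theorem pd_count_le {n m : ℕ} (U : Matrix (Fin n) (Fin n) ℝ) (lam : Fin n → ℝ) (hU : U.transpose * U = 1) (κ : ℝ)
    (ℓ : Fin m → (Fin n → ℝ) →ₗ[ℝ] ℝ)
    (hk : ∀ c : Fin n → ℝ, (∀ j, ℓ j c = 0) → c ⬝ᵥ (U * Matrix.diagonal lam * U.transpose).mulVec c ≤ κ * (c ⬝ᵥ c)) :
    (Finset.univ.filter fun i => κ < lam i).card ≤ m := by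
  by_contra hcon
  push Not at hcon
  obtain ⟨s, hs⟩ : ∃ s : Finset (Fin n), s = Finset.univ.filter fun i => κ < lam i := ⟨_, rfl⟩
  rw [← hs] at hcon
  let T : (Fin n → ℝ) →ₗ[ℝ] (Fin m ⊕ {i : Fin n // i ∉ s} → ℝ) :=
    LinearMap.pi (Sum.elim (fun j => (ℓ j).comp (Matrix.mulVecLin U)) (fun i => LinearMap.proj i.1))
  have hdim : Module.finrank ℝ (Fin m ⊕ {i : Fin n // i ∉ s} → ℝ) < Module.finrank ℝ (Fin n → ℝ) := by
    rw [Module.finrank_fintype_fun_eq_card, Module.finrank_fintype_fun_eq_card, Fintype.card_sum, Fintype.card_fin,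
      Fintype.card_fin, Fintype.card_subtype_compl, Fintype.card_fin, Fintype.card_coe]
    have : s.card ≤ n := by simpa using Finset.card_le_univ s
    omega
  have hker := LinearMap.ker_ne_bot_of_finrank_lt (f := T) hdim
  obtain ⟨a, ha, ha0⟩ := (Submodule.ne_bot_iff _).1 hker
  rw [LinearMap.mem_ker] at ha
  have h1 : ∀ j, ℓ j (U.mulVec a) = 0 := fun j => by
    have := congrFun ha (Sum.inl j)
    simpa [T] using this
  have h2 : ∀ i, i ∉ s → a i = 0 := fun i hi => by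
    have := congrFun ha (Sum.inr ⟨i, hi⟩)
    simpa [T] using this
  have h3 := hk _ h1
  obtain ⟨q1, q2⟩ := pd_quad_diag U lam a hU
  rw [q1, q2, Finset.mul_sum] at h3
  obtain ⟨i0, hi0⟩ : ∃ i, a i ≠ 0 := by
    by_contra hall
    push Not at hall
    exact ha0 (funext hall)
  have hi0s : i0 ∈ s := by
    by_contra h
    exact hi0 (h2 i0 h)
  have hlt : ∑ i, κ * a i ^ 2 < ∑ i, lam i * a i ^ 2 := by
    refine Finset.sum_lt_sum (fun i _ => ?_) ⟨i0, Finset.mem_univ _, ?_⟩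
    · by_cases hi : i ∈ s
      · rw [hs, Finset.mem_filter] at hi
        exact mul_le_mul_of_nonneg_right hi.2.le (sq_nonneg _)
      · rw [h2 i hi]; simp
    · rw [hs, Finset.mem_filter] at hi0s
      exact mul_lt_mul_of_pos_right hi0s.2 (by positivity)
  linarith

/-- **trace from codimension bounds.**   `Q ≤ κ'` everywhere, `Q ≤ κ k` on the common kernel of `m k` functionals.   Then `tr Q ≤ m₀ κ' + ∑_{k<N} m_{k+1} κ_k + n κ_N`.
Proof A: eigenvalues `λ_0 ≥ λ_1 ≥ …` (`Matrix.IsHermitian.eigenvalues₀_antitone`, `trace = ∑ eigenvalues`); min-max: the span of the first `m k + 1` eigenvectors meets the kernel, so `λ_i ≤ κ k` for `i ≥ m k`;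
then sort the indices `i` by the first `k` with `i < m (k+1)`.     Proof B: orthonormal basis adapted to the flag of the kernels. -/
theorem pd_trace_le {n : ℕ} (Q : Matrix (Fin n) (Fin n) ℝ) (hQ : Q.PosSemidef) (m : ℕ → ℕ) (κ' : ℝ) (κ : ℕ → ℝ) (hκ' : 0 ≤ κ') (hκ : ∀ k, 0 ≤ κ k)
    (h0 : ∀ c : Fin n → ℝ, c ⬝ᵥ Q.mulVec c ≤ κ' * (c ⬝ᵥ c))
    (ℓ : ∀ k, Fin (m k) → (Fin n → ℝ) →ₗ[ℝ] ℝ)
    (hk : ∀ (k : ℕ) (c : Fin n → ℝ), (∀ j, ℓ k j c = 0) → c ⬝ᵥ Q.mulVec c ≤ κ k * (c ⬝ᵥ c)) (N : ℕ) :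
    Q.trace ≤ m 0 * κ' + ∑ k ∈ Finset.range N, (m (k + 1) : ℝ) * κ k + n * κ N := by
  obtain ⟨U, lam, hU, hQU, htr⟩ := pd_spectral Q hQ.1
  have hcount : ∀ k, ((Finset.univ.filter fun i => κ k < lam i).card : ℝ) ≤ m k := fun k => by
    exact_mod_cast pd_count_le U lam hU (κ k) (ℓ k) (fun c hc => hQU ▸ hk k c hc)
  -- every eigenvalue is at most `κ'`
  have hlam : ∀ i, lam i ≤ κ' := fun i => by
    have h1 := h0 (U.mulVec (Pi.single i 1))
    obtain ⟨q1, q2⟩ := pd_quad_diag U lam (Pi.single i 1) hU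
    rw [hQU, q1, q2] at h1
    have e1 : ∑ j, lam j * (Pi.single i (1 : ℝ) : Fin n → ℝ) j ^ 2 = lam i := by
      rw [Finset.sum_eq_single i]
      · simp
      · intro j _ hj; simp [hj]
      · simp
    have e2 : ∑ j, (Pi.single i (1 : ℝ) : Fin n → ℝ) j ^ 2 = 1 := by
      rw [Finset.sum_eq_single i]
      · simp
      · intro j _ hj; simp [hj]
      · simp
    rw [e1, e2] at h1
    linarith
  -- pointwise bound
  have hpt : ∀ i, ∀ N : ℕ, lam i ≤ (if κ 0 < lam i then κ' else 0)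
      + ∑ k ∈ Finset.range N, (if κ (k + 1) < lam i then κ k else 0) + κ N := by
    intro i N
    induction N with
    | zero =>
      simp only [Finset.range_zero, Finset.sum_empty, add_zero]
      split_ifs with h
      · linarith [hlam i, hκ 0]
      · push Not at h; linarith
    | succ N ih =>
      rw [Finset.sum_range_succ]
      by_cases h : κ (N + 1) < lam i
      · rw [if_pos h]
        linarith [hκ (N + 1)]
      · rw [if_neg h]
        push Not at h
        have t1 : 0 ≤ (if κ 0 < lam i then κ' else 0) := by split_ifs <;> simp [hκ']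
        have t2 : 0 ≤ ∑ k ∈ Finset.range N, (if κ (k + 1) < lam i then κ k else 0) :=
          Finset.sum_nonneg fun k _ => by split_ifs <;> simp [hκ k]
        linarith
  have hind : ∀ (k : ℕ) (x : ℝ), ∑ i, (if κ k < lam i then x else 0) = ((Finset.univ.filter fun i => κ k < lam i).card : ℝ) * x := by
    intro k x
    rw [← Finset.sum_filter, Finset.sum_const, nsmul_eq_mul]
  rw [htr]
  calc ∑ i, lam i ≤ ∑ i, ((if κ 0 < lam i then κ' else 0)
      + ∑ k ∈ Finset.range N, (if κ (k + 1) < lam i then κ k else 0) + κ N) := Finset.sum_le_sum fun i _ => hpt i N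
    _ = ((Finset.univ.filter fun i => κ 0 < lam i).card : ℝ) * κ'
        + ∑ k ∈ Finset.range N, ((Finset.univ.filter fun i => κ (k + 1) < lam i).card : ℝ) * κ k + n * κ N := by
      rw [Finset.sum_add_distrib, Finset.sum_add_distrib, Finset.sum_comm, hind]
      simp only [hind, Finset.sum_const, Finset.card_univ, Fintype.card_fin, nsmul_eq_mul]
    _ ≤ _ := by
      refine add_le_add (add_le_add (mul_le_mul_of_nonneg_right (hcount 0) hκ') ?_) le_rfl
      exact Finset.sum_le_sum fun k _ => mul_le_mul_of_nonneg_right (hcount (k + 1)) (hκ k)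

/-- the geometric case used in `DecHS.lean`: `m k = 4^k q`, `κ k = 16^{-k} β`. -/
theorem pd_trace_geom {n : ℕ} (Q : Matrix (Fin n) (Fin n) ℝ) (hQ : Q.PosSemidef) (q : ℕ) (κ' β : ℝ) (hκ' : 0 ≤ κ') (hβ : 0 ≤ β)
    (h0 : ∀ c : Fin n → ℝ, c ⬝ᵥ Q.mulVec c ≤ κ' * (c ⬝ᵥ c))
    (ℓ : ∀ k, Fin (4 ^ k * q) → (Fin n → ℝ) →ₗ[ℝ] ℝ)
    (hk : ∀ (k : ℕ) (c : Fin n → ℝ), (∀ j, ℓ k j c = 0) → c ⬝ᵥ Q.mulVec c ≤ ((16 : ℝ) ^ k)⁻¹ * β * (c ⬝ᵥ c)) :
    Q.trace ≤ q * (κ' + 16 / 3 * β) := by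
  have hN : ∀ N : ℕ, Q.trace ≤ q * (κ' + 16 / 3 * β) + n * β * (1 / 16) ^ N := by
    intro N
    have h := pd_trace_le Q hQ (fun k => 4 ^ k * q) κ' (fun k => ((16 : ℝ) ^ k)⁻¹ * β) hκ' (fun k => by positivity) h0 ℓ hk N
    have hsum : ∀ N : ℕ, ∑ k ∈ Finset.range N, (((4 ^ (k + 1) * q : ℕ)) : ℝ) * (((16 : ℝ) ^ k)⁻¹ * β)
        = 16 / 3 * (q * β) * (1 - (1 / 4) ^ N) := by
      intro N
      induction N with
      | zero => simp
      | succ N ih =>
        rw [Finset.sum_range_succ, ih]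
        have e : ((16 : ℝ) ^ N)⁻¹ = (1 / 4) ^ N * (1 / 4) ^ N := by
          rw [← mul_pow, ← inv_pow]; norm_num
        have e4 : (4 : ℝ) ^ N * (1 / 4) ^ N = 1 := by rw [← mul_pow]; norm_num
        push_cast
        rw [e, pow_succ, pow_succ]
        linear_combination (4 * q * β * (1 / 4) ^ N) * e4
    simp only [hsum] at h
    have t1 : 16 / 3 * ((q : ℝ) * β) * (1 - (1 / 4) ^ N) ≤ 16 / 3 * (q * β) := by
      have : (0 : ℝ) ≤ (1 / 4) ^ N := by positivity
      have h2 : 0 ≤ 16 / 3 * ((q : ℝ) * β) := by positivity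
      nlinarith
    have e2 : ((16 : ℝ) ^ N)⁻¹ = (1 / 16) ^ N := by rw [← inv_pow]; norm_num
    rw [e2] at h
    push_cast at h
    simp only [one_mul] at h
    linarith
  have hlim : Filter.Tendsto (fun N : ℕ => q * (κ' + 16 / 3 * β) + n * β * (1 / 16 : ℝ) ^ N) Filter.atTop
      (nhds (q * (κ' + 16 / 3 * β) + n * β * 0)) :=
    tendsto_const_nhds.add (tendsto_const_nhds.mul (tendsto_pow_atTop_nhds_zero_of_lt_one (by norm_num) (by norm_num)))
  have := ge_of_tendsto' hlim hN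
  simpa using this

end

end Claimed.Agent.R285.Pot
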