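import Claimed.Agent.R285.Pot.DecGreen
import Claimed.Agent.R285.Pot.DecRow

/-!
# ROW 285, POT-DECAY, file 4: two separated sets of pins: norm gap and TRACE (Hilbert-Schmidt) bound of the correlation operator.   v2.   Mathlib only, paper-free.   Architect helper111.

Hilbert space `𝓗 = ({Adm}, bil)`.   `V_P = {u : S.HarmOff P u}` = orthogonal complement of the fields vanishing on `P` = span of the Green functions of the sites of `P`.
`S.ext P' u = min {T(w) : w = u on P'} = ‖Π_{P'} u‖²`.   The canonical correlation operator of the Gaussian vectors `v_P`, `v_{P'}` is `C = Π_{P'}|_{V_P}`, and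
`gPin = -½ log det (1 - C*C) ≤ HS(C)² / (2 (1 - ‖C‖²))`   (this determinant inequality is POT-LIN, helper83).   Here:
* L `L-PD-GAP`    `‖C‖² ≤ 1 - 1/M` as soon as the cells of `P'` do not meet the neighbourhood of the cells of `P`   (competitor `u - M⁻¹ χ u`).
* M `L-PD-HS`     `∑_j T(χ u_j) ≤ |Q| pdE(r) (M + (16/3) (2 K CR)²)` for every `T`-orthonormal family of `V_P`, `χ` = cutoff of a set of cells `J`, `Q ⊇ nb⁴ J` at distance `≥ r` from the cells of `P`.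
  Consequences: `HS(C)² = ∑_j ‖Π_{P'} u_j‖²` has the same bound (`J` = cells of `P'`); Gaussian mean of the localised energy of the harmonic prediction from the data on `P` ([B](9.23), (ent:prediction)).
  = [S]L3.2 steps (4)-(5) with sub-cell averages (`PdRes`) instead of cosine modes and `pd_trace_geom` instead of singular values.
-/

set_option autoImplicit false
set_option linter.unusedSectionVars false

namespace Claimed.Agent.R285.Pot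

open scoped Classical

noncomputable section

variable {V I : Type} [Fintype V] [Fintype I] {A : PdAmb V I} {S : PdSys V I} {σ CP K : ℝ}

/-! ## L. extension energy, norm gap (`L-PD-GAP`): PROVED (helper111) -/

theorem pd_ext_le {P : Set V} {u w : V → ℝ} (hw : S.Adm w) (hwu : ∀ x ∈ P, w x = u x) : S.ext P u ≤ S.form w := by
  have hb : BddBelow (Set.range fun w : {w : V → ℝ // S.Adm w ∧ ∀ x ∈ P, w x = u x} => S.form w.1) :=
    ⟨0, by rintro _ ⟨w, rfl⟩; exact pd_form_nonneg S _⟩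
  exact ciInf_le hb ⟨w, hw, hwu⟩

theorem pd_ext_nonneg (S : PdSys V I) (P : Set V) (u : V → ℝ) : 0 ≤ S.ext P u :=
  Real.iInf_nonneg fun _ => pd_form_nonneg S _

theorem pd_harmOff_harm {P : Set V} {u : V → ℝ} (hu : S.HarmOff P u) : PdHarm A S (A.cellsV P)ᶜ u := by
  intro φ hφ hs
  refine hu.2 φ hφ fun x hx => hs x ?_
  intro hc
  exact hc ⟨x, hx, rfl⟩

theorem pd_harmOff_sum {P : Set V} {n : ℕ} {u : Fin n → V → ℝ} (hu : ∀ j, S.HarmOff P (u j)) (c : Fin n → ℝ) : S.HarmOff P (∑ j, c j • u j) := by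
  refine ⟨pd_adm_sum S _ fun j _ => pd_adm_smul S _ (hu j).1, fun φ hφ h0 => ?_⟩
  rw [pd_bil_sum_left]
  refine Finset.sum_eq_zero fun j _ => ?_
  rw [pd_bil_smul_left, (hu j).2 φ hφ h0, mul_zero]

/-- the functional `ψ ↦ bil u ψ` -/
def pdBilF (S : PdSys V I) (u : V → ℝ) : (V → ℝ) →ₗ[ℝ] ℝ where
  toFun ψ := S.bil u ψ
  map_add' ψ ψ' := pd_bil_add_right S u ψ ψ'
  map_smul' c ψ := by simpa using pd_bil_smul_right S c u ψ

/-- the minimiser exists: `ext` is the energy of the harmonic extension, which is the orthogonal projection of `u` on `V_P` -/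
theorem pd_ext_attained (h : PdOk A S σ CP K) (P : Set V) {u : V → ℝ} (hu : S.Adm u) :
    ∃ p, S.HarmOff P p ∧ (∀ x ∈ P, p x = u x) ∧ S.ext P u = S.form p ∧ S.bil u p = S.form p := by
  have h' := pd_ok_addPin h P
  obtain ⟨hφa, hφ⟩ := pd_sol_spec h' (pdBilF S u)
  set φ := (S.addPin P).sol (pdBilF S u) with hφdef
  have hφa' := (pd_addPin_adm S P φ).1 hφa
  have hharm : S.HarmOff P (u - φ) := by
    refine ⟨pd_adm_sub S hu hφa'.1, fun ψ hψ h0 => ?_⟩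
    have h1 := hφ ψ ((pd_addPin_adm S P ψ).2 ⟨hψ, h0⟩)
    rw [pd_addPin_bil] at h1
    rw [pd_bil_sub_left, h1]
    exact sub_self _
  have hval : ∀ x ∈ P, (u - φ) x = u x := fun x hx => by simp [hφa'.2 x hx]
  have horth : S.bil (u - φ) φ = 0 := hharm.2 φ hφa'.1 hφa'.2
  refine ⟨u - φ, hharm, hval, ?_, ?_⟩
  · apply le_antisymm
    · exact pd_ext_le hharm.1 hval
    · have : Nonempty {w : V → ℝ // S.Adm w ∧ ∀ x ∈ P, w x = u x} := ⟨⟨u - φ, hharm.1, hval⟩⟩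
      refine le_ciInf fun w => ?_
      have hw0 : ∀ x ∈ P, (w.1 - (u - φ)) x = 0 := fun x hx => by
        have h1 := w.2.2 x hx
        have h2 := hval x hx
        simp only [Pi.sub_apply] at h2 ⊢
        rw [h1, h2, sub_self]
      have h2 := hharm.2 _ (pd_adm_sub S w.2.1 hharm.1) hw0
      have h3 : S.form w.1 = S.form (u - φ) + 2 * S.bil (u - φ) (w.1 - (u - φ)) + S.form (w.1 - (u - φ)) := by
        rw [← pd_form_add]; congr 1; abel
      rw [h3, h2]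
      have := pd_form_nonneg S (w.1 - (u - φ))
      linarith
  · have h1 : S.bil u (u - φ) = S.bil (u - φ) (u - φ) + S.bil φ (u - φ) := by
      rw [← pd_bil_add_left]; congr 1; abel
    rw [h1, pd_bil_comm S φ, horth, add_zero, pd_form_eq_bil]

/-- decay of the fields of `V_P` -/
theorem pd_harmOff_tail (h : PdOk A S σ CP K) {P : Set V} {u : V → ℝ} (hu : S.HarmOff P u) {ρ : I → ℕ} (hρ : A.Lay ρ) (h0 : ∀ i ∈ A.cellsV P, ρ i = 0) (r : ℕ) :
    S.enT (A.far ρ r) u ≤ pdE CP K r * S.form u := by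
  refine pd_tail h hρ hu.1 (pd_harm_mono A S ?_ (pd_harmOff_harm hu)) r
  intro i hi hc
  have h1 : 1 ≤ ρ i := hi
  rw [h0 i hc] at h1
  exact absurd h1 (by norm_num)

/-- **norm gap.**   `χ` = cutoff of the cells of `P`; `bil u (χu) = T(u)` because `(1-χ)u` vanishes on `P`; `T(u - tχu) = (1-2t) T(u) + t² T(χu) ≤ (1 - 2t + t² M) T(u)`, `t = 1/M`. -/
theorem pd_gap (h : PdOk A S σ CP K) {P P' : Set V} {u : V → ℝ} (hu : S.HarmOff P u) (hsep : Disjoint (A.cellsV P') (A.nb (A.cellsV P))) :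
    S.ext P' u ≤ (1 - (pdM CP K)⁻¹) * S.form u := by
  set χ := A.cut (A.cellsV P) with hχ
  set M := pdM CP K with hM
  have hM2 : 2 ≤ M := pd_pdM_two_le h
  have hM0 : 0 < M := by linarith
  have hadm : S.Adm (χ * u) := pd_adm_mul S χ hu.1
  have h1 : S.bil u (u - χ * u) = 0 := by
    refine hu.2 _ (pd_adm_sub S hu.1 hadm) fun x hx => ?_
    have : χ x = 1 := h.amb.cut_one _ x ⟨x, hx, rfl⟩
    simp [this]
  have h2 : S.bil u (χ * u) = S.form u := by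
    rw [pd_bil_sub_right] at h1
    rw [pd_form_eq_bil]; linarith
  have h3 : S.form (χ * u) ≤ M * S.form u := pd_mult_form h hu.1 _
  have h4 : S.ext P' u ≤ S.form (u - M⁻¹ • (χ * u)) := by
    refine pd_ext_le (pd_adm_sub S hu.1 (pd_adm_smul S _ hadm)) fun x hx => ?_
    have : χ x = 0 := h.amb.cut_zero _ x fun hc => Set.disjoint_left.1 hsep ⟨x, hx, rfl⟩ hc
    simp [this]
  refine h4.trans ?_
  rw [pd_form_sub, pd_bil_smul_right, pd_form_smul, h2]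
  have h5 : M⁻¹ ^ 2 * S.form (χ * u) ≤ M⁻¹ ^ 2 * (M * S.form u) := mul_le_mul_of_nonneg_left h3 (by positivity)
  have h6 : M⁻¹ ^ 2 * (M * S.form u) = M⁻¹ * S.form u := by field_simp
  rw [h6] at h5
  linarith

/-- far pins: `‖Π_{P'} u‖² ≤ M pdE(r) ‖u‖²` -/
theorem pd_ext_far (h : PdOk A S σ CP K) {P P' : Set V} {u : V → ℝ} (hu : S.HarmOff P u) {ρ : I → ℕ} (hρ : A.Lay ρ) (h0 : ∀ i ∈ A.cellsV P, ρ i = 0)
    {r : ℕ} (hfar : A.nb (A.nb (A.cellsV P')) ⊆ A.far ρ r) :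
    S.ext P' u ≤ pdM CP K * pdE CP K r * S.form u := by
  have hM2 : 2 ≤ pdM CP K := pd_pdM_two_le h
  have h1 : S.ext P' u ≤ S.form (A.cut (A.cellsV P') * u) := by
    refine pd_ext_le (pd_adm_mul S _ hu.1) fun x hx => ?_
    have : A.cut (A.cellsV P') x = 1 := h.amb.cut_one _ x ⟨x, hx, rfl⟩
    simp [this]
  refine h1.trans ((pd_form_cut_le h hu.1 _).trans ?_)
  rw [mul_assoc]
  refine mul_le_mul_of_nonneg_left ?_ (by linarith)
  exact (pd_enT_mono S hfar u).trans (pd_harmOff_tail h hu hρ h0 r)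


/-! ## M. the trace bound (`L-PD-HS`) -/

/-- resolution on a set of cells -/
theorem pd_res_l2 (h : PdOk A S σ CP K) {CR : ℝ} (hCR : 0 ≤ CR) (k : ℕ) (ℓ : I → Fin (4 ^ k) → (V → ℝ) →ₗ[ℝ] ℝ)
    (hℓ : ∀ i v, S.Adm v → (∀ j, ℓ i j v = 0) → σ * A.l2 {i} v ≤ CR * ((4 : ℝ) ^ k)⁻¹ * S.enI {i} v)
    {J : Set I} {v : V → ℝ} (hadm : S.Adm v) (hv : ∀ i ∈ J, ∀ j, ℓ i j v = 0) :
    σ * A.l2 J v ≤ CR * ((4 : ℝ) ^ k)⁻¹ * S.enI J v := by
  have hc : 0 ≤ CR * ((4 : ℝ) ^ k)⁻¹ := mul_nonneg hCR (by positivity)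
  rw [pd_l2_eq_sum, Finset.mul_sum]
  refine le_trans ?_ (mul_le_mul_of_nonneg_left (pd_sum_enI_le h J v) hc)
  rw [Finset.mul_sum]
  refine Finset.sum_le_sum fun i _ => ?_
  by_cases hi : i ∈ J
  · rw [if_pos hi, if_pos hi]
    exact hℓ i v hadm (hv i hi)
  · rw [if_neg hi, if_neg hi, mul_zero, mul_zero]

/-- two nested Caccioppoli steps + two resolutions: on the kernel of the functionals of the cells of `Q` the localised energy gains `16^{-k}`.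
`T(χv) ≤ 2Kσ l2(Y₁)`, `Y₁ = nb(nb J \ J)`;  `σ l2(Y₁) ≤ CR 4^{-k} enI(Y₁)`;  `enI(Y₁) ≤ 2Kσ l2(Y₂)`, `Y₂ = nb(nb Y₁ \ Y₁) ⊆ nb⁴ J`;  `σ l2(Y₂) ≤ CR 4^{-k} enI(Y₂) ≤ CR 4^{-k} enI(Q)`. -/
theorem pd_two_cacc (h : PdOk A S σ CP K) {CR : ℝ} (hCR : 0 ≤ CR) (k : ℕ) (ℓ : I → Fin (4 ^ k) → (V → ℝ) →ₗ[ℝ] ℝ)
    (hℓ : ∀ i v, S.Adm v → (∀ j, ℓ i j v = 0) → σ * A.l2 {i} v ≤ CR * ((4 : ℝ) ^ k)⁻¹ * S.enI {i} v)
    {J Q : Set I} (hQ : A.nb (A.nb (A.nb (A.nb J))) ⊆ Q) {v : V → ℝ} (hv : S.Adm v) (hh : PdHarm A S Q v) (hker : ∀ i ∈ Q, ∀ j, ℓ i j v = 0) :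
    S.form (A.cut J * v) ≤ ((16 : ℝ) ^ k)⁻¹ * (2 * K * CR) ^ 2 * S.enI Q v := by
  obtain ⟨c, hc⟩ : ∃ c : ℝ, c = CR * ((4 : ℝ) ^ k)⁻¹ := ⟨_, rfl⟩
  have hc0 : 0 ≤ c := by rw [hc]; exact mul_nonneg hCR (by positivity)
  have hK := h.K_nonneg
  obtain ⟨Y₁, hY₁⟩ : ∃ Y₁, Y₁ = A.nb (A.nb J \ J) := ⟨_, rfl⟩
  obtain ⟨Y₂, hY₂⟩ : ∃ Y₂, Y₂ = A.nb (A.nb Y₁ \ Y₁) := ⟨_, rfl⟩
  have s0 : ∀ X : Set I, X ⊆ A.nb X := fun X => pd_subset_nb h X
  have sY₁ : Y₁ ⊆ A.nb (A.nb J) := by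
    rw [hY₁]
    exact pd_nb_mono A Set.sdiff_subset
  have sY₂ : Y₂ ⊆ A.nb (A.nb (A.nb (A.nb J))) := by
    rw [hY₂]
    exact (pd_nb_mono A Set.sdiff_subset).trans (pd_nb_mono A (pd_nb_mono A sY₁))
  have q1 : A.nb J ⊆ Q := ((s0 _).trans ((s0 _).trans (s0 _))).trans hQ
  have q2 : Y₁ ⊆ Q := (sY₁.trans ((s0 _).trans (s0 _))).trans hQ
  have q3 : A.nb Y₁ ⊆ Q := ((pd_nb_mono A sY₁).trans (s0 _)).trans hQ
  have q4 : Y₂ ⊆ Q := sY₂.trans hQ
  have e1 : S.form (A.cut J * v) ≤ 2 * K * (σ * A.l2 Y₁ v) := by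
    rw [hY₁]
    exact pd_cacc_cut h hv (pd_harm_mono A S q1 hh)
  have e2 : σ * A.l2 Y₁ v ≤ c * S.enI Y₁ v := by
    rw [hc]
    exact pd_res_l2 h hCR k ℓ hℓ hv fun i hi => hker i (q2 hi)
  have e3 : S.enI Y₁ v ≤ 2 * K * (σ * A.l2 Y₂ v) := by
    rw [hY₂]
    exact pd_cacc h hv (pd_harm_mono A S q3 hh)
  have e4 : σ * A.l2 Y₂ v ≤ c * S.enI Q v := by
    rw [hc]
    exact (pd_res_l2 h hCR k ℓ hℓ hv fun i hi => hker i (q4 hi)).trans
      (mul_le_mul_of_nonneg_left (pd_enI_mono S q4 v) (by rw [← hc]; exact hc0))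
  have hK2 : 0 ≤ 2 * K := by linarith
  have e5 : S.form (A.cut J * v) ≤ 2 * K * (c * (2 * K * (c * S.enI Q v))) :=
    e1.trans (mul_le_mul_of_nonneg_left (e2.trans (mul_le_mul_of_nonneg_left
      (e3.trans (mul_le_mul_of_nonneg_left e4 hK2)) hc0)) hK2)
  refine e5.trans (le_of_eq ?_)
  have h16 : ((16 : ℝ) ^ k)⁻¹ = ((4 : ℝ) ^ k)⁻¹ * ((4 : ℝ) ^ k)⁻¹ := by
    rw [← mul_inv, ← mul_pow]
    norm_num
  rw [hc, h16]
  ring

/-- the combination `∑ c_j u_j` -/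
theorem pd_form_comb (S : PdSys V I) {n : ℕ} (u : Fin n → V → ℝ) (c : Fin n → ℝ) :
    S.form (∑ j, c j • u j) = ∑ i, ∑ j, c i * c j * S.bil (u i) (u j) := by
  rw [pd_form_eq_bil, pd_bil_sum_left]
  refine Finset.sum_congr rfl fun i _ => ?_
  rw [pd_bil_sum_right]
  refine Finset.sum_congr rfl fun j _ => ?_
  rw [pd_bil_smul_left, pd_bil_smul_right]
  ring

theorem pd_mul_comb {n : ℕ} (χ : V → ℝ) (u : Fin n → V → ℝ) (c : Fin n → ℝ) :
    χ * ∑ j, c j • u j = ∑ j, c j • (χ * u j) := by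
  rw [Finset.mul_sum]
  refine Finset.sum_congr rfl fun j _ => ?_
  funext x
  simp only [Pi.mul_apply, Pi.smul_apply, smul_eq_mul]
  ring

theorem pd_dot_mulVec (S : PdSys V I) {n : ℕ} (w : Fin n → V → ℝ) (c : Fin n → ℝ) :
    c ⬝ᵥ (Matrix.of fun i j => S.bil (w i) (w j)).mulVec c = S.form (∑ j, c j • w j) := by
  rw [pd_form_comb]
  simp only [dotProduct, Matrix.mulVec, Matrix.of_apply, Finset.mul_sum]
  refine Finset.sum_congr rfl fun i _ => Finset.sum_congr rfl fun j _ => ?_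
  ring

/-- **the trace bound.**   `Q_ij = bil (χ u_i) (χ u_j)`, `χ = A.cut J`;  `pd_trace_geom` with `q = |Q|`, `κ' = M pdE(r)` (`pd_form_cut_le`, `pd_harmOff_tail`), `β = (2 K CR)² pdE(r)` (`pd_two_cacc`, `pd_harmOff_tail`);
`T(∑ c_j u_j) = c ⬝ c`. -/
theorem pd_trace_cut (h : PdOk A S σ CP K) {CR : ℝ} (hCR : 0 ≤ CR) (hR : PdRes A S σ CR) {P : Set V} {J : Set I}
    {ρ : I → ℕ} (hρ : A.Lay ρ) (h0 : ∀ i ∈ A.cellsV P, ρ i = 0) {r : ℕ} (hr : 1 ≤ r)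
    (Q : Finset I) (hQ : A.nb (A.nb (A.nb (A.nb J))) ⊆ (Q : Set I)) (hfar : (Q : Set I) ⊆ A.far ρ r)
    {n : ℕ} (u : Fin n → V → ℝ) (hu : ∀ j, S.HarmOff P (u j)) (hon : ∀ i j, S.bil (u i) (u j) = if i = j then 1 else 0) :
    ∑ j, S.form (A.cut J * u j) ≤ Q.card * pdE CP K r * (pdM CP K + 16 / 3 * (2 * K * CR) ^ 2) := by
  obtain ⟨χ, hχ⟩ : ∃ χ, χ = A.cut J := ⟨_, rfl⟩
  rw [← hχ]
  have hM : 0 ≤ pdM CP K := le_trans (by norm_num) (pd_pdM_two_le h)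
  have hE := pdE_nonneg CP K r
  have s0 : ∀ X : Set I, X ⊆ A.nb X := fun X => pd_subset_nb h X
  obtain ⟨G, hG⟩ : ∃ G : Matrix (Fin n) (Fin n) ℝ,
      G = Matrix.of fun i j => S.bil (χ * u i) (χ * u j) := ⟨_, rfl⟩
  have hquad : ∀ c : Fin n → ℝ, c ⬝ᵥ G.mulVec c = S.form (χ * ∑ j, c j • u j) := by
    intro c
    rw [hG, pd_dot_mulVec, pd_mul_comb]
  have hnorm : ∀ c : Fin n → ℝ, S.form (∑ j, c j • u j) = c ⬝ᵥ c := by
    intro c
    rw [pd_form_comb]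
    simp only [hon, mul_ite, mul_one, mul_zero, Finset.sum_ite_eq, Finset.mem_univ, if_true,
      dotProduct]
  have hGpsd : G.PosSemidef := by
    refine Matrix.PosSemidef.of_dotProduct_mulVec_nonneg ?_ fun c => ?_
    · rw [hG]
      ext i j
      simp only [Matrix.conjTranspose_apply, Matrix.of_apply, star_trivial]
      exact pd_bil_comm S _ _
    · rw [star_trivial, hquad]
      exact pd_form_nonneg S _
  have hw : ∀ c : Fin n → ℝ, S.HarmOff P (∑ j, c j • u j) := fun c => pd_harmOff_sum hu c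
  have htail : ∀ c : Fin n → ℝ, S.enT (A.far ρ r) (∑ j, c j • u j) ≤ pdE CP K r * (c ⬝ᵥ c) := by
    intro c
    rw [← hnorm c]
    exact pd_harmOff_tail h (hw c) hρ h0 r
  have h0' : ∀ c : Fin n → ℝ, c ⬝ᵥ G.mulVec c ≤ pdM CP K * pdE CP K r * (c ⬝ᵥ c) := by
    intro c
    rw [hquad, hχ, mul_assoc]
    refine (pd_form_cut_le h (hw c).1 J).trans (mul_le_mul_of_nonneg_left ?_ hM)
    exact (pd_enT_mono S ((((s0 _).trans (s0 _)).trans hQ).trans hfar) _).trans (htail c)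
  choose ℓ' hℓ' using hR
  have hQP : (Q : Set I) ⊆ (A.cellsV P)ᶜ := by
    intro i hi hiP
    have h1 : r ≤ ρ i := hfar hi
    rw [h0 i hiP] at h1
    omega
  have hk : ∀ (k : ℕ) (c : Fin n → ℝ),
      (∀ a : Fin (4 ^ k * Q.card), ((ℓ' k (Q.equivFin.symm (finProdFinEquiv.symm a).2).1
        (finProdFinEquiv.symm a).1).comp (Fintype.linearCombination ℝ u)) c = 0) →
      c ⬝ᵥ G.mulVec c ≤ ((16 : ℝ) ^ k)⁻¹ * ((2 * K * CR) ^ 2 * pdE CP K r) * (c ⬝ᵥ c) := by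
    intro k c hc
    have hker : ∀ i ∈ (Q : Set I), ∀ j, ℓ' k i j (∑ j, c j • u j) = 0 := by
      intro i hi j
      have := hc (finProdFinEquiv (j, Q.equivFin ⟨i, hi⟩))
      simpa [Fintype.linearCombination_apply] using this
    rw [hquad, hχ]
    refine (pd_two_cacc h hCR k (ℓ' k) (hℓ' k) hQ (hw c).1
      (pd_harm_mono A S hQP (pd_harmOff_harm (hw c))) hker).trans ?_
    have e1 : S.enI (Q : Set I) (∑ j, c j • u j) ≤ pdE CP K r * (c ⬝ᵥ c) :=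
      ((pd_enI_le_enT h _ _).trans (pd_enT_mono S hfar _)).trans (htail c)
    calc ((16 : ℝ) ^ k)⁻¹ * (2 * K * CR) ^ 2 * S.enI (Q : Set I) (∑ j, c j • u j)
        ≤ ((16 : ℝ) ^ k)⁻¹ * (2 * K * CR) ^ 2 * (pdE CP K r * (c ⬝ᵥ c)) :=
          mul_le_mul_of_nonneg_left e1 (by positivity)
      _ = ((16 : ℝ) ^ k)⁻¹ * ((2 * K * CR) ^ 2 * pdE CP K r) * (c ⬝ᵥ c) := by ring
  have key := pd_trace_geom G hGpsd Q.card (pdM CP K * pdE CP K r) ((2 * K * CR) ^ 2 * pdE CP K r)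
    (mul_nonneg hM hE) (mul_nonneg (sq_nonneg _) hE) h0' _ hk
  have htr : G.trace = ∑ j, S.form (χ * u j) := by
    rw [hG]
    simp only [Matrix.trace, Matrix.diag_apply, Matrix.of_apply, pd_form_eq_bil]
  rw [← htr]
  refine key.trans (le_of_eq ?_)
  ring

/-- **Hilbert-Schmidt bound of the correlation operator of two far sets of pins.** -/
theorem pd_trace_ext (h : PdOk A S σ CP K) {CR : ℝ} (hCR : 0 ≤ CR) (hR : PdRes A S σ CR) {P P' : Set V}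
    {ρ : I → ℕ} (hρ : A.Lay ρ) (h0 : ∀ i ∈ A.cellsV P, ρ i = 0) {r : ℕ} (hr : 1 ≤ r)
    (Q : Finset I) (hQ : A.nb (A.nb (A.nb (A.nb (A.cellsV P')))) ⊆ (Q : Set I)) (hfar : (Q : Set I) ⊆ A.far ρ r)
    {n : ℕ} (u : Fin n → V → ℝ) (hu : ∀ j, S.HarmOff P (u j)) (hon : ∀ i j, S.bil (u i) (u j) = if i = j then 1 else 0) :
    ∑ j, S.ext P' (u j) ≤ Q.card * pdE CP K r * (pdM CP K + 16 / 3 * (2 * K * CR) ^ 2) := by
  refine le_trans (Finset.sum_le_sum fun j _ => ?_)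
    (pd_trace_cut h hCR hR (J := A.cellsV P') hρ h0 hr Q hQ hfar u hu hon)
  refine pd_ext_le (pd_adm_mul S _ (hu j).1) fun x hx => ?_
  rw [Pi.mul_apply, h.amb.cut_one (A.cellsV P') x ⟨x, hx, rfl⟩, one_mul]

end

end Claimed.Agent.R285.Pot
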