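import Claimed.Agent.R285.Pot.DecCore

/-!
# ROW 285, POT-DECAY, file 2: solutions, Green form, off-diagonal decay, pins, COMPARISON of two systems, local energy.   v2.   Mathlib only, paper-free.   Architect helper111.

`𝒢(f,g) = S.gf f g = g (T⁻¹ f)` for linear functionals `f, g` on fields (`pdRowF` of a row vector, `S.termF z`, point evaluations, ...);  `𝒢(f,f) = max_φ 2f(φ) - T(φ)` = Gaussian variance of the test `f`.
The matrix `E = 1 - B T⁻¹ Bᵀ` of [B] l.1600-1700 has the entries `δ_{tt'} - 𝒢(R_t, R_t')`.   (4) of the mission = `pd_green_decay` (off-diagonal decay) and `pd_compare_entry`: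
two systems on the same ambient data which AGREE on a region `Y` (any change outside: cut bonds, removed cells, new pins, other boundary condition, patch) have Green forms which differ by
`≤ 2 M √(pdE r₁ pdE r₂) √(Γ₁ Γ₂)`, `r_i` = distance of the carrier of `f_i` to the complement of `Y`.   Proof: both are compared with their common Dirichlet restriction to `Y`.
Sections = leaves: F `L-PD-SOL`, G `L-PD-GREEN`, H `L-PD-PIN`, I `L-PD-CMP`, J' `L-PD-LOCEN`.   Rules as in `DecCore.lean`.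
-/

set_option autoImplicit false

namespace Claimed.Agent.R285.Pot

open scoped Classical

noncomputable section

variable {V I : Type} [Fintype V] [Fintype I] {A : PdAmb V I} {S : PdSys V I} {σ CP K : ℝ}

/-! ## F. the solution operator (`L-PD-SOL`):  finite dimensional Riesz on `{Adm}` with the inner product `bil` (definite by `pd_eq_zero_of_form`) -/

/-- the admissible subspace -/
def pdAdmSub (S : PdSys V I) : Submodule ℝ (V → ℝ) where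
  carrier := {v | S.Adm v}
  add_mem' := fun hv hw => pd_adm_add S hv hw
  zero_mem' := pd_adm_zero S
  smul_mem' := fun c _ hv => pd_adm_smul S c hv

/-- the form as a map to the dual of the admissible subspace -/
def pdDualMap (S : PdSys V I) : pdAdmSub S →ₗ[ℝ] Module.Dual ℝ (pdAdmSub S) :=
  LinearMap.mk₂ ℝ (fun v φ => S.bil v.1 φ.1)
    (fun u v w => pd_bil_add_left S u.1 v.1 w.1) (fun c v w => pd_bil_smul_left S c v.1 w.1)
    (fun u v w => pd_bil_add_right S u.1 v.1 w.1) (fun c v w => pd_bil_smul_right S c v.1 w.1)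

theorem pd_dualMap_injective (h : PdOk A S σ CP K) : Function.Injective (pdDualMap S) := by
  rw [injective_iff_map_eq_zero]
  intro v hv
  have h1 : S.bil v.1 v.1 = 0 := LinearMap.congr_fun hv v
  have h2 : v.1 = 0 := pd_eq_zero_of_form h v.2 (by rw [pd_form_eq_bil, h1])
  exact Subtype.ext h2

theorem pd_existsUnique_sol (h : PdOk A S σ CP K) (f : (V → ℝ) →ₗ[ℝ] ℝ) : ∃! v, S.IsSol f v := by
  have hinj := pd_dualMap_injective h
  have hsurj : Function.Surjective (pdDualMap S) :=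
    (LinearMap.injective_iff_surjective_of_finrank_eq_finrank
      (Subspace.dual_finrank_eq (K := ℝ) (V := pdAdmSub S)).symm).1 hinj
  obtain ⟨v, hv⟩ := hsurj (f.domRestrict (pdAdmSub S))
  refine ⟨v.1, ⟨v.2, fun φ hφ => ?_⟩, fun w hw => ?_⟩
  · exact LinearMap.congr_fun hv ⟨φ, hφ⟩
  · have e : pdDualMap S ⟨w, hw.1⟩ = pdDualMap S v := by
      rw [hv]
      ext φ
      exact hw.2 φ.1 φ.2
    exact congrArg Subtype.val (hinj e)

theorem pd_sol_spec (h : PdOk A S σ CP K) (f : (V → ℝ) →ₗ[ℝ] ℝ) : S.IsSol f (S.sol f) := by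
  have hex : ∃ v, S.IsSol f v := (pd_existsUnique_sol h f).exists
  unfold PdSys.sol
  rw [dif_pos hex]
  exact hex.choose_spec

theorem pd_sol_unique (h : PdOk A S σ CP K) {f : (V → ℝ) →ₗ[ℝ] ℝ} {v : V → ℝ} (hv : S.IsSol f v) : v = S.sol f := by
  exact (pd_existsUnique_sol h f).unique hv (pd_sol_spec h f)

theorem pd_sol_add (h : PdOk A S σ CP K) (f g : (V → ℝ) →ₗ[ℝ] ℝ) : S.sol (f + g) = S.sol f + S.sol g := by
  refine (pd_sol_unique h ⟨pd_adm_add S (pd_sol_spec h f).1 (pd_sol_spec h g).1, fun φ hφ => ?_⟩).symm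
  rw [pd_bil_add_left, (pd_sol_spec h f).2 φ hφ, (pd_sol_spec h g).2 φ hφ]
  rfl

theorem pd_sol_smul (h : PdOk A S σ CP K) (c : ℝ) (f : (V → ℝ) →ₗ[ℝ] ℝ) : S.sol (c • f) = c • S.sol f := by
  refine (pd_sol_unique h ⟨pd_adm_smul S c (pd_sol_spec h f).1, fun φ hφ => ?_⟩).symm
  rw [pd_bil_smul_left, (pd_sol_spec h f).2 φ hφ]
  rfl

theorem pd_sol_sum (h : PdOk A S σ CP K) {ι : Type} (s : Finset ι) (f : ι → (V → ℝ) →ₗ[ℝ] ℝ) : S.sol (∑ i ∈ s, f i) = ∑ i ∈ s, S.sol (f i) := by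
  induction s using Finset.induction_on with
  | empty =>
    have := pd_sol_smul h 0 (0 : (V → ℝ) →ₗ[ℝ] ℝ)
    simpa using this
  | insert a s ha ih => rw [Finset.sum_insert ha, Finset.sum_insert ha, pd_sol_add h, ih]

theorem pd_gf_eq_bil (h : PdOk A S σ CP K) (f g : (V → ℝ) →ₗ[ℝ] ℝ) : S.gf f g = S.bil (S.sol f) (S.sol g) := by
  unfold PdSys.gf
  rw [← (pd_sol_spec h g).2 _ (pd_sol_spec h f).1, pd_bil_comm]

theorem pd_gf_comm (h : PdOk A S σ CP K) (f g : (V → ℝ) →ₗ[ℝ] ℝ) : S.gf f g = S.gf g f := by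
  rw [pd_gf_eq_bil h, pd_gf_eq_bil h, pd_bil_comm]

theorem pd_gf_add_left (h : PdOk A S σ CP K) (f f' g : (V → ℝ) →ₗ[ℝ] ℝ) : S.gf (f + f') g = S.gf f g + S.gf f' g := by
  unfold PdSys.gf
  rw [pd_sol_add h, map_add]

theorem pd_gf_smul_left (h : PdOk A S σ CP K) (c : ℝ) (f g : (V → ℝ) →ₗ[ℝ] ℝ) : S.gf (c • f) g = c * S.gf f g := by
  unfold PdSys.gf
  rw [pd_sol_smul h, map_smul, smul_eq_mul]

theorem pd_gf_self (h : PdOk A S σ CP K) (f : (V → ℝ) →ₗ[ℝ] ℝ) : S.gf f f = S.form (S.sol f) := by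
  rw [pd_gf_eq_bil h, pd_form_eq_bil]

theorem pd_gf_nonneg (h : PdOk A S σ CP K) (f : (V → ℝ) →ₗ[ℝ] ℝ) : 0 ≤ S.gf f f := by
  rw [pd_gf_self h]
  exact pd_form_nonneg S _

/-- `𝒢(f,f)` is the squared dual norm, I -/
theorem pd_apply_sq_le (h : PdOk A S σ CP K) (f : (V → ℝ) →ₗ[ℝ] ℝ) {φ : V → ℝ} (hφ : S.Adm φ) : f φ ^ 2 ≤ S.gf f f * S.form φ := by
  rw [← (pd_sol_spec h f).2 φ hφ, pd_gf_self h]
  exact pd_bil_sq_le S _ _

/-- `𝒢(f,f)` is the squared dual norm, II -/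
theorem pd_gf_le_of_bound (h : PdOk A S σ CP K) {f : (V → ℝ) →ₗ[ℝ] ℝ} {c : ℝ} (hc0 : 0 ≤ c)
    (hc : ∀ φ, S.Adm φ → f φ ^ 2 ≤ c * S.form φ) : S.gf f f ≤ c := by
  have h1 := hc _ (pd_sol_spec h f).1
  have h2 : f (S.sol f) = S.gf f f := rfl
  rw [h2, ← pd_gf_self h] at h1
  have h3 := pd_gf_nonneg h f
  rcases h3.eq_or_lt with h4 | h4
  · rw [← h4]
    exact hc0
  · nlinarith

theorem pd_gf_sq_le (h : PdOk A S σ CP K) (f g : (V → ℝ) →ₗ[ℝ] ℝ) : S.gf f g ^ 2 ≤ S.gf f f * S.gf g g := by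
  rw [pd_gf_eq_bil h, pd_gf_self h, pd_gf_self h]
  exact pd_bil_sq_le S _ _

/-- variational form: `𝒢(f,f) = max_φ 2 f(φ) - T(φ)` -/
theorem pd_two_apply_sub_le (h : PdOk A S σ CP K) (f : (V → ℝ) →ₗ[ℝ] ℝ) {φ : V → ℝ} (hφ : S.Adm φ) : 2 * f φ - S.form φ ≤ S.gf f f := by
  have h1 := pd_form_nonneg S (S.sol f - φ)
  rw [pd_form_sub, (pd_sol_spec h f).2 φ hφ, ← pd_gf_self h] at h1
  linarith

theorem pd_gf_eq_iSup (h : PdOk A S σ CP K) (f : (V → ℝ) →ₗ[ℝ] ℝ) : S.gf f f = ⨆ φ : {φ : V → ℝ // S.Adm φ}, 2 * f φ.1 - S.form φ.1 := by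
  have hbdd : BddAbove (Set.range fun φ : {φ : V → ℝ // S.Adm φ} => 2 * f φ.1 - S.form φ.1) :=
    ⟨S.gf f f, by
      rintro _ ⟨φ, rfl⟩
      exact pd_two_apply_sub_le h f φ.2⟩
  have : Nonempty {φ : V → ℝ // S.Adm φ} := ⟨⟨0, pd_adm_zero S⟩⟩
  refine le_antisymm ?_ (ciSup_le fun φ => pd_two_apply_sub_le h f φ.2)
  refine le_trans (le_of_eq ?_) (le_ciSup hbdd ⟨S.sol f, (pd_sol_spec h f).1⟩)
  have h2 : f (S.sol f) = S.gf f f := rfl
  show S.gf f f = 2 * f (S.sol f) - S.form (S.sol f)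
  rw [h2, ← pd_gf_self h]
  ring

/-- the solution is harmonic off the carrier of the source -/
theorem pd_sol_harm (h : PdOk A S σ CP K) {f : (V → ℝ) →ₗ[ℝ] ℝ} {J : Set I} (hf : A.Carried J f) : PdHarm A S Jᶜ (S.sol f) := by
  intro φ hφ hsupp
  rw [(pd_sol_spec h f).2 φ hφ]
  exact hf φ fun x hx => hsupp x fun hx' => hx' hx

/-- combinations of rows: carried by the cells of the rows, dual norm `≤ ∑ z²` -/
theorem pd_termF_carried (h : PdOk A S σ CP K) (z : S.Tm → ℝ) : A.Carried (S.cellsT {t | z t ≠ 0}) (S.termF z) := by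
  intro φ hφ
  show ∑ t, z t * S.row φ t = 0
  refine Finset.sum_eq_zero fun t _ => ?_
  by_cases hz : z t = 0
  · rw [hz, zero_mul]
  · rw [pd_row_eq_zero h fun x hx => hφ x ⟨t, hz, hx⟩, mul_zero]

theorem pd_termF_gf_le (h : PdOk A S σ CP K) (z : S.Tm → ℝ) : S.gf (S.termF z) (S.termF z) ≤ ∑ t, z t ^ 2 := by
  refine pd_gf_le_of_bound h (Finset.sum_nonneg fun t _ => sq_nonneg _) fun φ _ => ?_
  exact Finset.sum_mul_sq_le_sq_mul_sq _ _ _

/-- the affine problem: `min_u ∑_t (R_t u - z_t)² = ∑ z² - 𝒢(f_z, f_z)`, attained at `T⁻¹ f_z`; Euler-Lagrange equation. -/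
theorem pd_aff_eq (S : PdSys V I) (z : S.Tm → ℝ) (u : V → ℝ) : S.aff z u = S.form u - 2 * S.termF z u + ∑ t, z t ^ 2 := by
  show ∑ t, (S.row u t - z t) ^ 2 = ∑ t, S.row u t ^ 2 - 2 * ∑ t, z t * S.row u t + ∑ t, z t ^ 2
  rw [Finset.mul_sum, ← Finset.sum_sub_distrib, ← Finset.sum_add_distrib]
  exact Finset.sum_congr rfl fun t _ => by ring

theorem pd_aff_nonneg (S : PdSys V I) (z : S.Tm → ℝ) (u : V → ℝ) : 0 ≤ S.aff z u :=
  Finset.sum_nonneg fun _ _ => sq_nonneg _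

theorem pd_En_le_aux (S : PdSys V I) (z : S.Tm → ℝ) {u : V → ℝ} (hu : S.Adm u) : S.En z ≤ S.aff z u :=
  ciInf_le (f := fun u : {u : V → ℝ // S.Adm u} => S.aff z u.1)
    ⟨0, by
      rintro _ ⟨w, rfl⟩
      exact pd_aff_nonneg S z w.1⟩ ⟨u, hu⟩

theorem pd_aff_sol (h : PdOk A S σ CP K) (z : S.Tm → ℝ) :
    S.aff z (S.sol (S.termF z)) = ∑ t, z t ^ 2 - S.gf (S.termF z) (S.termF z) := by
  have h2 : S.termF z (S.sol (S.termF z)) = S.gf (S.termF z) (S.termF z) := rfl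
  rw [pd_aff_eq, h2, ← pd_gf_self h]
  ring

theorem pd_En_attained_aux (h : PdOk A S σ CP K) (z : S.Tm → ℝ) :
    S.En z = S.aff z (S.sol (S.termF z)) := by
  have : Nonempty {u : V → ℝ // S.Adm u} := ⟨⟨0, pd_adm_zero S⟩⟩
  refine le_antisymm (pd_En_le_aux S z (pd_sol_spec h _).1) (le_ciInf fun u => ?_)
  rw [pd_aff_sol h, pd_aff_eq]
  have := pd_two_apply_sub_le h (S.termF z) u.2
  linarith

theorem pd_En_eq (h : PdOk A S σ CP K) (z : S.Tm → ℝ) : S.En z = ∑ t, z t ^ 2 - S.gf (S.termF z) (S.termF z) := by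
  rw [pd_En_attained_aux h, pd_aff_sol h]

theorem pd_En_attained (h : PdOk A S σ CP K) (z : S.Tm → ℝ) : S.En z = S.aff z (S.sol (S.termF z)) := by
  exact pd_En_attained_aux h z

theorem pd_En_le (S : PdSys V I) (z : S.Tm → ℝ) {u : V → ℝ} (hu : S.Adm u) : S.En z ≤ S.aff z u := by
  exact pd_En_le_aux S z hu

/-! ## G. off-diagonal decay (`L-PD-GREEN`) -/

/-- energy of the solution far from its source -/
theorem pd_sol_tail (h : PdOk A S σ CP K) {f : (V → ℝ) →ₗ[ℝ] ℝ} {J : Set I} (hf : A.Carried J f)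
    {ρ : I → ℕ} (hρ : A.Lay ρ) (h0 : ∀ i ∈ J, ρ i = 0) (r : ℕ) :
    S.enT (A.far ρ r) (S.sol f) ≤ pdE CP K r * S.gf f f := by
  have hh : PdHarm A S (A.far ρ 1) (S.sol f) := by
    have hsub : A.far ρ 1 ⊆ Jᶜ := by
      intro i hi hiJ
      have h1 : 1 ≤ ρ i := hi
      rw [h0 i hiJ] at h1
      exact absurd h1 (by norm_num)
    exact pd_harm_mono A S hsub (pd_sol_harm h hf)
  rw [pd_gf_self h]
  exact pd_tail h hρ (pd_sol_spec h f).1 hh r

/-- **(4a) off-diagonal decay of the Green form.**   `f₁(v₂) = f₁(χ v₂)`, `χ` = cutoff of `J₁`; `pd_apply_sq_le`, `pd_form_cut_le`, `pd_sol_tail`. -/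
theorem pd_green_decay (h : PdOk A S σ CP K) {f₁ f₂ : (V → ℝ) →ₗ[ℝ] ℝ} {J₁ J₂ : Set I}
    (h1 : A.Carried J₁ f₁) (h2 : A.Carried J₂ f₂) {ρ : I → ℕ} (hρ : A.Lay ρ) (h0 : ∀ i ∈ J₂, ρ i = 0) {r : ℕ} (hr : A.nb (A.nb J₁) ⊆ A.far ρ r) :
    S.gf f₂ f₁ ^ 2 ≤ pdM CP K * pdE CP K r * (S.gf f₁ f₁ * S.gf f₂ f₂) := by
  have hv := (pd_sol_spec h f₂).1
  have hM : 0 ≤ pdM CP K := le_trans (by norm_num) (pd_pdM_two_le h)
  have e1 : S.gf f₂ f₁ = f₁ (A.cut J₁ * S.sol f₂) := by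
    have h3 : f₁ (S.sol f₂ - A.cut J₁ * S.sol f₂) = 0 := by
      refine h1 _ fun x hx => ?_
      simp only [Pi.sub_apply, Pi.mul_apply]
      rw [h.amb.cut_one J₁ x hx, one_mul, sub_self]
    rw [map_sub, sub_eq_zero] at h3
    exact h3
  have e2 := pd_apply_sq_le h f₁ (pd_adm_mul S (A.cut J₁) hv)
  have e3 : S.form (A.cut J₁ * S.sol f₂) ≤ pdM CP K * (pdE CP K r * S.gf f₂ f₂) :=
    (pd_form_cut_le h hv J₁).trans (mul_le_mul_of_nonneg_left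
      ((pd_enT_mono S hr _).trans (pd_sol_tail h h2 hρ h0 r)) hM)
  rw [e1]
  calc f₁ (A.cut J₁ * S.sol f₂) ^ 2 ≤ S.gf f₁ f₁ * S.form (A.cut J₁ * S.sol f₂) := e2
    _ ≤ S.gf f₁ f₁ * (pdM CP K * (pdE CP K r * S.gf f₂ f₂)) :=
        mul_le_mul_of_nonneg_left e3 (pd_gf_nonneg h f₁)
    _ = pdM CP K * pdE CP K r * (S.gf f₁ f₁ * S.gf f₂ f₂) := by ring

/-! ## H. adding hard pins (`L-PD-PIN`) -/

theorem pd_ok_addPin (h : PdOk A S σ CP K) (P : Set V) : PdOk A (S.addPin P) σ CP K where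
  amb := h.amb
  σ_pos := h.σ_pos
  CP_nonneg := h.CP_nonneg
  K_nonneg := h.K_nonneg
  supp := h.supp
  clique := h.clique
  poincare := fun i v hv => h.poincare i v fun x hx => hv x (Or.inl hx)
  com := h.com

theorem pd_addPin_adm (S : PdSys V I) (P : Set V) (v : V → ℝ) : (S.addPin P).Adm v ↔ S.Adm v ∧ ∀ x ∈ P, v x = 0 :=
  ⟨fun hv => ⟨fun x hx => hv x (Or.inl hx), fun x hx => hv x (Or.inr hx)⟩,
    fun hv x hx => hx.elim (hv.1 x) (hv.2 x)⟩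

theorem pd_addPin_bil (S : PdSys V I) (P : Set V) (v w : V → ℝ) : (S.addPin P).bil v w = S.bil v w := rfl

theorem pd_pin_mono (h : PdOk A S σ CP K) (P : Set V) (f : (V → ℝ) →ₗ[ℝ] ℝ) : (S.addPin P).gf f f ≤ S.gf f f :=
  pd_gf_le_of_bound (pd_ok_addPin h P) (pd_gf_nonneg h f) fun φ hφ =>
    pd_apply_sq_le h f ((pd_addPin_adm S P φ).1 hφ).1

/-- **(4c) pinning far from the source.**   `v` = solution in `S`, `χ` = cutoff of the cells of `P`, `w = (1-χ)v` is admissible for the pinned system and `f(w) = f(v) = g`: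
`g² = f(w)² ≤ g'' T(w) = g'' (g + T(χv))`  (`bil v (χv) = f(χv) = 0`),  `T(χv) ≤ M pdE(r) g`  (`pd_form_cut_le`, `pd_sol_tail`). -/
theorem pd_pin_le (h : PdOk A S σ CP K) (P : Set V) {f : (V → ℝ) →ₗ[ℝ] ℝ} {J : Set I} (hf : A.Carried J f) {ρ : I → ℕ} (hρ : A.Lay ρ) (h0 : ∀ i ∈ J, ρ i = 0)
    {r : ℕ} (hr : 1 ≤ r) (hfar : A.nb (A.nb (A.cellsV P)) ⊆ A.far ρ r) :
    S.gf f f - (S.addPin P).gf f f ≤ pdM CP K * pdE CP K r * (S.addPin P).gf f f := by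
  have hsol := pd_sol_spec h f
  set v := S.sol f with hv
  set χ := A.cut (A.cellsV P) with hχ
  have hM : 2 ≤ pdM CP K := pd_pdM_two_le h
  have hE : 0 ≤ pdE CP K r := pdE_nonneg CP K r
  have hg0 : 0 ≤ S.gf f f := pd_gf_nonneg h f
  have hg0' : 0 ≤ (S.addPin P).gf f f := pd_gf_nonneg (pd_ok_addPin h P) f
  have hχv : S.Adm (χ * v) := pd_adm_mul S χ hsol.1
  -- `f (χ v) = 0`
  have hfχ : f (χ * v) = 0 := by
    refine hf _ fun x hx => ?_
    have h1 : A.blk x ∉ A.nb (A.cellsV P) := by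
      intro hmem
      have h2 : r ≤ ρ (A.blk x) := hfar (pd_subset_nb h _ hmem)
      rw [h0 _ hx] at h2
      omega
    show χ x * v x = 0
    rw [hχ, h.amb.cut_zero _ _ h1, zero_mul]
  have hfv : f v = S.gf f f := rfl
  -- the competitor
  have hw : (S.addPin P).Adm (v - χ * v) := by
    refine (pd_addPin_adm S P _).2 ⟨pd_adm_sub S hsol.1 hχv, fun x hx => ?_⟩
    have h1 : χ x = 1 := h.amb.cut_one _ _ ⟨x, hx, rfl⟩
    show v x - χ x * v x = 0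
    rw [h1, one_mul, sub_self]
  have hfw : f (v - χ * v) = S.gf f f := by rw [map_sub, hfχ, sub_zero, hfv]
  have h1 := pd_apply_sq_le (pd_ok_addPin h P) f hw
  have hform : (S.addPin P).form (v - χ * v) = S.gf f f + S.form (χ * v) := by
    show S.form (v - χ * v) = _
    rw [pd_form_sub, hsol.2 _ hχv, hfχ, pd_gf_self h f]
    ring
  have h2 : S.form (χ * v) ≤ pdM CP K * (pdE CP K r * S.gf f f) :=
    (pd_form_cut_le h hsol.1 _).trans (mul_le_mul_of_nonneg_left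
      ((pd_enT_mono S hfar v).trans (pd_sol_tail h hf hρ h0 r)) (by linarith))
  rw [hfw, hform] at h1
  rcases hg0.eq_or_lt with hz | hpos
  · rw [← hz]
    have : 0 ≤ pdM CP K * pdE CP K r * (S.addPin P).gf f f := by positivity
    linarith
  · have h3 : S.gf f f ^ 2 ≤ (S.addPin P).gf f f * (1 + pdM CP K * pdE CP K r) * S.gf f f := by
      calc S.gf f f ^ 2 ≤ (S.addPin P).gf f f * (S.gf f f + S.form (χ * v)) := h1
        _ ≤ (S.addPin P).gf f f * (S.gf f f + pdM CP K * (pdE CP K r * S.gf f f)) :=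
            mul_le_mul_of_nonneg_left (by linarith) hg0'
        _ = _ := by ring
    rw [sq] at h3
    have h4 := le_of_mul_le_mul_right h3 hpos
    linarith

/-- a quadratic polynomial which is nonnegative has nonpositive discriminant -/
theorem pd_cs_aux {a b c : ℝ} (h : ∀ t : ℝ, 0 ≤ a * t ^ 2 + 2 * b * t + c) : b ^ 2 ≤ a * c := by
  have h1 : discrim a (2 * b) c ≤ 0 := discrim_le_zero fun x => by
    have := h x
    nlinarith [this]
  rw [discrim] at h1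
  nlinarith [h1]

/-- expansion of the Green form on a line -/
theorem pd_gf_line (h : PdOk A S σ CP K) (f g : (V → ℝ) →ₗ[ℝ] ℝ) (t : ℝ) :
    S.gf (t • f + g) (t • f + g) = S.gf f f * t ^ 2 + 2 * S.gf f g * t + S.gf g g := by
  rw [pd_gf_add_left h, pd_gf_smul_left h, pd_gf_comm h f (t • f + g), pd_gf_comm h g (t • f + g),
    pd_gf_add_left h, pd_gf_add_left h, pd_gf_smul_left h, pd_gf_smul_left h, pd_gf_comm h g f]
  ring

/-- entries: the difference form is positive semidefinite (`pd_pin_mono`), Cauchy-Schwarz. -/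
theorem pd_pin_entry (h : PdOk A S σ CP K) (P : Set V) {f₁ f₂ : (V → ℝ) →ₗ[ℝ] ℝ} {J₁ J₂ : Set I} (hf₁ : A.Carried J₁ f₁) (hf₂ : A.Carried J₂ f₂) {ρ₁ ρ₂ : I → ℕ}
    (hρ₁ : A.Lay ρ₁) (hρ₂ : A.Lay ρ₂) (h01 : ∀ i ∈ J₁, ρ₁ i = 0) (h02 : ∀ i ∈ J₂, ρ₂ i = 0) {r₁ r₂ : ℕ} (hr₁ : 1 ≤ r₁) (hr₂ : 1 ≤ r₂)
    (hfar₁ : A.nb (A.nb (A.cellsV P)) ⊆ A.far ρ₁ r₁) (hfar₂ : A.nb (A.nb (A.cellsV P)) ⊆ A.far ρ₂ r₂) :
    (S.gf f₁ f₂ - (S.addPin P).gf f₁ f₂) ^ 2 ≤ pdM CP K ^ 2 * (pdE CP K r₁ * pdE CP K r₂) * (S.gf f₁ f₁ * S.gf f₂ f₂) := by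
  have h' := pd_ok_addPin h P
  have hM : 2 ≤ pdM CP K := pd_pdM_two_le h
  have hE₁ : 0 ≤ pdE CP K r₁ := pdE_nonneg CP K r₁
  have hE₂ : 0 ≤ pdE CP K r₂ := pdE_nonneg CP K r₂
  have hcs : (S.gf f₁ f₂ - (S.addPin P).gf f₁ f₂) ^ 2 ≤
      (S.gf f₁ f₁ - (S.addPin P).gf f₁ f₁) * (S.gf f₂ f₂ - (S.addPin P).gf f₂ f₂) := by
    refine pd_cs_aux fun t => ?_
    have h1 := pd_pin_mono h P (t • f₁ + f₂)
    rw [pd_gf_line h, pd_gf_line h'] at h1
    linarith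
  have a1 := pd_pin_le h P hf₁ hρ₁ h01 hr₁ hfar₁
  have a2 := pd_pin_le h P hf₂ hρ₂ h02 hr₂ hfar₂
  have m1 := pd_pin_mono h P f₁
  have m2 := pd_pin_mono h P f₂
  have n1 : 0 ≤ (S.addPin P).gf f₁ f₁ := pd_gf_nonneg h' f₁
  have n2 : 0 ≤ (S.addPin P).gf f₂ f₂ := pd_gf_nonneg h' f₂
  have b1 : S.gf f₁ f₁ - (S.addPin P).gf f₁ f₁ ≤ pdM CP K * pdE CP K r₁ * S.gf f₁ f₁ :=
    a1.trans (mul_le_mul_of_nonneg_left m1 (by positivity))
  have b2 : S.gf f₂ f₂ - (S.addPin P).gf f₂ f₂ ≤ pdM CP K * pdE CP K r₂ * S.gf f₂ f₂ :=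
    a2.trans (mul_le_mul_of_nonneg_left m2 (by positivity))
  calc (S.gf f₁ f₂ - (S.addPin P).gf f₁ f₂) ^ 2
      ≤ (S.gf f₁ f₁ - (S.addPin P).gf f₁ f₁) * (S.gf f₂ f₂ - (S.addPin P).gf f₂ f₂) := hcs
    _ ≤ (pdM CP K * pdE CP K r₁ * S.gf f₁ f₁) * (pdM CP K * pdE CP K r₂ * S.gf f₂ f₂) :=
        mul_le_mul b1 b2 (by linarith) (le_trans (by linarith) b1)
    _ = _ := by ring

/-! ## I. comparison of two systems (`L-PD-CMP`) -/

/-- transfer: the Green form depends only on the admissible space and on the form on it -/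
theorem pd_gf_congr {S' : PdSys V I} {σ' CP' K' : ℝ} (h : PdOk A S σ CP K) (h' : PdOk A S' σ' CP' K') (hadm : ∀ v, S.Adm v ↔ S'.Adm v)
    (hform : ∀ v, S.Adm v → S.form v = S'.form v) (f g : (V → ℝ) →ₗ[ℝ] ℝ) : S.gf f g = S'.gf f g := by
  have hbil : ∀ v w, S.Adm v → S.Adm w → S.bil v w = S'.bil v w := by
    intro v w hv hw
    have h1 := pd_form_add S v w
    have h2 := pd_form_add S' v w
    rw [hform _ (pd_adm_add S hv hw), hform _ hv, hform _ hw] at h1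
    linarith
  have hsol := pd_sol_spec h f
  have hsol' : S'.IsSol f (S.sol f) :=
    ⟨(hadm _).1 hsol.1, fun φ hφ => by
      rw [← hbil _ _ hsol.1 ((hadm _).2 hφ)]; exact hsol.2 φ ((hadm _).2 hφ)⟩
  show g (S.sol f) = g (S'.sol f)
  rw [pd_sol_unique h' hsol']

/-- the common Dirichlet restriction -/
theorem pd_agree_gf {S' : PdSys V I} (h : PdOk A S σ CP K) (h' : PdOk A S' σ CP K) {Y : Set I} (hag : PdAgree A S S' Y) (f g : (V → ℝ) →ₗ[ℝ] ℝ) :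
    (S.addPin (A.sitesOf Yᶜ)).gf f g = (S'.addPin (A.sitesOf Yᶜ)).gf f g := by
  refine pd_gf_congr (pd_ok_addPin h _) (pd_ok_addPin h' _) (fun v => ?_) (fun v hv => ?_) f g
  · rw [pd_addPin_adm, pd_addPin_adm]
    constructor
    · rintro ⟨h1, h2⟩
      exact ⟨((hag v fun x hx => h2 x hx).1).1 h1, h2⟩
    · rintro ⟨h1, h2⟩
      exact ⟨((hag v fun x hx => h2 x hx).1).2 h1, h2⟩
  · exact (hag v fun x hx => ((pd_addPin_adm S _ v).1 hv).2 x hx).2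

/-- the cells of the sites of a set of cells -/
theorem pd_cellsV_sitesOf (A : PdAmb V I) (Y : Set I) : A.cellsV (A.sitesOf Y) ⊆ Y := by
  rintro i ⟨x, hx, rfl⟩
  exact hx

/-- **(4b) comparison, diagonal**: `|g - g'| ≤ M pdE(r) min(g, g')`. -/
theorem pd_compare (S' : PdSys V I) (h : PdOk A S σ CP K) (h' : PdOk A S' σ CP K) {Y : Set I} (hag : PdAgree A S S' Y)
    {f : (V → ℝ) →ₗ[ℝ] ℝ} {J : Set I} (hf : A.Carried J f) {ρ : I → ℕ} (hρ : A.Lay ρ) (h0 : ∀ i ∈ J, ρ i = 0)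
    {r : ℕ} (hr : 1 ≤ r) (hfar : A.nb (A.nb Yᶜ) ⊆ A.far ρ r) :
    |S.gf f f - S'.gf f f| ≤ pdM CP K * pdE CP K r * min (S.gf f f) (S'.gf f f) := by
  have hfar' : A.nb (A.nb (A.cellsV (A.sitesOf Yᶜ))) ⊆ A.far ρ r :=
    (pd_nb_mono A (pd_nb_mono A (pd_cellsV_sitesOf A _))).trans hfar
  have hM : 2 ≤ pdM CP K := pd_pdM_two_le h
  have hE : 0 ≤ pdE CP K r := pdE_nonneg CP K r
  have a1 := pd_pin_le h (A.sitesOf Yᶜ) hf hρ h0 hr hfar'
  have a2 := pd_pin_le h' (A.sitesOf Yᶜ) hf hρ h0 hr hfar'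
  have m1 := pd_pin_mono h (A.sitesOf Yᶜ) f
  have m2 := pd_pin_mono h' (A.sitesOf Yᶜ) f
  rw [← pd_agree_gf h h' hag f f] at a2 m2
  have hmin : (S.addPin (A.sitesOf Yᶜ)).gf f f ≤ min (S.gf f f) (S'.gf f f) := le_min m1 m2
  have hb : pdM CP K * pdE CP K r * (S.addPin (A.sitesOf Yᶜ)).gf f f ≤
      pdM CP K * pdE CP K r * min (S.gf f f) (S'.gf f f) :=
    mul_le_mul_of_nonneg_left hmin (by positivity)
  rw [abs_le]
  constructor <;> linarith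

/-- **(4b) comparison, entries.** -/
theorem pd_compare_entry (S' : PdSys V I) (h : PdOk A S σ CP K) (h' : PdOk A S' σ CP K) {Y : Set I} (hag : PdAgree A S S' Y)
    {f₁ f₂ : (V → ℝ) →ₗ[ℝ] ℝ} {J₁ J₂ : Set I} (hf₁ : A.Carried J₁ f₁) (hf₂ : A.Carried J₂ f₂) {ρ₁ ρ₂ : I → ℕ}
    (hρ₁ : A.Lay ρ₁) (hρ₂ : A.Lay ρ₂) (h01 : ∀ i ∈ J₁, ρ₁ i = 0) (h02 : ∀ i ∈ J₂, ρ₂ i = 0) {r₁ r₂ : ℕ} (hr₁ : 1 ≤ r₁) (hr₂ : 1 ≤ r₂)
    (hfar₁ : A.nb (A.nb Yᶜ) ⊆ A.far ρ₁ r₁) (hfar₂ : A.nb (A.nb Yᶜ) ⊆ A.far ρ₂ r₂)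
    {Γ₁ Γ₂ : ℝ} (hΓ₁ : S.gf f₁ f₁ ≤ Γ₁) (hΓ₁' : S'.gf f₁ f₁ ≤ Γ₁) (hΓ₂ : S.gf f₂ f₂ ≤ Γ₂) (hΓ₂' : S'.gf f₂ f₂ ≤ Γ₂) :
    (S.gf f₁ f₂ - S'.gf f₁ f₂) ^ 2 ≤ 4 * pdM CP K ^ 2 * (pdE CP K r₁ * pdE CP K r₂) * (Γ₁ * Γ₂) := by
  have hsub : A.nb (A.nb (A.cellsV (A.sitesOf Yᶜ))) ⊆ A.nb (A.nb Yᶜ) :=
    pd_nb_mono A (pd_nb_mono A (pd_cellsV_sitesOf A _))
  have hE₁ : 0 ≤ pdE CP K r₁ := pdE_nonneg CP K r₁
  have hE₂ : 0 ≤ pdE CP K r₂ := pdE_nonneg CP K r₂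
  have a1 := pd_pin_entry h (A.sitesOf Yᶜ) hf₁ hf₂ hρ₁ hρ₂ h01 h02 hr₁ hr₂ (hsub.trans hfar₁) (hsub.trans hfar₂)
  have a2 := pd_pin_entry h' (A.sitesOf Yᶜ) hf₁ hf₂ hρ₁ hρ₂ h01 h02 hr₁ hr₂ (hsub.trans hfar₁) (hsub.trans hfar₂)
  rw [← pd_agree_gf h h' hag f₁ f₂] at a2
  have c0 : 0 ≤ pdM CP K ^ 2 * (pdE CP K r₁ * pdE CP K r₂) := by positivity
  have b1 : S.gf f₁ f₁ * S.gf f₂ f₂ ≤ Γ₁ * Γ₂ :=
    mul_le_mul hΓ₁ hΓ₂ (pd_gf_nonneg h f₂) ((pd_gf_nonneg h f₁).trans hΓ₁)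
  have b2 : S'.gf f₁ f₁ * S'.gf f₂ f₂ ≤ Γ₁ * Γ₂ :=
    mul_le_mul hΓ₁' hΓ₂' (pd_gf_nonneg h' f₂) ((pd_gf_nonneg h' f₁).trans hΓ₁')
  have d1 := a1.trans (mul_le_mul_of_nonneg_left b1 c0)
  have d2 := a2.trans (mul_le_mul_of_nonneg_left b2 c0)
  set G₀ := (S.addPin (A.sitesOf Yᶜ)).gf f₁ f₂
  nlinarith [sq_nonneg ((S.gf f₁ f₂ - G₀) + (S'.gf f₁ f₂ - G₀))]

/-- sums over the remaining rows -/
theorem pd_cutT_sum (S : PdSys V I) (D : Set S.Tm) (F : S.Tm → ℝ) :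
    ∑ t : (S.cutT D).Tm, F t.1 = ∑ t, if t ∈ D then 0 else F t := by
  have h1 : ∑ t : {t : S.Tm // t ∉ D}, F t.1 = ∑ t ∈ Finset.univ.filter (fun t => t ∉ D), F t :=
    (Finset.sum_subtype _ (fun x => by simp) F).symm
  refine h1.trans ?_
  rw [Finset.sum_filter]
  refine Finset.sum_congr rfl fun t _ => ?_
  by_cases ht : t ∈ D <;> simp [ht]

theorem pd_cutT_sum_le (S : PdSys V I) (D : Set S.Tm) (F : S.Tm → ℝ) (hF : ∀ t, 0 ≤ F t) :
    ∑ t : (S.cutT D).Tm, F t.1 ≤ ∑ t, F t := by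
  rw [pd_cutT_sum]
  refine Finset.sum_le_sum fun t _ => ?_
  split_ifs
  · exact hF t
  · exact le_rfl

/-- removing rows which are not inside one cell keeps all constants -/
theorem pd_ok_cutT (h : PdOk A S σ CP K) (D : Set S.Tm) (hD : ∀ t ∈ D, ∀ i, ¬ S.cs t ⊆ {i}) : PdOk A (S.cutT D) σ CP K where
  amb := h.amb
  σ_pos := h.σ_pos
  CP_nonneg := h.CP_nonneg
  K_nonneg := h.K_nonneg
  supp := fun t x => h.supp t.1 x
  clique := fun t => h.clique t.1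
  poincare := fun i v hv => by
    have e : (S.cutT D).enI {i} v = S.enI {i} v := by
      refine (pd_cutT_sum S D fun t => if S.cs t ⊆ {i} then S.row v t ^ 2 else 0).trans ?_
      refine Finset.sum_congr rfl fun t _ => ?_
      by_cases ht : t ∈ D
      · rw [if_pos ht, if_neg (hD t ht i)]
      · rw [if_neg ht]
    rw [e]
    exact h.poincare i v hv
  com := fun J => by
    obtain ⟨c, hc, h1, h2⟩ := h.com J
    refine ⟨fun t => c t.1, fun t => hc t.1, fun v Y => ?_, fun v Y => ?_⟩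
    · refine le_trans ?_ (h1 v Y)
      refine pd_cutT_sum_le S D
        (fun t => if S.cs t ⊆ Y then S.row (fun x => (A.cut J x - c t) * v x) t ^ 2 else 0) fun t => ?_
      split_ifs
      · positivity
      · exact le_rfl
    · refine le_trans ?_ (h2 v Y)
      refine pd_cutT_sum_le S D
        (fun t => if S.cs t ⊆ Y then |S.row v t * S.row (fun x => (A.cut J x - c t) ^ 2 * v x) t| else 0) fun t => ?_
      split_ifs
      · positivity
      · exact le_rfl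

theorem pd_cutT_form (S : PdSys V I) (D : Set S.Tm) (v : V → ℝ) : (S.cutT D).form v = S.form v - ∑ t, if t ∈ D then S.row v t ^ 2 else 0 := by
  refine (pd_cutT_sum S D fun t => S.row v t ^ 2).trans ?_
  rw [PdSys.form, ← Finset.sum_sub_distrib]
  refine Finset.sum_congr rfl fun t _ => ?_
  by_cases ht : t ∈ D <;> simp [ht]

theorem pd_cut_mono (h : PdOk A S σ CP K) (D : Set S.Tm) (hD : ∀ t ∈ D, ∀ i, ¬ S.cs t ⊆ {i}) (f : (V → ℝ) →ₗ[ℝ] ℝ) :
    S.gf f f ≤ (S.cutT D).gf f f := by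
  have h' := pd_ok_cutT h D hD
  refine pd_gf_le_of_bound h (pd_gf_nonneg h' f) fun φ hφ => ?_
  refine (pd_apply_sq_le h' f (φ := φ) hφ).trans (mul_le_mul_of_nonneg_left ?_ (pd_gf_nonneg h' f))
  exact pd_cutT_sum_le S D (fun t => S.row φ t ^ 2) fun t => sq_nonneg _

/-- a system and its cut agree off the cells of the removed rows -/
theorem pd_agree_cutT (h : PdOk A S σ CP K) (D : Set S.Tm) : PdAgree A S (S.cutT D) (S.cellsT D)ᶜ := by
  intro v hv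
  refine ⟨Iff.rfl, ?_⟩
  rw [pd_cutT_form, eq_comm, sub_eq_self]
  refine Finset.sum_eq_zero fun t _ => ?_
  split_ifs with ht
  · rw [pd_row_eq_zero h (v := v) (t := t) fun x hx => hv x fun hn => hn ⟨t, ht, hx⟩]
    simp
  · rfl

/-- the rows of two systems together: constants add (same ambient cutoffs) -/
theorem pd_ok_join {S' : PdSys V I} {K' : ℝ} (h : PdOk A S σ CP K) (hK' : 0 ≤ K') (hsupp : ∀ t x, S'.R t x ≠ 0 → A.blk x ∈ S'.cs t)
    (hcl : ∀ t i j, i ∈ S'.cs t → j ∈ S'.cs t → A.adj i j) (hcom : ∀ J, PdCom A S' (K' * σ) (A.cut J)) : PdOk A (S.join S') σ CP (K + K') where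
  amb := h.amb
  σ_pos := h.σ_pos
  CP_nonneg := h.CP_nonneg
  K_nonneg := add_nonneg h.K_nonneg hK'
  supp := fun t => by
    rcases t with t | t
    · exact h.supp t
    · exact hsupp t
  clique := fun t => by
    rcases t with t | t
    · exact h.clique t
    · exact hcl t
  poincare := fun i v hv => by
    have e : (S.join S').enI {i} v = S.enI {i} v + S'.enI {i} v :=
      Fintype.sum_sum_type _
    rw [e]
    refine (h.poincare i v fun x hx => hv x (Or.inl hx)).trans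
      (mul_le_mul_of_nonneg_left ?_ h.CP_nonneg)
    linarith [pd_enI_nonneg S' {i} v]
  com := fun J => by
    obtain ⟨c, hc, h1, h2⟩ := h.com J
    obtain ⟨c', hc', h1', h2'⟩ := hcom J
    refine ⟨Sum.elim c c', fun t => ?_, fun v Y => ?_, fun v Y => ?_⟩
    · rcases t with t | t
      · exact hc t
      · exact hc' t
    · refine (Fintype.sum_sum_type _).trans_le ?_
      have := add_le_add (h1 v Y) (h1' v Y)
      refine this.trans (le_of_eq ?_)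
      ring
    · refine (Fintype.sum_sum_type _).trans_le ?_
      have := add_le_add (h2 v Y) (h2' v Y)
      refine this.trans (le_of_eq ?_)
      ring

/-! ## J'. local energy of solutions with spread sources (`L-PD-LOCEN`) -/

/-- **local energy.**   `f = ∑_i f_i`, `f_i` carried by the cell `i`, dual norms `≤ γ`;  `d i` = layer function vanishing at `i`.   Then the energy touching the cell `j` is `≤ γ² (∑_i √(pdE (d i j)))²`
(`pd_sol_sum`, `pd_sqrt_enT_sum_le`, `pd_sol_tail` with `{j} ⊆ far (d i) (d i j)`). -/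
theorem pd_local_energy (h : PdOk A S σ CP K) (f : I → (V → ℝ) →ₗ[ℝ] ℝ) (hf : ∀ i, A.Carried {i} (f i)) {γ : ℝ} (hγ : 0 ≤ γ) (hg : ∀ i, S.gf (f i) (f i) ≤ γ ^ 2)
    (d : I → I → ℕ) (hd : ∀ i, A.Lay (d i)) (hd0 : ∀ i, d i i = 0) (j : I) :
    S.enT {j} (S.sol (∑ i, f i)) ≤ γ ^ 2 * (∑ i, Real.sqrt (pdE CP K (d i j))) ^ 2 := by
  have h1 : ∀ i, Real.sqrt (S.enT {j} (S.sol (f i))) ≤ γ * Real.sqrt (pdE CP K (d i j)) := by
    intro i
    have a1 : S.enT {j} (S.sol (f i)) ≤ pdE CP K (d i j) * γ ^ 2 := by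
      have hsub : ({j} : Set I) ⊆ A.far (d i) (d i j) := by
        intro k hk
        rw [Set.mem_singleton_iff] at hk
        rw [hk]
        exact le_refl (d i j)
      refine (pd_enT_mono S hsub _).trans ((pd_sol_tail h (hf i) (hd i) (fun k hk => ?_) _).trans
        (mul_le_mul_of_nonneg_left (hg i) (pdE_nonneg CP K _)))
      rw [Set.mem_singleton_iff] at hk
      rw [hk]
      exact hd0 i
    calc Real.sqrt (S.enT {j} (S.sol (f i))) ≤ Real.sqrt (pdE CP K (d i j) * γ ^ 2) :=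
          Real.sqrt_le_sqrt a1
      _ = γ * Real.sqrt (pdE CP K (d i j)) := by
          rw [Real.sqrt_mul (pdE_nonneg CP K _), Real.sqrt_sq hγ, mul_comm]
  have h2 : Real.sqrt (S.enT {j} (S.sol (∑ i, f i))) ≤ γ * ∑ i, Real.sqrt (pdE CP K (d i j)) := by
    rw [pd_sol_sum h, Finset.mul_sum]
    exact (pd_sqrt_enT_sum_le S _ _ _).trans (Finset.sum_le_sum fun i _ => h1 i)
  have h3 := pd_enT_nonneg S {j} (S.sol (∑ i, f i))
  calc S.enT {j} (S.sol (∑ i, f i)) = Real.sqrt (S.enT {j} (S.sol (∑ i, f i))) ^ 2 :=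
        (Real.sq_sqrt h3).symm
    _ ≤ (γ * ∑ i, Real.sqrt (pdE CP K (d i j))) ^ 2 :=
        pow_le_pow_left₀ (Real.sqrt_nonneg _) h2 2
    _ = γ ^ 2 * (∑ i, Real.sqrt (pdE CP K (d i j))) ^ 2 := by ring

/-- **cost of new pins for the affine problem** (imaginary walls):  `E_{pinned}(z) - E(z) ≤ T(χ u) ≤ M · T(u; nb² cells of P)`, `u` = minimiser of the unpinned problem, `χ` = cutoff of the cells of `P`
(competitor `(1-χ)u`, Euler-Lagrange). -/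
theorem pd_En_pin_le (h : PdOk A S σ CP K) (P : Set V) (z : S.Tm → ℝ) :
    (S.addPin P).En z - S.En z ≤ pdM CP K * S.enT (A.nb (A.nb (A.cellsV P))) (S.sol (S.termF z)) := by
  obtain ⟨u, hu⟩ : ∃ u, u = S.sol (S.termF z) := ⟨_, rfl⟩
  obtain ⟨χ, hχ⟩ : ∃ χ, χ = A.cut (A.cellsV P) := ⟨_, rfl⟩
  have hsol := pd_sol_spec h (S.termF z)
  rw [← hu] at hsol ⊢
  have hχu : S.Adm (χ * u) := pd_adm_mul S χ hsol.1
  have hw : (S.addPin P).Adm (u - χ * u) := by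
    rw [pd_addPin_adm]
    refine ⟨pd_adm_sub S hsol.1 hχu, fun x hx => ?_⟩
    simp only [Pi.sub_apply, Pi.mul_apply]
    rw [hχ, h.amb.cut_one (A.cellsV P) x ⟨x, hx, rfl⟩, one_mul, sub_self]
  have h1 : (S.addPin P).En z ≤ S.aff z (u - χ * u) := pd_En_le (S.addPin P) z hw
  have h2 : S.aff z (u - χ * u) = S.aff z u + S.form (χ * u) := by
    rw [pd_aff_eq, pd_aff_eq, pd_form_sub, map_sub, hsol.2 _ hχu]
    ring
  have h3 : S.En z = S.aff z u := by rw [hu]; exact pd_En_attained h z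
  have h4 : S.form (χ * u) ≤ pdM CP K * S.enT (A.nb (A.nb (A.cellsV P))) u := by
    rw [hχ]
    exact pd_form_cut_le h hsol.1 _
  linarith

end

end Claimed.Agent.R285.Pot
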