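import Claimed.Agent.R285.Pot.GaDict

/-!
# ROW 285, POT-DECAY, package GA (architect helper145), file 2: **(D4) THE FOUR-SYSTEM ESTIMATE**.   Mathlib + `Pot/Dec*` only, paper-free.

Four systems on one ambient: `S₁` = cut box pinned on the guard, `S₂` = restored box pinned on the guard, `S₃` = cut open patch, `S₄` = restored open patch.
`S₁, S₂` and `S₃, S₄` AGREE on `YH` (= off the core), `S₁, S₃` and `S₂, S₄` AGREE on `YD` (= inside the guard).   `F j` = a test carried by the cell `j`, of variance `≤ 1` in the four systems; `ρ j` = a layer function vanishing at `j`;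
`dH j`, `dD j` = lower bounds of `ρ j` on `nb² YHᶜ`, `nb² YDᶜ`, `R ≤ dH j + dD j`.   Then for `F_y = ∑_j y_j F_j`
`|[𝒢₁ - 𝒢₂](F_y, F_y) - [𝒢₃ - 𝒢₄](F_y, F_y)| ≤ |I| √(48 M² pdE(R)) |y|²`      (**`ga_four`**),     and in the form consumed by `gam_main` (`h4`): **`ga_D4`**.
Proof: entries; `Δ² ≤ 16 M² pdE(dH j) pdE(dH j')` and `Δ² ≤ 16 M² pdE(dD j) pdE(dD j')` (`ga_compare_entry` = `pd_compare_entry` without `1 ≤ r`), product, `pdE_add`.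
-/

set_option autoImplicit false
set_option linter.unusedSectionVars false

namespace Claimed.Agent.R285.Pot

open scoped Classical

noncomputable section

variable {V I : Type} [Fintype V] [Fintype I] {A : PdAmb V I} {S : PdSys V I} {σ CP K : ℝ}

/-! ## 1. the comparison estimates at all distances `r ≥ 0` -/

theorem ga_pdE_zero (CP K : ℝ) : pdE CP K 0 = 3 := by
  unfold pdE
  simp

/-- `pdE` decreases -/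
theorem ga_pdE_anti (h : PdOk A S σ CP K) {r r' : ℕ} (hr : r ≤ r') : pdE CP K r' ≤ pdE CP K r := by
  have hM := pd_pdM_two_le h
  unfold pdE
  have h3 : (0 : ℝ) < 3 * (pdM CP K + 1) := by linarith
  have hr' : (r : ℝ) ≤ r' := by exact_mod_cast hr
  refine mul_le_mul_of_nonneg_left (Real.exp_le_exp.2 ?_) (by norm_num)
  exact div_le_div_of_nonneg_right (by linarith) h3.le

/-- pinning, diagonal, all `r` -/
theorem ga_pin_diag (h : PdOk A S σ CP K) (P : Set V) {f : (V → ℝ) →ₗ[ℝ] ℝ} {J : Set I} (hf : A.Carried J f) {ρ : I → ℕ} (hρ : A.Lay ρ)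
    (h0 : ∀ i ∈ J, ρ i = 0) {r : ℕ} (hfar : A.nb (A.nb (A.cellsV P)) ⊆ A.far ρ r) :
    S.gf f f - (S.addPin P).gf f f ≤ pdM CP K * pdE CP K r * S.gf f f := by
  have hM : 2 ≤ pdM CP K := pd_pdM_two_le h
  have hg0 : 0 ≤ S.gf f f := pd_gf_nonneg h f
  have hg0' : 0 ≤ (S.addPin P).gf f f := pd_gf_nonneg (pd_ok_addPin h P) f
  rcases Nat.eq_zero_or_pos r with rfl | hr
  · rw [ga_pdE_zero]
    nlinarith
  · exact (pd_pin_le h P hf hρ h0 hr hfar).trans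
      (mul_le_mul_of_nonneg_left (pd_pin_mono h P f) (mul_nonneg (by linarith) (pdE_nonneg CP K r)))

/-- pinning, entries, all `r₁, r₂` -/
theorem ga_pin_entry (h : PdOk A S σ CP K) (P : Set V) {f₁ f₂ : (V → ℝ) →ₗ[ℝ] ℝ} {J₁ J₂ : Set I} (hf₁ : A.Carried J₁ f₁) (hf₂ : A.Carried J₂ f₂) {ρ₁ ρ₂ : I → ℕ}
    (hρ₁ : A.Lay ρ₁) (hρ₂ : A.Lay ρ₂) (h01 : ∀ i ∈ J₁, ρ₁ i = 0) (h02 : ∀ i ∈ J₂, ρ₂ i = 0) {r₁ r₂ : ℕ}
    (hfar₁ : A.nb (A.nb (A.cellsV P)) ⊆ A.far ρ₁ r₁) (hfar₂ : A.nb (A.nb (A.cellsV P)) ⊆ A.far ρ₂ r₂) :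
    (S.gf f₁ f₂ - (S.addPin P).gf f₁ f₂) ^ 2 ≤ pdM CP K ^ 2 * (pdE CP K r₁ * pdE CP K r₂) * (S.gf f₁ f₁ * S.gf f₂ f₂) := by
  have h' := pd_ok_addPin h P
  have hcs : (S.gf f₁ f₂ - (S.addPin P).gf f₁ f₂) ^ 2 ≤
      (S.gf f₁ f₁ - (S.addPin P).gf f₁ f₁) * (S.gf f₂ f₂ - (S.addPin P).gf f₂ f₂) := by
    refine pd_cs_aux fun t => ?_
    have h1 := pd_pin_mono h P (t • f₁ + f₂)
    rw [pd_gf_line h, pd_gf_line h'] at h1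
    linarith
  have b1 := ga_pin_diag h P hf₁ hρ₁ h01 hfar₁
  have b2 := ga_pin_diag h P hf₂ hρ₂ h02 hfar₂
  have m1 := pd_pin_mono h P f₁
  have m2 := pd_pin_mono h P f₂
  calc (S.gf f₁ f₂ - (S.addPin P).gf f₁ f₂) ^ 2
      ≤ (S.gf f₁ f₁ - (S.addPin P).gf f₁ f₁) * (S.gf f₂ f₂ - (S.addPin P).gf f₂ f₂) := hcs
    _ ≤ (pdM CP K * pdE CP K r₁ * S.gf f₁ f₁) * (pdM CP K * pdE CP K r₂ * S.gf f₂ f₂) :=
        mul_le_mul b1 b2 (by linarith) (le_trans (by linarith) b1)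
    _ = _ := by ring

/-- comparison of two systems which agree on `Y`, entries, all `r₁, r₂` -/
theorem ga_compare_entry (S' : PdSys V I) (h : PdOk A S σ CP K) (h' : PdOk A S' σ CP K) {Y : Set I} (hag : PdAgree A S S' Y)
    {f₁ f₂ : (V → ℝ) →ₗ[ℝ] ℝ} {J₁ J₂ : Set I} (hf₁ : A.Carried J₁ f₁) (hf₂ : A.Carried J₂ f₂) {ρ₁ ρ₂ : I → ℕ}
    (hρ₁ : A.Lay ρ₁) (hρ₂ : A.Lay ρ₂) (h01 : ∀ i ∈ J₁, ρ₁ i = 0) (h02 : ∀ i ∈ J₂, ρ₂ i = 0) {r₁ r₂ : ℕ}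
    (hfar₁ : A.nb (A.nb Yᶜ) ⊆ A.far ρ₁ r₁) (hfar₂ : A.nb (A.nb Yᶜ) ⊆ A.far ρ₂ r₂)
    {Γ₁ Γ₂ : ℝ} (hΓ₁ : S.gf f₁ f₁ ≤ Γ₁) (hΓ₁' : S'.gf f₁ f₁ ≤ Γ₁) (hΓ₂ : S.gf f₂ f₂ ≤ Γ₂) (hΓ₂' : S'.gf f₂ f₂ ≤ Γ₂) :
    (S.gf f₁ f₂ - S'.gf f₁ f₂) ^ 2 ≤ 4 * pdM CP K ^ 2 * (pdE CP K r₁ * pdE CP K r₂) * (Γ₁ * Γ₂) := by
  have hsub : A.nb (A.nb (A.cellsV (A.sitesOf Yᶜ))) ⊆ A.nb (A.nb Yᶜ) :=
    pd_nb_mono A (pd_nb_mono A (pd_cellsV_sitesOf A _))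
  have hE₁ : 0 ≤ pdE CP K r₁ := pdE_nonneg CP K r₁
  have hE₂ : 0 ≤ pdE CP K r₂ := pdE_nonneg CP K r₂
  have a1 := ga_pin_entry h (A.sitesOf Yᶜ) hf₁ hf₂ hρ₁ hρ₂ h01 h02 (hsub.trans hfar₁) (hsub.trans hfar₂)
  have a2 := ga_pin_entry h' (A.sitesOf Yᶜ) hf₁ hf₂ hρ₁ hρ₂ h01 h02 (hsub.trans hfar₁) (hsub.trans hfar₂)
  rw [← pd_agree_gf h h' hag f₁ f₂] at a2
  have c0 : 0 ≤ pdM CP K ^ 2 * (pdE CP K r₁ * pdE CP K r₂) := by positivity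
  have b1 : S.gf f₁ f₁ * S.gf f₂ f₂ ≤ Γ₁ * Γ₂ :=
    mul_le_mul hΓ₁ hΓ₂ (pd_gf_nonneg h f₂) ((pd_gf_nonneg h f₁).trans hΓ₁)
  have b2 : S'.gf f₁ f₁ * S'.gf f₂ f₂ ≤ Γ₁ * Γ₂ :=
    mul_le_mul hΓ₁' hΓ₂' (pd_gf_nonneg h' f₂) ((pd_gf_nonneg h' f₁).trans hΓ₁')
  have d1 := a1.trans (mul_le_mul_of_nonneg_left b1 c0)
  have d2 := a2.trans (mul_le_mul_of_nonneg_left b2 c0)
  set G₀ := (S.addPin (A.sitesOf Yᶜ)).gf f₁ f₂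
  nlinarith [sq_nonneg ((S.gf f₁ f₂ - G₀) + (S'.gf f₁ f₂ - G₀))]

/-! ## 2. bilinearity -/

theorem ga_gf_sum_left (h : PdOk A S σ CP K) {ι : Type} (s : Finset ι) (c : ι → ℝ) (F : ι → (V → ℝ) →ₗ[ℝ] ℝ) (g : (V → ℝ) →ₗ[ℝ] ℝ) :
    S.gf (∑ j ∈ s, c j • F j) g = ∑ j ∈ s, c j * S.gf (F j) g := by
  show g (S.sol (∑ j ∈ s, c j • F j)) = _
  rw [pd_sol_sum h, map_sum]
  refine Finset.sum_congr rfl fun j _ => ?_
  rw [pd_sol_smul h, map_smul, smul_eq_mul]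
  rfl

theorem ga_gf_sum (h : PdOk A S σ CP K) (y : I → ℝ) (F : I → (V → ℝ) →ₗ[ℝ] ℝ) :
    S.gf (∑ j, y j • F j) (∑ j, y j • F j) = ∑ j, ∑ j', y j * y j' * S.gf (F j) (F j') := by
  rw [ga_gf_sum_left h]
  refine Finset.sum_congr rfl fun j _ => ?_
  rw [pd_gf_comm h, ga_gf_sum_left h, Finset.mul_sum]
  refine Finset.sum_congr rfl fun j' _ => ?_
  rw [pd_gf_comm h]
  ring

/-! ## 3. the four-system estimate -/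

/-- elementary: two bounds of a square -/
theorem ga_sq_min {x a b c : ℝ} (ha : x ^ 2 ≤ a) (hb : x ^ 2 ≤ b) (hc0 : 0 ≤ c) (hab : a * b ≤ c ^ 2) : x ^ 2 ≤ c := by
  have h0 := sq_nonneg x
  have h1 : (x ^ 2) ^ 2 ≤ c ^ 2 := by
    calc (x ^ 2) ^ 2 = x ^ 2 * x ^ 2 := by ring
      _ ≤ a * b := mul_le_mul ha hb h0 (h0.trans ha)
      _ ≤ c ^ 2 := hab
  exact abs_le_of_sq_le_sq' h1 hc0 |>.2

/-- elementary: a quadratic form with bounded entries -/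
theorem ga_quad_le (y : I → ℝ) (D : I → I → ℝ) {d : ℝ} (hD : ∀ j j', |D j j'| ≤ d) :
    |∑ j, ∑ j', y j * y j' * D j j'| ≤ Fintype.card I * d * ∑ j, y j ^ 2 := by
  have h1 : |∑ j, ∑ j', y j * y j' * D j j'| ≤ ∑ j, ∑ j', |y j| * |y j'| * d := by
    refine (Finset.abs_sum_le_sum_abs _ _).trans (Finset.sum_le_sum fun j _ => ?_)
    refine (Finset.abs_sum_le_sum_abs _ _).trans (Finset.sum_le_sum fun j' _ => ?_)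
    rw [abs_mul, abs_mul]
    exact mul_le_mul_of_nonneg_left (hD j j') (by positivity)
  have h2 : ∑ j, ∑ j', |y j| * |y j'| * d = (∑ j, |y j|) ^ 2 * d := by
    rw [sq, Finset.sum_mul_sum, Finset.sum_mul]
    refine Finset.sum_congr rfl fun j _ => ?_
    rw [Finset.sum_mul]
  have h3 : (∑ j, |y j|) ^ 2 ≤ Fintype.card I * ∑ j, y j ^ 2 := by
    have := sq_sum_le_card_mul_sum_sq (s := (Finset.univ : Finset I)) (f := fun j => |y j|)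
    simpa [sq_abs] using this
  rcases isEmpty_or_nonempty I with hI | ⟨⟨j0⟩⟩
  · simp
  have hd : 0 ≤ d := (abs_nonneg _).trans (hD j0 j0)
  calc |∑ j, ∑ j', y j * y j' * D j j'| ≤ (∑ j, |y j|) ^ 2 * d := h1.trans h2.le
    _ ≤ (Fintype.card I * ∑ j, y j ^ 2) * d := mul_le_mul_of_nonneg_right h3 hd
    _ = _ := by ring

variable {S₁ S₂ S₃ S₄ : PdSys V I}

/-- one entry -/
theorem ga_four_entry (h₁ : PdOk A S₁ σ CP K) (h₂ : PdOk A S₂ σ CP K) (h₃ : PdOk A S₃ σ CP K) (h₄ : PdOk A S₄ σ CP K) {YH YD : Set I}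
    (a12 : PdAgree A S₁ S₂ YH) (a34 : PdAgree A S₃ S₄ YH) (a13 : PdAgree A S₁ S₃ YD) (a24 : PdAgree A S₂ S₄ YD)
    (F : I → (V → ℝ) →ₗ[ℝ] ℝ) (hF : ∀ j, A.Carried {j} (F j))
    (g₁ : ∀ j, S₁.gf (F j) (F j) ≤ 1) (g₂ : ∀ j, S₂.gf (F j) (F j) ≤ 1) (g₃ : ∀ j, S₃.gf (F j) (F j) ≤ 1) (g₄ : ∀ j, S₄.gf (F j) (F j) ≤ 1)
    (ρ : I → I → ℕ) (hρ : ∀ j, A.Lay (ρ j)) (hρ0 : ∀ j, ρ j j = 0) (dH dD : I → ℕ)
    (hH : ∀ j, A.nb (A.nb YHᶜ) ⊆ A.far (ρ j) (dH j)) (hD : ∀ j, A.nb (A.nb YDᶜ) ⊆ A.far (ρ j) (dD j))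
    {R : ℕ} (hR : ∀ j, R ≤ dH j + dD j) (j j' : I) :
    ((S₁.gf (F j) (F j') - S₂.gf (F j) (F j')) - (S₃.gf (F j) (F j') - S₄.gf (F j) (F j'))) ^ 2 ≤ 48 * pdM CP K ^ 2 * pdE CP K R := by
  have z0 : ∀ k : I, ∀ i ∈ ({k} : Set I), ρ k i = 0 := fun k i hi => by
    rw [Set.mem_singleton_iff] at hi
    rw [hi]
    exact hρ0 k
  have c12 := ga_compare_entry S₂ h₁ h₂ a12 (hF j) (hF j') (hρ j) (hρ j') (z0 j) (z0 j') (hH j) (hH j') (g₁ j) (g₂ j) (g₁ j') (g₂ j')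
  have c34 := ga_compare_entry S₄ h₃ h₄ a34 (hF j) (hF j') (hρ j) (hρ j') (z0 j) (z0 j') (hH j) (hH j') (g₃ j) (g₄ j) (g₃ j') (g₄ j')
  have c13 := ga_compare_entry S₃ h₁ h₃ a13 (hF j) (hF j') (hρ j) (hρ j') (z0 j) (z0 j') (hD j) (hD j') (g₁ j) (g₃ j) (g₁ j') (g₃ j')
  have c24 := ga_compare_entry S₄ h₂ h₄ a24 (hF j) (hF j') (hρ j) (hρ j') (z0 j) (z0 j') (hD j) (hD j') (g₂ j) (g₄ j) (g₂ j') (g₄ j')
  set x₁ := S₁.gf (F j) (F j')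
  set x₂ := S₂.gf (F j) (F j')
  set x₃ := S₃.gf (F j) (F j')
  set x₄ := S₄.gf (F j) (F j')
  set M := pdM CP K
  have bH : ((x₁ - x₂) - (x₃ - x₄)) ^ 2 ≤ 16 * M ^ 2 * (pdE CP K (dH j) * pdE CP K (dH j')) := by
    nlinarith [sq_nonneg ((x₁ - x₂) + (x₃ - x₄))]
  have bD : ((x₁ - x₂) - (x₃ - x₄)) ^ 2 ≤ 16 * M ^ 2 * (pdE CP K (dD j) * pdE CP K (dD j')) := by
    nlinarith [sq_nonneg ((x₁ - x₃) + (x₂ - x₄))]
  have hE : 0 ≤ pdE CP K R := pdE_nonneg CP K R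
  refine ga_sq_min bH bD (by positivity) ?_
  have e1 : pdE CP K (dH j) * pdE CP K (dD j) ≤ 3 * pdE CP K R := by
    rw [pdE_add]
    exact mul_le_mul_of_nonneg_left (ga_pdE_anti h₁ (hR j)) (by norm_num)
  have e2 : pdE CP K (dH j') * pdE CP K (dD j') ≤ 3 * pdE CP K R := by
    rw [pdE_add]
    exact mul_le_mul_of_nonneg_left (ga_pdE_anti h₁ (hR j')) (by norm_num)
  have e3 : (pdE CP K (dH j) * pdE CP K (dD j)) * (pdE CP K (dH j') * pdE CP K (dD j')) ≤ (3 * pdE CP K R) * (3 * pdE CP K R) :=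
    mul_le_mul e1 e2 (mul_nonneg (pdE_nonneg _ _ _) (pdE_nonneg _ _ _)) (by positivity)
  calc 16 * M ^ 2 * (pdE CP K (dH j) * pdE CP K (dH j')) * (16 * M ^ 2 * (pdE CP K (dD j) * pdE CP K (dD j')))
      = 256 * M ^ 4 * ((pdE CP K (dH j) * pdE CP K (dD j)) * (pdE CP K (dH j') * pdE CP K (dD j'))) := by ring
    _ ≤ 256 * M ^ 4 * ((3 * pdE CP K R) * (3 * pdE CP K R)) := mul_le_mul_of_nonneg_left e3 (by positivity)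
    _ = (48 * M ^ 2 * pdE CP K R) ^ 2 := by ring

/-- **(D4) the four-system estimate** -/
theorem ga_four (h₁ : PdOk A S₁ σ CP K) (h₂ : PdOk A S₂ σ CP K) (h₃ : PdOk A S₃ σ CP K) (h₄ : PdOk A S₄ σ CP K) {YH YD : Set I}
    (a12 : PdAgree A S₁ S₂ YH) (a34 : PdAgree A S₃ S₄ YH) (a13 : PdAgree A S₁ S₃ YD) (a24 : PdAgree A S₂ S₄ YD)
    (F : I → (V → ℝ) →ₗ[ℝ] ℝ) (hF : ∀ j, A.Carried {j} (F j))
    (g₁ : ∀ j, S₁.gf (F j) (F j) ≤ 1) (g₂ : ∀ j, S₂.gf (F j) (F j) ≤ 1) (g₃ : ∀ j, S₃.gf (F j) (F j) ≤ 1) (g₄ : ∀ j, S₄.gf (F j) (F j) ≤ 1)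
    (ρ : I → I → ℕ) (hρ : ∀ j, A.Lay (ρ j)) (hρ0 : ∀ j, ρ j j = 0) (dH dD : I → ℕ)
    (hH : ∀ j, A.nb (A.nb YHᶜ) ⊆ A.far (ρ j) (dH j)) (hD : ∀ j, A.nb (A.nb YDᶜ) ⊆ A.far (ρ j) (dD j))
    {R : ℕ} (hR : ∀ j, R ≤ dH j + dD j) (y : I → ℝ) :
    |(S₁.gf (∑ j, y j • F j) (∑ j, y j • F j) - S₂.gf (∑ j, y j • F j) (∑ j, y j • F j))
        - (S₃.gf (∑ j, y j • F j) (∑ j, y j • F j) - S₄.gf (∑ j, y j • F j) (∑ j, y j • F j))|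
      ≤ Fintype.card I * Real.sqrt (48 * pdM CP K ^ 2 * pdE CP K R) * ∑ j, y j ^ 2 := by
  rw [ga_gf_sum h₁, ga_gf_sum h₂, ga_gf_sum h₃, ga_gf_sum h₄]
  have e : (∑ j, ∑ j', y j * y j' * S₁.gf (F j) (F j') - ∑ j, ∑ j', y j * y j' * S₂.gf (F j) (F j'))
      - (∑ j, ∑ j', y j * y j' * S₃.gf (F j) (F j') - ∑ j, ∑ j', y j * y j' * S₄.gf (F j) (F j'))
      = ∑ j, ∑ j', y j * y j' * ((S₁.gf (F j) (F j') - S₂.gf (F j) (F j')) - (S₃.gf (F j) (F j') - S₄.gf (F j) (F j'))) := by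
    simp only [← Finset.sum_sub_distrib]
    refine Finset.sum_congr rfl fun j _ => Finset.sum_congr rfl fun j' _ => ?_
    ring
  rw [e]
  refine ga_quad_le y _ fun j j' => ?_
  exact Real.abs_le_sqrt (ga_four_entry h₁ h₂ h₃ h₄ a12 a34 a13 a24 F hF g₁ g₂ g₃ g₄ ρ hρ hρ0 dH dD hH hD hR j j')

/-- **(D4) in the form of `gam_main` (`h4`)**: `z₃, z₄` = the data of the two open patches -/
theorem ga_D4 (h₁ : PdOk A S₁ σ CP K) (h₂ : PdOk A S₂ σ CP K) (h₃ : PdOk A S₃ σ CP K) (h₄ : PdOk A S₄ σ CP K) {YH YD : Set I}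
    (a12 : PdAgree A S₁ S₂ YH) (a34 : PdAgree A S₃ S₄ YH) (a13 : PdAgree A S₁ S₃ YD) (a24 : PdAgree A S₂ S₄ YD)
    (F : I → (V → ℝ) →ₗ[ℝ] ℝ) (hF : ∀ j, A.Carried {j} (F j))
    (g₁ : ∀ j, S₁.gf (F j) (F j) ≤ 1) (g₂ : ∀ j, S₂.gf (F j) (F j) ≤ 1) (g₃ : ∀ j, S₃.gf (F j) (F j) ≤ 1) (g₄ : ∀ j, S₄.gf (F j) (F j) ≤ 1)
    (ρ : I → I → ℕ) (hρ : ∀ j, A.Lay (ρ j)) (hρ0 : ∀ j, ρ j j = 0) (dH dD : I → ℕ)
    (hH : ∀ j, A.nb (A.nb YHᶜ) ⊆ A.far (ρ j) (dH j)) (hD : ∀ j, A.nb (A.nb YDᶜ) ⊆ A.far (ρ j) (dD j))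
    {R : ℕ} (hR : ∀ j, R ≤ dH j + dD j) (y : I → ℝ)
    (z₃ : S₃.Tm → ℝ) (z₄ : S₄.Tm → ℝ) (hz : ∑ t, z₃ t ^ 2 = ∑ t, z₄ t ^ 2)
    (hz₃ : S₃.termF z₃ = ∑ j, y j • F j) (hz₄ : S₄.termF z₄ = ∑ j, y j • F j) :
    |(S₂.gf (∑ j, y j • F j) (∑ j, y j • F j) - S₁.gf (∑ j, y j • F j) (∑ j, y j • F j)) / 2 + (S₄.En z₄ - S₃.En z₃) / 2|
      ≤ (Fintype.card I * Real.sqrt (48 * pdM CP K ^ 2 * pdE CP K R) * ∑ j, y j ^ 2) / 2 := by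
  have key := ga_four h₁ h₂ h₃ h₄ a12 a34 a13 a24 F hF g₁ g₂ g₃ g₄ ρ hρ hρ0 dH dD hH hD hR y
  rw [pd_En_eq h₃, pd_En_eq h₄, hz₃, hz₄, hz]
  set f := ∑ j, y j • F j
  set B := (Fintype.card I : ℝ) * Real.sqrt (48 * pdM CP K ^ 2 * pdE CP K R) * ∑ j, y j ^ 2
  rw [abs_le] at key ⊢
  obtain ⟨k1, k2⟩ := key
  constructor <;> linarith

/-! ## 4. tools for the hypotheses -/

/-- agreement survives common pins -/
theorem ga_agree_addPin {S S' : PdSys V I} {Y : Set I} (hag : PdAgree A S S' Y) (P : Set V) : PdAgree A (S.addPin P) (S'.addPin P) Y := by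
  intro v hv
  refine ⟨?_, (hag v hv).2⟩
  rw [pd_addPin_adm, pd_addPin_adm, (hag v hv).1]

theorem ga_agree_symm {S S' : PdSys V I} {Y : Set I} (hag : PdAgree A S S' Y) : PdAgree A S' S Y :=
  fun v hv => ⟨(hag v hv).1.symm, (hag v hv).2.symm⟩

theorem ga_agree_mono {S S' : PdSys V I} {Y Y' : Set I} (hag : PdAgree A S S' Y) (hY : Y' ⊆ Y) : PdAgree A S S' Y' :=
  fun v hv => hag v fun x hx => hv x fun h => hx (hY h)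

/-- a row of the system has variance `≤ 1` -/
theorem ga_row_gf_le (h : PdOk A S σ CP K) (t : S.Tm) : S.gf (pdRowF (S.R t)) (pdRowF (S.R t)) ≤ 1 := by
  have h1 := pd_termF_gf_le h (fun s => if s = t then (1 : ℝ) else 0)
  have e : S.termF (fun s => if s = t then (1 : ℝ) else 0) = pdRowF (S.R t) := by
    refine LinearMap.ext fun φ => ?_
    show ∑ s, (if s = t then (1 : ℝ) else 0) * S.row φ s = ∑ x, S.R t x * φ x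
    simp [PdSys.row]
  rw [e] at h1
  refine h1.trans ?_
  simp

end

end Claimed.Agent.R285.Pot
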