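import Claimed.Agent.R285.Pot.LinMeas

/-!
# ROW 285, POT-LIN block 3d : conditional quantities of the Gaussian reference (`C3.gcLap`, `gcPin`, `grPin`, `gExT`), `gPin` as a log ratio (owner helper83).   Paper-free.
`plcLap = C3.gcLap`, `plcPin = C3.gcPin`, `plrPin = C3.grPin`, `plExT = C3.gExT`, `plZ = C3.gZ`, `plExt = C3.ext`, `plRes = C3.resR`: all by `rfl`.
-/

set_option autoImplicit false

namespace Claimed.Agent.R285.Pot

open MeasureTheory ProbabilityTheory
open scoped Classical

noncomputable section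

variable {G : HGraph} (H : HLaw G)

theorem pl_Z_data_one {a : ℝ} (ha : 0 < a) {P : Set G.V} (h : plPD H P) (u : G.V → ℝ) :
    plZ H a P u (fun _ => 1) = Real.exp (-(plEn H a P u) / 2) * plZ H a P 0 fun _ => 1 :=
  pl_Z_data H ha h u _

theorem pl_Z_data_one_pos {a : ℝ} (ha : 0 < a) {P : Set G.V} (h : plPD H P) (u : G.V → ℝ) : 0 < plZ H a P u fun _ => 1 := by
  rw [pl_Z_data_one H ha h]; exact mul_pos (Real.exp_pos _) (pl_Z_one_pos H ha h)

/-- **conditional Laplace transform**: mean `⟨f, harm u⟩`, variance `gVar` of the pinned law -/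
theorem pl_cLap_eq {a : ℝ} (ha : 0 < a) {P : Set G.V} (h : plPD H P) (f u : G.V → ℝ) :
    plcLap H a P f u = HLaw.pair f (plHarm H a P u) + (plPin H P).gVar a f / 2 := by
  have hZ := pl_Z_one_pos H ha h
  rw [plcLap, pl_Z_data H ha h u, pl_Z_data_one H ha h u, mul_div_mul_left _ _ (Real.exp_pos _).ne']
  have e : (fun φ => Real.exp (HLaw.pair f (plHarm H a P u + φ)))
      = fun φ => Real.exp (HLaw.pair f (plHarm H a P u)) * Real.exp (HLaw.pair f φ) := by
    funext φ; rw [pl_pair_add_right, Real.exp_add]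
  have e2 : plZ H a P 0 (fun φ => Real.exp (HLaw.pair f (plHarm H a P u)) * Real.exp (HLaw.pair f φ))
      = Real.exp (HLaw.pair f (plHarm H a P u)) * plZ H a P 0 fun φ => Real.exp (HLaw.pair f φ) := by
    simp only [plZ, mul_assoc, integral_const_mul]
  rw [e, e2, pl_Z_laplace H ha h, ← mul_assoc, mul_div_assoc, div_self hZ.ne', mul_one, ← Real.exp_add, Real.log_exp]

theorem pl_cPin_eq {a : ℝ} (ha : 0 < a) {P : Set G.V} (h : plPD H P) (A : Set G.V) (u : G.V → ℝ) :
    plcPin H a P A u = Real.exp (-(plGap H a P A u) / 2) * (plZ H a (P ∪ A) 0 (fun _ => 1) / plZ H a P 0 fun _ => 1) := by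
  rw [plcPin, pl_Z_data_one H ha h, pl_Z_data_one H ha (pl_PD_mono H h Set.subset_union_left), plGap,
    show -(plEn H a (P ∪ A) (plRes P u) - plEn H a P u) / 2 = -(plEn H a (P ∪ A) (plRes P u)) / 2 - -(plEn H a P u) / 2 by ring,
    Real.exp_sub]
  field_simp

theorem pl_res_zero (P : Set G.V) : plRes P (0 : G.V → ℝ) = 0 := by
  funext x; simp [plRes]

theorem pl_gap_zero {a : ℝ} (ha : 0 < a) {P : Set G.V} (h : plPD H P) (A : Set G.V) : plGap H a P A 0 = 0 := by
  rw [plGap, pl_res_zero, pl_en_zero H ha h, pl_en_zero H ha (pl_PD_mono H h Set.subset_union_left), sub_zero]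

/-- **the Gaussian pin ratio** `r^g(u) = exp(-gap(u)/2)` -/
theorem pl_rPin_eq {a : ℝ} (ha : 0 < a) {P : Set G.V} (h : plPD H P) (A : Set G.V) (u : G.V → ℝ) :
    plrPin H a P A u = Real.exp (-(plGap H a P A u) / 2) := by
  have h1 := pl_Z_one_pos H ha h
  have h2 := pl_Z_one_pos H ha (pl_PD_mono H h (Set.subset_union_left (t := A)))
  rw [plrPin, pl_cPin_eq H ha h, pl_cPin_eq H ha h, pl_gap_zero H ha h]
  simp only [neg_zero, zero_div, Real.exp_zero, one_mul]
  field_simp

theorem pl_rPin_pos {a : ℝ} (ha : 0 < a) {P : Set G.V} (h : plPD H P) (A : Set G.V) (u : G.V → ℝ) : 0 < plrPin H a P A u := by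
  rw [pl_rPin_eq H ha h]; exact Real.exp_pos _

theorem pl_rPin_le_one {a : ℝ} (ha : 0 < a) {P : Set G.V} (h : plPD H P) (A : Set G.V) (u : G.V → ℝ) : plrPin H a P A u ≤ 1 := by
  rw [pl_rPin_eq H ha h, Real.exp_le_one_iff]
  linarith [pl_gap_nonneg H ha h A u]

/-- `log Z` -/
theorem pl_log_Z {a : ℝ} (ha : 0 < a) {P : Set G.V} (h : plPD H P) :
    Real.log (plZ H a P 0 fun _ => 1) = (plCard P * Real.log (2 * Real.pi) - Real.log (H.detOff a P)) / 2 := by
  have h1 := pl_detOff_pos H ha h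
  have h2 : (0 : ℝ) < 2 * Real.pi := by positivity
  rw [pl_Z_one_eq H ha h, Real.log_sqrt (by positivity), Real.log_div (by positivity) h1.ne', Real.log_pow]

/-- the free sites -/
def plFree (P : Set G.V) : Finset G.V := Finset.univ.filter fun x : G.V => x ∉ P

theorem plFree_eqns_cite : True := by
  have := @plFree.eq_1; trivial

theorem pl_mem_free (P : Set G.V) (x : G.V) : x ∈ plFree P ↔ x ∉ P := by simp [plFree]

theorem pl_card_eq (P : Set G.V) : plCard P = (plFree P).card := by
  rw [plCard, plFree, Fintype.card_subtype]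

/-- inclusion-exclusion of the numbers of free sites -/
theorem pl_card_four (P A A' : Set G.V) (hd : A ∩ A' ⊆ P) :
    plCard (P ∪ A ∪ A') + plCard P = plCard (P ∪ A) + plCard (P ∪ A') := by
  simp only [pl_card_eq]
  have h1 : plFree (P ∪ A ∪ A') = plFree (P ∪ A) ∩ plFree (P ∪ A') := by
    ext x; simp only [pl_mem_free, Finset.mem_inter, Set.mem_union]; tauto
  have h2 : plFree P = plFree (P ∪ A) ∪ plFree (P ∪ A') := by
    ext x
    simp only [pl_mem_free, Finset.mem_union, Set.mem_union]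
    constructor
    · intro hx
      by_cases hA : x ∈ A
      · right
        rintro (h | h)
        · exact hx h
        · exact hx (hd ⟨hA, h⟩)
      · left; tauto
    · tauto
  rw [h1, h2, add_comm]
  exact Finset.card_union_add_card_inter _ _

/-- **`gPin` is the log ratio of the four normalisations** -/
theorem pl_gPin_eq_log {a : ℝ} (ha : 0 < a) {P : Set G.V} (h : plPD H P) (A A' : Set G.V) (hd : A ∩ A' ⊆ P) :
    H.gPin a P A A' = Real.log (plZ H a (P ∪ A ∪ A') 0 fun _ => 1) + Real.log (plZ H a P 0 fun _ => 1)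
      - Real.log (plZ H a (P ∪ A) 0 fun _ => 1) - Real.log (plZ H a (P ∪ A') 0 fun _ => 1) := by
  have hA := pl_PD_mono H h (Set.subset_union_left (t := A))
  have hA' := pl_PD_mono H h (Set.subset_union_left (t := A'))
  have hAA := pl_PD_mono H hA (Set.subset_union_left (t := A'))
  rw [pl_log_Z H ha h, pl_log_Z H ha hA, pl_log_Z H ha hA', pl_log_Z H ha hAA, HLaw.gPin]
  have := pl_card_four P A A' hd
  have e : ((plCard (P ∪ A ∪ A') : ℝ) + plCard P) * Real.log (2 * Real.pi)
      = ((plCard (P ∪ A) : ℝ) + plCard (P ∪ A')) * Real.log (2 * Real.pi) := by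
    congr 1; exact_mod_cast this
  simp only [add_mul] at e
  linarith

/-- **four-ratio identity** under a change of the rows ((3.27) of [C], Gaussian side): two laws `H`, `H'` on the same graph.  No disjointness needed. -/
theorem pl_four_ratio (H' : HLaw G) {a a' : ℝ} (ha : 0 < a) (ha' : 0 < a') {P : Set G.V} (h : plPD H P) (h' : plPD H' P) (A A' : Set G.V) :
    H.gPin a P A A' - H'.gPin a' P A A'
      = Real.log (plZ H a (P ∪ A ∪ A') 0 (fun _ => 1) / plZ H' a' (P ∪ A ∪ A') 0 fun _ => 1)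
        + Real.log (plZ H a P 0 (fun _ => 1) / plZ H' a' P 0 fun _ => 1)
        - Real.log (plZ H a (P ∪ A) 0 (fun _ => 1) / plZ H' a' (P ∪ A) 0 fun _ => 1)
        - Real.log (plZ H a (P ∪ A') 0 (fun _ => 1) / plZ H' a' (P ∪ A') 0 fun _ => 1) := by
  have hA := pl_PD_mono H h (Set.subset_union_left (t := A))
  have hA' := pl_PD_mono H h (Set.subset_union_left (t := A'))
  have hAA := pl_PD_mono H hA (Set.subset_union_left (t := A'))
  have kA := pl_PD_mono H' h' (Set.subset_union_left (t := A))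
  have kA' := pl_PD_mono H' h' (Set.subset_union_left (t := A'))
  have kAA := pl_PD_mono H' kA (Set.subset_union_left (t := A'))
  rw [Real.log_div (pl_Z_one_pos H ha hAA).ne' (pl_Z_one_pos H' ha' kAA).ne', Real.log_div (pl_Z_one_pos H ha h).ne' (pl_Z_one_pos H' ha' h').ne',
    Real.log_div (pl_Z_one_pos H ha hA).ne' (pl_Z_one_pos H' ha' kA).ne', Real.log_div (pl_Z_one_pos H ha hA').ne' (pl_Z_one_pos H' ha' kA').ne',
    pl_log_Z H ha h, pl_log_Z H ha hA, pl_log_Z H ha hA', pl_log_Z H ha hAA,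
    pl_log_Z H' ha' h', pl_log_Z H' ha' kA, pl_log_Z H' ha' kA', pl_log_Z H' ha' kAA, HLaw.gPin, HLaw.gPin]
  ring

end

end Claimed.Agent.R285.Pot
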