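import Claimed.Agent.R285.Pot.LinMean
import Claimed.Agent.R285.Pot.LinLaw

/-!
# ROW 285, POT-LIN block 4 : the Gaussian pin interaction `gPin` (owner helper83).   Paper-free.

ROUTE RECOMMENDED TO THE CONSUMERS (no singular values, no square roots):
 (J) `pl_gPin_le_jensen`:  `gPin a P A p ≤ ½ E_P [ plGap (P ∪ p) A φ ]`        (`= ½ ∑_j s_j²/(1-s_j²)` in canonical coordinates);
 (T) `pl_gap_le` (LinPin):  `plGap (P ∪ p) A u ≤ form g` for EVERY `g` vanishing on `P ∪ p` and equal to `harm_{P ∪ p} u` on `A`   (e.g. `g = χ (f - c) + c ψ`);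
 (M) `pl_quad_mean_le_of_codim` (LinTr):  Courant-Fischer bound of `E_P q(φ)` from bounds `q ≤ μ_j · plEn` on subspaces of codimension `j`.
The classical forms `gPin = -½ log det (1 - C C*)`, `gPin ≤ HS² / (2 (1 - |C|²))` are `pl_gPin_eq_det`, `pl_gPin_le_HS` (LinCC).
-/

set_option autoImplicit false

namespace Claimed.Agent.R285.Pot

open MeasureTheory ProbabilityTheory
open scoped Classical

noncomputable section

variable {G : HGraph} (H : HLaw G)

theorem pl_gPin_symm (a : ℝ) (P A A' : Set G.V) : H.gPin a P A A' = H.gPin a P A' A := by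
  rw [HLaw.gPin, HLaw.gPin, Set.union_right_comm P A A']; ring

/-- **chain rule** (pure algebra) -/
theorem pl_gPin_chain (a : ℝ) (P : Set G.V) {A B : Set G.V} (hAB : A ⊆ B) (A' : Set G.V) :
    H.gPin a P B A' = H.gPin a P A A' + H.gPin a (P ∪ A) B A' := by
  have e1 : P ∪ A ∪ B = P ∪ B := by rw [Set.union_assoc, Set.union_eq_self_of_subset_left hAB]
  rw [HLaw.gPin, HLaw.gPin, HLaw.gPin, e1]; ring

/-- **`gPin ≥ 0`** -/
theorem pl_gPin_nonneg {a : ℝ} (ha : 0 < a) {P : Set G.V} (h : plPD H P) (A A' : Set G.V) (hd : A ∩ A' ⊆ P) :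
    0 ≤ H.gPin a P A A' := by
  have := pl_meas_prob H ha h
  have h1 := pl_rPin_mean H ha h A A' hd
  have h2 : ∫ φ, plrPin H a (P ∪ A') A φ ∂plMeas H a P ≤ ∫ _φ, (1 : ℝ) ∂plMeas H a P := by
    by_cases hi : Integrable (fun φ => plrPin H a (P ∪ A') A φ) (plMeas H a P)
    · exact integral_mono hi (integrable_const _) fun φ => pl_rPin_le_one H ha (pl_PD_mono H h Set.subset_union_left) A φ
    · rw [integral_undef hi]; simp
  rw [h1] at h2
  simp only [integral_const, probReal_univ, smul_eq_mul, mul_one, Real.exp_le_one_iff] at h2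
  linarith

/-- monotone in the pinned sets -/
theorem pl_gPin_mono {a : ℝ} (ha : 0 < a) {P : Set G.V} (h : plPD H P) {A B : Set G.V} (hAB : A ⊆ B) (A' : Set G.V) (hd : B ∩ A' ⊆ P) :
    H.gPin a P A A' ≤ H.gPin a P B A' := by
  rw [pl_gPin_chain H a P hAB A']
  have := pl_gPin_nonneg H ha (pl_PD_mono H h (Set.subset_union_left (t := A))) B A' (hd.trans Set.subset_union_left)
  linarith

/-! ## Gaussian means of quadratic functionals -/

/-- the pull back of a test under a linear map of fields: `⟨f, L φ⟩ = ⟨plPull L f, φ⟩` -/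
def plPull (L : (G.V → ℝ) →ₗ[ℝ] (G.V → ℝ)) (f : G.V → ℝ) : G.V → ℝ := fun x => HLaw.pair f (L (Pi.single x 1))

theorem plPull_eqns_cite : True := by
  have := @plPull.eq_1; trivial

theorem pl_pair_pull (L : (G.V → ℝ) →ₗ[ℝ] (G.V → ℝ)) (f φ : G.V → ℝ) : HLaw.pair f (L φ) = HLaw.pair (plPull L f) φ := by
  have e : φ = ∑ x, φ x • (Pi.single x (1 : ℝ) : G.V → ℝ) := by
    funext y
    simp [Finset.sum_apply, Pi.single_apply]
  conv_lhs => rw [e, map_sum]
  simp only [map_smul]
  have : ∀ (s : Finset G.V) (w : G.V → G.V → ℝ), HLaw.pair f (∑ x ∈ s, w x) = ∑ x ∈ s, HLaw.pair f (w x) := by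
    intro s w
    induction s using Finset.induction_on with
    | empty => simp [pl_pair_zero_right]
    | insert x s hx ih => rw [Finset.sum_insert hx, Finset.sum_insert hx, pl_pair_add_right, ih]
  rw [this]
  simp only [pl_pair_smul_right]
  have e2 : HLaw.pair (plPull L f) φ = ∑ x, plPull L f x * φ x := rfl
  rw [e2]
  exact Finset.sum_congr rfl fun x _ => by rw [plPull]; ring

/-- the test of one gradient -/
theorem pl_grad_eq_pair (v : G.V → ℝ) (e : G.E) : plGrad v e = HLaw.pair (plDiv (Pi.single e 1)) v := by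
  rw [pl_pair_div]
  simp [Pi.single_apply]

theorem pl_obs_eq_pair (v : G.V → ℝ) (o : H.O) : H.obs v o = HLaw.pair (H.B o) v := rfl

theorem pl_form_comp_eq (a : ℝ) (L : (G.V → ℝ) →ₗ[ℝ] (G.V → ℝ)) (φ : G.V → ℝ) :
    H.form a (L φ) = a⁻¹ * ∑ e, HLaw.pair (plPull L (plDiv (Pi.single e 1))) φ ^ 2 + ∑ o, HLaw.pair (plPull L (H.B o)) φ ^ 2 := by
  rw [pl_form_expand]
  simp only [pl_grad_eq_pair, pl_obs_eq_pair, pl_pair_pull]

theorem pl_meas_sq_integrable {a : ℝ} (ha : 0 < a) {P : Set G.V} (h : plPD H P) (f : G.V → ℝ) :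
    Integrable (fun φ => HLaw.pair f φ ^ 2) (plMeas H a P) := by
  simpa only [sq] using pl_meas_pair_mul_integrable H ha h f f

/-- quadratic functionals are integrable -/
theorem pl_form_comp_integrable {a : ℝ} (ha : 0 < a) {P : Set G.V} (h : plPD H P) (L : (G.V → ℝ) →ₗ[ℝ] (G.V → ℝ)) :
    Integrable (fun φ => H.form a (L φ)) (plMeas H a P) := by
  simp only [pl_form_comp_eq]
  exact ((integrable_finsetSum _ fun e _ => pl_meas_sq_integrable H ha h _).const_mul _).add
    (integrable_finsetSum _ fun o _ => pl_meas_sq_integrable H ha h _)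

/-- **the Gaussian mean of an energy**: `E form (L φ) = a⁻¹ ∑_e gVar (∇_e ∘ L) + ∑_o gVar (B_o ∘ L)` -/
theorem pl_form_comp_mean {a : ℝ} (ha : 0 < a) {P : Set G.V} (h : plPD H P) (L : (G.V → ℝ) →ₗ[ℝ] (G.V → ℝ)) :
    ∫ φ, H.form a (L φ) ∂plMeas H a P
      = a⁻¹ * ∑ e, (plPin H P).gVar a (plPull L (plDiv (Pi.single e 1))) + ∑ o, (plPin H P).gVar a (plPull L (H.B o)) := by
  simp only [pl_form_comp_eq]
  rw [integral_add ((integrable_finsetSum _ fun e _ => pl_meas_sq_integrable H ha h _).const_mul _)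
    (integrable_finsetSum _ fun o _ => pl_meas_sq_integrable H ha h _), integral_const_mul,
    integral_finsetSum _ fun e _ => pl_meas_sq_integrable H ha h _, integral_finsetSum _ fun o _ => pl_meas_sq_integrable H ha h _]
  simp only [pl_meas_sq H ha h]

theorem pl_res_add (P : Set G.V) (u u' : G.V → ℝ) : plRes P (u + u') = plRes P u + plRes P u' := by
  funext x; by_cases hx : x ∈ P <;> simp [plRes, hx]

theorem pl_res_smul (P : Set G.V) (t : ℝ) (u : G.V → ℝ) : plRes P (t • u) = t • plRes P u := by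
  funext x; by_cases hx : x ∈ P <;> simp [plRes, hx]

/-- the harmonic extension as a linear map -/
def plHarmL {a : ℝ} (ha : 0 < a) {P : Set G.V} (h : plPD H P) : (G.V → ℝ) →ₗ[ℝ] (G.V → ℝ) where
  toFun := plHarm H a P
  map_add' := pl_harm_add H ha h
  map_smul' := pl_harm_smul H ha h

/-- the field whose energy is the gap, as a linear map -/
def plGapL {a : ℝ} (ha : 0 < a) {P : Set G.V} (h : plPD H P) (A : Set G.V) : (G.V → ℝ) →ₗ[ℝ] (G.V → ℝ) where
  toFun u := plHarm H a (P ∪ A) (plRes P u) - plHarm H a P u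
  map_add' u u' := by
    rw [pl_res_add, pl_harm_add H ha (pl_PD_mono H h Set.subset_union_left), pl_harm_add H ha h]; abel
  map_smul' t u := by
    rw [pl_res_smul, pl_harm_smul H ha (pl_PD_mono H h Set.subset_union_left), pl_harm_smul H ha h, RingHom.id_apply, smul_sub]

theorem plHarmL_eqns_cite : True := by
  have := @plHarmL.eq_1; have := @plGapL.eq_1; trivial

theorem pl_gap_eq_form_L {a : ℝ} (ha : 0 < a) {P : Set G.V} (h : plPD H P) (A : Set G.V) (u : G.V → ℝ) :
    plGap H a P A u = H.form a (plGapL H ha h A u) := pl_gap_eq H ha h A u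

theorem pl_gap_integrable {a : ℝ} (ha : 0 < a) {P : Set G.V} (h : plPD H P) (A p : Set G.V) :
    Integrable (fun φ => plGap H a (P ∪ p) A φ) (plMeas H a P) := by
  simp only [pl_gap_eq_form_L H ha (pl_PD_mono H h (Set.subset_union_left (t := p)))]
  exact pl_form_comp_integrable H ha h _

/-- (**Jensen**): `gPin ≤ ½ E gap` -/
theorem pl_gPin_le_jensen {a : ℝ} (ha : 0 < a) {P : Set G.V} (h : plPD H P) (A p : Set G.V) (hd : A ∩ p ⊆ P) :
    H.gPin a P A p ≤ (∫ φ, plGap H a (P ∪ p) A φ ∂plMeas H a P) / 2 := by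
  have := pl_meas_prob H ha h
  have hP := pl_PD_mono H h (Set.subset_union_left (t := p))
  have h1 := pl_rPin_mean H ha h A p hd
  simp only [pl_rPin_eq H ha hP] at h1
  have hi : Integrable (fun φ => -(plGap H a (P ∪ p) A φ) / 2) (plMeas H a P) := ((pl_gap_integrable H ha h A p).neg).div_const 2
  have hc : Continuous fun φ => Real.exp (-(plGap H a (P ∪ p) A φ) / 2) := by
    have := pl_gap_continuous H a (P ∪ p) A
    fun_prop
  have hi2 : Integrable (Real.exp ∘ fun φ => -(plGap H a (P ∪ p) A φ) / 2) (plMeas H a P) := by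
    refine Integrable.of_bound (C := 1) hc.aestronglyMeasurable (Filter.Eventually.of_forall fun φ => ?_)
    simp only [Function.comp]
    rw [Real.norm_eq_abs, abs_of_pos (Real.exp_pos _), Real.exp_le_one_iff]
    linarith [pl_gap_nonneg H ha hP A φ]
  have hJ := convexOn_exp.map_integral_le (μ := plMeas H a P) Real.continuous_exp.continuousOn isClosed_univ
    (Filter.Eventually.of_forall fun _ => Set.mem_univ _) hi hi2
  rw [h1, Real.exp_le_exp, integral_div, integral_neg] at hJ
  linarith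

/-- the energy of data on `D` dominates the inverse covariance block -/
theorem pl_pair_sq_le_en {a : ℝ} (ha : 0 < a) {P : Set G.V} (h : plPD H P) (D : Set G.V) {f : G.V → ℝ} (hf : ∀ x ∉ D, f x = 0)
    (u : G.V → ℝ) (hu : ∀ x ∈ P, u x = 0) : HLaw.pair f u ^ 2 ≤ (plPin H P).gVar a f * plEn H a (P ∪ D) u := by
  have e : HLaw.pair f u = HLaw.pair f (plHarm H a (P ∪ D) u) := by
    simp only [HLaw.pair]
    refine Finset.sum_congr rfl fun x _ => ?_
    by_cases hx : x ∈ D
    · rw [pl_harm_of_mem H a u (Or.inr hx)]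
    · rw [hf x hx, zero_mul, zero_mul]
  have hm : plHarm H a (P ∪ D) u ∈ (plPin H P).rspan := by
    rw [pl_mem_rspan_pin]
    intro x hx
    rw [pl_harm_of_mem H a u (Or.inl hx), hu x hx]
  rw [e]
  exact pl_pair_sq_le (plPin H P) ha (pl_adm_of_PD H h f) hm

end

end Claimed.Agent.R285.Pot
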