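-- KEEP
import Claimed.Agent.R285.Pot.LinDet
import Claimed.Agent.R285.Pot.LinCond
import Claimed.Agent.R285.Entry.GoodDefs

/-!
# ROW 285, package GA (eg_ga_moment / es_ga_moment): THE GENERIC HALF (G) = (D3) + (M) + (END) of the header of `Entry/GoodGa.lean`      (helper150).   No sorry.

Two references `Hc ≤ Ho` ON ONE GRAPH (restored bonds = extra rows), which coincide on the fields vanishing on the core `A`; guard `P`; the data are sampled in `Ht` (own pins `P₀`) tilted by `f`.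
* `gam_moment_sum`        (M), abstract: `E (∑_k g_k²)^r ≤ 4 (2r)! (∑_k σ_k)^r` for statistics with `E e^{t g_k} ≤ e^{σ_k t²/2}`
* `gam_form_comp_moment`, `gam_gap_moment`   (M) for `q = H'.form a ∘ L`, `q = plGap`, under ANY reference measure `plMeas Ht a P₀`
* `gam_lin_sq_le`, `gam_en_sub_le`           (D3)
* `gam_phi_le`            pointwise bound of `egPhi`
* **`gam_main`**          EXIT: from `ε₁ ≥ ∫ plGap`, `ε₂ ≥ plGap (mean)`, `ε₄ ≥ |quad|`, `Y ≥ gVar_c^P f`, any `μ > 0`: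
     `plExT Ht a P₀ f (egPhi θ₁ θ₂ r (plcLap Hc ..) (plcLap Ho ..) (plrPin Hc ..)) ≤ (2 (θ₁ + ε₄ + μ Y / 2 + (1 + μ⁻¹) ε₂ + (1 + μ⁻¹) 16 r² ε₁))^r`
* `gam_rfl_cite`          `plExT = C3.gExT`, `plcLap = C3.gcLap`, `plrPin = C3.grPin` by `rfl`
-/

set_option autoImplicit false

namespace Claimed.Agent.R285.Pot

open MeasureTheory
open scoped BigOperators Classical

noncomputable section

/-- `y^{2r} ≤ (2r)! (e^y + e^{-y})` -/
theorem gam_pow_le_exp (y : ℝ) (r : ℕ) : y ^ (2 * r) ≤ ((2 * r).factorial : ℝ) * (Real.exp y + Real.exp (-y)) := by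
  have h1 : |y| ^ (2 * r) / ((2 * r).factorial : ℝ) ≤ Real.exp |y| := Real.pow_div_factorial_le_exp _ (abs_nonneg y) _
  have h2 : Real.exp |y| ≤ Real.exp y + Real.exp (-y) := by
    rcases abs_cases y with ⟨h, _⟩ | ⟨h, _⟩ <;> rw [h]
    · linarith [Real.exp_pos (-y)]
    · linarith [Real.exp_pos y]
  have h3 : (0 : ℝ) < ((2 * r).factorial : ℝ) := by positivity
  have h4 : y ^ (2 * r) = |y| ^ (2 * r) := by
    rw [pow_mul, pow_mul, sq_abs]
  rw [h4]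
  rw [div_le_iff₀ h3] at h1
  nlinarith

theorem gam_exp_half_le : Real.exp (1 / 2) ≤ 2 := by
  have h1 : Real.exp (1 / 2) ^ 2 = Real.exp 1 := by
    rw [← Real.exp_nat_mul]; norm_num
  have h2 := Real.exp_one_lt_d9
  have h3 := Real.exp_pos (1 / 2)
  nlinarith

variable {Ω : Type*} [MeasurableSpace Ω]

/-- even moments of a statistic with a (sub-)Gaussian Laplace transform -/
theorem gam_moment_one (μ : Measure Ω) (g : Ω → ℝ) (hg : AEStronglyMeasurable g μ) (σ : ℝ)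
    (hi : ∀ t : ℝ, Integrable (fun ω => Real.exp (t * g ω)) μ)
    (hm : ∀ t : ℝ, ∫ ω, Real.exp (t * g ω) ∂μ ≤ Real.exp (σ * t ^ 2 / 2)) (r : ℕ) {s : ℝ} (hs : 0 < s) (hσs : σ ≤ s) :
    Integrable (fun ω => g ω ^ (2 * r)) μ ∧ ∫ ω, g ω ^ (2 * r) ∂μ ≤ 4 * ((2 * r).factorial : ℝ) * s ^ r := by
  set t : ℝ := (Real.sqrt s)⁻¹ with ht
  have hsq : 0 < Real.sqrt s := Real.sqrt_pos.2 hs
  have ht0 : 0 < t := inv_pos.2 hsq
  have ht2 : t ^ 2 = s⁻¹ := by rw [ht, inv_pow, Real.sq_sqrt hs.le]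
  have hpt : ∀ ω, g ω ^ (2 * r) ≤ s ^ r * (((2 * r).factorial : ℝ) * (Real.exp (t * g ω) + Real.exp (-t * g ω))) := by
    intro ω
    have h1 := gam_pow_le_exp (t * g ω) r
    have h2 : (t * g ω) ^ (2 * r) = (s ^ r)⁻¹ * g ω ^ (2 * r) := by
      rw [mul_pow, pow_mul t, ht2, inv_pow]
    rw [h2, neg_mul_eq_neg_mul] at h1
    have h3 : 0 < s ^ r := pow_pos hs r
    calc g ω ^ (2 * r) = s ^ r * ((s ^ r)⁻¹ * g ω ^ (2 * r)) := by field_simp
      _ ≤ _ := mul_le_mul_of_nonneg_left h1 h3.le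
  have hI : Integrable (fun ω => s ^ r * (((2 * r).factorial : ℝ) * (Real.exp (t * g ω) + Real.exp (-t * g ω)))) μ :=
    (((hi t).add (hi (-t))).const_mul _).const_mul _
  have hnn : ∀ ω, 0 ≤ g ω ^ (2 * r) := fun ω => by rw [pow_mul]; positivity
  have hint : Integrable (fun ω => g ω ^ (2 * r)) μ := by
    refine hI.mono' (hg.pow _) (Filter.Eventually.of_forall fun ω => ?_)
    rw [Real.norm_eq_abs, abs_of_nonneg (hnn ω)]
    exact hpt ω
  refine ⟨hint, ?_⟩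
  have h5 : ∫ ω, g ω ^ (2 * r) ∂μ ≤ ∫ ω, s ^ r * (((2 * r).factorial : ℝ) * (Real.exp (t * g ω) + Real.exp (-t * g ω))) ∂μ :=
    integral_mono hint hI hpt
  rw [integral_const_mul, integral_const_mul, integral_add (hi t) (hi (-t))] at h5
  have h6 : ∀ t' : ℝ, t' ^ 2 = s⁻¹ → ∫ ω, Real.exp (t' * g ω) ∂μ ≤ 2 := by
    intro t' ht'
    refine (hm t').trans ?_
    rw [ht']
    have h7 : σ * s⁻¹ / 2 ≤ 1 / 2 := by
      have : σ * s⁻¹ ≤ 1 := by
        rw [← div_eq_mul_inv, div_le_one hs]; exact hσs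
      linarith
    exact (Real.exp_le_exp.2 h7).trans gam_exp_half_le
  have h8 := h6 t ht2
  have h9 := h6 (-t) (by rw [neg_sq, ht2])
  have h10 : 0 ≤ s ^ r * ((2 * r).factorial : ℝ) := by positivity
  calc ∫ ω, g ω ^ (2 * r) ∂μ ≤ s ^ r * (((2 * r).factorial : ℝ) * (∫ ω, Real.exp (t * g ω) ∂μ + ∫ ω, Real.exp (-t * g ω) ∂μ)) := h5
    _ = s ^ r * ((2 * r).factorial : ℝ) * (∫ ω, Real.exp (t * g ω) ∂μ + ∫ ω, Real.exp (-t * g ω) ∂μ) := by ring
    _ ≤ s ^ r * ((2 * r).factorial : ℝ) * (2 + 2) := mul_le_mul_of_nonneg_left (add_le_add h8 h9) h10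
    _ = 4 * ((2 * r).factorial : ℝ) * s ^ r := by ring

/-- pointwise convexity -/
theorem gam_pow_sum_le {ι : Type*} (S : Finset ι) (x s : ι → ℝ) (hx : ∀ k ∈ S, 0 ≤ x k) (hs : ∀ k ∈ S, 0 < s k) (r : ℕ) :
    (∑ k ∈ S, x k) ^ (r + 1) ≤ (∑ k ∈ S, s k) ^ r * ∑ k ∈ S, x k ^ (r + 1) / s k ^ r := by
  rcases S.eq_empty_or_nonempty with rfl | hne
  · simp
  have hT : 0 < ∑ k ∈ S, s k := Finset.sum_pos hs hne
  set T := ∑ k ∈ S, s k with hTdef
  have h1 := Real.pow_arith_mean_le_arith_mean_pow S (fun k => s k / T) (fun k => T * x k / s k)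
    (fun k hk => (div_pos (hs k hk) hT).le) (by rw [← Finset.sum_div, div_self hT.ne'])
    (fun k hk => div_nonneg (mul_nonneg hT.le (hx k hk)) (hs k hk).le) (r + 1)
  have e1 : ∑ k ∈ S, s k / T * (T * x k / s k) = ∑ k ∈ S, x k := by
    refine Finset.sum_congr rfl fun k hk => ?_
    have := (hs k hk).ne'
    field_simp
  have e2 : ∑ k ∈ S, s k / T * (T * x k / s k) ^ (r + 1) = T ^ r * ∑ k ∈ S, x k ^ (r + 1) / s k ^ r := by
    rw [Finset.mul_sum]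
    refine Finset.sum_congr rfl fun k hk => ?_
    have := (hs k hk).ne'
    rw [div_pow, mul_pow, pow_succ (s k) r, pow_succ T r]
    field_simp
  rw [e1, e2] at h1
  exact h1

/-- **(M)** moments of a sum of squares of jointly sub-Gaussian statistics: `E q^r ≤ 4 (2r)! (∑ σ_k)^r` -/
theorem gam_moment_sum (μ : Measure Ω) {ι : Type*} (S : Finset ι) (g : ι → Ω → ℝ) (hg : ∀ k ∈ S, AEStronglyMeasurable (g k) μ) (σ : ι → ℝ)
    (hσ : ∀ k ∈ S, 0 ≤ σ k)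
    (hi : ∀ k ∈ S, ∀ t : ℝ, Integrable (fun ω => Real.exp (t * g k ω)) μ)
    (hm : ∀ k ∈ S, ∀ t : ℝ, ∫ ω, Real.exp (t * g k ω) ∂μ ≤ Real.exp (σ k * t ^ 2 / 2)) (r : ℕ) (hr : 1 ≤ r) :
    Integrable (fun ω => (∑ k ∈ S, g k ω ^ 2) ^ r) μ ∧ ∫ ω, (∑ k ∈ S, g k ω ^ 2) ^ r ∂μ ≤ 4 * ((2 * r).factorial : ℝ) * (∑ k ∈ S, σ k) ^ r := by
  obtain ⟨r, rfl⟩ : ∃ r', r = r' + 1 := ⟨r - 1, by omega⟩
  have hmeas : AEStronglyMeasurable (fun ω => (∑ k ∈ S, g k ω ^ 2) ^ (r + 1)) μ := by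
    refine AEStronglyMeasurable.pow ?_ _
    have := Finset.aestronglyMeasurable_sum (μ := μ) S (f := fun k ω => g k ω ^ 2) fun k hk => (hg k hk).pow 2
    refine this.congr (Filter.Eventually.of_forall fun ω => ?_)
    simp
  have key : ∀ ε : ℝ, 0 < ε → Integrable (fun ω => (∑ k ∈ S, g k ω ^ 2) ^ (r + 1)) μ ∧
      ∫ ω, (∑ k ∈ S, g k ω ^ 2) ^ (r + 1) ∂μ ≤ 4 * ((2 * (r + 1)).factorial : ℝ) * (∑ k ∈ S, (σ k + ε)) ^ (r + 1) := by
    intro ε hε
    have hs : ∀ k ∈ S, 0 < σ k + ε := fun k hk => by linarith [hσ k hk]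
    have hone := fun k (hk : k ∈ S) => gam_moment_one μ (g k) (hg k hk) (σ k) (hi k hk) (hm k hk) (r + 1) (hs k hk) (by linarith)
    have hpt : ∀ ω, (∑ k ∈ S, g k ω ^ 2) ^ (r + 1)
        ≤ (∑ k ∈ S, (σ k + ε)) ^ r * ∑ k ∈ S, g k ω ^ (2 * (r + 1)) / (σ k + ε) ^ r := by
      intro ω
      have := gam_pow_sum_le S (fun k => g k ω ^ 2) (fun k => σ k + ε) (fun k _ => sq_nonneg _) hs r
      simpa only [← pow_mul] using this
    have hI : Integrable (fun ω => (∑ k ∈ S, (σ k + ε)) ^ r * ∑ k ∈ S, g k ω ^ (2 * (r + 1)) / (σ k + ε) ^ r) μ :=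
      (integrable_finsetSum _ fun k hk => (hone k hk).1.div_const _).const_mul _
    have hnn : ∀ ω, 0 ≤ (∑ k ∈ S, g k ω ^ 2) ^ (r + 1) := fun ω => pow_nonneg (Finset.sum_nonneg fun k _ => sq_nonneg _) _
    have hint : Integrable (fun ω => (∑ k ∈ S, g k ω ^ 2) ^ (r + 1)) μ := by
      refine hI.mono' hmeas (Filter.Eventually.of_forall fun ω => ?_)
      rw [Real.norm_eq_abs, abs_of_nonneg (hnn ω)]
      exact hpt ω
    refine ⟨hint, (integral_mono hint hI hpt).trans ?_⟩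
    rw [integral_const_mul, integral_finsetSum _ fun k hk => (hone k hk).1.div_const _]
    have hT : 0 ≤ ∑ k ∈ S, (σ k + ε) := Finset.sum_nonneg fun k hk => (hs k hk).le
    have h3 : ∑ k ∈ S, ∫ ω, g k ω ^ (2 * (r + 1)) / (σ k + ε) ^ r ∂μ ≤ ∑ k ∈ S, 4 * ((2 * (r + 1)).factorial : ℝ) * (σ k + ε) := by
      refine Finset.sum_le_sum fun k hk => ?_
      rw [integral_div, div_le_iff₀ (pow_pos (hs k hk) r)]
      refine (hone k hk).2.trans (le_of_eq ?_)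
      ring
    calc (∑ k ∈ S, (σ k + ε)) ^ r * ∑ k ∈ S, ∫ ω, g k ω ^ (2 * (r + 1)) / (σ k + ε) ^ r ∂μ
        ≤ (∑ k ∈ S, (σ k + ε)) ^ r * ∑ k ∈ S, 4 * ((2 * (r + 1)).factorial : ℝ) * (σ k + ε) :=
          mul_le_mul_of_nonneg_left h3 (pow_nonneg hT r)
      _ = 4 * ((2 * (r + 1)).factorial : ℝ) * (∑ k ∈ S, (σ k + ε)) ^ (r + 1) := by
          rw [← Finset.mul_sum]; ring
  refine ⟨(key 1 one_pos).1, ?_⟩
  have hcont : Filter.Tendsto (fun ε : ℝ => 4 * ((2 * (r + 1)).factorial : ℝ) * (∑ k ∈ S, (σ k + ε)) ^ (r + 1)) (nhdsWithin 0 (Set.Ioi 0))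
      (nhds (4 * ((2 * (r + 1)).factorial : ℝ) * (∑ k ∈ S, (σ k + 0)) ^ (r + 1))) := by
    have : Continuous fun ε : ℝ => 4 * ((2 * (r + 1)).factorial : ℝ) * (∑ k ∈ S, (σ k + ε)) ^ (r + 1) := by fun_prop
    exact (this.tendsto 0).mono_left nhdsWithin_le_nhds
  simp only [add_zero] at hcont
  exact ge_of_tendsto hcont (Filter.eventually_of_mem self_mem_nhdsWithin fun ε hε => (key ε hε).2)

variable {G : HGraph} (H : HLaw G)

/-- the tests whose squares add up to `H'.form a (L φ)` -/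
def gamTest (H' : HLaw G) (a : ℝ) (L : (G.V → ℝ) →ₗ[ℝ] (G.V → ℝ)) : G.E ⊕ H'.O → G.V → ℝ :=
  Sum.elim (fun e => Real.sqrt a⁻¹ • plPull L (plDiv (Pi.single e 1))) fun o => plPull L (H'.B o)

theorem gam_form_eq_sum (H' : HLaw G) {a : ℝ} (ha : 0 < a) (L : (G.V → ℝ) →ₗ[ℝ] (G.V → ℝ)) (φ : G.V → ℝ) :
    H'.form a (L φ) = ∑ k, HLaw.pair (gamTest H' a L k) φ ^ 2 := by
  rw [pl_form_comp_eq, Fintype.sum_sum_type, Finset.mul_sum]
  congr 1
  refine Finset.sum_congr rfl fun e _ => ?_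
  simp only [gamTest, Sum.elim_inl]
  rw [pl_pair_smul_left, mul_pow, Real.sq_sqrt (inv_pos.2 ha).le]

/-- **(M)** `E q^r ≤ 4 (2r)! (E q)^r` for `q = H'.form a ∘ L` under any reference measure -/
theorem gam_form_comp_moment (H' : HLaw G) {a : ℝ} (ha : 0 < a) {P : Set G.V} (h : plPD H P) (L : (G.V → ℝ) →ₗ[ℝ] (G.V → ℝ))
    (r : ℕ) (hr : 1 ≤ r) :
    Integrable (fun φ => H'.form a (L φ) ^ r) (plMeas H a P) ∧
      ∫ φ, H'.form a (L φ) ^ r ∂plMeas H a P ≤ 4 * ((2 * r).factorial : ℝ) * (∫ φ, H'.form a (L φ) ∂plMeas H a P) ^ r := by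
  have hmean : ∫ φ, H'.form a (L φ) ∂plMeas H a P = ∑ k, (plPin H P).gVar a (gamTest H' a L k) := by
    simp only [gam_form_eq_sum H' ha]
    rw [integral_finsetSum _ fun k _ => pl_meas_sq_integrable H ha h _]
    simp only [pl_meas_sq H ha h]
  rw [hmean]
  simp only [gam_form_eq_sum H' ha]
  refine gam_moment_sum (plMeas H a P) Finset.univ (fun k φ => HLaw.pair (gamTest H' a L k) φ)
    (fun k _ => (pl_pair_continuous _).aestronglyMeasurable) (fun k => (plPin H P).gVar a (gamTest H' a L k))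
    (fun k _ => pl_gVar_nonneg _ ha _) (fun k _ t => ?_) (fun k _ t => ?_) r hr
  · have := pl_meas_exp_integrable H ha h (t • gamTest H' a L k)
    simpa only [pl_pair_smul_left] using this
  · have := congrFun (pl_meas_mgf_fun H ha h (gamTest H' a L k)) t
    exact le_of_eq this

theorem gam_form_add_le (H' : HLaw G) {a : ℝ} (ha : 0 < a) (u v : G.V → ℝ) : H'.form a (u + v) ≤ 2 * H'.form a u + 2 * H'.form a v := by
  have h1 := pl_form_add H' a u v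
  have h2 := pl_form_sub H' a u v
  have h3 := pl_form_nonneg H' ha (u - v)
  linarith

theorem gam_gap_add_le {a : ℝ} (ha : 0 < a) {P : Set G.V} (h : plPD H P) (A : Set G.V) (u v : G.V → ℝ) :
    plGap H a P A (u + v) ≤ 2 * plGap H a P A u + 2 * plGap H a P A v := by
  simp only [pl_gap_eq_form_L H ha h, map_add]
  exact gam_form_add_le H ha _ _

/-- **(M)** for the gap -/
theorem gam_gap_moment (Ht : HLaw G) {a : ℝ} (ha : 0 < a) {P₀ : Set G.V} (h₀ : plPD Ht P₀) {P : Set G.V} (h : plPD H P) (A : Set G.V)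
    (r : ℕ) (hr : 1 ≤ r) :
    Integrable (fun φ => plGap H a P A φ ^ r) (plMeas Ht a P₀) ∧
      ∫ φ, plGap H a P A φ ^ r ∂plMeas Ht a P₀ ≤ 4 * ((2 * r).factorial : ℝ) * (∫ φ, plGap H a P A φ ∂plMeas Ht a P₀) ^ r := by
  simp only [pl_gap_eq_form_L H ha h]
  exact gam_form_comp_moment Ht H ha h₀ _ r hr

/-! ## (D3) -/

/-- completing the square: the value of `Q φ - 2σ⟨f, φ⟩` at a field with data `u` on `P` -/
theorem gam_J_eq {a : ℝ} (ha : 0 < a) {P : Set G.V} (h : plPD H P) (f u : G.V → ℝ) (σ : ℝ) {φ : G.V → ℝ} (hφ : ∀ x ∈ P, φ x = u x) :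
    H.form a φ - 2 * σ * HLaw.pair f φ
      = plEn H a P u - 2 * σ * HLaw.pair f (plHarm H a P u) - σ ^ 2 * (plPin H P).gVar a f
        + H.form a (φ - plHarm H a P u - σ • plGf H a P f) := by
  have hopt := pl_Gf_opt H ha h f
  set w := plGf H a P f with hw
  set hu := plHarm H a P u with hhu
  have hw0 : ∀ x ∈ P, w x = 0 := (pl_mem_rspan_pin H P w).1 hopt.1
  have hv0 : ∀ x ∈ P, (φ - hu) x = 0 := fun x hx => by
    rw [Pi.sub_apply, hhu, pl_harm_of_mem H a u hx, hφ x hx, sub_self]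
  have e1 : H.form a φ = plEn H a P u + H.form a (φ - hu) := pl_form_eq_en_add H ha h u hφ
  have e2 : plB H a w (φ - hu) = HLaw.pair f (φ - hu) := by
    have := hopt.2 (φ - hu) ((pl_mem_rspan_pin H P _).2 hv0)
    rwa [pl_pin_B] at this
  have e3 : (plPin H P).gVar a f = H.form a w := by
    rw [pl_gVar_eq_form _ ha hopt, pl_pin_form]
  have e4 : H.form a (φ - hu - σ • w) = H.form a (φ - hu) - 2 * σ * HLaw.pair f (φ - hu) + σ ^ 2 * H.form a w := by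
    rw [pl_form_sub, pl_B_smul_right, pl_B_comm, e2, pl_form_smul]; ring
  rw [e1, e3, e4, pl_pair_sub_right]
  ring

/-- **(D3)** -/
theorem gam_lin_sq_le (Hc Ho : HLaw G) {a : ℝ} (ha : 0 < a) {P : Set G.V} (hc : plPD Hc P) (ho : plPD Ho P)
    (hle : ∀ v, Hc.form a v ≤ Ho.form a v) (f u : G.V → ℝ) :
    (HLaw.pair f (plHarm Ho a P u) - HLaw.pair f (plHarm Hc a P u)) ^ 2
      ≤ ((plPin Hc P).gVar a f - (plPin Ho P).gVar a f) * (plEn Ho a P u - plEn Hc a P u) := by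
  have key : ∀ σ : ℝ, 0 ≤ ((plPin Hc P).gVar a f - (plPin Ho P).gVar a f) * (σ * σ)
      + (-2 * (HLaw.pair f (plHarm Ho a P u) - HLaw.pair f (plHarm Hc a P u))) * σ + (plEn Ho a P u - plEn Hc a P u) := by
    intro σ
    set φ := plHarm Ho a P u + σ • plGf Ho a P f with hφ
    have hw0 : ∀ x ∈ P, plGf Ho a P f x = 0 := (pl_mem_rspan_pin Ho P _).1 (pl_Gf_opt Ho ha ho f).1
    have hφP : ∀ x ∈ P, φ x = u x := fun x hx => by
      rw [hφ, Pi.add_apply, Pi.smul_apply, hw0 x hx, pl_harm_of_mem Ho a u hx, smul_zero, add_zero]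
    have e1 := gam_J_eq Ho ha ho f u σ hφP
    have e2 := gam_J_eq Hc ha hc f u σ hφP
    have e3 : φ - plHarm Ho a P u - σ • plGf Ho a P f = 0 := by rw [hφ]; abel
    rw [e3, pl_form_zero] at e1
    have e4 := pl_form_nonneg Hc ha (φ - plHarm Hc a P u - σ • plGf Hc a P f)
    have e5 := hle φ
    nlinarith
  have := discrim_le_zero key
  rw [discrim] at this
  nlinarith

/-- the restored energy of the data is at most the cut energy with the additional pin on the core -/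
theorem gam_en_sub_le (Hc Ho : HLaw G) {a : ℝ} (ha : 0 < a) {P A : Set G.V} (hc : plPD Hc P) (ho : plPD Ho P)
    (hA : ∀ v : G.V → ℝ, (∀ x ∈ A, v x = 0) → Ho.form a v = Hc.form a v) (hAP : ∀ x ∈ A, x ∉ P) (u : G.V → ℝ) :
    plEn Ho a P u - plEn Hc a P u ≤ plGap Hc a P A u := by
  have h1 := pl_en_le Ho ha ho u (v := plHarm Hc a (P ∪ A) (plRes P u)) fun x hx => by
    rw [pl_harm_of_mem Hc a _ (Or.inl hx), pl_res_of_mem u hx]
  rw [hA _ fun x hx => by rw [pl_harm_of_mem Hc a _ (Or.inr hx), pl_res_of_not_mem u (hAP x hx)]] at h1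
  have h2 : plEn Hc a (P ∪ A) (plRes P u) = Hc.form a (plHarm Hc a (P ∪ A) (plRes P u)) := rfl
  rw [plGap, h2]
  linarith

/-! ## (END) -/

theorem gam_egLg_nonneg (ρ : ℝ) : 0 ≤ Entry.egLg ρ := by
  unfold Entry.egLg
  have h1 : min 1 (max ρ (Real.exp (-1))) ≤ 1 := min_le_left _ _
  have h2 : 0 < min 1 (max ρ (Real.exp (-1))) := lt_min one_pos (lt_of_lt_of_le (Real.exp_pos _) (le_max_right _ _))
  linarith [Real.log_nonpos h2.le h1]

theorem gam_egLg_le {q : ℝ} (hq : 0 ≤ q) : Entry.egLg (Real.exp (-q / 2)) ≤ q / 2 := by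
  unfold Entry.egLg
  have h1 : Real.exp (-q / 2) ≤ min 1 (max (Real.exp (-q / 2)) (Real.exp (-1))) :=
    le_min (Real.exp_le_one_iff.2 (by linarith)) (le_max_left _ _)
  have h2 := Real.log_le_log (Real.exp_pos _) h1
  rw [Real.log_exp] at h2
  linarith

/-- the pointwise bound of the test function of the transfer -/
theorem gam_phi_le (Hc Ho : HLaw G) {a : ℝ} (ha : 0 < a) {P A : Set G.V} (hc : plPD Hc P) (ho : plPD Ho P)
    (hle : ∀ v, Hc.form a v ≤ Ho.form a v) (hA : ∀ v : G.V → ℝ, (∀ x ∈ A, v x = 0) → Ho.form a v = Hc.form a v) (hAP : ∀ x ∈ A, x ∉ P)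
    (f : G.V → ℝ) {Y ε₄ θ₁ θ₂ μ : ℝ} (hθ₁ : 0 ≤ θ₁) (hμ : 0 < μ) (hV : (plPin Hc P).gVar a f ≤ Y)
    (h4 : |((plPin Ho P).gVar a f - (plPin Hc P).gVar a f) / 2 + θ₂| ≤ ε₄) (r : ℕ) (u : G.V → ℝ) :
    Entry.egPhi θ₁ θ₂ r (plcLap Hc a P f u) (plcLap Ho a P f u) (plrPin Hc a P A u)
      ≤ (θ₁ + ε₄ + μ * Y / 2 + (1 + μ⁻¹) * (plGap Hc a P A u / 2)) ^ r := by
  set q := plGap Hc a P A u with hq
  have hq0 : 0 ≤ q := pl_gap_nonneg Hc ha hc A u
  have hY : 0 ≤ Y := (pl_gVar_nonneg _ ha f).trans hV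
  set lin := HLaw.pair f (plHarm Ho a P u) - HLaw.pair f (plHarm Hc a P u) with hlin
  have h1 : lin ^ 2 ≤ Y * q := by
    refine (gam_lin_sq_le Hc Ho ha hc ho hle f u).trans ?_
    have e1 := gam_en_sub_le Hc Ho ha hc ho hA hAP u
    have e2 : 0 ≤ plEn Ho a P u - plEn Hc a P u := by
      have := pl_en_le Hc ha hc u (v := plHarm Ho a P u) fun x hx => pl_harm_of_mem Ho a u hx
      have e3 := hle (plHarm Ho a P u)
      have e4 : plEn Ho a P u = Ho.form a (plHarm Ho a P u) := rfl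
      linarith
    have e5 : (plPin Hc P).gVar a f - (plPin Ho P).gVar a f ≤ Y := by linarith [pl_gVar_nonneg (plPin Ho P) ha f]
    calc _ ≤ Y * (plEn Ho a P u - plEn Hc a P u) := mul_le_mul_of_nonneg_right e5 e2
      _ ≤ Y * q := mul_le_mul_of_nonneg_left e1 hY
  have h2 : |lin| ≤ μ * Y / 2 + μ⁻¹ * (q / 2) := by
    refine abs_le_of_sq_le_sq ?_ (by positivity)
    refine h1.trans ?_
    have e : (μ * Y / 2 + μ⁻¹ * (q / 2)) ^ 2 - Y * q = (μ * Y / 2 - μ⁻¹ * (q / 2)) ^ 2 := by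
      field_simp
      ring
    nlinarith [sq_nonneg (μ * Y / 2 - μ⁻¹ * (q / 2))]
  have h3 : plcLap Ho a P f u - plcLap Hc a P f u + θ₂ = lin + (((plPin Ho P).gVar a f - (plPin Hc P).gVar a f) / 2 + θ₂) := by
    rw [pl_cLap_eq Ho ha ho, pl_cLap_eq Hc ha hc, hlin]; ring
  have h5 : |plcLap Ho a P f u - plcLap Hc a P f u + θ₂| ≤ μ * Y / 2 + μ⁻¹ * (q / 2) + ε₄ := by
    rw [h3]
    exact (abs_add_le _ _).trans (add_le_add h2 h4)
  have h6 : Entry.egLg (plrPin Hc a P A u) ≤ q / 2 := by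
    rw [pl_rPin_eq Hc ha hc]
    exact gam_egLg_le hq0
  unfold Entry.egPhi
  have h7 : 0 ≤ θ₁ + Entry.egLg (plrPin Hc a P A u) + |plcLap Ho a P f u - plcLap Hc a P f u + θ₂| := by
    have := gam_egLg_nonneg (plrPin Hc a P A u)
    positivity
  refine pow_le_pow_left₀ (le_min zero_le_one h7) ((min_le_right _ _).trans ?_) r
  linarith

theorem gam_fact_le (r : ℕ) (hr : 1 ≤ r) {x : ℝ} (hx : 0 ≤ x) : 4 * ((2 * r).factorial : ℝ) * x ^ r ≤ (16 * (r : ℝ) ^ 2 * x) ^ r := by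
  have h1 : ((2 * r).factorial : ℝ) ≤ (4 * (r : ℝ) ^ 2) ^ r := by
    have : (2 * r).factorial ≤ (2 * r) ^ (2 * r) := Nat.factorial_le_pow _
    calc ((2 * r).factorial : ℝ) ≤ (((2 * r) ^ (2 * r) : ℕ) : ℝ) := by exact_mod_cast this
      _ = (4 * (r : ℝ) ^ 2) ^ r := by
        push_cast
        rw [pow_mul]
        congr 1
        ring
  have h2 : (4 : ℝ) ≤ 4 ^ r := by
    calc (4 : ℝ) = 4 ^ 1 := by norm_num
      _ ≤ 4 ^ r := pow_le_pow_right₀ (by norm_num) hr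
  calc 4 * ((2 * r).factorial : ℝ) * x ^ r ≤ 4 ^ r * (4 * (r : ℝ) ^ 2) ^ r * x ^ r := by
        have := pow_nonneg hx r
        have h3 : (0 : ℝ) ≤ ((2 * r).factorial : ℝ) := by positivity
        have h4 : (0:ℝ) ≤ (4 * (r : ℝ) ^ 2) ^ r := by positivity
        gcongr
    _ = (16 * (r : ℝ) ^ 2 * x) ^ r := by
        rw [← mul_pow, ← mul_pow]
        congr 1
        ring

/-- **(G) the generic half of GA**: `Hc ≤ Ho` two references on one graph which coincide on the fields vanishing on the core `A`; the guard data are sampled in `Ht` tilted by `f` -/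
theorem gam_main (Hc Ho Ht : HLaw G) {a : ℝ} (ha : 0 < a) {P₀ P A : Set G.V} (h₀ : plPD Ht P₀) (hc : plPD Hc P)
    (hle : ∀ v, Hc.form a v ≤ Ho.form a v) (hA : ∀ v : G.V → ℝ, (∀ x ∈ A, v x = 0) → Ho.form a v = Hc.form a v) (hAP : ∀ x ∈ A, x ∉ P)
    (f : G.V → ℝ) {Y ε₁ ε₂ ε₄ θ₁ θ₂ μ : ℝ} (hθ₁ : 0 ≤ θ₁) (hμ : 0 < μ) (hV : (plPin Hc P).gVar a f ≤ Y)
    (h1 : ∫ φ, plGap Hc a P A φ ∂plMeas Ht a P₀ ≤ ε₁)
    (h2 : plGap Hc a P A (plGf Ht a P₀ f) ≤ ε₂)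
    (h4 : |((plPin Ho P).gVar a f - (plPin Hc P).gVar a f) / 2 + θ₂| ≤ ε₄) (r : ℕ) (hr : 1 ≤ r) :
    plExT Ht a P₀ f (fun φ => Entry.egPhi θ₁ θ₂ r (plcLap Hc a P f φ) (plcLap Ho a P f φ) (plrPin Hc a P A φ))
      ≤ (2 * (θ₁ + ε₄ + μ * Y / 2 + (1 + μ⁻¹) * ε₂ + (1 + μ⁻¹) * (16 * (r : ℝ) ^ 2 * ε₁))) ^ r := by
  have ho : plPD Ho P := fun v hv h1 h2 => by
    have e1 : Ho.form a v = 0 := (pl_form_eq_zero_iff Ho ha v).2 ⟨h1, h2⟩
    have e2 : Hc.form a v = 0 := le_antisymm (e1 ▸ hle v) (pl_form_nonneg Hc ha v)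
    exact pl_PD_form Hc hc ha hv e2
  have hY : 0 ≤ Y := (pl_gVar_nonneg _ ha f).trans hV
  have hε₄ : 0 ≤ ε₄ := (abs_nonneg _).trans h4
  have hε₂ : 0 ≤ ε₂ := (pl_gap_nonneg Hc ha hc A _).trans h2
  have hq0 : ∀ φ, 0 ≤ plGap Hc a P A φ := pl_gap_nonneg Hc ha hc A
  have hm0 : 0 ≤ ∫ φ, plGap Hc a P A φ ∂plMeas Ht a P₀ := integral_nonneg hq0
  have hε₁ : 0 ≤ ε₁ := hm0.trans h1
  have := pl_meas_prob Ht ha h₀
  rw [pl_ExT_eq Ht ha h₀]
  set m := plGf Ht a P₀ f with hm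
  set α : ℝ := θ₁ + ε₄ + μ * Y / 2 + (1 + μ⁻¹) * ε₂ with hα
  set β : ℝ := 1 + μ⁻¹ with hβ
  have hβ0 : 0 ≤ β := by positivity
  have hα0 : 0 ≤ α := by positivity
  obtain ⟨hI, hM⟩ := gam_gap_moment Hc Ht ha h₀ hc A r hr
  have hpt : ∀ φ, Entry.egPhi θ₁ θ₂ r (plcLap Hc a P f (φ + m)) (plcLap Ho a P f (φ + m)) (plrPin Hc a P A (φ + m))
      ≤ 2 ^ (r - 1) * (α ^ r + β ^ r * plGap Hc a P A φ ^ r) := by
    intro φ
    refine (gam_phi_le Hc Ho ha hc ho hle hA hAP f hθ₁ hμ hV h4 r (φ + m)).trans ?_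
    have e1 := gam_gap_add_le Hc ha hc A φ m
    have e2 : θ₁ + ε₄ + μ * Y / 2 + β * (plGap Hc a P A (φ + m) / 2) ≤ α + β * plGap Hc a P A φ := by
      have : plGap Hc a P A (φ + m) / 2 ≤ plGap Hc a P A φ + ε₂ := by linarith
      have := mul_le_mul_of_nonneg_left this hβ0
      rw [hα]
      linarith
    have e3 : 0 ≤ θ₁ + ε₄ + μ * Y / 2 + β * (plGap Hc a P A (φ + m) / 2) := by
      have := hq0 (φ + m)
      positivity
    refine (pow_le_pow_left₀ e3 e2 r).trans ?_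
    have := add_pow_le hα0 (mul_nonneg hβ0 (hq0 φ)) r
    rwa [mul_pow] at this
  have hI2 : Integrable (fun φ => (2 : ℝ) ^ (r - 1) * (α ^ r + β ^ r * plGap Hc a P A φ ^ r)) (plMeas Ht a P₀) :=
    ((integrable_const _).add (hI.const_mul _)).const_mul _
  have hnn : ∀ φ, 0 ≤ Entry.egPhi θ₁ θ₂ r (plcLap Hc a P f (φ + m)) (plcLap Ho a P f (φ + m)) (plrPin Hc a P A (φ + m)) := by
    intro φ
    unfold Entry.egPhi
    refine pow_nonneg (le_min zero_le_one ?_) r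
    have := gam_egLg_nonneg (plrPin Hc a P A (φ + m))
    positivity
  refine (integral_mono_of_nonneg (Filter.Eventually.of_forall hnn) hI2 (Filter.Eventually.of_forall hpt)).trans ?_
  rw [integral_const_mul, integral_add (integrable_const _) (hI.const_mul _), integral_const_mul, integral_const]
  simp only [probReal_univ, one_smul]
  set b : ℝ := β * (16 * (r : ℝ) ^ 2 * ε₁) with hb
  have hb0 : 0 ≤ b := by positivity
  have e5 : β ^ r * ∫ φ, plGap Hc a P A φ ^ r ∂plMeas Ht a P₀ ≤ b ^ r := by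
    rw [hb, mul_pow]
    refine mul_le_mul_of_nonneg_left ?_ (pow_nonneg hβ0 r)
    refine hM.trans (le_trans ?_ (gam_fact_le r hr hε₁))
    exact mul_le_mul_of_nonneg_left (pow_le_pow_left₀ hm0 h1 r) (by positivity)
  have e6 : α ^ r ≤ (α + b) ^ r := pow_le_pow_left₀ hα0 (by linarith) r
  have e7 : b ^ r ≤ (α + b) ^ r := pow_le_pow_left₀ hb0 (by linarith) r
  have e8 : (2 : ℝ) ^ (r - 1) * 2 = 2 ^ r := by
    rw [← pow_succ]; congr 1; omega
  calc (2 : ℝ) ^ (r - 1) * (α ^ r + β ^ r * ∫ φ, plGap Hc a P A φ ^ r ∂plMeas Ht a P₀)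
      ≤ 2 ^ (r - 1) * ((α + b) ^ r + (α + b) ^ r) := by
        refine mul_le_mul_of_nonneg_left ?_ (by positivity)
        linarith
    _ = (2 * (α + b)) ^ r := by rw [mul_pow, ← e8]; ring

theorem gam_rfl_cite (H : HLaw G) (a : ℝ) (P A : Set G.V) (f u : G.V → ℝ) (Ψ : (G.V → ℝ) → ℝ) :
    plExT H a P f Ψ = C3.gExT H a P f Ψ ∧ plcLap H a P f u = C3.gcLap H a P f u ∧ plrPin H a P A u = C3.grPin H a P A u :=
  ⟨rfl, rfl, rfl⟩

end

end Claimed.Agent.R285.Pot
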