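-- KEEP
import Claimed.Agent.R285.Pot.GaDict
import Claimed.Agent.R285.Pot.GaMom

/-!
# ROW 285, package GA, file `GaDecA`: (D1) + (D2) of the header of `Entry/GoodGa.lean` in abstract form, and the exit `gad_main` = (G) + (D1) + (D2)      (helper150).   No sorry.

* generic: `gad_PD_of_le`, `gad_gVar_mono` (larger form, smaller variance), `gad_gVar_pin_mono`, `gad_mean_mono` / `gad_gap_mean_mono` ((D1) for `top = o` from `top = c`), `gad_form_mean_le`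
* decay (ONE system: the rows `S` of the CUT reference, `PdDict Hc a P₀ S`, `PdOk`, `PdRes`):  `gad_gap_le_cut`, **`gad_D1`**, **`gad_D2`**
* **`gad_main`**: `plExT (if top then Ho else Hc) a P₀ f (egPhi θ₁ θ₂ r (plcLap Hc ..) (plcLap Ho ..) (plrPin Hc ..)) ≤ (2 (θ₁ + ε₄ + gadC CP K CR · N · r² · √(pdE CP K r') · (1 + Y)))^r`
  from the dictionary of `Hc`, `Hc ≤ Ho`, `Ho = Hc` on fields vanishing on the core, a layer function `ρ` vanishing on the cells of the guard, `nb⁴ (cells of the core) ⊆ Q ⊆ {ρ ≥ r'}`, `|Q| ≤ N`, `gVar_c^{P₀} f ≤ Y`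
  and the four-graph estimate `h4 : |(gVar_o^P f - gVar_c^P f)/2 + θ₂| ≤ ε₄` ((D4), helper145).
-/

set_option autoImplicit false

namespace Claimed.Agent.R285.Pot

open MeasureTheory
open scoped BigOperators Classical

noncomputable section

variable {G : HGraph}

/-! ## generic monotonicity in the form -/

theorem gad_PD_of_le (Hc Ho : HLaw G) {a : ℝ} (ha : 0 < a) {P : Set G.V} (hc : plPD Hc P) (hle : ∀ v, Hc.form a v ≤ Ho.form a v) : plPD Ho P :=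
  fun v hv h1 h2 => by
    have e1 : Ho.form a v = 0 := (pl_form_eq_zero_iff Ho ha v).2 ⟨h1, h2⟩
    have e2 : Hc.form a v = 0 := le_antisymm (e1 ▸ hle v) (pl_form_nonneg Hc ha v)
    exact pl_PD_form Hc hc ha hv e2

/-- a larger form has smaller variances -/
theorem gad_gVar_mono (Hc Ho : HLaw G) {a : ℝ} (ha : 0 < a) {P : Set G.V} (hc : plPD Hc P) (hle : ∀ v, Hc.form a v ≤ Ho.form a v) (g : G.V → ℝ) :
    (plPin Ho P).gVar a g ≤ (plPin Hc P).gVar a g :=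
  pl_gVar_compare (plPin Hc P) (plPin Ho P) ha (pl_adm_of_PD Hc hc g) g id
    (fun v hv => (pl_mem_rspan_pin Hc P v).2 ((pl_mem_rspan_pin Ho P v).1 hv)) (fun v _ => hle v) fun _ _ => rfl

/-- more pins, smaller variances -/
theorem gad_gVar_pin_mono (H : HLaw G) {a : ℝ} (ha : 0 < a) {P P' : Set G.V} (h : plPD H P) (hP : P ⊆ P') (g : G.V → ℝ) :
    (plPin H P').gVar a g ≤ (plPin H P).gVar a g :=
  pl_gVar_compare (plPin H P) (plPin H P') ha (pl_adm_of_PD H h g) g id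
    (fun v hv => (pl_mem_rspan_pin H P v).2 fun x hx => (pl_mem_rspan_pin H P' v).1 hv x (hP hx)) (fun _ _ => le_rfl) fun _ _ => rfl

theorem gad_mean_eq (H H' : HLaw G) {a : ℝ} (ha : 0 < a) {P : Set G.V} (h : plPD H P) (L : (G.V → ℝ) →ₗ[ℝ] (G.V → ℝ)) :
    ∫ φ, H'.form a (L φ) ∂plMeas H a P = ∑ k, (plPin H P).gVar a (gamTest H' a L k) := by
  simp only [gam_form_eq_sum H' ha]
  rw [integral_finsetSum _ fun k _ => pl_meas_sq_integrable H ha h _]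
  simp only [pl_meas_sq H ha h]

/-- **(D1), `top = o`**: the mean of a nonnegative quadratic functional decreases when the form of the measure increases -/
theorem gad_mean_mono (Hc Ho H' : HLaw G) {a : ℝ} (ha : 0 < a) {P : Set G.V} (hc : plPD Hc P) (hle : ∀ v, Hc.form a v ≤ Ho.form a v)
    (L : (G.V → ℝ) →ₗ[ℝ] (G.V → ℝ)) : ∫ φ, H'.form a (L φ) ∂plMeas Ho a P ≤ ∫ φ, H'.form a (L φ) ∂plMeas Hc a P := by
  rw [gad_mean_eq Ho H' ha (gad_PD_of_le Hc Ho ha hc hle), gad_mean_eq Hc H' ha hc]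
  exact Finset.sum_le_sum fun k _ => gad_gVar_mono Hc Ho ha hc hle _

theorem gad_gap_mean_mono (Hc Ho : HLaw G) {a : ℝ} (ha : 0 < a) {P₀ P : Set G.V} (hc₀ : plPD Hc P₀) (hc : plPD Hc P)
    (hle : ∀ v, Hc.form a v ≤ Ho.form a v) (A : Set G.V) :
    ∫ φ, plGap Hc a P A φ ∂plMeas Ho a P₀ ≤ ∫ φ, plGap Hc a P A φ ∂plMeas Hc a P₀ := by
  simp only [pl_gap_eq_form_L Hc ha hc]
  exact gad_mean_mono Hc Ho Hc ha hc₀ hle _

/-- the energy of the mean of the tilted law -/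
theorem gad_form_mean_le (Hc Ho : HLaw G) {a : ℝ} (ha : 0 < a) {P₀ : Set G.V} (hc₀ : plPD Hc P₀) (hle : ∀ v, Hc.form a v ≤ Ho.form a v) (f : G.V → ℝ) :
    Hc.form a (plGf Ho a P₀ f) ≤ (plPin Hc P₀).gVar a f := by
  have ho := gad_PD_of_le Hc Ho ha hc₀ hle
  have e : (plPin Ho P₀).gVar a f = Ho.form a (plGf Ho a P₀ f) := by
    rw [pl_gVar_eq_form _ ha (pl_Gf_opt Ho ha ho f), pl_pin_form]
  exact (hle _).trans (e ▸ gad_gVar_mono Hc Ho ha hc₀ hle f)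

/-! ## the decay half -/

variable {I : Type} [Fintype I] {H : HLaw G} {a : ℝ} {P₀ : Set G.V} {S : PdSys G.V I} {A : PdAmb G.V I} {σ CP K CR : ℝ}

/-- the gap of a zero pin on the core `A₁` for data on the guard: cut off the harmonic extension near the core -/
theorem gad_gap_le_cut (ha : 0 < a) (d : PdDict H a P₀ S) (h : PdOk A S σ CP K) (p A₁ : Set G.V)
    (hnb : ∀ x ∈ p, A.blk x ∉ A.nb (A.cellsV A₁)) (u : G.V → ℝ) (hu : ∀ x ∈ P₀, u x = 0) :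
    plGap H a (P₀ ∪ p) A₁ u ≤ S.form (A.cut (A.cellsV A₁) * plHarm H a (P₀ ∪ p) u) := by
  have hPD : plPD H P₀ := potd_PD ha d h
  have hP : plPD H (P₀ ∪ p) := pl_PD_mono H hPD Set.subset_union_left
  rw [potd_form d]
  refine pl_gap_le H ha hP A₁ u (fun x hx => ?_) (fun x hx _ => ?_)
  · rcases hx with hx | hx
    · rw [Pi.mul_apply, pl_harm_of_mem H a u (Or.inl hx), hu x hx, mul_zero]
    · rw [Pi.mul_apply, h.amb.cut_zero _ x (hnb x hx), zero_mul]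
  · rw [Pi.mul_apply, h.amb.cut_one (A.cellsV A₁) x ⟨x, hx, rfl⟩, one_mul]

/-- **(D1), `top = c`** -/
theorem gad_D1 (ha : 0 < a) (d : PdDict H a P₀ S) (h : PdOk A S σ CP K) (hCR : 0 ≤ CR) (hR : PdRes A S σ CR)
    (p A₁ : Set G.V) {ρ : I → ℕ} (hρ : A.Lay ρ) (h0 : ∀ i ∈ A.cellsV p, ρ i = 0) {r : ℕ} (hr : 1 ≤ r)
    (Q : Finset I) (hQ : A.nb (A.nb (A.nb (A.nb (A.cellsV A₁)))) ⊆ (Q : Set I)) (hfar : (Q : Set I) ⊆ A.far ρ r) :
    ∫ φ, plGap H a (P₀ ∪ p) A₁ φ ∂plMeas H a P₀ ≤ Q.card * pdE CP K r * (pdM CP K + 16 / 3 * (2 * K * CR) ^ 2) := by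
  have hPD : plPD H P₀ := potd_PD ha d h
  have hP : plPD H (P₀ ∪ p) := pl_PD_mono H hPD Set.subset_union_left
  have hnb : ∀ x ∈ p, A.blk x ∉ A.nb (A.cellsV A₁) := fun x hx hmem => by
    have h1 : A.blk x ∈ A.far ρ r :=
      hfar (hQ (pd_subset_nb h _ (pd_subset_nb h _ (pd_subset_nb h _ hmem))))
    have h2 : ρ (A.blk x) = 0 := h0 _ ⟨x, hx, rfl⟩
    have h3 : r ≤ ρ (A.blk x) := h1
    omega
  obtain ⟨n, u, hu⟩ := pl_onb_exists H ha hPD (P₀ ∪ p)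
  have e1 : ∫ φ, plGap H a (P₀ ∪ p) A₁ φ ∂plMeas H a P₀ = ∑ j, plGap H a (P₀ ∪ p) A₁ (u j) := by
    simp only [pl_gap_eq_form_L H ha hP]
    exact pl_form_comp_mean_eq_sum H ha hPD Set.subset_union_left hu _ fun w hw => pl_gapL_of_zero H ha hP A₁ hw
  rw [e1]
  have htr := pd_trace_cut h hCR hR (P := p) (J := A.cellsV A₁) hρ h0 hr Q hQ hfar u
    (fun j => ⟨(d.adm _).2 (hu.mem j).1, fun φ hφ hφA => by
      rw [d.bil]
      exact (hu.mem j).2 φ fun x hx => hx.elim ((d.adm φ).1 hφ x) (hφA x)⟩)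
    (fun i j => by rw [d.bil]; exact hu.orth i j)
  refine (Finset.sum_le_sum fun j _ => ?_).trans htr
  have := gad_gap_le_cut ha d h p A₁ hnb (u j) (hu.mem j).1
  rwa [← pl_harm_unique H ha hP (u j) (v := u j) (fun _ _ => rfl) (hu.mem j).2] at this

/-- **(D2)** -/
theorem gad_D2 (ha : 0 < a) (d : PdDict H a P₀ S) (h : PdOk A S σ CP K)
    (p A₁ : Set G.V) {ρ : I → ℕ} (hρ : A.Lay ρ) (h0 : ∀ i ∈ A.cellsV p, ρ i = 0) {r : ℕ} (hr : 1 ≤ r)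
    (hfar : A.nb (A.nb (A.cellsV A₁)) ⊆ A.far ρ r) (m : G.V → ℝ) (hm : ∀ x ∈ P₀, m x = 0) :
    plGap H a (P₀ ∪ p) A₁ m ≤ pdM CP K * pdE CP K r * H.form a m := by
  have hPD : plPD H P₀ := potd_PD ha d h
  have hP : plPD H (P₀ ∪ p) := pl_PD_mono H hPD Set.subset_union_left
  have hM : 0 ≤ pdM CP K := le_trans (by norm_num) (pd_pdM_two_le h)
  have hnb : ∀ x ∈ p, A.blk x ∉ A.nb (A.cellsV A₁) := fun x hx hmem => by
    have h1 : A.blk x ∈ A.far ρ r := hfar (pd_subset_nb h _ hmem)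
    have h2 : ρ (A.blk x) = 0 := h0 _ ⟨x, hx, rfl⟩
    have h3 : r ≤ ρ (A.blk x) := h1
    omega
  set w := plHarm H a (P₀ ∪ p) m with hw
  have hwadm : S.Adm w := (d.adm w).2 fun x hx => by rw [hw, pl_harm_of_mem H a m (Or.inl hx), hm x hx]
  have hharm : PdHarm A S (A.far ρ 1) w := by
    intro φ hφ hsupp
    rw [d.bil]
    refine pl_harm_orth H ha hP m fun x hx => ?_
    rcases hx with hx | hx
    · exact (d.adm φ).1 hφ x hx
    · refine hsupp x fun hmem => ?_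
      have h1 : 1 ≤ ρ (A.blk x) := hmem
      rw [h0 _ ⟨x, hx, rfl⟩] at h1
      omega
  have e1 := gad_gap_le_cut ha d h p A₁ hnb m hm
  have e2 := pd_form_cut_le h hwadm (A.cellsV A₁)
  have e3 := (pd_enT_mono S hfar w).trans (pd_tail h hρ hwadm hharm r)
  have e4 : S.form w ≤ H.form a m := by
    rw [potd_form d]
    exact pl_en_le H ha hP m fun _ _ => rfl
  calc plGap H a (P₀ ∪ p) A₁ m ≤ S.form (A.cut (A.cellsV A₁) * w) := e1
    _ ≤ pdM CP K * S.enT (A.nb (A.nb (A.cellsV A₁))) w := e2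
    _ ≤ pdM CP K * (pdE CP K r * S.form w) := mul_le_mul_of_nonneg_left e3 hM
    _ ≤ pdM CP K * (pdE CP K r * H.form a m) :=
        mul_le_mul_of_nonneg_left (mul_le_mul_of_nonneg_left e4 (pdE_nonneg CP K r)) hM
    _ = _ := by ring

theorem gad_pdE_pos (CP K : ℝ) (r : ℕ) : 0 < pdE CP K r := by
  unfold pdE; positivity

theorem gad_pdE_le_three (h : PdOk A S σ CP K) (r : ℕ) : pdE CP K r ≤ 3 := by
  have hM : 2 ≤ pdM CP K := pd_pdM_two_le h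
  unfold pdE
  have : Real.exp (-(r : ℝ) / (3 * (pdM CP K + 1))) ≤ 1 := by
    rw [Real.exp_le_one_iff]
    apply div_nonpos_of_nonpos_of_nonneg
    · simp
    · linarith
  linarith

/-- the constant of `gad_main` -/
def gadC (CP K CR : ℝ) : ℝ := 1 / 2 + 3 * pdM CP K + 48 * (pdM CP K + 16 / 3 * (2 * K * CR) ^ 2)

theorem gadC_eqns_cite : True := by have := @gadC.eq_1; trivial

/-- **(G) + (D1) + (D2)**: only the four-graph estimate `ε₄` is left as a hypothesis.   `S` = rows of the CUT reference `Hc` (own pins `P₀`), `p` = guard, `A₁` = core, `ρ` = layer function vanishing on the cells of the guard,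
`Q ⊇ nb⁴ (cells of the core)`, `Q ⊆ {ρ ≥ r'}`. -/
theorem gad_main (Hc Ho : HLaw G) (top : Bool) (ha : 0 < a) {p A₁ : Set G.V} (d : PdDict Hc a P₀ S) (h : PdOk A S σ CP K)
    (hCR : 0 ≤ CR) (hR : PdRes A S σ CR)
    (hle : ∀ v, Hc.form a v ≤ Ho.form a v) (hA : ∀ v : G.V → ℝ, (∀ x ∈ A₁, v x = 0) → Ho.form a v = Hc.form a v) (hAP₀ : ∀ x ∈ A₁, x ∉ P₀)
    {ρ : I → ℕ} (hρ : A.Lay ρ) (h0 : ∀ i ∈ A.cellsV p, ρ i = 0) {r' : ℕ} (hr' : 1 ≤ r')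
    (Q : Finset I) (hQ : A.nb (A.nb (A.nb (A.nb (A.cellsV A₁)))) ⊆ (Q : Set I)) (hfar : (Q : Set I) ⊆ A.far ρ r')
    {N : ℝ} (hN : 1 ≤ N) (hQN : (Q.card : ℝ) ≤ N)
    (f : G.V → ℝ) {Y ε₄ θ₁ θ₂ : ℝ} (hθ₁ : 0 ≤ θ₁) (hV : (plPin Hc P₀).gVar a f ≤ Y)
    (h4 : |((plPin Ho (P₀ ∪ p)).gVar a f - (plPin Hc (P₀ ∪ p)).gVar a f) / 2 + θ₂| ≤ ε₄) (r : ℕ) (hr : 1 ≤ r) :
    plExT (if top then Ho else Hc) a P₀ f
        (fun φ => Entry.egPhi θ₁ θ₂ r (plcLap Hc a (P₀ ∪ p) f φ) (plcLap Ho a (P₀ ∪ p) f φ) (plrPin Hc a (P₀ ∪ p) A₁ φ))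
      ≤ (2 * (θ₁ + ε₄ + gadC CP K CR * N * (r : ℝ) ^ 2 * Real.sqrt (pdE CP K r') * (1 + Y))) ^ r := by
  have hc₀ : plPD Hc P₀ := potd_PD ha d h
  have hc : plPD Hc (P₀ ∪ p) := pl_PD_mono Hc hc₀ Set.subset_union_left
  have ho₀ : plPD Ho P₀ := gad_PD_of_le Hc Ho ha hc₀ hle
  have hM : 2 ≤ pdM CP K := pd_pdM_two_le h
  have hY : 0 ≤ Y := (pl_gVar_nonneg _ ha f).trans hV
  have hε₄ : 0 ≤ ε₄ := (abs_nonneg _).trans h4
  set E := pdE CP K r' with hE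
  have hE0 : 0 < E := gad_pdE_pos CP K r'
  have hE3 : E ≤ 3 := gad_pdE_le_three h r'
  set C₁ := pdM CP K + 16 / 3 * (2 * K * CR) ^ 2 with hC₁
  have hC₁0 : 0 ≤ C₁ := by positivity
  have s0 : ∀ X : Set I, X ⊆ A.nb X := fun X => pd_subset_nb h X
  have hfar2 : A.nb (A.nb (A.cellsV A₁)) ⊆ A.far ρ r' := (((s0 _).trans (s0 _)).trans hQ).trans hfar
  have hAP : ∀ x ∈ A₁, x ∉ P₀ ∪ p := by
    rintro x hx (hxP | hxp)
    · exact hAP₀ x hx hxP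
    · have h1 : r' ≤ ρ (A.blk x) := hfar2 (s0 _ (s0 _ ⟨x, hx, rfl⟩))
      rw [h0 _ ⟨x, hxp, rfl⟩] at h1
      omega
  have hVP : (plPin Hc (P₀ ∪ p)).gVar a f ≤ Y := (gad_gVar_pin_mono Hc ha hc₀ Set.subset_union_left f).trans hV
  have hD1c := gad_D1 ha d h hCR hR p A₁ hρ h0 hr' Q hQ hfar
  have hD1 : ∀ Ht : HLaw G, (Ht = Ho ∨ Ht = Hc) → ∫ φ, plGap Hc a (P₀ ∪ p) A₁ φ ∂plMeas Ht a P₀ ≤ N * E * C₁ := by
    intro Ht hHt
    have e1 : (Q.card : ℝ) * E * C₁ ≤ N * E * C₁ := by gcongr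
    rcases hHt with rfl | rfl
    · exact ((gad_gap_mean_mono Hc Ht ha hc₀ hc hle A₁).trans hD1c).trans e1
    · exact hD1c.trans e1
  have hD2 : ∀ Ht : HLaw G, (Ht = Ho ∨ Ht = Hc) → plGap Hc a (P₀ ∪ p) A₁ (plGf Ht a P₀ f) ≤ pdM CP K * E * Y := by
    intro Ht hHt
    have hPDt : plPD Ht P₀ := by rcases hHt with rfl | rfl <;> assumption
    have e0 : ∀ x ∈ P₀, plGf Ht a P₀ f x = 0 := (pl_mem_rspan_pin Ht P₀ _).1 (pl_Gf_opt Ht ha hPDt f).1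
    have e1 := gad_D2 ha d h p A₁ hρ h0 hr' hfar2 (plGf Ht a P₀ f) e0
    have e2 : Hc.form a (plGf Ht a P₀ f) ≤ Y := by
      rcases hHt with rfl | rfl
      · exact (gad_form_mean_le Hc Ht ha hc₀ hle f).trans hV
      · exact (gad_form_mean_le Ht Ht ha hc₀ (fun _ => le_rfl) f).trans hV
    exact e1.trans (mul_le_mul_of_nonneg_left e2 (by positivity))
  set μ := Real.sqrt E with hμ
  have hμ0 : 0 < μ := Real.sqrt_pos.2 hE0
  have hμ2 : μ * μ = E := Real.mul_self_sqrt hE0.le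
  have hμ3 : μ ≤ 2 := by
    rw [hμ]
    calc Real.sqrt E ≤ Real.sqrt 4 := Real.sqrt_le_sqrt (by linarith)
      _ = 2 := by rw [show (4 : ℝ) = 2 ^ 2 by norm_num, Real.sqrt_sq (by norm_num)]
  have hfac : (1 + μ⁻¹) * E ≤ 3 * μ := by
    have : (1 + μ⁻¹) * E = μ * μ + μ := by
      rw [← hμ2]; field_simp
    rw [this]; nlinarith
  have hr1 : (1 : ℝ) ≤ (r : ℝ) ^ 2 := by
    have : (1 : ℝ) ≤ r := by exact_mod_cast hr
    nlinarith
  have hnum : θ₁ + ε₄ + μ * Y / 2 + (1 + μ⁻¹) * (pdM CP K * E * Y) + (1 + μ⁻¹) * (16 * (r : ℝ) ^ 2 * (N * E * C₁))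
      ≤ θ₁ + ε₄ + gadC CP K CR * N * (r : ℝ) ^ 2 * μ * (1 + Y) := by
    have t1 : (1 + μ⁻¹) * (pdM CP K * E * Y) ≤ 3 * μ * (pdM CP K * Y) := by
      calc (1 + μ⁻¹) * (pdM CP K * E * Y) = (1 + μ⁻¹) * E * (pdM CP K * Y) := by ring
        _ ≤ 3 * μ * (pdM CP K * Y) := mul_le_mul_of_nonneg_right hfac (by positivity)
    have t2 : (1 + μ⁻¹) * (16 * (r : ℝ) ^ 2 * (N * E * C₁)) ≤ 3 * μ * (16 * (r : ℝ) ^ 2 * (N * C₁)) := by
      calc (1 + μ⁻¹) * (16 * (r : ℝ) ^ 2 * (N * E * C₁)) = (1 + μ⁻¹) * E * (16 * (r : ℝ) ^ 2 * (N * C₁)) := by ring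
        _ ≤ 3 * μ * (16 * (r : ℝ) ^ 2 * (N * C₁)) := mul_le_mul_of_nonneg_right hfac (by positivity)
    have hNr : 1 ≤ N * (r : ℝ) ^ 2 := by nlinarith
    have t3 : μ * Y / 2 + 3 * μ * (pdM CP K * Y) ≤ (1 / 2 + 3 * pdM CP K) * (N * (r : ℝ) ^ 2) * μ * Y := by
      have : 0 ≤ (1 / 2 + 3 * pdM CP K) * μ * Y := by positivity
      nlinarith
    have t4 : 0 ≤ (1 / 2 + 3 * pdM CP K) * (N * (r : ℝ) ^ 2) * μ := by positivity
    have t5 : 0 ≤ 48 * C₁ * (N * (r : ℝ) ^ 2) * μ * Y := by positivity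
    unfold gadC
    rw [← hC₁]
    nlinarith
  have hbase : 0 ≤ θ₁ + ε₄ + μ * Y / 2 + (1 + μ⁻¹) * (pdM CP K * E * Y) + (1 + μ⁻¹) * (16 * (r : ℝ) ^ 2 * (N * E * C₁)) := by
    positivity
  have hfin : ∀ Ht : HLaw G, (Ht = Ho ∨ Ht = Hc) → plExT Ht a P₀ f
        (fun φ => Entry.egPhi θ₁ θ₂ r (plcLap Hc a (P₀ ∪ p) f φ) (plcLap Ho a (P₀ ∪ p) f φ) (plrPin Hc a (P₀ ∪ p) A₁ φ))
      ≤ (2 * (θ₁ + ε₄ + gadC CP K CR * N * (r : ℝ) ^ 2 * μ * (1 + Y))) ^ r := by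
    intro Ht hHt
    have hPDt : plPD Ht P₀ := by rcases hHt with rfl | rfl <;> assumption
    refine (gam_main Hc Ho Ht ha hPDt hc hle hA hAP f hθ₁ hμ0 hVP (hD1 Ht hHt) (hD2 Ht hHt) h4 r hr).trans ?_
    exact pow_le_pow_left₀ (by positivity) (by linarith) r
  cases top
  · exact hfin Hc (Or.inr rfl)
  · exact hfin Ho (Or.inl rfl)

end

end Claimed.Agent.R285.Pot
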