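-- KEEP
import Claimed.Agent.R285.Pot.GaDec
import Claimed.Agent.R285.Pot.GaDecA

/-!
# ROW 285, package GA, file `GaAsm`: THE ABSTRACT ASSEMBLY of the moment estimate (eg_ga_moment / es_ga_moment)      (helper150).   No sorry.

`ga_moment_abs` = `gad_main` ((G) + (D1) + (D2), `Pot/GaDecA.lean`) + `ga_D4` ((D4), helper145, `Pot/GaDec.lean`) + numerics + small `R` + the empty window, in pure `PdSys` form, laws `gaLaw Sc`, `gaLaw So` at `a := 1` (`Pot/GaDict.lean`).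

## WHAT AN INSTANCE SUPPLIES
1. `A : PdAmb G.V I`, four systems `Sc So Sci Soi : PdSys G.V I`, sets of cells `cH cD cp`, and **`GaPack A Sc So Sci Soi σ CP K CR cH cD cp R`**:
   `PdOk` of the four systems with the SAME constants, `PdRes` of `Sc`, `So.pin = Sc.pin`, `Sc.form ≤ So.form`, equality on the fields vanishing on the cells of `cH`, the sites of `cH` are not pinned,
   `PdAgree A Sci Soi cHᶜ`, `PdAgree A (Sc.addPin guard) Sci cD`, `PdAgree A (So.addPin guard) Soi cD` (`guard = A.sitesOf cp`), `cp ∩ cD = ∅`,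
   and ONE pseudo-metric on the cells: `dist j j = 0`, symmetric, triangle inequality, `A.adj i j → dist i j ≤ 1`, `∀ k ∈ cH, ∀ j ∉ cD, R ≤ dist k j`.
   (window with the union of components `U`: `A := A₀.split U`, `dist i j := min (geoDist i j) R` if `i, j` lie on the same side of `U`, `R` otherwise.)     All layer functions, `Q`, `dH`, `dD` are derived here (`gaRho`).
2. **`GaTest A Sc So Sci Soi F`**: `F j` carried by `{j}`, `gf (F j) (F j) ≤ 1` in `Sc, So, Sci, Soi` (`ga_row_gf_le`, `pd_pin_mono`, `pd_gf_le_of_bound`).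
3. for the datum `y : I → ℝ`: the test `f` with `pdRowF f = ∑ j, y j • F j`, `Sc.gf (pdRowF f) (pdRowF f) ≤ ∑ j, y j ^ 2` (`pd_termF_gf_le`), `z₃ z₄` as in `ga_D4`.
4. the translation of the functionals: `ga_ExT_congr`, `ga_cLap_congr`, `ga_rPin_congr` (`H.form a = S.form`), `θ₂ = (Soi.En z₄ - Sci.En z₃) / 2`.
## EXIT
`plExT (if top then gaLaw So else gaLaw Sc) 1 Sc.pin f (egPhi θ₁ ((Soi.En z₄ - Sci.En z₃)/2) r (plcLap (gaLaw Sc) ..) (plcLap (gaLaw So) ..) (plrPin (gaLaw Sc) ..)) ≤ (4 (θ₁ + gaK CP K CR · |I|² r² e^{-gaC0 CP K · R} (1 + ∑ y_j²)))^r`, ALL `R`, `|I| = 0` included.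
-/

set_option autoImplicit false
set_option linter.unusedSectionVars false

namespace Claimed.Agent.R285.Pot

open MeasureTheory
open scoped BigOperators Classical

noncomputable section

/-! ## 1. a pseudo-metric on the cells -/

section met

variable {V I : Type} {A : PdAmb V I} {dist : I → I → ℕ}

/-- a pseudo-metric on the cells which is dominated by the adjacency -/
structure GaMet (A : PdAmb V I) (dist : I → I → ℕ) : Prop where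
  self : ∀ j, dist j j = 0
  symm : ∀ i j, dist i j = dist j i
  tri : ∀ i j k, dist i k ≤ dist i j + dist j k
  adj : ∀ i j, A.adj i j → dist i j ≤ 1

/-- the distance to a set of cells, capped by `c` -/
def gaRho (dist : I → I → ℕ) (J : Set I) (c : ℕ) (i : I) : ℕ := sInf {n | n = c ∨ ∃ j ∈ J, n = dist j i}

theorem gaRho_eqns_cite : True := by have := @gaRho.eq_1; trivial

theorem ga_rho_le_cap (dist : I → I → ℕ) (J : Set I) (c : ℕ) (i : I) : gaRho dist J c i ≤ c := Nat.sInf_le (Or.inl rfl)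

theorem ga_rho_le (dist : I → I → ℕ) {J : Set I} (c : ℕ) (i : I) {j : I} (hj : j ∈ J) : gaRho dist J c i ≤ dist j i :=
  Nat.sInf_le (Or.inr ⟨j, hj, rfl⟩)

theorem ga_rho_cases (dist : I → I → ℕ) (J : Set I) (c : ℕ) (i : I) : gaRho dist J c i = c ∨ ∃ j ∈ J, gaRho dist J c i = dist j i :=
  Nat.sInf_mem (s := {n | n = c ∨ ∃ j ∈ J, n = dist j i}) ⟨c, Or.inl rfl⟩

theorem ga_le_rho (dist : I → I → ℕ) {J : Set I} {c n : ℕ} {i : I} (hc : n ≤ c) (h : ∀ j ∈ J, n ≤ dist j i) : n ≤ gaRho dist J c i := by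
  rcases ga_rho_cases dist J c i with h1 | ⟨j, hj, h1⟩
  · rw [h1]; exact hc
  · rw [h1]; exact h j hj

theorem ga_met_lay (hd : GaMet A dist) (j : I) : A.Lay (dist j) := fun i i' hii => by
  have h1 := hd.tri j i' i
  have h2 := hd.adj i i' hii
  rw [hd.symm i i'] at h2
  omega

theorem ga_rho_lay (hd : GaMet A dist) (J : Set I) (c : ℕ) : A.Lay (gaRho dist J c) := fun i i' hii => by
  rcases ga_rho_cases dist J c i' with h1 | ⟨j, hj, h1⟩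
  · rw [h1]; exact (ga_rho_le_cap dist J c i).trans (Nat.le_succ c)
  · rw [h1]; exact (ga_rho_le dist c i hj).trans (ga_met_lay hd j i i' hii)

theorem ga_rho_zero (hd : GaMet A dist) {J : Set I} (c : ℕ) {i : I} (hi : i ∈ J) : gaRho dist J c i = 0 := by
  have := ga_rho_le dist c i hi
  rw [hd.self] at this
  omega

theorem ga_nb_dist (hd : GaMet A dist) {J J₀ : Set I} {n : ℕ} (h : ∀ i ∈ J, ∃ k ∈ J₀, dist i k ≤ n) : ∀ i ∈ A.nb J, ∃ k ∈ J₀, dist i k ≤ n + 1 := by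
  rintro i ⟨j, hj, hij⟩
  obtain ⟨k, hk, hd1⟩ := h j hj
  have h1 := hd.tri i j k
  have h2 := hd.adj i j hij
  exact ⟨k, hk, by omega⟩

theorem ga_nb0 (hd : GaMet A dist) (J : Set I) : ∀ i ∈ J, ∃ k ∈ J, dist i k ≤ 0 := fun i hi => ⟨i, hi, (hd.self i).le⟩

end met

/-! ## 2. bounded test functions -/

section bdd

variable {G : HGraph}

theorem ga_phi_nonneg {θ₁ : ℝ} (hθ₁ : 0 ≤ θ₁) (θ₂ : ℝ) (r : ℕ) (x x' ρ : ℝ) : 0 ≤ Entry.egPhi θ₁ θ₂ r x x' ρ := by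
  unfold Entry.egPhi
  refine pow_nonneg (le_min zero_le_one ?_) r
  have := gam_egLg_nonneg ρ
  positivity

theorem ga_phi_le_one {θ₁ : ℝ} (hθ₁ : 0 ≤ θ₁) (θ₂ : ℝ) (r : ℕ) (x x' ρ : ℝ) : Entry.egPhi θ₁ θ₂ r x x' ρ ≤ 1 := by
  unfold Entry.egPhi
  refine pow_le_one₀ (le_min zero_le_one ?_) (min_le_left _ _)
  have := gam_egLg_nonneg ρ
  positivity

theorem ga_ExT_le_one (H : HLaw G) {a : ℝ} (ha : 0 < a) {P : Set G.V} (h : plPD H P) (f : G.V → ℝ) (Ψ : (G.V → ℝ) → ℝ)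
    (h0 : ∀ φ, 0 ≤ Ψ φ) (h1 : ∀ φ, Ψ φ ≤ 1) : plExT H a P f Ψ ≤ 1 := by
  have := pl_meas_prob H ha h
  rw [pl_ExT_eq H ha h]
  refine (integral_mono_of_nonneg (Filter.Eventually.of_forall fun φ => h0 _) (integrable_const (1 : ℝ))
    (Filter.Eventually.of_forall fun φ => h1 _)).trans ?_
  simp

end bdd

/-! ## 3. the abstract assembly -/

section asm

variable {G : HGraph} {I : Type} [Fintype I]

/-- **what the instance supplies, 1**: four systems of rows on one ambient.  `Sc`, `So` = cut / restored box, `Sci`, `Soi` = cut / restored open patch (sites off the patch pinned);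
`cH`, `cD`, `cp` = cells of the core, of the interior, of the guard. -/
structure GaPack (A : PdAmb G.V I) (Sc So Sci Soi : PdSys G.V I) (σ CP K CR : ℝ) (cH cD cp : Set I) (R : ℕ) : Prop where
  okc : PdOk A Sc σ CP K
  oko : PdOk A So σ CP K
  okci : PdOk A Sci σ CP K
  okoi : PdOk A Soi σ CP K
  CR_nonneg : 0 ≤ CR
  res : PdRes A Sc σ CR
  pin : So.pin = Sc.pin
  le : ∀ v, Sc.form v ≤ So.form v
  core : ∀ v : G.V → ℝ, (∀ x, A.blk x ∈ cH → v x = 0) → So.form v = Sc.form v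
  core_free : ∀ x, A.blk x ∈ cH → x ∉ Sc.pin
  a34 : PdAgree A Sci Soi cHᶜ
  a13 : PdAgree A (Sc.addPin (A.sitesOf cp)) Sci cD
  a24 : PdAgree A (So.addPin (A.sitesOf cp)) Soi cD
  guard : ∀ i ∈ cp, i ∉ cD
  met : ∃ dist : I → I → ℕ, GaMet A dist ∧ ∀ k ∈ cH, ∀ j, j ∉ cD → R ≤ dist k j

/-- **what the instance supplies, 2**: one test per cell, of variance `≤ 1` in the four systems -/
structure GaTest (A : PdAmb G.V I) (Sc So Sci Soi : PdSys G.V I) (F : I → (G.V → ℝ) →ₗ[ℝ] ℝ) : Prop where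
  carried : ∀ j, A.Carried {j} (F j)
  gc : ∀ j, Sc.gf (F j) (F j) ≤ 1
  go : ∀ j, So.gf (F j) (F j) ≤ 1
  gci : ∀ j, Sci.gf (F j) (F j) ≤ 1
  goi : ∀ j, Soi.gf (F j) (F j) ≤ 1

/-- the rate -/
def gaC0 (CP K : ℝ) : ℝ := 1 / (6 * (pdM CP K + 1))

/-- the constant -/
def gaK (CP K CR : ℝ) : ℝ := (4 * pdM CP K + gadC CP K CR) * (2 * Real.exp (4 * gaC0 CP K)) + Real.exp (5 * gaC0 CP K)

theorem gaK_eqns_cite : True := by have := @gaC0.eq_1; have := @gaK.eq_1; trivial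

theorem ga_sqrt_pdE_le {CP K : ℝ} (hM : 2 ≤ pdM CP K) {R : ℕ} (hR : 4 ≤ R) :
    Real.sqrt (pdE CP K (R - 4)) ≤ 2 * Real.exp (4 * gaC0 CP K) * Real.exp (-gaC0 CP K * R) := by
  rw [mul_assoc 2, ← Real.exp_add]
  refine Real.sqrt_le_iff.2 ⟨by positivity, ?_⟩
  rw [mul_pow, ← Real.exp_nat_mul]
  unfold pdE gaC0
  have e : -((R - 4 : ℕ) : ℝ) / (3 * (pdM CP K + 1)) = ((2 : ℕ) : ℝ) * (4 * (1 / (6 * (pdM CP K + 1))) + -(1 / (6 * (pdM CP K + 1))) * R) := by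
    have h1 : pdM CP K + 1 ≠ 0 := by linarith
    rw [Nat.cast_sub hR]
    push_cast
    field_simp
    ring
  rw [e]
  have := Real.exp_pos (((2 : ℕ) : ℝ) * (4 * (1 / (6 * (pdM CP K + 1))) + -(1 / (6 * (pdM CP K + 1))) * R))
  nlinarith

variable {A : PdAmb G.V I} {Sc So Sci Soi : PdSys G.V I} {σ CP K CR : ℝ} {cH cD cp : Set I} {R : ℕ}

theorem ga_pack_PD (P : GaPack A Sc So Sci Soi σ CP K CR cH cD cp R) : plPD (gaLaw Sc) Sc.pin := potd_PD one_pos (ga_dict Sc 1) P.okc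

theorem ga_pack_le (P : GaPack A Sc So Sci Soi σ CP K CR cH cD cp R) (v : G.V → ℝ) : (gaLaw Sc).form 1 v ≤ (gaLaw So).form 1 v := by
  rw [ga_form, ga_form]; exact P.le v

/-- the four-graph estimate in the form of `gad_main` -/
theorem ga_pack_D4 (P : GaPack A Sc So Sci Soi σ CP K CR cH cD cp R) {F : I → (G.V → ℝ) →ₗ[ℝ] ℝ} (T : GaTest A Sc So Sci Soi F)
    (y : I → ℝ) (f : G.V → ℝ) (hf : pdRowF f = ∑ j, y j • F j)
    (z₃ : Sci.Tm → ℝ) (z₄ : Soi.Tm → ℝ) (hz : ∑ t, z₃ t ^ 2 = ∑ t, z₄ t ^ 2)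
    (hz₃ : Sci.termF z₃ = ∑ j, y j • F j) (hz₄ : Soi.termF z₄ = ∑ j, y j • F j) :
    |((plPin (gaLaw So) (Sc.pin ∪ A.sitesOf cp)).gVar 1 f - (plPin (gaLaw Sc) (Sc.pin ∪ A.sitesOf cp)).gVar 1 f) / 2 + (Soi.En z₄ - Sci.En z₃) / 2|
      ≤ (Fintype.card I * Real.sqrt (48 * pdM CP K ^ 2 * pdE CP K (R - 4)) * ∑ j, y j ^ 2) / 2 := by
  obtain ⟨dist, hd, hfar⟩ := P.met
  set p := A.sitesOf cp with hp
  have h₁ : PdOk A (Sc.addPin p) σ CP K := pd_ok_addPin P.okc p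
  have h₂ : PdOk A (So.addPin p) σ CP K := pd_ok_addPin P.oko p
  have e1 : (Sc.addPin p).gf (pdRowF f) (pdRowF f) = (plPin (gaLaw Sc) (Sc.pin ∪ p)).gVar 1 f :=
    potd_gf_eq_gVar one_pos (potd_dict_addPin (ga_dict Sc 1) p) h₁ f
  have e2 : (So.addPin p).gf (pdRowF f) (pdRowF f) = (plPin (gaLaw So) (Sc.pin ∪ p)).gVar 1 f := by
    rw [← P.pin]
    exact potd_gf_eq_gVar one_pos (potd_dict_addPin (ga_dict So 1) p) h₂ f
  have a12 : PdAgree A Sc So cHᶜ := fun v hv => by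
    have hv' : ∀ x, A.blk x ∈ cH → v x = 0 := fun x hx => hv x (fun h => h hx)
    refine ⟨?_, (P.core v hv').symm⟩
    unfold PdSys.Adm
    rw [P.pin]
  have hH : ∀ j, A.nb (A.nb cHᶜᶜ) ⊆ A.far (dist j) (gaRho dist cH R j - 2) := by
    intro j i hi
    rw [compl_compl] at hi
    obtain ⟨k, hk, hik⟩ := ga_nb_dist hd (ga_nb_dist hd (ga_nb0 hd cH)) i hi
    have h1 := ga_rho_le dist R j hk
    have h2 := hd.tri k i j
    have h3 := hd.symm i k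
    have h4 := hd.symm i j
    show gaRho dist cH R j - 2 ≤ dist j i
    omega
  have hD : ∀ j, A.nb (A.nb cDᶜ) ⊆ A.far (dist j) (gaRho dist cDᶜ R j - 2) := by
    intro j i hi
    obtain ⟨k, hk, hik⟩ := ga_nb_dist hd (ga_nb_dist hd (ga_nb0 hd cDᶜ)) i hi
    have h1 := ga_rho_le dist R j hk
    have h2 := hd.tri k i j
    have h3 := hd.symm i k
    have h4 := hd.symm i j
    show gaRho dist cDᶜ R j - 2 ≤ dist j i
    omega
  have hR : ∀ j, R - 4 ≤ (gaRho dist cH R j - 2) + (gaRho dist cDᶜ R j - 2) := by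
    intro j
    rcases ga_rho_cases dist cH R j with h1 | ⟨k, hk, h1⟩
    · omega
    rcases ga_rho_cases dist cDᶜ R j with h2 | ⟨k', hk', h2⟩
    · omega
    have h3 := hfar k hk k' hk'
    have h4 := hd.tri k j k'
    have h5 := hd.symm j k'
    omega
  have key := ga_D4 h₁ h₂ P.okci P.okoi (ga_agree_addPin a12 p) P.a34 P.a13 P.a24 F T.carried
    (fun j => (pd_pin_mono P.okc p (F j)).trans (T.gc j)) (fun j => (pd_pin_mono P.oko p (F j)).trans (T.go j)) T.gci T.goi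
    dist (ga_met_lay hd) hd.self _ _ hH hD hR y z₃ z₄ hz hz₃ hz₄
  rw [← hf, e1, e2] at key
  exact key

/-- `R ≥ 5` -/
theorem ga_moment_big (P : GaPack A Sc So Sci Soi σ CP K CR cH cD cp R) (hR5 : 5 ≤ R) (hI : Nonempty I)
    {F : I → (G.V → ℝ) →ₗ[ℝ] ℝ} (T : GaTest A Sc So Sci Soi F)
    (y : I → ℝ) (f : G.V → ℝ) (hf : pdRowF f = ∑ j, y j • F j) (hV : Sc.gf (pdRowF f) (pdRowF f) ≤ ∑ j, y j ^ 2)
    (z₃ : Sci.Tm → ℝ) (z₄ : Soi.Tm → ℝ) (hz : ∑ t, z₃ t ^ 2 = ∑ t, z₄ t ^ 2)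
    (hz₃ : Sci.termF z₃ = ∑ j, y j • F j) (hz₄ : Soi.termF z₄ = ∑ j, y j • F j) (top : Bool) {θ₁ : ℝ} (hθ₁ : 0 ≤ θ₁) (r : ℕ) (hr : 1 ≤ r) :
    plExT (if top then gaLaw So else gaLaw Sc) 1 Sc.pin f (fun φ => Entry.egPhi θ₁ ((Soi.En z₄ - Sci.En z₃) / 2) r
        (plcLap (gaLaw Sc) 1 (Sc.pin ∪ A.sitesOf cp) f φ) (plcLap (gaLaw So) 1 (Sc.pin ∪ A.sitesOf cp) f φ)
        (plrPin (gaLaw Sc) 1 (Sc.pin ∪ A.sitesOf cp) (A.sitesOf cH) φ))
      ≤ (2 * (θ₁ + (Fintype.card I * Real.sqrt (48 * pdM CP K ^ 2 * pdE CP K (R - 4)) * ∑ j, y j ^ 2) / 2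
          + gadC CP K CR * (Fintype.card I : ℝ) * (r : ℝ) ^ 2 * Real.sqrt (pdE CP K (R - 4)) * (1 + ∑ j, y j ^ 2))) ^ r := by
  obtain ⟨dist, hd, hfar⟩ := P.met
  have hcells : ∀ J : Set I, A.cellsV (A.sitesOf J) ⊆ J := pd_cellsV_sitesOf A
  have hQ4 : ∀ i ∈ A.nb (A.nb (A.nb (A.nb (A.cellsV (A.sitesOf cH))))), ∃ k ∈ cH, dist i k ≤ 4 :=
    ga_nb_dist hd (ga_nb_dist hd (ga_nb_dist hd (ga_nb_dist hd fun i hi => ⟨i, hcells cH hi, (hd.self i).le⟩)))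
  refine gad_main (gaLaw Sc) (gaLaw So) top one_pos (p := A.sitesOf cp) (A₁ := A.sitesOf cH) (ga_dict Sc 1) P.okc P.CR_nonneg P.res
    (fun v => ga_pack_le (G := G) P v) (fun v hv => by rw [ga_form, ga_form]; exact P.core v hv) P.core_free
    (ρ := gaRho dist cp R) (ga_rho_lay hd cp R) (fun i hi => ga_rho_zero hd R (hcells cp hi)) (r' := R - 4) (by omega)
    (Finset.univ.filter fun i => i ∈ A.nb (A.nb (A.nb (A.nb (A.cellsV (A.sitesOf cH))))))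
    (fun i hi => by simpa using hi) (fun i hi => ?_) (N := (Fintype.card I : ℝ)) ?_ ?_ f hθ₁ ?_
    (ga_pack_D4 P T y f hf z₃ z₄ hz hz₃ hz₄) r hr
  · have hi' : i ∈ A.nb (A.nb (A.nb (A.nb (A.cellsV (A.sitesOf cH))))) := by simpa using hi
    obtain ⟨k, hk, hik⟩ := hQ4 i hi'
    refine ga_le_rho dist (Nat.sub_le _ _) fun j hj => ?_
    have h1 := hfar k hk j (P.guard j hj)
    have h2 := hd.tri k i j
    have h3 := hd.symm i k
    have h4 := hd.symm i j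
    omega
  · exact_mod_cast Fintype.card_pos
  · exact_mod_cast Finset.card_le_univ _
  · rw [← potd_gf_eq_gVar one_pos (ga_dict Sc 1) P.okc f]
    exact hV

theorem ga_gadC_nonneg {CP K : ℝ} (hM : 2 ≤ pdM CP K) (CR : ℝ) : 0 ≤ gadC CP K CR := by
  unfold gadC
  positivity

theorem ga_C0_pos {CP K : ℝ} (hM : 2 ≤ pdM CP K) : 0 < gaC0 CP K := by
  unfold gaC0
  positivity

/-- no cell at all -/
theorem ga_moment_empty (P : GaPack A Sc So Sci Soi σ CP K CR cH cD cp R) (hI : IsEmpty I)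
    {F : I → (G.V → ℝ) →ₗ[ℝ] ℝ} (T : GaTest A Sc So Sci Soi F)
    (y : I → ℝ) (f : G.V → ℝ) (hf : pdRowF f = ∑ j, y j • F j)
    (z₃ : Sci.Tm → ℝ) (z₄ : Soi.Tm → ℝ) (hz : ∑ t, z₃ t ^ 2 = ∑ t, z₄ t ^ 2)
    (hz₃ : Sci.termF z₃ = ∑ j, y j • F j) (hz₄ : Soi.termF z₄ = ∑ j, y j • F j) (top : Bool) {θ₁ : ℝ} (hθ₁ : 0 ≤ θ₁) (r : ℕ) (hr : 1 ≤ r) :
    plExT (if top then gaLaw So else gaLaw Sc) 1 Sc.pin f (fun φ => Entry.egPhi θ₁ ((Soi.En z₄ - Sci.En z₃) / 2) r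
        (plcLap (gaLaw Sc) 1 (Sc.pin ∪ A.sitesOf cp) f φ) (plcLap (gaLaw So) 1 (Sc.pin ∪ A.sitesOf cp) f φ)
        (plrPin (gaLaw Sc) 1 (Sc.pin ∪ A.sitesOf cp) (A.sitesOf cH) φ))
      ≤ (2 * θ₁) ^ r := by
  have hV : IsEmpty G.V := ⟨fun x => hI.elim (A.blk x)⟩
  have hsub : ∀ φ : (gaG G).V → ℝ, φ = 0 := fun φ => funext fun x => hV.elim x
  have hc₀ := ga_pack_PD P
  have hc : plPD (gaLaw Sc) (Sc.pin ∪ A.sitesOf cp) := pl_PD_mono _ hc₀ Set.subset_union_left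
  have ho₀ : plPD (gaLaw So) Sc.pin := gad_PD_of_le _ _ one_pos hc₀ (fun v => ga_pack_le (G := G) P v)
  have hgap : ∀ φ : (gaG G).V → ℝ, plGap (gaLaw Sc) 1 (Sc.pin ∪ A.sitesOf cp) (A.sitesOf cH) φ = 0 := fun φ => by
    rw [hsub φ, pl_gap_zero _ one_pos hc]
  have h4 := ga_pack_D4 P T y f hf z₃ z₄ hz hz₃ hz₄
  have hcard : (Fintype.card I : ℝ) = 0 := by
    rw [Fintype.card_eq_zero]; simp
  rw [hcard, zero_mul, zero_mul, zero_div] at h4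
  have key : ∀ Ht : HLaw (gaG G), plPD Ht Sc.pin → plExT Ht 1 Sc.pin f (fun φ => Entry.egPhi θ₁ ((Soi.En z₄ - Sci.En z₃) / 2) r
        (plcLap (gaLaw Sc) 1 (Sc.pin ∪ A.sitesOf cp) f φ) (plcLap (gaLaw So) 1 (Sc.pin ∪ A.sitesOf cp) f φ)
        (plrPin (gaLaw Sc) 1 (Sc.pin ∪ A.sitesOf cp) (A.sitesOf cH) φ)) ≤ (2 * θ₁) ^ r := by
    intro Ht hHt
    have := gam_main (gaLaw Sc) (gaLaw So) Ht one_pos hHt hc (fun v => ga_pack_le (G := G) P v)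
      (A := A.sitesOf cH) (fun v _ => by rw [hsub v]; rw [pl_form_zero, pl_form_zero]) (fun x => hV.elim x) f (Y := 0) (ε₁ := 0) (ε₂ := 0) (ε₄ := 0)
      (θ₂ := (Soi.En z₄ - Sci.En z₃) / 2) (μ := 1) hθ₁ one_pos
      (by rw [hsub f, pl_gVar_zero _ one_pos]) (by simp [hgap]) (hgap _).le h4 r hr
    simpa using this
  cases top
  · exact key _ hc₀
  · exact key _ ho₀

theorem ga_num_small {Kc e5 eR N r2 Y θ₁ : ℝ} (hθ₁ : 0 ≤ θ₁) (h1 : e5 ≤ Kc) (h2 : 1 ≤ e5 * eR) (heR : 0 ≤ eR) (hN : 1 ≤ N) (hr : 1 ≤ r2)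
    (hY : 0 ≤ Y) : 1 ≤ 4 * (θ₁ + Kc * N ^ 2 * r2 * eR * (1 + Y)) := by
  have e3 : 1 ≤ Kc * eR := h2.trans (mul_le_mul_of_nonneg_right h1 heR)
  have e4 : 1 ≤ N ^ 2 * r2 * (1 + Y) := by
    have h3 : 1 ≤ N ^ 2 := by nlinarith
    have h4 : 1 ≤ N ^ 2 * r2 := by nlinarith
    nlinarith
  have e5 : 1 ≤ Kc * N ^ 2 * r2 * eR * (1 + Y) := by
    calc (1 : ℝ) ≤ (Kc * eR) * (N ^ 2 * r2 * (1 + Y)) := by nlinarith
      _ = _ := by ring
  linarith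

theorem ga_num_big {M C e4 e5 eR N r2 s q Y θ₁ : ℝ} (hM : 2 ≤ M) (hC : 0 ≤ C) (he4 : 0 ≤ e4) (he5 : 0 ≤ e5) (heR : 0 ≤ eR) (hN : 1 ≤ N) (hr : 1 ≤ r2)
    (hY : 0 ≤ Y) (hθ₁ : 0 ≤ θ₁) (hs0 : 0 ≤ s) (hs1 : s ≤ 2 * e4 * eR) (hq : q ≤ 7 * M * s) :
    2 * (θ₁ + (N * q * Y) / 2 + C * N * r2 * s * (1 + Y)) ≤ 4 * (θ₁ + ((4 * M + C) * (2 * e4) + e5) * N ^ 2 * r2 * eR * (1 + Y)) := by
  have hN2 : N ≤ N ^ 2 := by nlinarith
  have hN0 : 0 ≤ N := by linarith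
  have hr0 : 0 ≤ r2 := by linarith
  have t1 : (N * q * Y) / 2 ≤ 4 * M * (N * r2 * s * (1 + Y)) := by
    have a1 : N * q * Y ≤ N * (7 * M * s) * Y := by gcongr
    have b1 : 0 ≤ N * s := by positivity
    have b2 : N * s ≤ N * s * r2 := le_mul_of_one_le_right b1 hr
    have a2 : N * s * Y ≤ N * r2 * s * (1 + Y) := by
      nlinarith [mul_nonneg b1 hY, mul_nonneg (mul_nonneg b1 hr0) hY]
    have a3 : 0 ≤ N * s * Y := by positivity
    nlinarith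
  have t2 : N * r2 * s * (1 + Y) ≤ N ^ 2 * r2 * (2 * e4 * eR) * (1 + Y) := by gcongr
  have c2 : (4 * M + C) * (N * r2 * s * (1 + Y)) ≤ (4 * M + C) * (N ^ 2 * r2 * (2 * e4 * eR) * (1 + Y)) :=
    mul_le_mul_of_nonneg_left t2 (by positivity)
  have c3 : 0 ≤ e5 * (N ^ 2 * r2 * eR * (1 + Y)) := by positivity
  have c4 : 0 ≤ (4 * M + C) * (N ^ 2 * r2 * (2 * e4 * eR) * (1 + Y)) := by positivity
  have e : ((4 * M + C) * (2 * e4) + e5) * N ^ 2 * r2 * eR * (1 + Y)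
      = (4 * M + C) * (N ^ 2 * r2 * (2 * e4 * eR) * (1 + Y)) + e5 * (N ^ 2 * r2 * eR * (1 + Y)) := by ring
  have e' : C * N * r2 * s * (1 + Y) + 4 * M * (N * r2 * s * (1 + Y)) = (4 * M + C) * (N * r2 * s * (1 + Y)) := by ring
  rw [e]
  linarith

/-- small `R` -/
theorem ga_moment_le_one (P : GaPack A Sc So Sci Soi σ CP K CR cH cD cp R) (f : G.V → ℝ) (θ₂ : ℝ) (top : Bool) {θ₁ : ℝ} (hθ₁ : 0 ≤ θ₁) (r : ℕ) :
    plExT (if top then gaLaw So else gaLaw Sc) 1 Sc.pin f (fun φ => Entry.egPhi θ₁ θ₂ r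
        (plcLap (gaLaw Sc) 1 (Sc.pin ∪ A.sitesOf cp) f φ) (plcLap (gaLaw So) 1 (Sc.pin ∪ A.sitesOf cp) f φ)
        (plrPin (gaLaw Sc) 1 (Sc.pin ∪ A.sitesOf cp) (A.sitesOf cH) φ)) ≤ 1 := by
  have hc₀ := ga_pack_PD P
  have ho₀ : plPD (gaLaw So) Sc.pin := gad_PD_of_le _ _ one_pos hc₀ (fun v => ga_pack_le (G := G) P v)
  cases top
  · exact ga_ExT_le_one (G := gaG G) (gaLaw Sc) one_pos hc₀ f _ (fun φ => ga_phi_nonneg hθ₁ _ _ _ _ _) (fun φ => ga_phi_le_one hθ₁ _ _ _ _ _)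
  · exact ga_ExT_le_one (G := gaG G) (gaLaw So) one_pos ho₀ f _ (fun φ => ga_phi_nonneg hθ₁ _ _ _ _ _) (fun φ => ga_phi_le_one hθ₁ _ _ _ _ _)

/-- **GA, the moment estimate in abstract form**: (G) + (D1) + (D2) + (D4) + the numerics, all `R`. -/
theorem ga_moment_abs (P : GaPack A Sc So Sci Soi σ CP K CR cH cD cp R)
    {F : I → (G.V → ℝ) →ₗ[ℝ] ℝ} (T : GaTest A Sc So Sci Soi F)
    (y : I → ℝ) (f : G.V → ℝ) (hf : pdRowF f = ∑ j, y j • F j) (hV : Sc.gf (pdRowF f) (pdRowF f) ≤ ∑ j, y j ^ 2)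
    (z₃ : Sci.Tm → ℝ) (z₄ : Soi.Tm → ℝ) (hz : ∑ t, z₃ t ^ 2 = ∑ t, z₄ t ^ 2)
    (hz₃ : Sci.termF z₃ = ∑ j, y j • F j) (hz₄ : Soi.termF z₄ = ∑ j, y j • F j) (top : Bool) {θ₁ : ℝ} (hθ₁ : 0 ≤ θ₁) (r : ℕ) (hr : 1 ≤ r) :
    plExT (if top then gaLaw So else gaLaw Sc) 1 Sc.pin f (fun φ => Entry.egPhi θ₁ ((Soi.En z₄ - Sci.En z₃) / 2) r
        (plcLap (gaLaw Sc) 1 (Sc.pin ∪ A.sitesOf cp) f φ) (plcLap (gaLaw So) 1 (Sc.pin ∪ A.sitesOf cp) f φ)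
        (plrPin (gaLaw Sc) 1 (Sc.pin ∪ A.sitesOf cp) (A.sitesOf cH) φ))
      ≤ (4 * (θ₁ + gaK CP K CR * (Fintype.card I : ℝ) ^ 2 * (r : ℝ) ^ 2 * Real.exp (-gaC0 CP K * R) * (1 + ∑ j, y j ^ 2))) ^ r := by
  have hM : 2 ≤ pdM CP K := pd_pdM_two_le P.okc
  have hC := ga_gadC_nonneg hM CR
  have hc0 := ga_C0_pos hM
  have hY : 0 ≤ ∑ j, y j ^ 2 := Finset.sum_nonneg fun j _ => sq_nonneg _
  have hK0 : 0 ≤ gaK CP K CR := by unfold gaK; positivity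
  have hr1 : (1 : ℝ) ≤ (r : ℝ) ^ 2 := by
    have : (1 : ℝ) ≤ r := by exact_mod_cast hr
    nlinarith
  rcases isEmpty_or_nonempty I with hI | hI
  · refine (ga_moment_empty P hI T y f hf z₃ z₄ hz hz₃ hz₄ top hθ₁ r hr).trans ?_
    refine pow_le_pow_left₀ (by positivity) ?_ r
    have : 0 ≤ gaK CP K CR * (Fintype.card I : ℝ) ^ 2 * (r : ℝ) ^ 2 * Real.exp (-gaC0 CP K * R) * (1 + ∑ j, y j ^ 2) := by positivity
    linarith
  have hN : (1 : ℝ) ≤ (Fintype.card I : ℝ) := by exact_mod_cast Fintype.card_pos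
  rcases Nat.lt_or_ge R 5 with hR | hR
  · refine (ga_moment_le_one P f _ top hθ₁ r).trans (one_le_pow₀ ?_)
    refine ga_num_small (e5 := Real.exp (5 * gaC0 CP K)) hθ₁ ?_ ?_ (Real.exp_pos _).le hN hr1 hY
    · unfold gaK
      have : 0 ≤ (4 * pdM CP K + gadC CP K CR) * (2 * Real.exp (4 * gaC0 CP K)) := by positivity
      linarith
    · rw [← Real.exp_add]
      refine Real.one_le_exp ?_
      have : (R : ℝ) ≤ 5 := by exact_mod_cast hR.le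
      nlinarith
  · refine (ga_moment_big P hR hI T y f hf hV z₃ z₄ hz hz₃ hz₄ top hθ₁ r hr).trans ?_
    have hs0 : 0 ≤ Real.sqrt (pdE CP K (R - 4)) := Real.sqrt_nonneg _
    have hs2 : Real.sqrt (48 * pdM CP K ^ 2 * pdE CP K (R - 4)) ≤ 7 * pdM CP K * Real.sqrt (pdE CP K (R - 4)) := by
      refine Real.sqrt_le_iff.2 ⟨by positivity, ?_⟩
      have h1 : Real.sqrt (pdE CP K (R - 4)) ^ 2 = pdE CP K (R - 4) := Real.sq_sqrt (pdE_nonneg _ _ _)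
      rw [mul_pow, mul_pow, h1]
      have h2 := pdE_nonneg CP K (R - 4)
      nlinarith [mul_nonneg (sq_nonneg (pdM CP K)) h2]
    refine pow_le_pow_left₀ (by positivity) ?_ r
    exact ga_num_big hM hC (Real.exp_pos _).le (Real.exp_pos (5 * gaC0 CP K)).le (Real.exp_pos _).le hN hr1 hY hθ₁ hs0
      (ga_sqrt_pdE_le hM (by omega)) hs2

end asm

end

end Claimed.Agent.R285.Pot
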