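import Mathlib

/-!
# ROW 285, POT-REGOPT (architect helper170): basic tools.   Mathlib only, no sorry.

* `ro_hardy`        : discrete Hardy inequality `∑_{k=1}^n (v_k/k)² ≤ 4 ∑ (v_k - v_{k-1})²`, `v_0 = 0`.
* `ro_path_sq_le`   : telescoping + Cauchy-Schwarz on an integer interval.
* `ro_var_eq_pairs` : `∑ (v - mean)² = (2N)⁻¹ ∑∑ (v p - v p')²`;  `ro_var_le` : the mean minimises.
* `ro_poincare_box` : Poincare inequality on `[x,x+w) × [y,y+h)` with constants `w²`, `h²`.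
* `ro_osc_le`       : a function on a connected finite index graph with increments `≤ δ` has oscillation `≤ (N-1) δ`.
* `ro_glue`         : gluing of Poincare inequalities along overlaps.
* `roStep a w`      : mollified indicator of `[a,∞)` (`ro_step_mem, _eq_zero, _eq_one, _mono, _diff_abs, _diff2_abs`).
* `roBump a b q`    : plateau bump (`ro_bump_mem, _eq_one, _eq_zero_left/right, _diff_abs, _diff_ne, _diff2_abs, _add`).
-/

set_option autoImplicit false

namespace Claimed.Agent.R285.Pot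

open Finset

noncomputable section

/-! ## Hardy -/

theorem ro_hardy_aux (v : ℕ → ℝ) (h0 : v 0 = 0) (n : ℕ) :
    ∑ k ∈ range n, ((v (k + 1) / ((k : ℝ) + 1)) ^ 2 - 2 * (v (k + 1) / ((k : ℝ) + 1)) * (v (k + 1) - v k))
      ≤ -(n : ℝ) * (v n / n) ^ 2 := by
  induction n with
  | zero => simp
  | succ n ih =>
    rw [sum_range_succ]
    have hn : (0 : ℝ) ≤ n := Nat.cast_nonneg n
    have h1 : v (n + 1) = ((n : ℝ) + 1) * (v (n + 1) / ((n : ℝ) + 1)) := by
      field_simp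
    have h2 : v n = (n : ℝ) * (v n / n) := by
      rcases Nat.eq_zero_or_pos n with h | h
      · subst h; simp [h0]
      · have : (n : ℝ) ≠ 0 := by positivity
        field_simp
    set A := v n / n with hA
    set B := v (n + 1) / ((n : ℝ) + 1) with hB
    have h3 : B ^ 2 - 2 * B * (v (n + 1) - v n) = -((n : ℝ) + 1) * B ^ 2 + n * A ^ 2 - n * (A - B) ^ 2 := by
      rw [h1, h2]; ring
    have h4 : 0 ≤ (n : ℝ) * (A - B) ^ 2 := by positivity
    push_cast
    linarith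

/-- **discrete Hardy inequality** -/
theorem ro_hardy (v : ℕ → ℝ) (h0 : v 0 = 0) (n : ℕ) :
    ∑ k ∈ range n, (v (k + 1) / ((k : ℝ) + 1)) ^ 2 ≤ 4 * ∑ k ∈ range n, (v (k + 1) - v k) ^ 2 := by
  have h1 := ro_hardy_aux v h0 n
  have h2 : -(n : ℝ) * (v n / n) ^ 2 ≤ 0 := by
    have : 0 ≤ (n : ℝ) * (v n / n) ^ 2 := by positivity
    linarith
  rw [sum_sub_distrib] at h1
  have h3 : ∑ k ∈ range n, 2 * (v (k + 1) / ((k : ℝ) + 1)) * (v (k + 1) - v k)
      ≤ ∑ k ∈ range n, ((v (k + 1) / ((k : ℝ) + 1)) ^ 2 / 2 + 2 * (v (k + 1) - v k) ^ 2) := by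
    refine sum_le_sum fun k _ => ?_
    nlinarith [sq_nonneg (v (k + 1) / ((k : ℝ) + 1) - 2 * (v (k + 1) - v k))]
  rw [sum_add_distrib, ← sum_div, ← mul_sum] at h3
  linarith

/-! ## one dimensional paths -/

theorem ro_sum_Ico_int (F : ℤ → ℝ) (a : ℤ) (n : ℕ) : ∑ t ∈ Ico a (a + n), F t = ∑ i ∈ range n, F (a + i) := by
  refine (sum_bij (fun (i : ℕ) _ => a + (i : ℤ)) ?_ ?_ ?_ ?_).symm
  · intro i hi
    have := mem_range.1 hi
    simp only [mem_Ico]
    omega
  · intro i _ j _ h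
    omega
  · intro t ht
    have := mem_Ico.1 ht
    refine ⟨(t - a).toNat, ?_, ?_⟩
    · rw [mem_range]; omega
    · omega
  · intro i _
    rfl

theorem ro_telescope (f : ℤ → ℝ) (a : ℤ) (n : ℕ) : f (a + n) - f a = ∑ t ∈ Ico a (a + n), (f (t + 1) - f t) := by
  rw [ro_sum_Ico_int]
  induction n with
  | zero => simp
  | succ n ih =>
    rw [sum_range_succ, ← ih]
    push_cast
    rw [add_assoc]
    ring

/-- telescoping + Cauchy-Schwarz -/
theorem ro_path_sq_le (f : ℤ → ℝ) {a b : ℤ} (hab : a ≤ b) :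
    (f b - f a) ^ 2 ≤ ((b - a : ℤ) : ℝ) * ∑ t ∈ Ico a b, (f (t + 1) - f t) ^ 2 := by
  obtain ⟨n, rfl⟩ : ∃ n : ℕ, b = a + n := ⟨(b - a).toNat, by omega⟩
  rw [ro_telescope]
  have h := sq_sum_le_card_mul_sum_sq (s := Ico a (a + n)) (f := fun t => f (t + 1) - f t)
  have hc : ((Ico a (a + n)).card : ℝ) = ((a + n - a : ℤ) : ℝ) := by
    rw [Int.card_Ico]
    have : (a + n - a).toNat = n := by omega
    rw [this]
    push_cast
    ring
  rw [hc] at h
  exact h

/-- two sites of an interval of `w` sites -/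
theorem ro_interval_sq_le (f : ℤ → ℝ) (x : ℤ) (w : ℕ) {i i' : ℤ} (hi : i ∈ Ico x (x + w)) (hi' : i' ∈ Ico x (x + w)) :
    (f i - f i') ^ 2 ≤ (w : ℝ) * ∑ t ∈ Ico x (x + w - 1), (f (t + 1) - f t) ^ 2 := by
  have key : ∀ {a b : ℤ}, a ∈ Ico x (x + w) → b ∈ Ico x (x + w) → a ≤ b →
      (f b - f a) ^ 2 ≤ (w : ℝ) * ∑ t ∈ Ico x (x + w - 1), (f (t + 1) - f t) ^ 2 := by
    intro a b ha hb hab
    have ha' := mem_Ico.1 ha
    have hb' := mem_Ico.1 hb
    refine (ro_path_sq_le f hab).trans ?_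
    have h1 : ((b - a : ℤ) : ℝ) ≤ (w : ℝ) := by
      have : b - a ≤ (w : ℤ) := by omega
      exact_mod_cast this
    have h2 : ∑ t ∈ Ico a b, (f (t + 1) - f t) ^ 2 ≤ ∑ t ∈ Ico x (x + w - 1), (f (t + 1) - f t) ^ 2 := by
      refine sum_le_sum_of_subset_of_nonneg ?_ fun _ _ _ => sq_nonneg _
      intro t ht
      have := mem_Ico.1 ht
      rw [mem_Ico]
      omega
    have h3 : (0 : ℝ) ≤ ((b - a : ℤ) : ℝ) := by
      have : (0 : ℤ) ≤ b - a := by omega
      exact_mod_cast this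
    exact mul_le_mul h1 h2 (sum_nonneg fun _ _ => sq_nonneg _) (Nat.cast_nonneg w)
  rcases le_total i i' with h | h
  · have := key hi hi' h
    rwa [← neg_sub, neg_sq] at this
  · exact key hi' hi h

/-! ## variance -/

theorem ro_pairs_expand {α : Type} (s : Finset α) (v : α → ℝ) :
    ∑ p ∈ s, ∑ p' ∈ s, (v p - v p') ^ 2 = 2 * (s.card : ℝ) * ∑ p ∈ s, v p ^ 2 - 2 * (∑ p ∈ s, v p) ^ 2 := by
  have h1 : ∀ p ∈ s, ∑ p' ∈ s, (v p - v p') ^ 2 = (s.card : ℝ) * v p ^ 2 - 2 * v p * (∑ p' ∈ s, v p') + ∑ p' ∈ s, v p' ^ 2 := by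
    intro p _
    have : ∀ p' ∈ s, (v p - v p') ^ 2 = v p ^ 2 - 2 * v p * v p' + v p' ^ 2 := fun p' _ => by ring
    rw [sum_congr rfl this, sum_add_distrib, sum_sub_distrib, sum_const, ← mul_sum, nsmul_eq_mul]
  rw [sum_congr rfl h1, sum_add_distrib, sum_sub_distrib, ← mul_sum, sum_const, nsmul_eq_mul, ← sum_mul, ← mul_sum]
  ring

theorem ro_sq_dev_expand {α : Type} (s : Finset α) (v : α → ℝ) (c : ℝ) :
    ∑ p ∈ s, (v p - c) ^ 2 = ∑ p ∈ s, v p ^ 2 - 2 * c * ∑ p ∈ s, v p + (s.card : ℝ) * c ^ 2 := by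
  have : ∀ p ∈ s, (v p - c) ^ 2 = v p ^ 2 - 2 * c * v p + c ^ 2 := fun p _ => by ring
  rw [sum_congr rfl this, sum_add_distrib, sum_sub_distrib, sum_const, ← mul_sum, nsmul_eq_mul]

/-- the variance as a double sum -/
theorem ro_var_eq_pairs {α : Type} (s : Finset α) (v : α → ℝ) :
    2 * (s.card : ℝ) * ∑ p ∈ s, (v p - (∑ p ∈ s, v p) / s.card) ^ 2 = ∑ p ∈ s, ∑ p' ∈ s, (v p - v p') ^ 2 := by
  rw [ro_pairs_expand, ro_sq_dev_expand]
  rcases s.eq_empty_or_nonempty with h | h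
  · subst h; simp
  · have : (s.card : ℝ) ≠ 0 := by
      have := h.card_pos
      positivity
    field_simp
    ring

/-- the mean minimises the sum of squares -/
theorem ro_var_le {α : Type} (s : Finset α) (v : α → ℝ) (c : ℝ) :
    ∑ p ∈ s, (v p - (∑ p ∈ s, v p) / s.card) ^ 2 ≤ ∑ p ∈ s, (v p - c) ^ 2 := by
  rw [ro_sq_dev_expand, ro_sq_dev_expand]
  rcases s.eq_empty_or_nonempty with h | h
  · subst h; simp
  · have hc : (0 : ℝ) < s.card := by
      have := h.card_pos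
      positivity
    set N : ℝ := (s.card : ℝ)
    set T : ℝ := ∑ p ∈ s, v p
    have h1 : -(2 * (T / N) * T) + N * (T / N) ^ 2 = -(T ^ 2 / N) := by
      field_simp
      ring
    have h2 : -(T ^ 2 / N) ≤ -(2 * c * T) + N * c ^ 2 := by
      have : 0 ≤ (T - N * c) ^ 2 / N := by positivity
      have e : (T - N * c) ^ 2 / N = T ^ 2 / N - 2 * c * T + N * c ^ 2 := by
        field_simp
        ring
      linarith
    linarith

/-! ## Poincare on a box -/

/-- **Poincare inequality on the box** `[x, x+w) × [y, y+h)` -/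
theorem ro_poincare_box (x y : ℤ) (w h : ℕ) (v : ℤ × ℤ → ℝ) :
    ∑ p ∈ Ico x (x + w) ×ˢ Ico y (y + h), (v p - (∑ p ∈ Ico x (x + w) ×ˢ Ico y (y + h), v p) / ((w : ℝ) * h)) ^ 2
      ≤ (w : ℝ) ^ 2 * ∑ p ∈ Ico x (x + w - 1) ×ˢ Ico y (y + h), (v (p.1 + 1, p.2) - v p) ^ 2
        + (h : ℝ) ^ 2 * ∑ p ∈ Ico x (x + w) ×ˢ Ico y (y + h - 1), (v (p.1, p.2 + 1) - v p) ^ 2 := by
  set s := Ico x (x + w) ×ˢ Ico y (y + h) with hs
  set EH := ∑ p ∈ Ico x (x + w - 1) ×ˢ Ico y (y + h), (v (p.1 + 1, p.2) - v p) ^ 2 with hEH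
  set EV := ∑ p ∈ Ico x (x + w) ×ˢ Ico y (y + h - 1), (v (p.1, p.2 + 1) - v p) ^ 2 with hEV
  have hEH0 : 0 ≤ EH := sum_nonneg fun _ _ => sq_nonneg _
  have hEV0 : 0 ≤ EV := sum_nonneg fun _ _ => sq_nonneg _
  have hcw : (Ico x (x + w)).card = w := by rw [Int.card_Ico]; omega
  have hch : (Ico y (y + h)).card = h := by rw [Int.card_Ico]; omega
  have hcard : (s.card : ℝ) = (w : ℝ) * h := by
    rw [hs, card_product, hcw, hch]; push_cast; ring
  rw [← hcard]
  rcases s.eq_empty_or_nonempty with h0 | h0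
  · rw [h0]; simp only [sum_empty]; positivity
  have hN : (0 : ℝ) < s.card := by
    have := h0.card_pos
    positivity
  have hpair := ro_var_eq_pairs s v
  -- the rows and the columns
  set row : ℤ → ℝ := fun j => ∑ t ∈ Ico x (x + w - 1), (v (t + 1, j) - v (t, j)) ^ 2 with hrow
  set col : ℤ → ℝ := fun i => ∑ t ∈ Ico y (y + h - 1), (v (i, t + 1) - v (i, t)) ^ 2 with hcol
  have hEH' : EH = ∑ j ∈ Ico y (y + h), row j := by
    rw [hEH, sum_product_right]
  have hEV' : EV = ∑ i ∈ Ico x (x + w), col i := by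
    rw [hEV, sum_product]
  have hb : ∀ p ∈ s, ∀ p' ∈ s, (v p - v p') ^ 2 ≤ 2 * ((w : ℝ) * row p.2) + 2 * ((h : ℝ) * col p'.1) := by
    intro p hp p' hp'
    have hp1 := (mem_product.1 hp)
    have hp2 := (mem_product.1 hp')
    have h1 := ro_interval_sq_le (fun t => v (t, p.2)) x w hp1.1 hp2.1
    have h2 := ro_interval_sq_le (fun t => v (p'.1, t)) y h hp1.2 hp2.2
    have e : v p - v p' = (v (p.1, p.2) - v (p'.1, p.2)) + (v (p'.1, p.2) - v (p'.1, p'.2)) := by
      simp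
    rw [e]
    have h3 : ∀ a b : ℝ, (a + b) ^ 2 ≤ 2 * a ^ 2 + 2 * b ^ 2 := fun a b => by nlinarith [sq_nonneg (a - b)]
    refine (h3 _ _).trans ?_
    simp only [hrow, hcol]
    linarith
  have hsum : ∑ p ∈ s, ∑ p' ∈ s, (v p - v p') ^ 2 ≤
      ∑ p ∈ s, ∑ p' ∈ s, (2 * ((w : ℝ) * row p.2) + 2 * ((h : ℝ) * col p'.1)) :=
    sum_le_sum fun p hp => sum_le_sum fun p' hp' => hb p hp p' hp'
  have hR : ∑ p ∈ s, row p.2 = (w : ℝ) * EH := by
    rw [hs, sum_product, hEH']
    simp only [sum_const, hcw, nsmul_eq_mul]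
  have hC : ∑ p ∈ s, col p.1 = (h : ℝ) * EV := by
    rw [hs, sum_product_right, hEV']
    simp only [sum_const, hch, nsmul_eq_mul]
  have hval : ∑ p ∈ s, ∑ p' ∈ s, (2 * ((w : ℝ) * row p.2) + 2 * ((h : ℝ) * col p'.1))
      = 2 * (s.card : ℝ) * ((w : ℝ) ^ 2 * EH + (h : ℝ) ^ 2 * EV) := by
    have : ∀ p ∈ s, ∑ p' ∈ s, (2 * ((w : ℝ) * row p.2) + 2 * ((h : ℝ) * col p'.1))
        = (s.card : ℝ) * (2 * ((w : ℝ) * row p.2)) + 2 * ((h : ℝ) * ((h : ℝ) * EV)) := by
      intro p _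
      rw [sum_add_distrib, sum_const, nsmul_eq_mul, ← mul_sum, ← mul_sum, hC]
    rw [sum_congr rfl this, sum_add_distrib, sum_const, nsmul_eq_mul, ← mul_sum, ← mul_sum, ← mul_sum, hR]
    ring
  rw [← hpair, hval] at hsum
  exact le_of_mul_le_mul_left hsum (by positivity)

/-! ## gluing -/

/-- a function on a connected finite index graph with increments `≤ δ` has oscillation `≤ (N - 1) δ` -/
theorem ro_osc_le {ι : Type} [Fintype ι] (adj : ι → ι → Prop) (hconn : ∀ i j, Relation.ReflTransGen adj i j)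
    (m : ι → ℝ) (δ : ℝ) (hδ : 0 ≤ δ) (hadj : ∀ i j, adj i j → |m i - m j| ≤ δ) (i j : ι) :
    |m i - m j| ≤ ((Fintype.card ι : ℝ) - 1) * δ := by
  classical
  -- the sets `A r = {k : |m i - m k| ≤ r δ}`
  have grow : ∀ r : ℕ, min (r + 1) (Fintype.card ι) ≤ (univ.filter fun k => |m i - m k| ≤ (r : ℝ) * δ).card := by
    intro r
    induction r with
    | zero =>
      have : i ∈ univ.filter fun k => |m i - m k| ≤ ((0 : ℕ) : ℝ) * δ := by simp
      have h1 := card_pos.2 ⟨i, this⟩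
      omega
    | succ r ih =>
      set A := univ.filter fun k => |m i - m k| ≤ (r : ℝ) * δ with hA
      set A' := univ.filter fun k => |m i - m k| ≤ ((r + 1 : ℕ) : ℝ) * δ with hA'
      have hsub : A ⊆ A' := by
        intro k hk
        rw [hA, mem_filter] at hk
        rw [hA', mem_filter]
        refine ⟨mem_univ _, hk.2.trans ?_⟩
        push_cast
        nlinarith
      by_cases hall : A = univ
      · have : A' = univ := by
          apply eq_univ_of_forall
          intro k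
          exact hsub (hall ▸ mem_univ k)
        rw [this, card_univ]
        omega
      · -- an exit bond
        obtain ⟨k, hk⟩ : ∃ k, k ∉ A := by
          by_contra hcon
          push Not at hcon
          exact hall (eq_univ_of_forall hcon)
        have hiA : i ∈ A := by
          rw [hA, mem_filter]
          refine ⟨mem_univ _, ?_⟩
          simp only [sub_self, abs_zero]
          positivity
        have hexit : ∃ a b, a ∈ A ∧ b ∉ A ∧ adj a b := by
          by_contra hcon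
          push Not at hcon
          have : ∀ b, Relation.ReflTransGen adj i b → b ∈ A := by
            intro b hb
            induction hb with
            | refl => exact hiA
            | tail _ hab ih =>
              by_contra hb'
              exact hcon _ _ ih hb' hab
          exact hk (this k (hconn i k))
        obtain ⟨a, b, ha, hb, hab⟩ := hexit
        have hbA' : b ∈ A' := by
          rw [hA', mem_filter]
          refine ⟨mem_univ _, ?_⟩
          rw [hA, mem_filter] at ha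
          have h1 := hadj a b hab
          have h2 : |m i - m b| ≤ |m i - m a| + |m a - m b| := by
            have : m i - m b = (m i - m a) + (m a - m b) := by ring
            rw [this]
            exact abs_add_le _ _
          push_cast
          linarith [ha.2]
        have hss : A ⊂ A' := by
          refine ⟨hsub, fun hcon => hb (hcon hbA')⟩
        have := card_lt_card hss
        omega
  have hpos : 0 < Fintype.card ι := Fintype.card_pos_iff.2 ⟨i⟩
  have h1 := grow (Fintype.card ι - 1)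
  have h2 : min (Fintype.card ι - 1 + 1) (Fintype.card ι) = Fintype.card ι := by omega
  rw [h2] at h1
  have h3 : (univ.filter fun k => |m i - m k| ≤ ((Fintype.card ι - 1 : ℕ) : ℝ) * δ) = univ := by
    apply eq_univ_of_card
    exact le_antisymm (card_le_univ _) h1
  have h4 : j ∈ univ.filter fun k => |m i - m k| ≤ ((Fintype.card ι - 1 : ℕ) : ℝ) * δ := by
    rw [h3]; exact mem_univ j
  have h5 := (mem_filter.1 h4).2
  rwa [Nat.cast_sub hpos, Nat.cast_one] at h5

theorem ro_sum_biUnion_le {V ι : Type} [DecidableEq V] (s : Finset ι) (S : ι → Finset V) (F : V → ℝ) (hF : ∀ x, 0 ≤ F x) :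
    ∑ x ∈ s.biUnion S, F x ≤ ∑ i ∈ s, ∑ x ∈ S i, F x := by
  classical
  induction s using Finset.induction_on with
  | empty => simp
  | insert a s ha ih =>
    rw [biUnion_insert, sum_insert ha]
    have h1 := sum_union_inter (s₁ := S a) (s₂ := s.biUnion S) (f := F)
    have h2 : 0 ≤ ∑ x ∈ S a ∩ s.biUnion S, F x := sum_nonneg fun x _ => hF x
    linarith

/-- two constants which are both close to `v` on a common set are close -/
theorem ro_overlap {V : Type} (T : Finset V) (v : V → ℝ) (a b : ℝ) :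
    (T.card : ℝ) * (a - b) ^ 2 ≤ 2 * ∑ x ∈ T, (v x - a) ^ 2 + 2 * ∑ x ∈ T, (v x - b) ^ 2 := by
  rw [mul_sum, mul_sum, ← sum_add_distrib, ← nsmul_eq_mul, ← sum_const]
  refine sum_le_sum fun x _ => ?_
  nlinarith [sq_nonneg ((v x - a) + (v x - b))]

/-- **gluing of Poincare inequalities**: `v` is within `Q` (in `ℓ²`) of the constant `m i` on `S i`, the sets have at most `M s` points, adjacent sets share at least `s` points, the index graph is connected. -/
theorem ro_glue {V ι : Type} [Fintype ι] [DecidableEq V] (S : ι → Finset V) (v : V → ℝ) (m : ι → ℝ) (Q s M : ℝ) (hs : 0 < s)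
    (hQ : ∀ i, ∑ x ∈ S i, (v x - m i) ^ 2 ≤ Q) (hM : ∀ i, ((S i).card : ℝ) ≤ M * s)
    (adj : ι → ι → Prop) (hadj : ∀ i j, adj i j → s ≤ ((S i ∩ S j).card : ℝ))
    (hconn : ∀ i j, Relation.ReflTransGen adj i j) (i0 : ι) :
    ∑ x ∈ univ.biUnion S, (v x - m i0) ^ 2 ≤ (Fintype.card ι : ℝ) * (2 + 8 * (Fintype.card ι : ℝ) ^ 2 * M) * Q := by
  have hQ0 : 0 ≤ Q := (sum_nonneg fun _ _ => sq_nonneg _).trans (hQ i0)
  set N : ℝ := (Fintype.card ι : ℝ) with hN
  have hN1 : 1 ≤ N := by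
    have : 0 < Fintype.card ι := Fintype.card_pos_iff.2 ⟨i0⟩
    rw [hN]
    exact_mod_cast this
  set δ : ℝ := Real.sqrt (4 * Q / s) with hδ
  have hδ0 : 0 ≤ δ := Real.sqrt_nonneg _
  have hδ2 : δ ^ 2 = 4 * Q / s := Real.sq_sqrt (by positivity)
  have hstep : ∀ i j, adj i j → |m i - m j| ≤ δ := by
    intro i j hij
    apply Real.abs_le_sqrt
    have h1 := ro_overlap (S i ∩ S j) v (m i) (m j)
    have h2 : ∑ x ∈ S i ∩ S j, (v x - m i) ^ 2 ≤ Q :=
      (sum_le_sum_of_subset_of_nonneg inter_subset_left fun _ _ _ => sq_nonneg _).trans (hQ i)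
    have h3 : ∑ x ∈ S i ∩ S j, (v x - m j) ^ 2 ≤ Q :=
      (sum_le_sum_of_subset_of_nonneg inter_subset_right fun _ _ _ => sq_nonneg _).trans (hQ j)
    have h4 : s * (m i - m j) ^ 2 ≤ 4 * Q :=
      (mul_le_mul_of_nonneg_right (hadj i j hij) (sq_nonneg _)).trans (by linarith)
    rw [le_div_iff₀ hs]
    linarith
  have hosc : ∀ i, (m i - m i0) ^ 2 ≤ N ^ 2 * (4 * Q / s) := by
    intro i
    have h1 := ro_osc_le adj hconn m δ hδ0 hstep i i0
    have h2 : |m i - m i0| ≤ N * δ := h1.trans (by nlinarith)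
    rw [← hδ2, ← mul_pow, ← sq_abs]
    exact pow_le_pow_left₀ (abs_nonneg _) h2 2
  have hM0 : 0 ≤ M := by
    have h1 := hM i0
    have h2 : (0 : ℝ) ≤ ((S i0).card : ℝ) := Nat.cast_nonneg _
    by_contra hcon
    push Not at hcon
    nlinarith
  have hone : ∀ i, ∑ x ∈ S i, (v x - m i0) ^ 2 ≤ (2 + 8 * N ^ 2 * M) * Q := by
    intro i
    have h1 : ∑ x ∈ S i, (v x - m i0) ^ 2 ≤ ∑ x ∈ S i, (2 * (v x - m i) ^ 2 + 2 * (m i - m i0) ^ 2) := by
      refine sum_le_sum fun x _ => ?_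
      nlinarith [sq_nonneg ((v x - m i) - (m i - m i0))]
    rw [sum_add_distrib, ← mul_sum, sum_const, nsmul_eq_mul] at h1
    have h2 : ((S i).card : ℝ) * (2 * (m i - m i0) ^ 2) ≤ (M * s) * (2 * (N ^ 2 * (4 * Q / s))) := by
      refine mul_le_mul (hM i) (by linarith [hosc i]) (by positivity) (by positivity)
    have h3 : (M * s) * (2 * (N ^ 2 * (4 * Q / s))) = 8 * N ^ 2 * M * Q := by
      field_simp
      ring
    have := hQ i
    linarith
  calc ∑ x ∈ univ.biUnion S, (v x - m i0) ^ 2 ≤ ∑ i, ∑ x ∈ S i, (v x - m i0) ^ 2 :=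
        ro_sum_biUnion_le _ _ _ fun _ => sq_nonneg _
    _ ≤ ∑ _i : ι, (2 + 8 * N ^ 2 * M) * Q := sum_le_sum fun i _ => hone i
    _ = N * (2 + 8 * N ^ 2 * M) * Q := by
        rw [sum_const, card_univ, nsmul_eq_mul]
        ring

/-! ## mollified indicators on `ℤ`

`roAvg w g x = w⁻¹ ∑_{i < w} g (x - i)` (box average), `roStep a w = roAvg w (roAvg w 1_{[a,∞)})`:
`0` for `x < a`, `1` for `x ≥ a + 2 w - 2`, nondecreasing, increments in `[0, 1/w]`, second differences in `[-1/w², 1/w²]`.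
Differences of steps are bumps; consecutive bumps telescope to a partition of unity. -/

/-- box average over the `w` sites `x, x-1, …, x-w+1` -/
def roAvg (w : ℕ) (g : ℤ → ℝ) (x : ℤ) : ℝ := (∑ i ∈ range w, g (x - i)) / w

theorem ro_avg_sum_diff (w : ℕ) (g : ℤ → ℝ) (x : ℤ) :
    ∑ i ∈ range w, g (x + 1 - i) - ∑ i ∈ range w, g (x - i) = g (x + 1) - g (x + 1 - w) := by
  induction w with
  | zero => simp
  | succ w ih =>
    rw [sum_range_succ, sum_range_succ]
    have e : x + 1 - ((w + 1 : ℕ) : ℤ) = x - w := by push_cast; ring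
    rw [e]
    linarith

theorem ro_avg_diff (w : ℕ) (g : ℤ → ℝ) (x : ℤ) :
    roAvg w g (x + 1) - roAvg w g x = (g (x + 1) - g (x + 1 - w)) / w := by
  unfold roAvg
  rw [← sub_div, ro_avg_sum_diff]

theorem ro_avg_mem {w : ℕ} (hw : 0 < w) {g : ℤ → ℝ} {lo hi : ℝ} (x : ℤ) (h : ∀ i : ℕ, i < w → lo ≤ g (x - i) ∧ g (x - i) ≤ hi) :
    lo ≤ roAvg w g x ∧ roAvg w g x ≤ hi := by
  have hw' : (0 : ℝ) < w := by exact_mod_cast hw
  unfold roAvg
  constructor
  · rw [le_div_iff₀ hw']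
    have : ∑ _i ∈ range w, lo ≤ ∑ i ∈ range w, g (x - i) := sum_le_sum fun i hi => (h i (mem_range.1 hi)).1
    rw [sum_const, card_range, nsmul_eq_mul] at this
    linarith
  · rw [div_le_iff₀ hw']
    have : ∑ i ∈ range w, g (x - i) ≤ ∑ _i ∈ range w, hi := sum_le_sum fun i hi => (h i (mem_range.1 hi)).2
    rw [sum_const, card_range, nsmul_eq_mul] at this
    linarith

theorem ro_avg_eq {w : ℕ} (hw : 0 < w) {g : ℤ → ℝ} {c : ℝ} (x : ℤ) (h : ∀ i : ℕ, i < w → g (x - i) = c) : roAvg w g x = c := by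
  have := ro_avg_mem hw (lo := c) (hi := c) x fun i hi => ⟨(h i hi).ge, (h i hi).le⟩
  exact le_antisymm this.2 this.1

/-- the indicator of `[a, ∞)` -/
def roHeav (a : ℤ) (x : ℤ) : ℝ := if a ≤ x then 1 else 0

/-- the ramp: one box average of the indicator -/
def roRamp (a : ℤ) (w : ℕ) : ℤ → ℝ := roAvg w (roHeav a)

/-- the mollified indicator of `[a, ∞)` at scale `w` -/
def roStep (a : ℤ) (w : ℕ) : ℤ → ℝ := roAvg w (roRamp a w)

theorem ro_heav_mem (a x : ℤ) : 0 ≤ roHeav a x ∧ roHeav a x ≤ 1 := by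
  unfold roHeav
  split_ifs <;> norm_num

theorem ro_heav_mono (a : ℤ) {x y : ℤ} (h : x ≤ y) : roHeav a x ≤ roHeav a y := by
  unfold roHeav
  split_ifs with h1 h2 h2
  · exact le_rfl
  · omega
  · norm_num
  · exact le_rfl

theorem ro_ramp_mem (a : ℤ) {w : ℕ} (hw : 0 < w) (x : ℤ) : 0 ≤ roRamp a w x ∧ roRamp a w x ≤ 1 :=
  ro_avg_mem hw x fun _ _ => ro_heav_mem a _

theorem ro_ramp_diff_mem (a : ℤ) {w : ℕ} (hw : 0 < w) (x : ℤ) :
    0 ≤ roRamp a w (x + 1) - roRamp a w x ∧ roRamp a w (x + 1) - roRamp a w x ≤ 1 / w := by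
  have hw' : (0 : ℝ) < w := by exact_mod_cast hw
  unfold roRamp
  rw [ro_avg_diff]
  have h1 : roHeav a (x + 1 - w) ≤ roHeav a (x + 1) := ro_heav_mono a (by omega)
  have h2 := ro_heav_mem a (x + 1)
  have h3 := ro_heav_mem a (x + 1 - w)
  constructor
  · apply div_nonneg _ hw'.le
    linarith
  · apply div_le_div_of_nonneg_right _ hw'.le
    linarith

theorem ro_ramp_mono (a : ℤ) {w : ℕ} (hw : 0 < w) {x y : ℤ} (h : x ≤ y) : roRamp a w x ≤ roRamp a w y := by
  obtain ⟨n, rfl⟩ : ∃ n : ℕ, y = x + n := ⟨(y - x).toNat, by omega⟩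
  induction n with
  | zero => simp
  | succ n ih =>
    have h1 := (ro_ramp_diff_mem a hw (x + n)).1
    have h2 := ih (by omega)
    have e : x + ((n + 1 : ℕ) : ℤ) = x + n + 1 := by push_cast; ring
    rw [e]
    linarith

theorem ro_ramp_eq_zero (a : ℤ) {w : ℕ} (hw : 0 < w) {x : ℤ} (h : x < a) : roRamp a w x = 0 :=
  ro_avg_eq hw x fun i _ => by
    unfold roHeav
    rw [if_neg]
    omega

theorem ro_ramp_eq_one (a : ℤ) {w : ℕ} (hw : 0 < w) {x : ℤ} (h : a + w ≤ x + 1) : roRamp a w x = 1 :=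
  ro_avg_eq hw x fun i hi => by
    unfold roHeav
    rw [if_pos]
    omega

theorem ro_step_mem (a : ℤ) {w : ℕ} (hw : 0 < w) (x : ℤ) : 0 ≤ roStep a w x ∧ roStep a w x ≤ 1 :=
  ro_avg_mem hw x fun _ _ => ro_ramp_mem a hw _

theorem ro_step_eq_zero (a : ℤ) {w : ℕ} (hw : 0 < w) {x : ℤ} (h : x < a) : roStep a w x = 0 :=
  ro_avg_eq hw x fun i _ => ro_ramp_eq_zero a hw (by omega)

theorem ro_step_eq_one (a : ℤ) {w : ℕ} (hw : 0 < w) {x : ℤ} (h : a + 2 * w ≤ x + 2) : roStep a w x = 1 :=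
  ro_avg_eq hw x fun i hi => ro_ramp_eq_one a hw (by omega)

/-- increments in `[0, 1/w]` -/
theorem ro_step_diff_mem (a : ℤ) {w : ℕ} (hw : 0 < w) (x : ℤ) :
    0 ≤ roStep a w (x + 1) - roStep a w x ∧ roStep a w (x + 1) - roStep a w x ≤ 1 / w := by
  have hw' : (0 : ℝ) < w := by exact_mod_cast hw
  unfold roStep
  rw [ro_avg_diff]
  have h1 : roRamp a w (x + 1 - w) ≤ roRamp a w (x + 1) := ro_ramp_mono a hw (by omega)
  have h2 := ro_ramp_mem a hw (x + 1)
  have h3 := ro_ramp_mem a hw (x + 1 - w)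
  constructor
  · apply div_nonneg _ hw'.le
    linarith
  · apply div_le_div_of_nonneg_right _ hw'.le
    linarith

theorem ro_step_diff_abs (a : ℤ) {w : ℕ} (hw : 0 < w) (x : ℤ) : |roStep a w (x + 1) - roStep a w x| ≤ 1 / w := by
  have := ro_step_diff_mem a hw x
  rw [abs_of_nonneg this.1]
  exact this.2

theorem ro_step_mono (a : ℤ) {w : ℕ} (hw : 0 < w) {x y : ℤ} (h : x ≤ y) : roStep a w x ≤ roStep a w y := by
  obtain ⟨n, rfl⟩ : ∃ n : ℕ, y = x + n := ⟨(y - x).toNat, by omega⟩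
  induction n with
  | zero => simp
  | succ n ih =>
    have h1 := (ro_step_diff_mem a hw (x + n)).1
    have h2 := ih (by omega)
    have e : x + ((n + 1 : ℕ) : ℤ) = x + n + 1 := by push_cast; ring
    rw [e]
    linarith

/-- second differences bounded by `1/w²` -/
theorem ro_step_diff2_abs (a : ℤ) {w : ℕ} (hw : 0 < w) (x : ℤ) :
    |roStep a w (x + 1) - 2 * roStep a w x + roStep a w (x - 1)| ≤ 1 / (w : ℝ) ^ 2 := by
  have hw' : (0 : ℝ) < w := by exact_mod_cast hw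
  have h1 : roStep a w (x + 1) - roStep a w x = (roRamp a w (x + 1) - roRamp a w (x + 1 - w)) / w := ro_avg_diff _ _ _
  have h2 : roStep a w (x - 1 + 1) - roStep a w (x - 1) = (roRamp a w (x - 1 + 1) - roRamp a w (x - 1 + 1 - w)) / w :=
    ro_avg_diff _ _ _
  rw [sub_add_cancel] at h2
  have e : roStep a w (x + 1) - 2 * roStep a w x + roStep a w (x - 1)
      = ((roRamp a w (x + 1) - roRamp a w x) - (roRamp a w (x - w + 1) - roRamp a w (x - w))) / w := by
    have e1 : x + 1 - (w : ℤ) = x - w + 1 := by ring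
    rw [e1] at h1
    have : roStep a w (x + 1) - 2 * roStep a w x + roStep a w (x - 1)
        = (roStep a w (x + 1) - roStep a w x) - (roStep a w x - roStep a w (x - 1)) := by ring
    rw [this, h1, h2]
    ring
  rw [e, abs_div, abs_of_pos hw', div_le_iff₀ hw']
  have h3 := ro_ramp_diff_mem a hw x
  have h4 := ro_ramp_diff_mem a hw (x - w)
  have e2 : 1 / (w : ℝ) ^ 2 * w = 1 / w := by
    field_simp
  rw [e2, abs_le]
  constructor <;> linarith [h3.1, h3.2, h4.1, h4.2]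

/-! ## plateau bumps -/

theorem ro_heav_shift (a y : ℤ) : roHeav a y = roHeav 0 (y - a) := by
  unfold roHeav
  by_cases h : a ≤ y
  · rw [if_pos h, if_pos (by omega)]
  · rw [if_neg h, if_neg (by omega)]

theorem ro_ramp_shift (a : ℤ) (w : ℕ) (x : ℤ) : roRamp a w x = roRamp 0 w (x - a) := by
  unfold roRamp roAvg
  congr 1
  refine sum_congr rfl fun i _ => ?_
  rw [ro_heav_shift]
  congr 1
  ring

theorem ro_step_shift (a : ℤ) (w : ℕ) (x : ℤ) : roStep a w x = roStep 0 w (x - a) := by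
  unfold roStep roAvg
  congr 1
  refine sum_congr rfl fun i _ => ?_
  rw [ro_ramp_shift]
  congr 1
  ring

theorem ro_step_anti {a a' : ℤ} (h : a ≤ a') {w : ℕ} (hw : 0 < w) (x : ℤ) : roStep a' w x ≤ roStep a w x := by
  rw [ro_step_shift a, ro_step_shift a']
  exact ro_step_mono 0 hw (by omega)

/-- the plateau bump: `1` on `[a - 2q, b + 2q)`, `0` off `[a - 4q, b + 4q)`; every bond with a nonzero increment has both ends in `[a - 4q, a - 2q) ∪ [b + 2q, b + 4q)` -/
def roBump (a b : ℤ) (q : ℕ) (t : ℤ) : ℝ := roStep (a - 4 * q + 1) q t - roStep (b + 2 * q + 1) q t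

theorem ro_bump_mem {a b : ℤ} (hab : a ≤ b) {q : ℕ} (hq : 0 < q) (t : ℤ) : 0 ≤ roBump a b q t ∧ roBump a b q t ≤ 1 := by
  unfold roBump
  have h1 := ro_step_anti (a := a - 4 * q + 1) (a' := b + 2 * q + 1) (by omega) hq t
  have h2 := ro_step_mem (a - 4 * q + 1) hq t
  have h3 := ro_step_mem (b + 2 * q + 1) hq t
  constructor <;> linarith [h2.1, h2.2, h3.1, h3.2]

theorem ro_bump_eq_one {a b : ℤ} {q : ℕ} (hq : 0 < q) {t : ℤ} (h1 : a - 2 * q ≤ t + 1) (h2 : t ≤ b + 2 * q) :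
    roBump a b q t = 1 := by
  unfold roBump
  rw [ro_step_eq_one _ hq (by omega), ro_step_eq_zero _ hq (by omega)]
  ring

theorem ro_bump_eq_zero_left {a b : ℤ} (hab : a ≤ b) {q : ℕ} (hq : 0 < q) {t : ℤ} (h : t ≤ a - 4 * q) : roBump a b q t = 0 := by
  unfold roBump
  rw [ro_step_eq_zero _ hq (by omega), ro_step_eq_zero _ hq (by omega)]
  ring

theorem ro_bump_eq_zero_right {a b : ℤ} (hab : a ≤ b) {q : ℕ} (hq : 0 < q) {t : ℤ} (h : b + 4 * q ≤ t + 1) : roBump a b q t = 0 := by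
  unfold roBump
  rw [ro_step_eq_one _ hq (by omega), ro_step_eq_one _ hq (by omega)]
  ring

theorem ro_bump_diff_abs (a b : ℤ) {q : ℕ} (hq : 0 < q) (t : ℤ) : |roBump a b q (t + 1) - roBump a b q t| ≤ 1 / q := by
  unfold roBump
  have h1 := ro_step_diff_mem (a - 4 * q + 1) hq t
  have h2 := ro_step_diff_mem (b + 2 * q + 1) hq t
  rw [abs_le]
  constructor <;> linarith [h1.1, h1.2, h2.1, h2.2]

/-- the bonds with a nonzero increment lie in the two transition intervals -/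
theorem ro_bump_diff_ne {a b : ℤ} (hab : a ≤ b) {q : ℕ} (hq : 0 < q) {t : ℤ} (h : roBump a b q (t + 1) ≠ roBump a b q t) :
    (a - 4 * q ≤ t ∧ t + 1 < a - 2 * q) ∨ (b + 2 * q ≤ t ∧ t + 1 < b + 4 * q) := by
  by_contra hcon
  apply h
  rcases lt_or_ge t (a - 4 * q) with h1 | h1
  · rw [ro_bump_eq_zero_left hab hq (by omega), ro_bump_eq_zero_left hab hq (by omega)]
  rcases lt_or_ge (t + 1) (a - 2 * q) with h2 | h2
  · exact absurd (Or.inl ⟨h1, h2⟩) hcon
  rcases lt_or_ge t (b + 2 * q) with h3 | h3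
  · rw [ro_bump_eq_one hq (by omega) (by omega), ro_bump_eq_one hq (by omega) (by omega)]
  rcases lt_or_ge (t + 1) (b + 4 * q) with h4 | h4
  · exact absurd (Or.inr ⟨h3, h4⟩) hcon
  · rw [ro_bump_eq_zero_right hab hq (by omega), ro_bump_eq_zero_right hab hq (by omega)]

theorem ro_bump_diff2_abs (a b : ℤ) {q : ℕ} (hq : 0 < q) (t : ℤ) :
    |roBump a b q (t + 1) - 2 * roBump a b q t + roBump a b q (t - 1)| ≤ 2 / (q : ℝ) ^ 2 := by
  unfold roBump
  have h1 := abs_le.1 (ro_step_diff2_abs (a - 4 * q + 1) hq t)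
  have h2 := abs_le.1 (ro_step_diff2_abs (b + 2 * q + 1) hq t)
  have e : (2 : ℝ) / (q : ℝ) ^ 2 = 1 / (q : ℝ) ^ 2 + 1 / (q : ℝ) ^ 2 := by ring
  rw [abs_le, e]
  constructor <;> linarith [h1.1, h1.2, h2.1, h2.2]

/-- consecutive bumps telescope: line bump + interior bump -/
theorem ro_bump_add (a b c : ℤ) (q : ℕ) (t : ℤ) :
    roBump a b q t + roBump (b + 6 * q) (c - 6 * q) q t = roStep (a - 4 * q + 1) q t - roStep (c - 4 * q + 1) q t := by
  unfold roBump
  have e1 : b + 6 * (q : ℤ) - 4 * q + 1 = b + 2 * q + 1 := by ring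
  have e2 : c - 6 * (q : ℤ) + 2 * q + 1 = c - 4 * q + 1 := by ring
  rw [e1, e2]
  ring

end

end Claimed.Agent.R285.Pot
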