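import Claimed.Agent.R285.Pot.RoCalc

/-!
# ROW 285, POT-REGOPT (architect helper170): product grids and cut-offs on product grids.

LEAVES `L-RO-G*` (grids), `L-RO-K*` (cut-offs): every `sorry`; the leaf name is in the docstring.  Several leaves share this file: edit only your own theorems (private helpers directly above them, prefix `ro_`), splice on a fresh pull.
Everything here is elementary: unfold `DGrid.cell`, `Finset.mem_product`, `Finset.mem_Ico`, use `g.mono₁`, `g.mono₂` (`StrictMono`), `Fin.castSucc_lt_succ`, `omega`.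
THE TOOL for all local pictures: `ro_same_region`: membership in a union of cells is constant on sets of points which are not separated by a grid line.
-/

set_option autoImplicit false

namespace Claimed.Agent.R285.Pot

open scoped Classical
open Finset

noncomputable section

variable {m₁ m₂ : ℕ}

/-! ## G. Grids -/

theorem ro_mem_cell (g : DGrid m₁ m₂) (κ : Fin m₁ × Fin m₂) (x : ℤ × ℤ) :
    x ∈ g.cell κ ↔ g.x₁ κ.1.castSucc ≤ x.1 ∧ x.1 < g.x₁ κ.1.succ ∧ g.x₂ κ.2.castSucc ≤ x.2 ∧ x.2 < g.x₂ κ.2.succ := by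
  unfold DGrid.cell
  rw [mem_product, mem_Ico, mem_Ico]
  tauto

theorem ro_mem_region (g : DGrid m₁ m₂) (U : Finset (Fin m₁ × Fin m₂)) (x : ℤ × ℤ) : x ∈ g.region U ↔ ∃ κ ∈ U, x ∈ g.cell κ := by
  unfold DGrid.region
  rw [mem_biUnion]

theorem ro_same_cell (g : DGrid m₁ m₂) (κ : Fin m₁ × Fin m₂) {x y : ℤ × ℤ} (h : roSame g x y) : x ∈ g.cell κ ↔ y ∈ g.cell κ := by
  rw [ro_mem_cell, ro_mem_cell, h.1 κ.1.castSucc, h.2 κ.2.castSucc, ← not_le, ← not_le, ← not_le, ← not_le, h.1 κ.1.succ,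
    h.2 κ.2.succ]

/-- membership in a union of cells is constant on sets of points which are not separated by a grid line -/
theorem ro_same_region (g : DGrid m₁ m₂) (U : Finset (Fin m₁ × Fin m₂)) {x y : ℤ × ℤ} (h : roSame g x y) :
    x ∈ g.region U ↔ y ∈ g.region U := by
  rw [ro_mem_region, ro_mem_region]
  exact exists_congr fun κ => and_congr_right fun _ => ro_same_cell g κ h

theorem ro_g1_uniq {m : ℕ} {f : Fin (m + 1) → ℤ} (hf : StrictMono f) {i i' : Fin m} {t : ℤ}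
    (h1 : f i.castSucc ≤ t) (h2 : t < f i.succ) (h1' : f i'.castSucc ≤ t) (h2' : t < f i'.succ) : i = i' := by
  rcases lt_trichotomy i i' with h | h | h
  · exfalso
    have h3 : i.succ ≤ i'.castSucc := by
      rw [Fin.le_def]
      have : (i : ℕ) < i' := h
      simp only [Fin.val_succ, Fin.val_castSucc]
      omega
    have := hf.monotone h3
    omega
  · exact h
  · exfalso
    have h3 : i'.succ ≤ i.castSucc := by
      rw [Fin.le_def]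
      have : (i' : ℕ) < i := h
      simp only [Fin.val_succ, Fin.val_castSucc]
      omega
    have := hf.monotone h3
    omega

/-- L-RO-G1.  The cells are pairwise disjoint (`StrictMono`: if `κ.1 < κ'.1` then `x₁ κ.1.succ ≤ x₁ κ'.1.castSucc`). -/
theorem ro_cell_unique (g : DGrid m₁ m₂) {κ κ' : Fin m₁ × Fin m₂} {x : ℤ × ℤ} (h : x ∈ g.cell κ) (h' : x ∈ g.cell κ') : κ = κ' := by
  rw [ro_mem_cell] at h h'
  exact Prod.ext (ro_g1_uniq g.mono₁ h.1 h.2.1 h'.1 h'.2.1) (ro_g1_uniq g.mono₂ h.2.2.1 h.2.2.2 h'.2.2.1 h'.2.2.2)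

theorem ro_g1_gap {m : ℕ} {f : Fin (m + 1) → ℤ} (hf : StrictMono f) {ν : ℕ} (h : ∀ i : Fin m, (ν : ℤ) ≤ f i.succ - f i.castSucc)
    {i i' : Fin (m + 1)} (hii : i < i') : f i + ν ≤ f i' := by
  have h1 : (i : ℕ) < i' := hii
  have h2 := i'.2
  have hk : (i : ℕ) < m := by omega
  have e : i = (⟨i, hk⟩ : Fin m).castSucc := Fin.ext rfl
  have h3 : (⟨i, hk⟩ : Fin m).succ ≤ i' := by
    rw [Fin.le_def]
    simp only [Fin.val_succ]
    omega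
  have h4 := hf.monotone h3
  have h5 := h ⟨i, hk⟩
  rw [← e] at h5
  omega

/-- L-RO-G1.  Induction on `i'.1 - i.1`. -/
theorem ro_line_gap₁ (g : DGrid m₁ m₂) {ν : ℕ} (h : g.SideGe ν) {i i' : Fin (m₁ + 1)} (hii : i < i') : g.x₁ i + ν ≤ g.x₁ i' := by
  exact ro_g1_gap g.mono₁ h.1 hii

/-- L-RO-G1. -/
theorem ro_line_gap₂ (g : DGrid m₁ m₂) {ν : ℕ} (h : g.SideGe ν) {j j' : Fin (m₂ + 1)} (hjj : j < j') : g.x₂ j + ν ≤ g.x₂ j' := by
  exact ro_g1_gap g.mono₂ h.2 hjj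

theorem ro_g1_ex {m : ℕ} {f : Fin (m + 1) → ℤ} {t : ℤ} (h0 : f 0 ≤ t) (h1 : t < f (Fin.last m)) :
    ∃ i : Fin m, f i.castSucc ≤ t ∧ t < f i.succ := by
  have hne : (Finset.univ.filter fun j : Fin (m + 1) => f j ≤ t).Nonempty := ⟨0, by rw [mem_filter]; exact ⟨mem_univ _, h0⟩⟩
  obtain ⟨j, hj⟩ : ∃ j, j = (Finset.univ.filter fun j : Fin (m + 1) => f j ≤ t).max' hne := ⟨_, rfl⟩
  have hjm : j ∈ (Finset.univ.filter fun j : Fin (m + 1) => f j ≤ t) := by rw [hj]; exact Finset.max'_mem _ _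
  have hjt : f j ≤ t := (mem_filter.1 hjm).2
  have hmax : ∀ j', f j' ≤ t → j' ≤ j := by
    intro j' hj'
    rw [hj]
    exact Finset.le_max' _ _ (by rw [mem_filter]; exact ⟨mem_univ _, hj'⟩)
  have hjl : (j : ℕ) < m := by
    have h2 := j.2
    rcases Nat.lt_or_ge (j : ℕ) m with h3 | h3
    · exact h3
    · exfalso
      have : j = Fin.last m := Fin.ext (by simp only [Fin.val_last]; omega)
      rw [this] at hjt
      omega
  refine ⟨⟨j, hjl⟩, ?_, ?_⟩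
  · have e : (⟨j, hjl⟩ : Fin m).castSucc = j := Fin.ext rfl
    rw [e]
    exact hjt
  · by_contra hc
    have h4 := hmax _ (not_lt.1 hc)
    rw [Fin.le_def] at h4
    simp only [Fin.val_succ] at h4
    omega

/-- L-RO-G1.  The union of all cells is the enclosing rectangle (for `x₁ 0 ≤ t < x₁ last` take the largest `i` with `x₁ i ≤ t`). -/
theorem ro_region_univ (g : DGrid m₁ m₂) : g.region Finset.univ = (roRc g).set := by
  ext x
  have a1 : g.x₁ 0 ≤ g.x₁ (Fin.last m₁) := g.mono₁.monotone (Fin.zero_le _)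
  have a2 : g.x₂ 0 ≤ g.x₂ (Fin.last m₂) := g.mono₂.monotone (Fin.zero_le _)
  have e1 : g.x₁ 0 + ((g.x₁ (Fin.last m₁) - g.x₁ 0).toNat : ℤ) = g.x₁ (Fin.last m₁) := by omega
  have e2 : g.x₂ 0 + ((g.x₂ (Fin.last m₂) - g.x₂ 0).toNat : ℤ) = g.x₂ (Fin.last m₂) := by omega
  rw [ro_mem_region]
  unfold C2.Rc.set roRc
  simp only
  rw [mem_product, mem_Ico, mem_Ico, e1, e2]
  constructor
  · rintro ⟨κ, -, hκ⟩
    rw [ro_mem_cell] at hκ
    have b1 := g.mono₁.monotone (Fin.zero_le κ.1.castSucc)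
    have b2 := g.mono₁.monotone (Fin.le_last κ.1.succ)
    have b3 := g.mono₂.monotone (Fin.zero_le κ.2.castSucc)
    have b4 := g.mono₂.monotone (Fin.le_last κ.2.succ)
    omega
  · rintro ⟨⟨h1, h2⟩, ⟨h3, h4⟩⟩
    obtain ⟨i, hi1, hi2⟩ := ro_g1_ex h1 h2
    obtain ⟨j, hj1, hj2⟩ := ro_g1_ex h3 h4
    exact ⟨(i, j), mem_univ _, (ro_mem_cell g (i, j) x).2 ⟨hi1, hi2, hj1, hj2⟩⟩

theorem ro_region_mono (g : DGrid m₁ m₂) {U U' : Finset (Fin m₁ × Fin m₂)} (h : U ⊆ U') : g.region U ⊆ g.region U' :=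
  biUnion_subset_biUnion_of_subset_left _ h

theorem ro_region_subset_rc (g : DGrid m₁ m₂) (U : Finset (Fin m₁ × Fin m₂)) : g.region U ⊆ (roRc g).set :=
  ro_region_univ g ▸ ro_region_mono g (subset_univ U)

theorem ro_cell_subset_region (g : DGrid m₁ m₂) {U : Finset (Fin m₁ × Fin m₂)} {κ : Fin m₁ × Fin m₂} (h : κ ∈ U) :
    g.cell κ ⊆ g.region U := fun x hx => (ro_mem_region g U x).2 ⟨κ, h, hx⟩

theorem ro_cell_card_eq (g : DGrid m₁ m₂) (κ : Fin m₁ × Fin m₂) :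
    ((g.cell κ).card : ℝ) = ((g.x₁ κ.1.succ - g.x₁ κ.1.castSucc : ℤ) : ℝ) * ((g.x₂ κ.2.succ - g.x₂ κ.2.castSucc : ℤ) : ℝ) := by
  unfold DGrid.cell
  rw [card_product, Int.card_Ico, Int.card_Ico, Nat.cast_mul]
  have h1 : (0 : ℤ) ≤ g.x₁ κ.1.succ - g.x₁ κ.1.castSucc := sub_nonneg.2 (g.mono₁ Fin.castSucc_lt_succ).le
  have h2 : (0 : ℤ) ≤ g.x₂ κ.2.succ - g.x₂ κ.2.castSucc := sub_nonneg.2 (g.mono₂ Fin.castSucc_lt_succ).le
  have e1 : (((g.x₁ κ.1.succ - g.x₁ κ.1.castSucc).toNat : ℕ) : ℝ) = ((g.x₁ κ.1.succ - g.x₁ κ.1.castSucc : ℤ) : ℝ) := by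
    exact_mod_cast congrArg (fun z : ℤ => (z : ℝ)) (Int.toNat_of_nonneg h1)
  have e2 : (((g.x₂ κ.2.succ - g.x₂ κ.2.castSucc).toNat : ℕ) : ℝ) = ((g.x₂ κ.2.succ - g.x₂ κ.2.castSucc : ℤ) : ℝ) := by
    exact_mod_cast congrArg (fun z : ℤ => (z : ℝ)) (Int.toNat_of_nonneg h2)
  rw [e1, e2]

/-- L-RO-G2.  `Finset.card_product`, `Int.card_Ico`. -/
theorem ro_cell_card_ge (g : DGrid m₁ m₂) {ν : ℕ} (h : g.SideGe ν) (κ : Fin m₁ × Fin m₂) : (ν : ℝ) ^ 2 ≤ ((g.cell κ).card : ℝ) := by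
  rw [ro_cell_card_eq, sq]
  have h1 : (ν : ℝ) ≤ ((g.x₁ κ.1.succ - g.x₁ κ.1.castSucc : ℤ) : ℝ) := by exact_mod_cast h.1 κ.1
  have h2 : (ν : ℝ) ≤ ((g.x₂ κ.2.succ - g.x₂ κ.2.castSucc : ℤ) : ℝ) := by exact_mod_cast h.2 κ.2
  exact mul_le_mul h1 h2 (Nat.cast_nonneg _) ((Nat.cast_nonneg _).trans h1)

/-- L-RO-G2. -/
theorem ro_cell_card_le (g : DGrid m₁ m₂) {n : ℕ} (h : g.SideLe n) (κ : Fin m₁ × Fin m₂) : ((g.cell κ).card : ℝ) ≤ (n : ℝ) ^ 2 := by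
  rw [ro_cell_card_eq, sq]
  have h1 : ((g.x₁ κ.1.succ - g.x₁ κ.1.castSucc : ℤ) : ℝ) ≤ (n : ℝ) := by exact_mod_cast h.1 κ.1
  have h2 : ((g.x₂ κ.2.succ - g.x₂ κ.2.castSucc : ℤ) : ℝ) ≤ (n : ℝ) := by exact_mod_cast h.2 κ.2
  have h3 : (0 : ℝ) ≤ ((g.x₂ κ.2.succ - g.x₂ κ.2.castSucc : ℤ) : ℝ) := by
    exact_mod_cast sub_nonneg.2 (g.mono₂ Fin.castSucc_lt_succ).le
  exact mul_le_mul h1 h2 h3 (Nat.cast_nonneg _)

/-- L-RO-G2.  `Finset.card_biUnion_le`. -/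
theorem ro_region_card_le (g : DGrid m₁ m₂) {n : ℕ} (h : g.SideLe n) (U : Finset (Fin m₁ × Fin m₂)) :
    ((g.region U).card : ℝ) ≤ (m₁ : ℝ) * m₂ * (n : ℝ) ^ 2 := by
  unfold DGrid.region
  have h1 : ((U.biUnion g.cell).card : ℝ) ≤ ∑ κ ∈ U, ((g.cell κ).card : ℝ) := by
    exact_mod_cast card_biUnion_le
  have h2 : ∑ κ ∈ U, ((g.cell κ).card : ℝ) ≤ ∑ _κ ∈ U, (n : ℝ) ^ 2 := sum_le_sum fun κ _ => ro_cell_card_le g h κ
  have h3 : (U.card : ℝ) ≤ (m₁ : ℝ) * m₂ := by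
    have := card_le_univ U
    rw [Fintype.card_prod, Fintype.card_fin, Fintype.card_fin] at this
    exact_mod_cast this
  rw [sum_const, nsmul_eq_mul] at h2
  exact h1.trans (h2.trans (mul_le_mul_of_nonneg_right h3 (by positivity)))

theorem ro_mem_fat (c : RoCore) (r : ℤ) (x : ℤ × ℤ) :
    x ∈ c.fat r ↔ c.a₁ - r ≤ x.1 ∧ x.1 < c.b₁ + r ∧ c.a₂ - r ≤ x.2 ∧ x.2 < c.b₂ + r := by
  unfold RoCore.fat
  rw [mem_product, mem_Ico, mem_Ico]
  tauto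

theorem ro_fat_mono (c : RoCore) {r r' : ℤ} (h : r ≤ r') : c.fat r ⊆ c.fat r' := by
  intro x hx
  rw [ro_mem_fat] at hx ⊢
  omega

theorem ro_cel_fat_zero (g : DGrid m₁ m₂) (κ : Fin m₁ × Fin m₂) : (roCel g κ).fat 0 = g.cell κ := by
  ext x
  rw [ro_mem_fat, ro_mem_cell]
  simp [roCel]

theorem ro_vtx_onGrid (g : DGrid m₁ m₂) (z : Fin (m₁ + 1) × Fin (m₂ + 1)) : (roVtx g z).OnGrid g :=
  ⟨⟨z.1, z.1, le_rfl, rfl, rfl⟩, ⟨z.2, z.2, le_rfl, rfl, rfl⟩⟩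

theorem ro_cel_onGrid (g : DGrid m₁ m₂) (κ : Fin m₁ × Fin m₂) : (roCel g κ).OnGrid g :=
  ⟨⟨κ.1.castSucc, κ.1.succ, (Fin.castSucc_lt_succ).le, rfl, rfl⟩, ⟨κ.2.castSucc, κ.2.succ, (Fin.castSucc_lt_succ).le, rfl, rfl⟩⟩

theorem ro_onGrid_le (g : DGrid m₁ m₂) {c : RoCore} (h : c.OnGrid g) : c.a₁ ≤ c.b₁ ∧ c.a₂ ≤ c.b₂ := by
  obtain ⟨⟨i, i', hi, h1, h2⟩, ⟨j, j', hj, h3, h4⟩⟩ := h
  rw [h1, h2, h3, h4]
  exact ⟨g.mono₁.monotone hi, g.mono₂.monotone hj⟩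

private theorem ro_same_1d {m : ℕ} (X : Fin (m + 1) → ℤ) {ν : ℕ} (hX : ∀ i i' : Fin (m + 1), i < i' → X i + ν ≤ X i')
    (i : Fin (m + 1)) {r : ℤ} (hr : r ≤ ν) {s t : ℤ} (hs : X i - r ≤ s ∧ s < X i + r) (ht : X i - r ≤ t ∧ t < X i + r)
    (h : X i ≤ s ↔ X i ≤ t) (k : Fin (m + 1)) : X k ≤ s ↔ X k ≤ t := by
  rcases lt_trichotomy k i with hk | hk | hk
  · have := hX k i hk
    constructor <;> intro _ <;> omega
  · rw [hk]; exact h
  · have := hX i k hk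
    constructor <;> intro _ <;> omega

/-- L-RO-G3.  **Quadrants.**  Two points of the ball of radius `r ≤ ν` around a grid vertex which lie in the same quadrant are not separated by a grid line (`ro_line_gap₁/₂`). -/
theorem ro_same_quadrant (g : DGrid m₁ m₂) {ν : ℕ} (h : g.SideGe ν) (z : Fin (m₁ + 1) × Fin (m₂ + 1)) {r : ℤ} (hr : r ≤ ν)
    {x y : ℤ × ℤ} (hx : x ∈ (roVtx g z).fat r) (hy : y ∈ (roVtx g z).fat r)
    (h1 : g.x₁ z.1 ≤ x.1 ↔ g.x₁ z.1 ≤ y.1) (h2 : g.x₂ z.2 ≤ x.2 ↔ g.x₂ z.2 ≤ y.2) : roSame g x y := by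
  rw [ro_mem_fat] at hx hy
  simp only [roVtx] at hx hy
  exact ⟨ro_same_1d g.x₁ (fun _ _ => ro_line_gap₁ g h) z.1 hr ⟨hx.1, hx.2.1⟩ ⟨hy.1, hy.2.1⟩ h1,
    ro_same_1d g.x₂ (fun _ _ => ro_line_gap₂ g h) z.2 hr ⟨hx.2.2.1, hx.2.2.2⟩ ⟨hy.2.2.1, hy.2.2.2⟩ h2⟩

/-- L-RO-G3.  A union of cells which meets the ball of radius `r ≤ ν` around a vertex contains one of the four sites at the vertex (the corner site of the quadrant; `ro_same_quadrant`, `ro_same_region`). -/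
theorem ro_touch (g : DGrid m₁ m₂) {ν : ℕ} (h : g.SideGe ν) (hν : 0 < ν) (V : Finset (Fin m₁ × Fin m₂)) (z : Fin (m₁ + 1) × Fin (m₂ + 1)) {r : ℤ}
    (hr : r ≤ ν) {y : ℤ × ℤ} (hy : y ∈ g.region V) (hy' : y ∈ (roVtx g z).fat r) : ∃ y' ∈ g.region V, y' ∈ (roVtx g z).fat 1 := by
  set y' : ℤ × ℤ := (if g.x₁ z.1 ≤ y.1 then g.x₁ z.1 else g.x₁ z.1 - 1, if g.x₂ z.2 ≤ y.2 then g.x₂ z.2 else g.x₂ z.2 - 1) with hy'def
  have h1 : y' ∈ (roVtx g z).fat 1 := by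
    rw [ro_mem_fat]
    simp only [roVtx, hy'def]
    split_ifs <;> omega
  have hν' : (1 : ℤ) ≤ ν := by exact_mod_cast hν
  have hs : roSame g y y' := by
    refine ro_same_quadrant g h z (r := max r 1) (max_le hr hν') (ro_fat_mono _ (le_max_left _ _) hy')
      (ro_fat_mono _ (le_max_right _ _) h1) ?_ ?_
    · simp only [hy'def]
      split_ifs with h3
      · simp [h3]
      · simp [h3]
    · simp only [hy'def]
      split_ifs with h3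
      · simp [h3]
      · simp [h3]
  exact ⟨y', (ro_same_region g V hs).1 hy, h1⟩

/-- L-RO-G3.  Balls around different vertices are far apart. -/
theorem ro_vtx_disj (g : DGrid m₁ m₂) {ν : ℕ} (h : g.SideGe ν) {z z' : Fin (m₁ + 1) × Fin (m₂ + 1)} (hz : z ≠ z') {r r' : ℤ}
    (hr : r + r' ≤ ν) : Disjoint ((roVtx g z).fat r) ((roVtx g z').fat r') := by
  rw [Finset.disjoint_left]
  intro x hx hx'
  rw [ro_mem_fat] at hx hx'
  simp only [roVtx] at hx hx'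
  have hne : z.1 ≠ z'.1 ∨ z.2 ≠ z'.2 := by
    by_contra hc
    push Not at hc
    exact hz (Prod.ext hc.1 hc.2)
  rcases hne with hne | hne
  · rcases lt_or_gt_of_ne hne with hlt | hlt
    · have := ro_line_gap₁ g h hlt
      omega
    · have := ro_line_gap₁ g h hlt
      omega
  · rcases lt_or_gt_of_ne hne with hlt | hlt
    · have := ro_line_gap₂ g h hlt
      omega
    · have := ro_line_gap₂ g h hlt
      omega

/-- the four corners of a cell -/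
def roCorner (κ : Fin m₁ × Fin m₂) (z : Fin (m₁ + 1) × Fin (m₂ + 1)) : Prop :=
  (z.1 = κ.1.castSucc ∨ z.1 = κ.1.succ) ∧ (z.2 = κ.2.castSucc ∨ z.2 = κ.2.succ)

private theorem ro_fin_out {m : ℕ} {i : Fin m} {k : Fin (m + 1)} (h1 : k ≠ i.castSucc) (h2 : k ≠ i.succ) :
    k < i.castSucc ∨ i.succ < k := by
  have e1 : (k : ℕ) ≠ (i : ℕ) := fun h => h1 (Fin.ext h)
  have e2 : (k : ℕ) ≠ (i : ℕ) + 1 := fun h => h2 (Fin.ext h)
  rcases Nat.lt_or_ge (k : ℕ) (i : ℕ) with h | h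
  · exact Or.inl (Fin.lt_def.2 h)
  · refine Or.inr (Fin.lt_def.2 ?_)
    simp only [Fin.val_succ]
    omega

/-- L-RO-G3.  A vertex which is not a corner of the cell is far from the cell. -/
theorem ro_vtx_cel_disj (g : DGrid m₁ m₂) {ν : ℕ} (h : g.SideGe ν) {κ : Fin m₁ × Fin m₂} {z : Fin (m₁ + 1) × Fin (m₂ + 1)}
    (hz : ¬ roCorner κ z) {r r' : ℤ} (hr : r + r' ≤ ν) : Disjoint ((roVtx g z).fat r) ((roCel g κ).fat r') := by
  rw [Finset.disjoint_left]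
  intro x hx hx'
  rw [ro_mem_fat] at hx hx'
  simp only [roVtx, roCel] at hx hx'
  have hne : (z.1 ≠ κ.1.castSucc ∧ z.1 ≠ κ.1.succ) ∨ (z.2 ≠ κ.2.castSucc ∧ z.2 ≠ κ.2.succ) := by
    by_contra hc
    push Not at hc
    refine hz ⟨?_, ?_⟩
    · by_cases h1 : z.1 = κ.1.castSucc
      · exact Or.inl h1
      · exact Or.inr (hc.1 h1)
    · by_cases h1 : z.2 = κ.2.castSucc
      · exact Or.inl h1
      · exact Or.inr (hc.2 h1)
  rcases hne with ⟨n1, n2⟩ | ⟨n1, n2⟩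
  · rcases ro_fin_out n1 n2 with hlt | hlt
    · have := ro_line_gap₁ g h hlt
      omega
    · have := ro_line_gap₁ g h hlt
      omega
  · rcases ro_fin_out n1 n2 with hlt | hlt
    · have := ro_line_gap₂ g h hlt
      omega
    · have := ro_line_gap₂ g h hlt
      omega

/-- L-RO-G3.  A corner of a cell touches the cell. -/
theorem ro_corner_touch (g : DGrid m₁ m₂) {κ : Fin m₁ × Fin m₂} {z : Fin (m₁ + 1) × Fin (m₂ + 1)} (hz : roCorner κ z) :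
    ∃ y ∈ g.cell κ, y ∈ (roVtx g z).fat 1 := by
  have l1 : g.x₁ κ.1.castSucc < g.x₁ κ.1.succ := g.mono₁ Fin.castSucc_lt_succ
  have l2 : g.x₂ κ.2.castSucc < g.x₂ κ.2.succ := g.mono₂ Fin.castSucc_lt_succ
  obtain ⟨hz1, hz2⟩ := hz
  have a1 : ∃ s, (g.x₁ κ.1.castSucc ≤ s ∧ s < g.x₁ κ.1.succ) ∧ (g.x₁ z.1 - 1 ≤ s ∧ s < g.x₁ z.1 + 1) := by
    rcases hz1 with e | e
    · exact ⟨g.x₁ κ.1.castSucc, by rw [e]; omega⟩
    · exact ⟨g.x₁ κ.1.succ - 1, by rw [e]; omega⟩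
  have a2 : ∃ s, (g.x₂ κ.2.castSucc ≤ s ∧ s < g.x₂ κ.2.succ) ∧ (g.x₂ z.2 - 1 ≤ s ∧ s < g.x₂ z.2 + 1) := by
    rcases hz2 with e | e
    · exact ⟨g.x₂ κ.2.castSucc, by rw [e]; omega⟩
    · exact ⟨g.x₂ κ.2.succ - 1, by rw [e]; omega⟩
  obtain ⟨s, hs1, hs2⟩ := a1
  obtain ⟨t, ht1, ht2⟩ := a2
  refine ⟨(s, t), ?_, ?_⟩
  · rw [ro_mem_cell]
    exact ⟨hs1.1, hs1.2, ht1.1, ht1.2⟩
  · rw [ro_mem_fat]
    simp only [roVtx]
    exact ⟨hs2.1, hs2.2, ht2.1, ht2.2⟩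

/-! ## K. Cut-offs -/

theorem ro_bump_prof {a b : ℤ} (hab : a ≤ b) {q : ℕ} (hq : 0 < q) : RoProf q (roBump a b q) :=
  ⟨ro_bump_mem hab hq, ro_bump_diff_abs a b hq, ro_bump_diff2_abs a b hq⟩

/-- L-RO-K1. -/
theorem ro_ten_mem {q : ℕ} {β₁ β₂ : ℤ → ℝ} (h₁ : RoProf q β₁) (h₂ : RoProf q β₂) (x : ℤ × ℤ) :
    0 ≤ roTen β₁ β₂ x ∧ roTen β₁ β₂ x ≤ 1 := by
  unfold roTen
  obtain ⟨a1, a2⟩ := h₁.mem x.1
  obtain ⟨b1, b2⟩ := h₂.mem x.2
  exact ⟨mul_nonneg a1 b1, mul_le_one₀ a2 b1 b2⟩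

/-- L-RO-K1.  A bond changes one coordinate only. -/
theorem ro_ten_gd {q : ℕ} {β₁ β₂ : ℤ → ℝ} (h₁ : RoProf q β₁) (h₂ : RoProf q β₂) (e : Bond) :
    |C2.gd (roTen β₁ β₂) e| ≤ 1 / (q : ℝ) := by
  obtain ⟨⟨x1, x2⟩, b⟩ := e
  unfold C2.gd roTen Bond.snd
  cases b
  · simp only [Bool.false_eq_true, if_false]
    rw [← mul_sub, abs_mul, abs_of_nonneg (h₁.mem x1).1]
    calc β₁ x1 * |β₂ (x2 + 1) - β₂ x2| ≤ 1 * (1 / (q : ℝ)) :=
          mul_le_mul (h₁.mem x1).2 (h₂.d1 x2) (abs_nonneg _) zero_le_one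
      _ = _ := one_mul _
  · simp only [if_true]
    rw [← sub_mul, abs_mul, abs_of_nonneg (h₂.mem x2).1]
    calc |β₁ (x1 + 1) - β₁ x1| * β₂ x2 ≤ (1 / (q : ℝ)) * 1 :=
          mul_le_mul (h₁.d1 x1) (h₂.mem x2).2 (h₂.mem x2).1 (by positivity)
      _ = _ := mul_one _

/-- L-RO-K1.  `roLap4 (β₁ ⊗ β₂) x = - β₂ x₂ (β₁(x₁+1) - 2 β₁ x₁ + β₁(x₁-1)) - β₁ x₁ (…)`. -/
theorem ro_ten_lap4 {q : ℕ} {β₁ β₂ : ℤ → ℝ} (h₁ : RoProf q β₁) (h₂ : RoProf q β₂) (x : ℤ × ℤ) :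
    |roLap4 (roTen β₁ β₂) x| ≤ 4 / (q : ℝ) ^ 2 := by
  unfold roLap4 roTen
  have e : 4 * (β₁ x.1 * β₂ x.2) - β₁ (x.1 + 1) * β₂ x.2 - β₁ (x.1 - 1) * β₂ x.2 - β₁ x.1 * β₂ (x.2 + 1)
      - β₁ x.1 * β₂ (x.2 - 1)
      = -(β₂ x.2 * (β₁ (x.1 + 1) - 2 * β₁ x.1 + β₁ (x.1 - 1))) - β₁ x.1 * (β₂ (x.2 + 1) - 2 * β₂ x.2 + β₂ (x.2 - 1)) := by
    ring
  show |4 * (β₁ x.1 * β₂ x.2) - β₁ (x.1 + 1) * β₂ x.2 - β₁ (x.1 - 1) * β₂ x.2 - β₁ x.1 * β₂ (x.2 + 1)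
      - β₁ x.1 * β₂ (x.2 - 1)| ≤ _
  rw [e]
  have a1 : |β₂ x.2 * (β₁ (x.1 + 1) - 2 * β₁ x.1 + β₁ (x.1 - 1))| ≤ 1 * (2 / (q : ℝ) ^ 2) := by
    rw [abs_mul, abs_of_nonneg (h₂.mem x.2).1]
    exact mul_le_mul (h₂.mem x.2).2 (h₁.d2 x.1) (abs_nonneg _) zero_le_one
  have a2 : |β₁ x.1 * (β₂ (x.2 + 1) - 2 * β₂ x.2 + β₂ (x.2 - 1))| ≤ 1 * (2 / (q : ℝ) ^ 2) := by
    rw [abs_mul, abs_of_nonneg (h₁.mem x.1).1]
    exact mul_le_mul (h₁.mem x.1).2 (h₂.d2 x.2) (abs_nonneg _) zero_le_one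
  calc _ ≤ |-(β₂ x.2 * (β₁ (x.1 + 1) - 2 * β₁ x.1 + β₁ (x.1 - 1)))|
        + |β₁ x.1 * (β₂ (x.2 + 1) - 2 * β₂ x.2 + β₂ (x.2 - 1))| := abs_sub _ _
    _ ≤ 1 * (2 / (q : ℝ) ^ 2) + 1 * (2 / (q : ℝ) ^ 2) := by
        rw [abs_neg]
        exact add_le_add a1 a2
    _ = _ := by ring

/-- L-RO-K2.  A horizontal bond which leaves or enters the cell `κ` is `(X - 1, y) → (X, y)` with `X` one of the two vertical lines of the cell. -/
theorem ro_gridflat_ten (g : DGrid m₁ m₂) {β₁ β₂ : ℤ → ℝ} (h₁ : roFlat1 g.x₁ β₁) (h₂ : roFlat1 g.x₂ β₂) : GridFlat g (roTen β₁ β₂) := by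
  rintro κ ⟨x, b⟩ h
  rw [ro_mem_cell, ro_mem_cell] at h
  unfold roTen
  cases b with
  | true =>
    have es : Bond.snd (x, true) = (x.1 + 1, x.2) := by
      unfold Bond.snd
      simp
    rw [es] at h ⊢
    simp only at h ⊢
    have hk : (∃ k, x.1 + 1 = g.x₁ k) := by
      by_cases c1 : x.1 + 1 = g.x₁ κ.1.succ
      · exact ⟨_, c1⟩
      · refine ⟨κ.1.castSucc, ?_⟩
        omega
    obtain ⟨k, hk⟩ := hk
    have := h₁ k
    rw [← hk, add_sub_cancel_right] at this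
    rw [this]
  | false =>
    have es : Bond.snd (x, false) = (x.1, x.2 + 1) := by
      unfold Bond.snd
      simp
    rw [es] at h ⊢
    simp only at h ⊢
    have hk : (∃ k, x.2 + 1 = g.x₂ k) := by
      by_cases c1 : x.2 + 1 = g.x₂ κ.2.succ
      · exact ⟨_, c1⟩
      · refine ⟨κ.2.castSucc, ?_⟩
        omega
    obtain ⟨k, hk⟩ := hk
    have := h₂ k
    rw [← hk, add_sub_cancel_right] at this
    rw [this]

/-- L-RO-K2.  `ro_lap_nb`; a neighbour `y ∉ D` of `x ∈ cell κ` is joined to `x` by a bond which leaves `κ` (`ro_nb_bond`), so `χ x - χ y = 0`; `ro_sum_nb`. -/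
theorem ro_lap_gridflat (g : DGrid m₁ m₂) (U : Finset (Fin m₁ × Fin m₂)) {χ : ℤ × ℤ → ℝ} (h : GridFlat g χ) {x : ℤ × ℤ}
    (hx : x ∈ g.region U) : roLap (g.region U) χ x = roLap4 χ x := by
  obtain ⟨κ, hκ, hxκ⟩ := (ro_mem_region g U x).1 hx
  rw [ro_lap_nb _ _ hx, Finset.sum_filter]
  have h1 : ∀ y ∈ roNb x, (if y ∈ g.region U then χ x - χ y else 0) = χ x - χ y := by
    intro y hy
    by_cases hyD : y ∈ g.region U
    · rw [if_pos hyD]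
    · rw [if_neg hyD]
      have hyκ : y ∉ g.cell κ := fun hc => hyD (ro_cell_subset_region g hκ hc)
      obtain ⟨e, he | he⟩ := ro_nb_bond hy
      · have := h κ e (Or.inl ⟨he.1 ▸ hxκ, he.2 ▸ hyκ⟩)
        rw [he.1, he.2] at this
        rw [this, sub_self]
      · have := h κ e (Or.inr ⟨he.1 ▸ hyκ, he.2 ▸ hxκ⟩)
        rw [he.1, he.2] at this
        rw [this, sub_self]
  rw [Finset.sum_congr rfl h1, ro_sum_nb]
  unfold roLap4
  ring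

/-- tensor products of flat profiles are cut-offs on every union of cells -/
theorem ro_ten_cut (g : DGrid m₁ m₂) (U : Finset (Fin m₁ × Fin m₂)) {q : ℕ} {β₁ β₂ : ℤ → ℝ} (h₁ : RoProf q β₁) (h₂ : RoProf q β₂)
    (f₁ : roFlat1 g.x₁ β₁) (f₂ : roFlat1 g.x₂ β₂) : RoCut q (g.region U) (roTen β₁ β₂) :=
  ⟨ro_ten_mem h₁ h₂, ro_ten_gd h₁ h₂, fun x hx => by
    rw [ro_lap_gridflat g U (ro_gridflat_ten g f₁ f₂) hx]; exact ro_ten_lap4 h₁ h₂ x⟩

theorem ro_one_sub_cut {q : ℕ} {D : Finset (ℤ × ℤ)} {χ : ℤ × ℤ → ℝ} (h : RoCut q D χ) : RoCut q D fun x => 1 - χ x := by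
  refine ⟨fun x => ?_, fun e => ?_, fun x hx => ?_⟩
  · have := h.mem x
    constructor <;> linarith
  · have := h.d1 e
    unfold C2.gd at this ⊢
    rw [abs_sub_comm] at this
    have e1 : 1 - χ e.snd - (1 - χ e.1) = χ e.1 - χ e.snd := by ring
    rw [e1]; exact this
  · have e1 : (fun x => 1 - χ x) = fun x => 1 + (-1) * χ x := by funext y; ring
    rw [e1, ro_lap_const_add, ro_lap_smul, neg_one_mul, abs_neg]
    exact h.d2 x hx

/-- L-RO-K3.  By `ro_bump_diff_ne` (contrapositive) and the gap of the lines. -/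
theorem ro_flat1_bump {m : ℕ} (X : Fin (m + 1) → ℤ) {ν : ℕ} (hX : ∀ i i' : Fin (m + 1), i < i' → X i + ν ≤ X i') {i i' : Fin (m + 1)}
    (hii : i ≤ i') {q : ℕ} (hq : 0 < q) (hν : 4 * q ≤ ν) : roFlat1 X (roBump (X i) (X i') q) := by
  intro k
  by_contra hne
  have hab : X i ≤ X i' := by
    rcases hii.eq_or_lt with h | h
    · rw [h]
    · have := hX i i' h
      omega
  have h1 : roBump (X i) (X i') q (X k - 1 + 1) ≠ roBump (X i) (X i') q (X k - 1) := by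
    rw [sub_add_cancel]
    exact fun h => hne h.symm
  rcases ro_bump_diff_ne hab hq h1 with ⟨h2, h3⟩ | ⟨h2, h3⟩
  · rcases lt_trichotomy k i with h | h | h
    · have := hX k i h
      omega
    · rw [h] at h3
      omega
    · have := hX i k h
      omega
  · rcases lt_trichotomy k i' with h | h | h
    · have := hX k i' h
      omega
    · rw [h] at h2
      omega
    · have := hX i' k h
      omega

/-- L-RO-K3.  The interior bump of the column `i`. -/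
theorem ro_flat1_bump_int {m : ℕ} (X : Fin (m + 1) → ℤ) {ν : ℕ} (hX : ∀ i i' : Fin (m + 1), i < i' → X i + ν ≤ X i') (i : Fin m)
    {q : ℕ} (hq : 0 < q) (hν : 12 * q ≤ ν) : roFlat1 X (roBump (X i.castSucc + 6 * q) (X i.succ - 6 * q) q) := by
  intro k
  by_contra hne
  have hgap := hX i.castSucc i.succ Fin.castSucc_lt_succ
  have hab : X i.castSucc + 6 * q ≤ X i.succ - 6 * q := by omega
  have hmono : ∀ a b : Fin (m + 1), a ≤ b → X a ≤ X b := by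
    intro a b hab'
    rcases hab'.eq_or_lt with h | h
    · rw [h]
    · have := hX a b h
      omega
  have h1 : roBump (X i.castSucc + 6 * q) (X i.succ - 6 * q) q (X k - 1 + 1)
      ≠ roBump (X i.castSucc + 6 * q) (X i.succ - 6 * q) q (X k - 1) := by
    rw [sub_add_cancel]
    exact fun h => hne h.symm
  have hk : k ≤ i.castSucc ∨ i.succ ≤ k := by
    rw [Fin.le_def, Fin.le_def, Fin.val_castSucc, Fin.val_succ]
    omega
  rcases ro_bump_diff_ne hab hq h1 with ⟨h2, h3⟩ | ⟨h2, h3⟩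
  · rcases hk with h | h
    · have := hmono _ _ h
      omega
    · have := hmono _ _ h
      omega
  · rcases hk with h | h
    · have := hmono _ _ h
      omega
    · have := hmono _ _ h
      omega

/-- the cut-off of a core with corners on grid lines -/
theorem ro_core_cut (g : DGrid m₁ m₂) (U : Finset (Fin m₁ × Fin m₂)) {ν : ℕ} (h : g.SideGe ν) {c : RoCore} (hc : c.OnGrid g) {q : ℕ}
    (hq : 0 < q) (hν : 4 * q ≤ ν) : RoCut q (g.region U) (c.chi q) := by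
  have hle := ro_onGrid_le g hc
  obtain ⟨⟨i, i', hi, h1, h2⟩, ⟨j, j', hj, h3, h4⟩⟩ := hc
  refine ro_one_sub_cut (ro_ten_cut g U (ro_bump_prof hle.1 hq) (ro_bump_prof hle.2 hq) ?_ ?_)
  · rw [h1, h2]
    exact ro_flat1_bump g.x₁ (fun _ _ => ro_line_gap₁ g h) hi hq hν
  · rw [h3, h4]
    exact ro_flat1_bump g.x₂ (fun _ _ => ro_line_gap₂ g h) hj hq hν

/-- L-RO-K4.  `ro_bump_eq_one` twice. -/
theorem ro_core_chi_zero (c : RoCore) {q : ℕ} (hq : 0 < q) {x : ℤ × ℤ} (hx : x ∈ c.fat (2 * q)) : c.chi q x = 0 := by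
  rw [ro_mem_fat] at hx
  unfold RoCore.chi RoCore.bump roTen
  rw [ro_bump_eq_one hq (by omega) (by omega), ro_bump_eq_one hq (by omega) (by omega)]
  ring

/-- L-RO-K4.  `ro_bump_eq_zero_left/right`. -/
theorem ro_core_chi_one (c : RoCore) (h₁ : c.a₁ ≤ c.b₁) (h₂ : c.a₂ ≤ c.b₂) {q : ℕ} (hq : 0 < q) {x : ℤ × ℤ} (hx : x ∉ c.fat (4 * q)) :
    c.chi q x = 1 := by
  rw [ro_mem_fat] at hx
  unfold RoCore.chi RoCore.bump roTen
  by_cases c1 : x.1 ≤ c.a₁ - 4 * q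
  · rw [ro_bump_eq_zero_left h₁ hq c1]
    ring
  by_cases c2 : c.b₁ + 4 * q ≤ x.1 + 1
  · rw [ro_bump_eq_zero_right h₁ hq c2]
    ring
  by_cases c3 : x.2 ≤ c.a₂ - 4 * q
  · rw [ro_bump_eq_zero_left h₂ hq c3]
    ring
  by_cases c4 : c.b₂ + 4 * q ≤ x.2 + 1
  · rw [ro_bump_eq_zero_right h₂ hq c4]
    ring
  exfalso
  apply hx
  omega

/-- L-RO-K4.  `ro_bump_diff_ne` for the coordinate which changes, `ro_bump_eq_zero_left/right` (contrapositive) for the other one. -/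
theorem ro_core_zone (c : RoCore) (h₁ : c.a₁ ≤ c.b₁) (h₂ : c.a₂ ≤ c.b₂) {q : ℕ} (hq : 0 < q) (D : Finset (ℤ × ℤ)) :
    RoZone D (c.zone q) (c.chi q) := by
  rintro ⟨x, b⟩ _ hne
  have hz : ∀ (a b' : ℤ), a ≤ b' → ∀ t : ℤ, roBump a b' q t ≠ 0 → a - 4 * q < t ∧ t + 1 < b' + 4 * q := by
    intro a b' hab t ht
    constructor
    · by_contra hc
      exact ht (ro_bump_eq_zero_left hab hq (by omega))
    · by_contra hc
      exact ht (ro_bump_eq_zero_right hab hq (by omega))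
  unfold RoCore.zone
  rw [mem_sdiff, mem_sdiff, ro_mem_fat, ro_mem_fat, ro_mem_fat, ro_mem_fat]
  cases b with
  | true =>
    have e : C2.gd (c.chi q) (x, true) = -((roBump c.a₁ c.b₁ q (x.1 + 1) - roBump c.a₁ c.b₁ q x.1) * roBump c.a₂ c.b₂ q x.2) := by
      unfold C2.gd RoCore.chi RoCore.bump roTen Bond.snd
      simp only [if_true]
      ring
    rw [e, neg_ne_zero] at hne
    have n1 := sub_ne_zero.1 (left_ne_zero_of_mul hne)
    have n2 := hz _ _ h₂ _ (right_ne_zero_of_mul hne)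
    have n3 := ro_bump_diff_ne h₁ hq n1
    have es : Bond.snd (x, true) = (x.1 + 1, x.2) := by
      unfold Bond.snd
      simp
    rw [es]
    simp only
    omega
  | false =>
    have e : C2.gd (c.chi q) (x, false) = -(roBump c.a₁ c.b₁ q x.1 * (roBump c.a₂ c.b₂ q (x.2 + 1) - roBump c.a₂ c.b₂ q x.2)) := by
      unfold C2.gd RoCore.chi RoCore.bump roTen Bond.snd
      simp only [Bool.false_eq_true, if_false]
      ring
    rw [e, neg_ne_zero] at hne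
    have n1 := sub_ne_zero.1 (right_ne_zero_of_mul hne)
    have n2 := hz _ _ h₁ _ (left_ne_zero_of_mul hne)
    have n3 := ro_bump_diff_ne h₂ hq n1
    have es : Bond.snd (x, false) = (x.1, x.2 + 1) := by
      unfold Bond.snd
      simp
    rw [es]
    simp only
    omega

/-- L-RO-K4. -/
theorem ro_zone_disj (c : RoCore) {q q' : ℕ} (h : 2 * q ≤ q') : Disjoint (c.zone q) (c.zone q') := by
  rw [Finset.disjoint_left]
  intro x hx hx'
  unfold RoCore.zone at hx hx'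
  rw [mem_sdiff] at hx hx'
  exact hx'.2 (ro_fat_mono c (by omega) hx.1)

/-- L-RO-K4.  `Finset.card_product`, `Int.card_Ico`. -/
theorem ro_vtx_fat_card (g : DGrid m₁ m₂) (z : Fin (m₁ + 1) × Fin (m₂ + 1)) (r : ℕ) : (((roVtx g z).fat r).card : ℝ) = 4 * (r : ℝ) ^ 2 := by
  unfold RoCore.fat roVtx
  rw [card_product, Int.card_Ico, Int.card_Ico]
  have e1 : (g.x₁ z.1 + (r : ℤ) - (g.x₁ z.1 - (r : ℤ))).toNat = 2 * r := by omega
  have e2 : (g.x₂ z.2 + (r : ℤ) - (g.x₂ z.2 - (r : ℤ))).toNat = 2 * r := by omega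
  rw [e1, e2]
  push_cast
  ring

end

end Claimed.Agent.R285.Pot
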