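import Claimed.Agent.R285.Free.Defs
import Claimed.Agent.R285.Pot.RoBasic

/-!
# ROW 285, POT-REGOPT: VOCABULARY (design helper115, architect helper170).   No sorry.   Plan: header of `Pot/RegOpt.lean` and of `Pot/RoPlan.lean`.

Sections 0 (helper115, verbatim from `RegOpt.lean`) and 1 (helper170).
PROOF files `Pot/Ro*.lean` import THIS file (and sibling proof files), never `Pot/RegOpt.lean`.
-/

set_option autoImplicit false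

namespace Claimed.Agent.R285.Pot

open scoped Classical

noncomputable section

/-! ## 0. Vocabulary of the contract -/

/-- Dirichlet energy on the plain n.n. graph on `D` -/
def roDir (D : Finset (ℤ × ℤ)) (v : ℤ × ℤ → ℝ) : ℝ := ∑ e ∈ domBonds D ∅, C2.gd v e ^ 2

/-- the free Laplacian of the plain n.n. graph on `D` (`C2.Rc.lap R = roLap R.set`, by `rfl`) -/
def roLap (D : Finset (ℤ × ℤ)) (v : ℤ × ℤ → ℝ) (x : ℤ × ℤ) : ℝ :=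
  ∑ e ∈ domBonds D ∅, C2.gd v e * ((if e.snd = x then 1 else 0) - (if e.1 = x then 1 else 0))

/-- `∑_S (v - mean_S v)²` -/
def roVar (S : Finset (ℤ × ℤ)) (v : ℤ × ℤ → ℝ) : ℝ := ∑ x ∈ S, (v x - (∑ y ∈ S, v y) / S.card) ^ 2

/-- two cells share a face -/
def roAdj {m₁ m₂ : ℕ} (κ κ' : Fin m₁ × Fin m₂) : Prop :=
  (κ.1.1 + 1 = κ'.1.1 ∧ κ.2 = κ'.2) ∨ (κ'.1.1 + 1 = κ.1.1 ∧ κ.2 = κ'.2) ∨ (κ.1 = κ'.1 ∧ κ.2.1 + 1 = κ'.2.1) ∨ (κ.1 = κ'.1 ∧ κ'.2.1 + 1 = κ.2.1)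

/-- face-connected -/
def roConn {m₁ m₂ : ℕ} (U : Finset (Fin m₁ × Fin m₂)) : Prop :=
  ∀ κ ∈ U, ∀ κ' ∈ U, Relation.ReflTransGen (fun a b => a ∈ U ∧ b ∈ U ∧ roAdj a b) κ κ'

/-- a connected Lipschitz polygon made of cells: face-connected, no opposite-only contact at a vertex -/
structure Poly {m₁ m₂ : ℕ} (U : Finset (Fin m₁ × Fin m₂)) : Prop where
  conn : roConn U
  loc : ∀ (i i' : Fin m₁) (j j' : Fin m₂), i.1 + 1 = i'.1 → j.1 + 1 = j'.1 →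
    ((i, j) ∈ U → (i', j') ∈ U → (i', j) ∈ U ∨ (i, j') ∈ U) ∧ ((i', j) ∈ U → (i, j') ∈ U → (i, j) ∈ U ∨ (i', j') ∈ U)

/-- the enclosing rectangle of a grid -/
def roRc {m₁ m₂ : ℕ} (g : DGrid m₁ m₂) : C2.Rc :=
  ⟨(g.x₁ 0, g.x₂ 0), (g.x₁ (Fin.last m₁) - g.x₁ 0).toNat, (g.x₂ (Fin.last m₂) - g.x₂ 0).toNat⟩

/-- the `ℓ^∞` ball of radius `r` around the grid vertex `z` (the vertex sits between the sites `X - 1` and `X`) -/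
def roBall {m₁ m₂ : ℕ} (g : DGrid m₁ m₂) (z : Fin (m₁ + 1) × Fin (m₂ + 1)) (r : ℤ) : Set (ℤ × ℤ) :=
  {x | g.x₁ z.1 - r ≤ x.1 ∧ x.1 < g.x₁ z.1 + r ∧ g.x₂ z.2 - r ≤ x.2 ∧ x.2 < g.x₂ z.2 + r}

/-- `x` lies within `ℓ^∞` distance `r` of the set `S` -/
def roNear (S : Finset (ℤ × ℤ)) (r : ℝ) (x : ℤ × ℤ) : Prop :=
  ∃ y ∈ S, |((x.1 - y.1 : ℤ) : ℝ)| ≤ r ∧ |((x.2 - y.2 : ℤ) : ℝ)| ≤ r

/-- equal values at the two ends of every bond which leaves a cell -/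
def GridFlat {m₁ m₂ : ℕ} (g : DGrid m₁ m₂) (χ : ℤ × ℤ → ℝ) : Prop :=
  ∀ (κ : Fin m₁ × Fin m₂) (e : Bond), (e.1 ∈ g.cell κ ∧ e.snd ∉ g.cell κ) ∨ (e.1 ∉ g.cell κ ∧ e.snd ∈ g.cell κ) → χ e.1 = χ e.snd

/-- the component of a cell -/
def roComp {m₁ m₂ : ℕ} (Γ : CGeom m₁ m₂) (κ₀ : Fin m₁ × Fin m₂) : Finset (Fin m₁ × Fin m₂) :=
  Finset.univ.filter fun κ => Γ.Conn κ₀ κ

/-- the full lattice Laplacian -/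
def roLap4 (χ : ℤ × ℤ → ℝ) (x : ℤ × ℤ) : ℝ :=
  4 * χ x - χ (x.1 + 1, x.2) - χ (x.1 - 1, x.2) - χ (x.1, x.2 + 1) - χ (x.1, x.2 - 1)

/-! ## 1. Vocabulary of the proof -/

/-- the four neighbours -/
def roNb (x : ℤ × ℤ) : Finset (ℤ × ℤ) := {(x.1 + 1, x.2), (x.1 - 1, x.2), (x.1, x.2 + 1), (x.1, x.2 - 1)}

/-- `∑_{x ∈ W} (A_D u)²` -/
def roL (D W : Finset (ℤ × ℤ)) (u : ℤ × ℤ → ℝ) : ℝ := ∑ x ∈ W, roLap D u x ^ 2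

/-- `∑_{x ∈ S} u²` -/
def roSq (S : Finset (ℤ × ℤ)) (u : ℤ × ℤ → ℝ) : ℝ := ∑ x ∈ S, u x ^ 2

/-- the scale-free triple `q² ∑_D (A_D u)² + E_D u + q⁻² ∑_D u²` -/
def roT (q : ℕ) (D : Finset (ℤ × ℤ)) (u : ℤ × ℤ → ℝ) : ℝ :=
  (q : ℝ) ^ 2 * roL D D u + roDir D u + roSq D u / (q : ℝ) ^ 2

/-- a 1D profile at scale `q` -/
structure RoProf (q : ℕ) (β : ℤ → ℝ) : Prop where
  mem : ∀ t, 0 ≤ β t ∧ β t ≤ 1
  d1 : ∀ t, |β (t + 1) - β t| ≤ 1 / (q : ℝ)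
  d2 : ∀ t, |β (t + 1) - 2 * β t + β (t - 1)| ≤ 2 / (q : ℝ) ^ 2

/-- a 1D function which is flat across all the lines `X k` (the line sits between the sites `X k - 1` and `X k`) -/
def roFlat1 {m : ℕ} (X : Fin (m + 1) → ℤ) (β : ℤ → ℝ) : Prop := ∀ k, β (X k - 1) = β (X k)

/-- tensor product -/
def roTen (β₁ β₂ : ℤ → ℝ) (x : ℤ × ℤ) : ℝ := β₁ x.1 * β₂ x.2

/-- a cut-off at scale `q` on the plain graph `D` -/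
structure RoCut (q : ℕ) (D : Finset (ℤ × ℤ)) (χ : ℤ × ℤ → ℝ) : Prop where
  mem : ∀ x, 0 ≤ χ x ∧ χ x ≤ 1
  d1 : ∀ e : Bond, |C2.gd χ e| ≤ 1 / (q : ℝ)
  d2 : ∀ x ∈ D, |roLap D χ x| ≤ 4 / (q : ℝ) ^ 2

/-- the gradient of `χ` on the bonds of `D` is carried by the bonds inside `S` -/
def RoZone (D S : Finset (ℤ × ℤ)) (χ : ℤ × ℤ → ℝ) : Prop := ∀ e ∈ domBonds D ∅, C2.gd χ e ≠ 0 → e.1 ∈ S ∧ e.snd ∈ S

/-- a core box `[a₁,b₁) × [a₂,b₂)` (a grid vertex: `a = b`; a cell) -/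
structure RoCore where
  a₁ : ℤ
  b₁ : ℤ
  a₂ : ℤ
  b₂ : ℤ

namespace RoCore

variable (c : RoCore)

/-- the `r`-neighbourhood (`ℓ^∞`) of the core -/
def fat (r : ℤ) : Finset (ℤ × ℤ) := Finset.Ico (c.a₁ - r) (c.b₁ + r) ×ˢ Finset.Ico (c.a₂ - r) (c.b₂ + r)

/-- the transition zone at scale `q` -/
def zone (q : ℕ) : Finset (ℤ × ℤ) := c.fat (4 * q) \ c.fat (2 * q)

/-- `1` on `fat (2q)`, `0` off `fat (4q)` -/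
def bump (q : ℕ) : ℤ × ℤ → ℝ := roTen (roBump c.a₁ c.b₁ q) (roBump c.a₂ c.b₂ q)

/-- `0` on `fat (2q)`, `1` off `fat (4q)` -/
def chi (q : ℕ) (x : ℤ × ℤ) : ℝ := 1 - c.bump q x

/-- the corners of the core lie on grid lines -/
def OnGrid {m₁ m₂ : ℕ} (g : DGrid m₁ m₂) : Prop :=
  (∃ i i' : Fin (m₁ + 1), i ≤ i' ∧ c.a₁ = g.x₁ i ∧ c.b₁ = g.x₁ i') ∧ ∃ j j' : Fin (m₂ + 1), j ≤ j' ∧ c.a₂ = g.x₂ j ∧ c.b₂ = g.x₂ j'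

end RoCore

/-- the core of a grid vertex -/
def roVtx {m₁ m₂ : ℕ} (g : DGrid m₁ m₂) (z : Fin (m₁ + 1) × Fin (m₂ + 1)) : RoCore := ⟨g.x₁ z.1, g.x₁ z.1, g.x₂ z.2, g.x₂ z.2⟩

/-- the core of a cell -/
def roCel {m₁ m₂ : ℕ} (g : DGrid m₁ m₂) (κ : Fin m₁ × Fin m₂) : RoCore :=
  ⟨g.x₁ κ.1.castSucc, g.x₁ κ.1.succ, g.x₂ κ.2.castSucc, g.x₂ κ.2.succ⟩

/-- the modification `k + χ (u - k)` -/
def roMod (χ : ℤ × ℤ → ℝ) (k : ℝ) (u : ℤ × ℤ → ℝ) (x : ℤ × ℤ) : ℝ := k + χ x * (u x - k)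

/-- `x` and `y` lie on the same side of every grid line -/
def roSame {m₁ m₂ : ℕ} (g : DGrid m₁ m₂) (x y : ℤ × ℤ) : Prop :=
  (∀ k, g.x₁ k ≤ x.1 ↔ g.x₁ k ≤ y.1) ∧ ∀ k, g.x₂ k ≤ x.2 ↔ g.x₂ k ≤ y.2

/-- `u` is flat at all grid vertices at radius `r`, and vanishes near the vertices which touch `P` -/
def RoFlatAt {m₁ m₂ : ℕ} (g : DGrid m₁ m₂) (D P : Finset (ℤ × ℤ)) (Z : Finset (Fin (m₁ + 1) × Fin (m₂ + 1))) (r : ℤ)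
    (u : ℤ × ℤ → ℝ) : Prop :=
  ∀ z ∈ Z, ∃ k : ℝ, (∀ x ∈ D, x ∈ (roVtx g z).fat r → u x = k) ∧ ((∃ y ∈ P, y ∈ (roVtx g z).fat 1) → k = 0)

end

end Claimed.Agent.R285.Pot
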