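import Claimed.Agent.R285.Pot.StripPin

/-!
# ROW 285, POT-STRIP : CHART VERSIONS OF THE EXPORTS      (owner helper53).   No sorry in this file.

The graph is `domG D cut`; a CHART is a geometry `Γ` with a grid `g` such that `D = g.region Γ.T` and `cut = Γ.cutB g` (equalities of a finset and of a set: e.g. all refinements of one geometry: `Sec.region_fine`, `Sec.crossB_fineF`).
One graph has many charts, the laws never move.   `psSitesD g A` = the vertices in the cells of `A`, `psSoftD b w` = the rows `w i · avg_{b i}`;  in the chart `(Γ, g)` itself they are `Γ.sites g A`, `psSoft Γ g b w` (`rfl`).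
Every theorem is the theorem of the same name without `_chart`, by `subst`.
-/

set_option autoImplicit false

namespace Claimed.Agent.R285.Pot

open MeasureTheory
open scoped Classical

noncomputable section

variable {m₁ m₂ : ℕ}

/-- `(Γ, g)` is a chart of `(D, cut)` -/
structure PsChart (D : Finset (ℤ × ℤ)) (cut : Set Bond) (Γ : CGeom m₁ m₂) (g : DGrid m₁ m₂) : Prop where
  dom : D = g.region Γ.T
  cut_eq : cut = Γ.cutB g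

theorem psChart_self (Γ : CGeom m₁ m₂) (g : DGrid m₁ m₂) : PsChart (g.region Γ.T) (Γ.cutB g) Γ g := ⟨rfl, rfl⟩

/-- the vertices in the cells of `A` -/
def psSitesD {D : Finset (ℤ × ℤ)} {cut : Set Bond} (g : DGrid m₁ m₂) (A : Finset (Fin m₁ × Fin m₂)) : Set (domG D cut).V :=
  domSet (D := D) (cut := cut) (↑(g.region A) : Set (ℤ × ℤ))

/-- the rows `w i · (average over the box b i)` -/
def psSoftD {D : Finset (ℤ × ℤ)} {cut : Set Bond} {ι : Type} (b : ι → PsBox) (w : ι → ℝ) : ι → (domG D cut).V → ℝ :=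
  fun i x => w i * psAvg (b i).set (domPos x)

theorem ps_chart_eqns_cite : True := by
  have := @psSitesD.eq_1; have := @psSoftD.eq_1; trivial

variable {D : Finset (ℤ × ℤ)} {cut : Set Bond}

/-- POT-D -/
theorem ps_band_cov_chart {Γ : CGeom m₁ m₂} {g : DGrid m₁ m₂} (hc : PsChart D cut Γ g) {In Kb Out : Finset (Fin m₁ × Fin m₂)} (hL : PsLay Γ In Kb Out)
    {ν : ℕ} (h3 : 3 ≤ ν) (hg : g.SideGe ν) (H : HLaw (domG D cut))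
    (hH : ∀ o, (∀ x, H.B o x ≠ 0 → x ∈ psSitesD g In) ∨ ∀ x, H.B o x ≠ 0 → x ∈ psSitesD g Out) {a : ℝ} (ha : 0 < a)
    {ι : Type} [Fintype ι] (b : ι → PsBox) (w : ι → ℝ) (s : ℕ) (hb : psIsPart g Kb s b) {lam Lam : ℝ} (hl : 0 < lam) (hL0 : 0 ≤ Lam)
    (hw : ∀ i, lam * (b i).set.card ≤ w i ^ 2 * (ν : ℝ) ^ 2 ∧ w i ^ 2 * (ν : ℝ) ^ 2 ≤ Lam * (b i).set.card)
    (P : Set (domG D cut).V) {f f' : (domG D cut).V → ℝ} (hf : plAdm (plPin (psAdd H (psSoftD b w)) P) f)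
    (hf' : plAdm (plPin (psAdd H (psSoftD b w)) P) f') (hfs : ∀ x, f x ≠ 0 → x ∈ psSitesD g In) (hfs' : ∀ x, f' x ≠ 0 → x ∈ psSitesD g Out) :
    |plCov (plPin (psAdd H (psSoftD b w)) P) a f f'|
      ≤ 2 * ((18 / a + 18 * Lam * (s : ℝ) ^ 2 / (ν : ℝ) ^ 2) * (2 / lam + 2 * a * (s : ℝ) ^ 2 / (ν : ℝ) ^ 2))
        * ((plPin (psAdd H (psSoftD b w)) P).gVar a f + (plPin (psAdd H (psSoftD b w)) P).gVar a f') := by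
  obtain ⟨rfl, rfl⟩ := hc
  exact ps_band_cov Γ g hL h3 hg H hH ha b w s hb hl hL0 hw P hf hf' hfs hfs'

/-- P3 / POT-F -/
theorem ps_band_pin_chart (m₁ m₂ K N : ℕ) {a : ℝ} (ha : 0 < a) (CB M : ℝ) {ε : ℝ} (hε : 0 < ε) :
    ∃ lam₀ : ℝ, 0 < lam₀ ∧ ∀ lam : ℝ, lam₀ ≤ lam → ∃ σ : ℝ, 0 < σ ∧ ∀ (D : Finset (ℤ × ℤ)) (cut : Set Bond) (Γ : CGeom m₁ m₂) (g : DGrid m₁ m₂),
    PsChart D cut Γ g → ∀ ν : ℕ, 3 ≤ ν → g.SideGe ν → g.SideLe (K * ν) →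
    ∀ In Kb Out : Finset (Fin m₁ × Fin m₂), PsLay Γ In Kb Out → ∀ H : HLaw (domG D cut), Fintype.card H.O ≤ N →
    (∀ o, (∀ x, H.B o x ≠ 0 → x ∈ psSitesD g In) ∨ ∀ x, H.B o x ≠ 0 → x ∈ psSitesD g Out) → ∑ o, ∑ x, H.B o x ^ 2 ≤ CB / (ν : ℝ) ^ 2 →
    ∀ (ι : Type) [Fintype ι] (b : ι → PsBox) (w : ι → ℝ) (s : ℕ), psIsPart g Kb s b → (s : ℝ) ≤ σ * ν →
    (∀ i, lam * (b i).set.card ≤ w i ^ 2 * (ν : ℝ) ^ 2 ∧ w i ^ 2 * (ν : ℝ) ^ 2 ≤ M * lam * (b i).set.card) →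
    ∀ P A p : Set (domG D cut).V, plPD (psAdd H (psSoftD b w)) P → p ⊆ psSitesD g In →
    (∀ x ∈ A, x ∈ psSitesD g Out ∧ x ∉ psSitesD g (Kb ∪ psShell Γ Kb)) →
    (∀ (n : ℕ) (u : Fin n → (domG D cut).V → ℝ), psON (psAdd H (psSoftD b w)) a P (P ∪ A) u →
      ∑ j, plGap (psAdd H (psSoftD b w)) a (P ∪ A) p (u j) ≤ ε) ∧ (psAdd H (psSoftD b w)).gPin a P A p ≤ ε := by
  obtain ⟨lam₀, h0, h⟩ := ps_band_pin m₁ m₂ K N ha CB M hε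
  refine ⟨lam₀, h0, fun lam hlam => ?_⟩
  obtain ⟨σ, hσ, h'⟩ := h lam hlam
  refine ⟨σ, hσ, ?_⟩
  rintro D cut Γ g ⟨rfl, rfl⟩
  exact h' Γ g

/-- P4 / P6 -/
theorem ps_pin_bdd_chart {Γ : CGeom m₁ m₂} {g : DGrid m₁ m₂} (hc : PsChart D cut Γ g) {In Kb Out : Finset (Fin m₁ × Fin m₂)} (hL : PsLay Γ In Kb Out)
    {ν K : ℕ} (h3 : 3 ≤ ν) (hg : g.SideGe ν) (hK : g.SideLe (K * ν))
    (H : HLaw (domG D cut)) {CB : ℝ} (hCB : ∑ o, ∑ x, H.B o x ^ 2 ≤ CB / (ν : ℝ) ^ 2) {a : ℝ} (ha : 0 < a) {P A p : Set (domG D cut).V} {Cc : ℝ} (hCc : 0 ≤ Cc)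
    (hco : ∀ v : (domG D cut).V → ℝ, (∀ x ∈ P, v x = 0) → ∑ x, v x ^ 2 ≤ Cc * (ν : ℝ) ^ 2 * H.form a v)
    (hp : p ⊆ psSitesD g In) (hA : ∀ x ∈ A, x ∈ psSitesD g Out ∧ x ∉ psSitesD g (Kb ∪ psShell Γ Kb))
    {n : ℕ} {u : Fin n → (domG D cut).V → ℝ} (hu : psON H a P (P ∪ A) u) :
    ∑ j, plGap H a (P ∪ A) p (u j)
      ≤ 18 / a * ((((Kb ∪ psShell Γ Kb).card + Fintype.card H.O : ℕ) : ℝ) * (4 / 3 * Cc + 16 / 3 * (4 * (K : ℝ) ^ 4 * a * (18 + a * CB)))) + 2 * Cc * CB := by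
  obtain ⟨rfl, rfl⟩ := hc
  exact ps_pin_bdd Γ g hL h3 hg hK H hCB ha hCc hco hp hA hu

/-- P2 -/
theorem ps_probe_pin_chart {m₁ m₂ : ℕ} (Γ : CGeom m₁ m₂) (hΓ : Γ.NoDiag) (K N : ℕ) {a : ℝ} (ha : 0 < a) (CB Cc : ℝ) {ε : ℝ} (hε : 0 < ε) :
    ∃ lam σ : ℝ, 0 < lam ∧ 0 < σ ∧ ∀ (D : Finset (ℤ × ℤ)) (cut : Set Bond) (g : DGrid m₁ m₂), PsChart D cut Γ g → ∀ ν : ℕ, 3 ≤ ν → g.SideGe ν →
    g.SideLe (K * ν) → ∀ H : HLaw (domG D cut), Fintype.card H.O ≤ N →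
    (∀ x, ∑ o, H.B o x ^ 2 ≤ CB / (ν : ℝ) ^ 4) → ∀ In Kb Out : Finset (Fin m₁ × Fin m₂), PsLay Γ In Kb Out →
    ∀ A : Finset (Fin m₁ × Fin m₂), A ⊆ Γ.T → A ⊆ Out → Disjoint A (Kb ∪ psShell Γ Kb) → ∀ P p : Set (domG D cut).V, p ⊆ psSitesD g In →
    (∀ v : (domG D cut).V → ℝ, (∀ x ∈ P, v x = 0) → ∑ x, v x ^ 2 ≤ Cc * (ν : ℝ) ^ 2 * H.form a v) →
    ∀ (ι : Type) [Fintype ι] (b : ι → PsBox) (w : ι → ℝ) (s : ℕ), psIsPart g A s b → (s : ℝ) ≤ σ * ν →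
    (∀ i, lam * (b i).set.card ≤ w i ^ 2 * (ν : ℝ) ^ 2) →
    (∀ (n : ℕ) (u : Fin n → (domG D cut).V → ℝ), psON (psAdd H (psSoftD b w)) a P (P ∪ psSitesD g A) u →
      ∑ j, plGap (psAdd H (psSoftD b w)) a (P ∪ psSitesD g A) p (u j) ≤ ε) ∧ (psAdd H (psSoftD b w)).gPin a P (psSitesD g A) p ≤ ε := by
  obtain ⟨lam, σ, h1, h2, h⟩ := ps_probe_pin Γ hΓ K N ha CB Cc hε
  refine ⟨lam, σ, h1, h2, ?_⟩
  rintro D cut g ⟨rfl, rfl⟩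
  exact h g

/-- E2 (with `δ = 0`: the hard pin on `A` itself) -/
theorem ps_soft_hard_chart {m₁ m₂ : ℕ} (Γ : CGeom m₁ m₂) (hΓ : Γ.NoDiag) (K : ℕ) {a : ℝ} (ha : 0 < a) (CB : ℝ) {ε : ℝ} (hε : 0 < ε) :
    ∃ lam σ : ℝ, 0 < lam ∧ 0 < σ ∧ ∀ (D : Finset (ℤ × ℤ)) (cut : Set Bond) (g : DGrid m₁ m₂), PsChart D cut Γ g → ∀ ν : ℕ, g.SideGe ν → g.SideLe (K * ν) →
    ∀ H : HLaw (domG D cut), (∀ x, ∑ o, H.B o x ^ 2 ≤ CB / (ν : ℝ) ^ 4) → ∀ A : Finset (Fin m₁ × Fin m₂), A ⊆ Γ.T → ∀ P : Set (domG D cut).V,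
    ∀ (ι : Type) [Fintype ι] (b : ι → PsBox) (w : ι → ℝ) (s : ℕ), psIsPart g A s b → (s : ℝ) ≤ σ * ν →
    (∀ i, lam * (b i).set.card ≤ w i ^ 2 * (ν : ℝ) ^ 2) →
    ∀ (f : (domG D cut).V → ℝ) (Cf : ℝ), plAdm (plPin (psAdd H (psSoftD b w)) P) f → (∀ x, |f x| ≤ Cf / (ν : ℝ) ^ 2) →
    psGap (psAdd H (psSoftD b w)) a P (psSitesD g A) f ≤ ε * ((plPin (psAdd H (psSoftD b w)) P).gVar a f + Cf ^ 2) := by
  obtain ⟨η, hη, lam, σ, h1, h2, h⟩ := ps_soft_hard Γ hΓ K ha CB hε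
  refine ⟨lam, σ, h1, h2, ?_⟩
  rintro D cut g ⟨rfl, rfl⟩ ν hg hK H hB A hA P ι _ b w s hb hs hw f Cf hf hCf
  have h0 := h g ν hg hK H hB A hA P ι b w s hb hs hw f Cf hf hCf 0 (by
    have : (0 : ℝ) ≤ η * ν := by positivity
    simpa using this)
  have hsub : ∀ i x, psSoft Γ g b w i x ≠ 0 → x ∈ P ∪ Γ.sites g A := by
    intro i x hx
    right
    obtain ⟨κ, hκ, hbk⟩ := hb.1 i
    have hx' : domPos (D := g.region Γ.T) (cut := Γ.cutB g) x ∈ (b i).set := by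
      by_contra hn
      exact hx (by simp [psSoft, psAvg, hn])
    exact Finset.mem_coe.2 (Finset.mem_biUnion.2 ⟨κ, hκ, hbk hx'⟩)
  have hcol : Γ.sites g A ⊆ psCollar Γ g A 0 := by
    intro x hx
    exact (ps_collar_iff Γ g A (Nat.zero_le 0) x).2 (le_of_eq ((ps_dist_eq_zero Γ g A hA 0 x).2 hx))
  have e1 : (plPin (psAdd H (psSoft Γ g b w)) (P ∪ Γ.sites g A)).gVar a f = (plPin H (P ∪ Γ.sites g A)).gVar a f :=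
    ps_add_pin_gVar H _ a _ hsub f
  have hadm : plAdm (plPin H (P ∪ Γ.sites g A)) f := by
    intro v hv hg0 ho0
    refine ps_adm_mono (psAdd H (psSoft Γ g b w)) (Set.subset_union_left (t := Γ.sites g A)) hf v hv hg0 ?_
    intro o
    rcases o with o | i
    · exact ho0 o
    · have hv0 := (ps_mem_rspan_pin H _ v).1 hv
      show ∑ x, psSoft Γ g b w i x * v x = 0
      refine Finset.sum_eq_zero fun x _ => ?_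
      by_cases hx : psSoft Γ g b w i x = 0
      · rw [hx, zero_mul]
      · rw [hv0 x (hsub i x hx), mul_zero]
  have e2 : (plPin H (P ∪ psCollar Γ g A 0)).gVar a f ≤ (plPin H (P ∪ Γ.sites g A)).gVar a f :=
    ps_gVar_mono H ha (Set.union_subset_union_right P hcol) hadm
  show (plPin (psAdd H (psSoft Γ g b w)) P).gVar a f - (plPin (psAdd H (psSoft Γ g b w)) (P ∪ Γ.sites g A)).gVar a f ≤ _
  rw [e1]
  exact le_trans (sub_le_sub_left e2 _) h0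

/-- P5 -/
theorem ps_coer_chart (K : ℕ) {a : ℝ} (ha : 0 < a) {c₀ : ℝ} (hc0 : 0 ≤ c₀) : ∃ C : ℝ, 0 ≤ C ∧ ∀ (m₁ m₂ : ℕ) (D : Finset (ℤ × ℤ)) (cut : Set Bond) (Γ : CGeom m₁ m₂)
    (g : DGrid m₁ m₂), PsChart D cut Γ g → ∀ ν : ℕ, 1 ≤ ν → g.SideGe ν → g.SideLe (K * ν) → ∀ (H : HLaw (domG D cut)) (r : H.O → Fin m₁ × Fin m₂ → ℝ),
    (∀ o x, H.B o x = ∑ κ, r o κ * (if x ∈ psSitesD g {κ} then ((g.region ({κ} ∩ Γ.T)).card : ℝ)⁻¹ else 0)) →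
    ∀ Pn : Finset (Fin m₁ × Fin m₂), (∀ m : Fin m₁ × Fin m₂ → ℝ, (∀ κ ∈ Pn, m κ = 0) →
      ∑ κ ∈ Γ.T, m κ ^ 2 ≤ c₀ * (∑ κ ∈ Γ.T, ∑ κ' ∈ Γ.T, (if Γ.Adj κ κ' then (m κ - m κ') ^ 2 else 0) + ∑ o, (∑ κ ∈ Γ.T, r o κ * m κ) ^ 2)) →
    ∀ v : (domG D cut).V → ℝ, (∀ x ∈ psSitesD g Pn, v x = 0) → ∑ x, v x ^ 2 ≤ C * (ν : ℝ) ^ 2 * H.form a v := by
  obtain ⟨C, hC, h⟩ := ps_coer K ha hc0
  refine ⟨C, hC, ?_⟩
  rintro m₁ m₂ D cut Γ g ⟨rfl, rfl⟩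
  exact h m₁ m₂ Γ g

end

end Claimed.Agent.R285.Pot
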