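import Claimed.Agent.R285.Pot.RoDefs
import Claimed.Agent.R285.Pot.LinPin

/-!
# ROW 285, POT: logarithmic cut-off in the sup norm and the PRIOR VARIANCE lower bound   (= POT-C of `Pins/Plan.lean` s9; helper115).   Paper-free.

`ro_logcut`: `φ x = F(|x - o|_∞)`, `F r = H⁻¹ ∑_{max r r₁ ≤ k < r₂} 1/(k+1)`, `H = ∑_{r₁ ≤ k < r₂} 1/(k+1) ≥ log((r₂+1)/(r₁+1))`.
A bond with nonzero gradient joins the shells `r` and `r+1`, `r₁ ≤ r < r₂`, its gradient is `±1/((r+1)H)`, and it is determined by its endpoint in the shell `r+1` (a site of the shell `r+1` has AT MOST ONE neighbour in the shell `r`);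
the shell `r+1` has `8(r+1)` sites.  So the energy on ANY finite `D` is `≤ ∑_r 8(r+1)/((r+1)H)² = 8/H`.
`pot_prior_var`: trial field `t φ`; cut bonds, walls and the restriction to `D` only lower the energy; the rows do not see `φ`.
-/

set_option autoImplicit false

namespace Claimed.Agent.R285.Pot

open scoped Classical

noncomputable section

/-- sup-norm distance in `ℤ²` -/
def roDist (x o : ℤ × ℤ) : ℤ := max |x.1 - o.1| |x.2 - o.2|

/-- the same as a natural number -/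
def roN (o x : ℤ × ℤ) : ℕ := (roDist x o).toNat

def lcH (r₁ r₂ : ℕ) : ℝ := ∑ k ∈ Finset.Ico r₁ r₂, 1 / ((k : ℝ) + 1)

def lcF (r₁ r₂ r : ℕ) : ℝ := (∑ k ∈ Finset.Ico (max r r₁) r₂, 1 / ((k : ℝ) + 1)) / lcH r₁ r₂

def lcG (r₁ r₂ n : ℕ) : ℝ := if r₁ < n ∧ n ≤ r₂ then (1 / ((n : ℝ) * lcH r₁ r₂)) ^ 2 else 0

def lcBox (o : ℤ × ℤ) (n : ℕ) : Finset (ℤ × ℤ) := Finset.Icc (o.1 - n) (o.1 + n) ×ˢ Finset.Icc (o.2 - n) (o.2 + n)

def lcOut (o : ℤ × ℤ) (e : Bond) : ℤ × ℤ := if roN o e.1 < roN o e.snd then e.snd else e.1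

theorem lc_term_pos (k : ℕ) : 0 < 1 / ((k : ℝ) + 1) := by positivity

theorem lcH_pos {r₁ r₂ : ℕ} (h : r₁ < r₂) : 0 < lcH r₁ r₂ :=
  Finset.sum_pos (fun k _ => lc_term_pos k) ⟨r₁, Finset.mem_Ico.2 ⟨le_rfl, h⟩⟩

theorem lcF_mem {r₁ r₂ : ℕ} (h : r₁ < r₂) (r : ℕ) : 0 ≤ lcF r₁ r₂ r ∧ lcF r₁ r₂ r ≤ 1 := by
  have hH := lcH_pos h
  constructor
  · exact div_nonneg (Finset.sum_nonneg fun k _ => (lc_term_pos k).le) hH.le
  · rw [lcF, div_le_one hH]
    apply Finset.sum_le_sum_of_subset_of_nonneg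
    · intro k hk
      rw [Finset.mem_Ico] at hk ⊢
      exact ⟨le_trans (le_max_right _ _) hk.1, hk.2⟩
    · intro k _ _
      exact (lc_term_pos k).le

theorem lcF_one {r₁ r₂ : ℕ} (h : r₁ < r₂) {r : ℕ} (hr : r ≤ r₁) : lcF r₁ r₂ r = 1 := by
  rw [lcF, max_eq_right hr]
  exact div_self (lcH_pos h).ne'

theorem lcF_zero {r₁ r₂ r : ℕ} (hr : r₂ ≤ r) : lcF r₁ r₂ r = 0 := by
  rw [lcF, Finset.Ico_eq_empty_of_le (le_trans hr (le_max_left _ _))]
  simp

theorem lcF_step (r₁ r₂ r : ℕ) :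
    lcF r₁ r₂ r - lcF r₁ r₂ (r + 1) = if r₁ ≤ r ∧ r < r₂ then 1 / (((r : ℝ) + 1) * lcH r₁ r₂) else 0 := by
  by_cases h1 : r₁ ≤ r
  · by_cases h2 : r < r₂
    · rw [if_pos ⟨h1, h2⟩, lcF, lcF, max_eq_left h1, max_eq_left (by omega : r₁ ≤ r + 1), Finset.sum_eq_sum_Ico_succ_bot h2]
      rw [← sub_div, add_sub_cancel_right, div_div]
    · rw [if_neg (fun h => h2 h.2), lcF_zero (by omega), lcF_zero (by omega), sub_zero]
  · rw [if_neg (fun h => h1 h.1), lcF, lcF, max_eq_right (by omega), max_eq_right (by omega), sub_self]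

theorem lcG_nonneg (r₁ r₂ n : ℕ) : 0 ≤ lcG r₁ r₂ n := by
  unfold lcG
  split_ifs
  · positivity
  · exact le_rfl

theorem lc_bond_cases (o : ℤ × ℤ) (e : Bond) :
    roN o e.snd = roN o e.1 ∨ roN o e.snd = roN o e.1 + 1 ∨ roN o e.1 = roN o e.snd + 1 := by
  obtain ⟨⟨i, j⟩, d⟩ := e
  cases d <;> simp only [roN, roDist, Bond.snd, abs_eq_max_neg] <;> simp <;> omega

theorem lc_bond_sq (r₁ r₂ : ℕ) (o : ℤ × ℤ) (e : Bond) :
    (lcF r₁ r₂ (roN o e.snd) - lcF r₁ r₂ (roN o e.1)) ^ 2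
      = if roN o e.1 ≠ roN o e.snd then lcG r₁ r₂ (roN o (lcOut o e)) else 0 := by
  rcases lc_bond_cases o e with h | h | h
  · rw [h, sub_self, if_neg (by simp)]
    simp
  · have h1 : roN o e.1 ≠ roN o e.snd := by omega
    have h2 : roN o e.1 < roN o e.snd := by omega
    rw [if_pos h1, lcOut, if_pos h2, h, ← neg_sub, neg_sq, lcF_step, lcG]
    by_cases hc : r₁ ≤ roN o e.1 ∧ roN o e.1 < r₂
    · rw [if_pos hc, if_pos ⟨by omega, by omega⟩]
      push_cast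
      ring
    · rw [if_neg hc, if_neg (by omega)]
      simp
  · have h1 : roN o e.1 ≠ roN o e.snd := by omega
    have h2 : ¬ roN o e.1 < roN o e.snd := by omega
    rw [if_pos h1, lcOut, if_neg h2, h, lcF_step, lcG]
    by_cases hc : r₁ ≤ roN o e.snd ∧ roN o e.snd < r₂
    · rw [if_pos hc, if_pos ⟨by omega, by omega⟩]
      push_cast
      ring
    · rw [if_neg hc, if_neg (by omega)]
      simp

theorem lc_out_h (o₁ o₂ i j : ℤ) (h : roN (o₁, o₂) (i, j) ≠ roN (o₁, o₂) (i + 1, j)) :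
    (lcOut (o₁, o₂) ((i, j), true) = (i + 1, j) ∧ j - o₂ < i + 1 - o₁ ∧ -(j - o₂) < i + 1 - o₁) ∨
    (lcOut (o₁, o₂) ((i, j), true) = (i, j) ∧ j - o₂ < -(i - o₁) ∧ -(j - o₂) < -(i - o₁)) := by
  have hs : Bond.snd ((i, j), true) = (i + 1, j) := by simp [Bond.snd]
  unfold lcOut
  rw [hs]
  by_cases hc : roN (o₁, o₂) (i, j) < roN (o₁, o₂) (i + 1, j)
  · left
    refine ⟨if_pos hc, ?_, ?_⟩ <;> (simp only [roN, roDist, abs_eq_max_neg] at h hc; omega)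
  · right
    refine ⟨if_neg hc, ?_, ?_⟩ <;> (simp only [roN, roDist, abs_eq_max_neg] at h hc; omega)

theorem lc_out_v (o₁ o₂ i j : ℤ) (h : roN (o₁, o₂) (i, j) ≠ roN (o₁, o₂) (i, j + 1)) :
    (lcOut (o₁, o₂) ((i, j), false) = (i, j + 1) ∧ i - o₁ < j + 1 - o₂ ∧ -(i - o₁) < j + 1 - o₂) ∨
    (lcOut (o₁, o₂) ((i, j), false) = (i, j) ∧ i - o₁ < -(j - o₂) ∧ -(i - o₁) < -(j - o₂)) := by
  have hs : Bond.snd ((i, j), false) = (i, j + 1) := by simp [Bond.snd]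
  unfold lcOut
  rw [hs]
  by_cases hc : roN (o₁, o₂) (i, j) < roN (o₁, o₂) (i, j + 1)
  · left
    refine ⟨if_pos hc, ?_, ?_⟩ <;> (simp only [roN, roDist, abs_eq_max_neg] at h hc; omega)
  · right
    refine ⟨if_neg hc, ?_, ?_⟩ <;> (simp only [roN, roDist, abs_eq_max_neg] at h hc; omega)

theorem lc_out_inj (o : ℤ × ℤ) (e e' : Bond) (h : roN o e.1 ≠ roN o e.snd) (h' : roN o e'.1 ≠ roN o e'.snd)
    (ho : lcOut o e = lcOut o e') : e = e' := by
  obtain ⟨⟨i, j⟩, d⟩ := e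
  obtain ⟨⟨i', j'⟩, d'⟩ := e'
  obtain ⟨o₁, o₂⟩ := o
  have hst : ∀ a b : ℤ, Bond.snd ((a, b), true) = (a + 1, b) := fun a b => by simp [Bond.snd]
  have hsf : ∀ a b : ℤ, Bond.snd ((a, b), false) = (a, b + 1) := fun a b => by simp [Bond.snd]
  cases d <;> cases d'
  · rw [hsf] at h h'
    rcases lc_out_v o₁ o₂ i j h with ⟨e1, a1, a2⟩ | ⟨e1, a1, a2⟩ <;>
    rcases lc_out_v o₁ o₂ i' j' h' with ⟨e2, b1, b2⟩ | ⟨e2, b1, b2⟩ <;>
    (rw [e1, e2] at ho; simp only [Prod.mk.injEq] at ho; refine Prod.ext (Prod.ext ?_ ?_) rfl <;> simp only <;> omega)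
  · rw [hsf] at h
    rw [hst] at h'
    rcases lc_out_v o₁ o₂ i j h with ⟨e1, a1, a2⟩ | ⟨e1, a1, a2⟩ <;>
    rcases lc_out_h o₁ o₂ i' j' h' with ⟨e2, b1, b2⟩ | ⟨e2, b1, b2⟩ <;>
    (rw [e1, e2] at ho; simp only [Prod.mk.injEq] at ho; exfalso; omega)
  · rw [hst] at h
    rw [hsf] at h'
    rcases lc_out_h o₁ o₂ i j h with ⟨e1, a1, a2⟩ | ⟨e1, a1, a2⟩ <;>
    rcases lc_out_v o₁ o₂ i' j' h' with ⟨e2, b1, b2⟩ | ⟨e2, b1, b2⟩ <;>
    (rw [e1, e2] at ho; simp only [Prod.mk.injEq] at ho; exfalso; omega)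
  · rw [hst] at h h'
    rcases lc_out_h o₁ o₂ i j h with ⟨e1, a1, a2⟩ | ⟨e1, a1, a2⟩ <;>
    rcases lc_out_h o₁ o₂ i' j' h' with ⟨e2, b1, b2⟩ | ⟨e2, b1, b2⟩ <;>
    (rw [e1, e2] at ho; simp only [Prod.mk.injEq] at ho; refine Prod.ext (Prod.ext ?_ ?_) rfl <;> simp only <;> omega)

theorem lc_mem_box (o x : ℤ × ℤ) (n : ℕ) : x ∈ lcBox o n ↔ roN o x ≤ n := by
  simp only [lcBox, Finset.mem_product, Finset.mem_Icc, roN, roDist, abs_eq_max_neg]
  omega

theorem lc_box_card (o : ℤ × ℤ) (n : ℕ) : (lcBox o n).card = (2 * n + 1) ^ 2 := by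
  simp only [lcBox, Finset.card_product, Int.card_Icc]
  have h1 : (o.1 + n + 1 - (o.1 - n)).toNat = 2 * n + 1 := by omega
  have h2 : (o.2 + n + 1 - (o.2 - n)).toNat = 2 * n + 1 := by omega
  rw [h1, h2]
  ring

theorem lc_box_sum (o : ℤ × ℤ) (G : ℕ → ℝ) (n : ℕ) :
    ∑ y ∈ lcBox o n, G (roN o y) = G 0 + ∑ k ∈ Finset.range n, 8 * ((k : ℝ) + 1) * G (k + 1) := by
  induction n with
  | zero =>
    have : lcBox o 0 = {o} := by
      ext x
      rw [lc_mem_box, Finset.mem_singleton]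
      obtain ⟨x₁, x₂⟩ := x
      obtain ⟨o₁, o₂⟩ := o
      simp only [roN, roDist, abs_eq_max_neg, Prod.mk.injEq]
      omega
    rw [this]
    have h0 : roN o o = 0 := by simp [roN, roDist]
    simp [h0]
  | succ n ih =>
    have hsub : lcBox o n ⊆ lcBox o (n + 1) := by
      intro x hx
      rw [lc_mem_box] at hx ⊢
      omega
    rw [← Finset.sum_sdiff hsub, ih, Finset.sum_range_succ]
    have hc : ∀ y ∈ lcBox o (n + 1) \ lcBox o n, G (roN o y) = G (n + 1) := by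
      intro y hy
      rw [Finset.mem_sdiff, lc_mem_box, lc_mem_box] at hy
      have : roN o y = n + 1 := by omega
      rw [this]
    rw [Finset.sum_congr rfl hc, Finset.sum_const, nsmul_eq_mul]
    have hcard : ((lcBox o (n + 1) \ lcBox o n).card : ℝ) = 8 * ((n : ℝ) + 1) := by
      rw [Finset.cast_card_sdiff hsub, lc_box_card, lc_box_card]
      push_cast
      ring
    rw [hcard]
    ring

theorem lcH_ge_log {r₁ r₂ : ℕ} (h : r₁ ≤ r₂) : Real.log (((r₂ : ℝ) + 1) / ((r₁ : ℝ) + 1)) ≤ lcH r₁ r₂ := by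
  induction r₂, h using Nat.le_induction with
  | base =>
    have : ((r₁ : ℝ) + 1) ≠ 0 := by positivity
    simp [lcH, div_self this]
  | succ n hn ih =>
    have h1 : (0 : ℝ) < (n : ℝ) + 1 := by positivity
    have h2 : (0 : ℝ) < (r₁ : ℝ) + 1 := by positivity
    have h3 : (0 : ℝ) < (n : ℝ) + 1 + 1 := by positivity
    have e1 : (((n + 1 : ℕ) : ℝ) + 1) / ((r₁ : ℝ) + 1) = (((n : ℝ) + 1) / ((r₁ : ℝ) + 1)) * (((n : ℝ) + 1 + 1) / ((n : ℝ) + 1)) := by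
      push_cast
      field_simp
    rw [e1, Real.log_mul (div_pos h1 h2).ne' (div_pos h3 h1).ne']
    have e2 : lcH r₁ (n + 1) = lcH r₁ n + 1 / ((n : ℝ) + 1) := by
      unfold lcH
      rw [Finset.sum_Ico_succ_top hn]
    rw [e2]
    have e3 : Real.log (((n : ℝ) + 1 + 1) / ((n : ℝ) + 1)) ≤ 1 / ((n : ℝ) + 1) := by
      have := Real.log_le_sub_one_of_pos (div_pos h3 h1)
      have e4 : ((n : ℝ) + 1 + 1) / ((n : ℝ) + 1) - 1 = 1 / ((n : ℝ) + 1) := by field_simp; ring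
      rwa [e4] at this
    linarith

theorem lc_shell_sum {r₁ r₂ : ℕ} (h : r₁ < r₂) :
    lcG r₁ r₂ 0 + ∑ k ∈ Finset.range r₂, 8 * ((k : ℝ) + 1) * lcG r₁ r₂ (k + 1) = 8 / lcH r₁ r₂ := by
  have hH := lcH_pos h
  have h0 : lcG r₁ r₂ 0 = 0 := by simp [lcG]
  have h1 : ∀ k ∈ Finset.range r₂, 8 * ((k : ℝ) + 1) * lcG r₁ r₂ (k + 1)
      = if r₁ ≤ k then 8 / lcH r₁ r₂ ^ 2 * (1 / ((k : ℝ) + 1)) else 0 := by
    intro k hk
    rw [Finset.mem_range] at hk
    unfold lcG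
    by_cases hc : r₁ ≤ k
    · rw [if_pos hc, if_pos ⟨by omega, by omega⟩]
      have : (0 : ℝ) < (k : ℝ) + 1 := by positivity
      push_cast
      field_simp
    · rw [if_neg hc, if_neg (by omega), mul_zero]
  rw [h0, zero_add, Finset.sum_congr rfl h1, ← Finset.sum_filter]
  have h2 : (Finset.range r₂).filter (fun k => r₁ ≤ k) = Finset.Ico r₁ r₂ := by
    ext k
    simp only [Finset.mem_filter, Finset.mem_range, Finset.mem_Ico]
    omega
  rw [h2, ← Finset.mul_sum]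
  change 8 / lcH r₁ r₂ ^ 2 * lcH r₁ r₂ = 8 / lcH r₁ r₂
  field_simp

theorem lc_energy {r₁ r₂ : ℕ} (h : r₁ < r₂) (o : ℤ × ℤ) (D : Finset (ℤ × ℤ)) :
    roDir D (fun x => lcF r₁ r₂ (roN o x)) ≤ 8 / lcH r₁ r₂ := by
  unfold roDir
  have h1 : ∀ e ∈ domBonds D ∅, C2.gd (fun x => lcF r₁ r₂ (roN o x)) e ^ 2
      = if roN o e.1 ≠ roN o e.snd then lcG r₁ r₂ (roN o (lcOut o e)) else 0 := fun e _ => lc_bond_sq r₁ r₂ o e
  rw [Finset.sum_congr rfl h1, ← Finset.sum_filter]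
  have hinj : Set.InjOn (lcOut o) ↑((domBonds D ∅).filter fun e => roN o e.1 ≠ roN o e.snd) := by
    intro e he e' he' hee
    rw [Finset.mem_coe, Finset.mem_filter] at he he'
    exact lc_out_inj o e e' he.2 he'.2 hee
  rw [← Finset.sum_image (f := fun y => lcG r₁ r₂ (roN o y)) hinj, ← lc_shell_sum h, ← lc_box_sum o (lcG r₁ r₂) r₂]
  rw [← Finset.sum_filter_of_ne (p := fun y => y ∈ lcBox o r₂)]
  · exact Finset.sum_le_sum_of_subset_of_nonneg (fun y hy => (Finset.mem_filter.1 hy).2) fun y _ _ => lcG_nonneg _ _ _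
  · intro y _ hy
    rw [lc_mem_box]
    by_contra hc
    apply hy
    unfold lcG
    rw [if_neg (fun hh => hc hh.2)]

/-- **the logarithmic cut-off** -/
theorem ro_logcut (r₁ r₂ : ℕ) (h : r₁ < r₂) (o : ℤ × ℤ) : ∃ φ : ℤ × ℤ → ℝ, (∀ x, 0 ≤ φ x ∧ φ x ≤ 1) ∧ (∀ x, roDist x o ≤ r₁ → φ x = 1) ∧
    (∀ x, (r₂ : ℤ) ≤ roDist x o → φ x = 0) ∧
    ∀ D : Finset (ℤ × ℤ), roDir D φ * Real.log (((r₂ : ℝ) + 1) / ((r₁ : ℝ) + 1)) ≤ 8 := by
  refine ⟨fun x => lcF r₁ r₂ (roN o x), fun x => lcF_mem h _, fun x hx => lcF_one h (by unfold roN; omega),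
    fun x hx => lcF_zero (by unfold roN; omega), fun D => ?_⟩
  have hH := lcH_pos h
  have h1 := lc_energy h o D
  have h2 := lcH_ge_log h.le
  have h0 : 0 ≤ roDir D (fun x => lcF r₁ r₂ (roN o x)) := Finset.sum_nonneg fun e _ => sq_nonneg _
  calc roDir D (fun x => lcF r₁ r₂ (roN o x)) * Real.log (((r₂ : ℝ) + 1) / ((r₁ : ℝ) + 1))
      ≤ roDir D (fun x => lcF r₁ r₂ (roN o x)) * lcH r₁ r₂ := mul_le_mul_of_nonneg_left h2 h0
    _ ≤ 8 / lcH r₁ r₂ * lcH r₁ r₂ := mul_le_mul_of_nonneg_right h1 hH.le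
    _ = 8 := by field_simp

/-- the energy of a restricted function on `domG D cut` is at most its energy on the plain graph -/
theorem lc_en_le {D : Finset (ℤ × ℤ)} {cut : Set Bond} (φ : ℤ × ℤ → ℝ) :
    HLaw.en (G := domG D cut) (domFn (D := D) (cut := cut) φ) 0 ≤ roDir D φ := by
  unfold HLaw.en roDir
  have hsub : domBonds D cut ⊆ domBonds D ∅ := by
    intro e he
    have h1 := domBonds_fst he
    have h2 := domBonds_snd he
    unfold domBonds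
    simp [Finset.mem_filter, Finset.mem_product, h1, h2]
  calc ∑ e : (domG D cut).E, (domFn (D := D) (cut := cut) φ ((domG D cut).tgt e) - domFn (D := D) (cut := cut) φ ((domG D cut).src e)
          + (0 : (domG D cut).E → ℝ) e) ^ 2
      = ∑ e ∈ domBonds D cut, C2.gd φ e ^ 2 := by
        rw [← Finset.sum_coe_sort (domBonds D cut)]
        refine Finset.sum_congr ?_ fun e _ => ?_
        · ext e
          exact ⟨fun _ => Finset.mem_univ _, fun _ => Finset.mem_univ _⟩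
        · simp only [Pi.zero_apply, add_zero]
          rfl
    _ ≤ ∑ e ∈ domBonds D ∅, C2.gd φ e ^ 2 := Finset.sum_le_sum_of_subset_of_nonneg hsub fun e _ _ => sq_nonneg _

/-- **prior variance of a small average** (POT-C): pins and rows at distance `≥ r₂`, the test is a probability carried by the ball of radius `r₁`. -/
theorem pot_prior_var {D : Finset (ℤ × ℤ)} {cut : Set Bond} (H : HLaw (domG D cut)) (P : Set (domG D cut).V) (a : ℝ) (ha : 0 < a)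
    (r₁ r₂ : ℕ) (h : r₁ < r₂) (o : ℤ × ℤ) (f : (domG D cut).V → ℝ) (hf : plAdm (plPin H P) f)
    (hsupp : ∀ v, f v ≠ 0 → roDist (domPos v) o ≤ r₁) (hsum : ∑ v, f v = 1)
    (hP : ∀ v ∈ P, (r₂ : ℤ) ≤ roDist (domPos v) o) (hB : ∀ o' v, H.B o' v ≠ 0 → (r₂ : ℤ) ≤ roDist (domPos v) o) :
    a / 8 * Real.log (((r₂ : ℝ) + 1) / ((r₁ : ℝ) + 1)) ≤ (plPin H P).gVar a f := by
  obtain ⟨φ, -, hφ1, hφ0, hφE⟩ := ro_logcut r₁ r₂ h o
  set L : ℝ := Real.log (((r₂ : ℝ) + 1) / ((r₁ : ℝ) + 1)) with hL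
  have hL0 : 0 ≤ L := by
    apply Real.log_nonneg
    rw [le_div_iff₀ (by positivity)]
    have : (r₁ : ℝ) ≤ r₂ := by exact_mod_cast h.le
    linarith
  set w : (domG D cut).V → ℝ := domFn (D := D) (cut := cut) φ with hw
  set t : ℝ := a * L / 8 with ht
  have hv : t • w ∈ (plPin H P).rspan := by
    rw [pl_mem_rspan_pin]
    intro x hx
    have : w x = 0 := hφ0 _ (hP x hx)
    simp [this]
  have h1 := pl_le_gVar (plPin H P) ha hf hv
  have hpair : HLaw.pair f (t • w) = t := by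
    unfold HLaw.pair
    have : ∀ x, f x * (t • w) x = t * f x := by
      intro x
      by_cases hx : f x = 0
      · simp [hx]
      · have : w x = 1 := hφ1 _ (hsupp x hx)
        simp [this, mul_comm]
    rw [Finset.sum_congr rfl fun x _ => this x, ← Finset.mul_sum, hsum, mul_one]
  have hobs : ∀ o', (plPin H P).obs (t • w) o' = 0 := by
    intro o'
    unfold HLaw.obs
    apply Finset.sum_eq_zero
    intro x _
    by_cases hx : H.B o' x = 0
    · change H.B o' x * _ = 0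
      rw [hx, zero_mul]
    · have : w x = 0 := hφ0 _ (hB o' x hx)
      simp [this]
  have hen : HLaw.en (t • w) 0 = t ^ 2 * HLaw.en w 0 := by
    unfold HLaw.en
    rw [Finset.mul_sum]
    refine Finset.sum_congr rfl fun e _ => ?_
    simp only [Pi.smul_apply, smul_eq_mul, Pi.zero_apply, add_zero]
    ring
  have hform : (plPin H P).form a (t • w) = a⁻¹ * (t ^ 2 * HLaw.en w 0) := by
    unfold HLaw.form
    rw [hen, Finset.sum_eq_zero fun o' _ => by rw [hobs o']; ring, add_zero]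
  have hE : HLaw.en w 0 * L ≤ 8 := le_trans (mul_le_mul_of_nonneg_right (lc_en_le φ) hL0) (hφE D)
  rw [hpair, hform] at h1
  have h2 : a⁻¹ * (t ^ 2 * HLaw.en w 0) ≤ a * L / 8 := by
    have e1 : a⁻¹ * (t ^ 2 * HLaw.en w 0) = a * L / 64 * (HLaw.en w 0 * L) := by
      rw [ht]
      field_simp
      ring
    rw [e1]
    have : a * L / 64 * (HLaw.en w 0 * L) ≤ a * L / 64 * 8 := mul_le_mul_of_nonneg_left hE (by positivity)
    linarith
  have h3 : a / 8 * L = 2 * t - a * L / 8 := by rw [ht]; ring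
  linarith

end

end Claimed.Agent.R285.Pot
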