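import Claimed.Agent.R285.Pot.LinInt

/-!
# ROW 285, POT-LIN leaf L-LIN-FUB : Fubini for the Gaussian reference integrals.   Paper-free.
-/

set_option autoImplicit false

namespace Claimed.Agent.R285.Pot

open MeasureTheory
open scoped Classical

noncomputable section

variable {G : HGraph} (H : HLaw G)

/-- data `y` on `D`, `u` elsewhere -/
def plMix (D : Set G.V) (u : G.V → ℝ) (y : {x : G.V // x ∈ D} → ℝ) : G.V → ℝ :=
  fun x => if h : x ∈ D then y ⟨x, h⟩ else u x

theorem plMix_eqns_cite : True := by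
  have := @plMix.eq_1; trivial

/-- abstract Fubini for a splitting of the index set -/
theorem pl_fub_aux {ι α β : Type*} [Fintype ι] [Fintype α] [Fintype β] (e : α ⊕ β ≃ ι) (f : (ι → ℝ) → ℝ)
    (hf : Integrable f) :
    ∫ v, f v = ∫ y : α → ℝ, ∫ w : β → ℝ, f (fun i => Sum.elim y w (e.symm i)) := by
  have mp1 := volume_measurePreserving_piCongrLeft (fun _ : ι => ℝ) e
  have mp2 := volume_measurePreserving_sumPiEquivProdPi_symm (fun _ : α ⊕ β => ℝ)
  have mp := mp1.comp mp2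
  have hpt : ∀ p : (α → ℝ) × (β → ℝ),
      (MeasurableEquiv.piCongrLeft (fun _ : ι => ℝ) e) ((MeasurableEquiv.sumPiEquivProdPi (fun _ : α ⊕ β => ℝ)).symm p)
        = fun i => Sum.elim p.1 p.2 (e.symm i) := by
    intro p
    funext i
    obtain ⟨a, rfl⟩ := e.surjective i
    rw [MeasurableEquiv.coe_piCongrLeft, Equiv.piCongrLeft_apply_apply, Equiv.symm_apply_apply]
    cases a <;> rfl
  have h1 : ∫ v, f v = ∫ p : (α → ℝ) × (β → ℝ), f (fun i => Sum.elim p.1 p.2 (e.symm i)) := by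
    have := mp.integral_comp ((MeasurableEquiv.piCongrLeft (fun _ : ι => ℝ) e).measurableEmbedding.comp
      (MeasurableEquiv.sumPiEquivProdPi (fun _ : α ⊕ β => ℝ)).symm.measurableEmbedding) f
    rw [← this]
    refine integral_congr_ae (Filter.Eventually.of_forall fun p => ?_)
    simp only [Function.comp_apply, hpt]
  have h2 : Integrable (fun p : (α → ℝ) × (β → ℝ) => f (fun i => Sum.elim p.1 p.2 (e.symm i))) := by
    have := (mp.integrable_comp_emb ((MeasurableEquiv.piCongrLeft (fun _ : ι => ℝ) e).measurableEmbedding.comp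
      (MeasurableEquiv.sumPiEquivProdPi (fun _ : α ⊕ β => ℝ)).symm.measurableEmbedding)).mpr hf
    refine this.congr (Filter.Eventually.of_forall fun p => ?_)
    simp only [Function.comp_apply, hpt]
  rw [h1, Measure.volume_eq_prod, integral_prod _ (by rw [← Measure.volume_eq_prod]; exact h2)]

/-- the splitting of the free sites -/
def plSplit (P D Q : Set G.V) (hQ : ∀ x, x ∈ Q ↔ x ∈ P ∨ x ∈ D) (hD : ∀ x ∈ D, x ∉ P) :
    {x : G.V // x ∈ D} ⊕ {x : G.V // x ∉ Q} ≃ {x : G.V // x ∉ P} where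
  toFun s := Sum.elim (fun x => ⟨x.1, hD x.1 x.2⟩) (fun x => ⟨x.1, fun h => x.2 ((hQ _).2 (Or.inl h))⟩) s
  invFun x := if h : x.1 ∈ D then Sum.inl ⟨x.1, h⟩ else Sum.inr ⟨x.1, fun h' => ((hQ _).1 h').elim x.2 h⟩
  left_inv s := by
    rcases s with x | x
    · simp [x.2]
    · have : x.1 ∉ D := fun h => x.2 ((hQ _).2 (Or.inr h))
      simp [this]
  right_inv x := by
    by_cases h : x.1 ∈ D <;> simp [h]

theorem plSplit_eqns_cite : True := by
  have := @plSplit.eq_1; trivial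

theorem pl_Z_fubini_gen (a : ℝ) (P D Q : Set G.V) (hQ : ∀ x, x ∈ Q ↔ x ∈ P ∨ x ∈ D) (hD : ∀ x ∈ D, x ∉ P) (u : G.V → ℝ) (F : (G.V → ℝ) → ℝ)
    (hF : Integrable (fun v : {x : G.V // x ∉ P} → ℝ => F (plExt P u v) * Real.exp (-(H.form a (plExt P u v)) / 2))) :
    plZ H a P u F = ∫ y : {x : G.V // x ∈ D} → ℝ, plZ H a Q (plMix D u y) F := by
  have key : ∀ (y : {x : G.V // x ∈ D} → ℝ) (w : {x : G.V // x ∉ Q} → ℝ),
      plExt P u (fun i => Sum.elim y w ((plSplit P D Q hQ hD).symm i)) = plExt Q (plMix D u y) w := by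
    intro y w
    funext x
    by_cases hP : x ∈ P
    · have hxD : x ∉ D := fun h => hD x h hP
      have hxQ : x ∈ Q := (hQ x).2 (Or.inl hP)
      simp [plExt, plMix, hP, hxD, hxQ]
    · by_cases hxD : x ∈ D
      · have hxQ : x ∈ Q := (hQ x).2 (Or.inr hxD)
        simp [plExt, plMix, hP, hxD, plSplit, hxQ]
      · have hxQ : x ∉ Q := fun h => ((hQ x).1 h).elim hP hxD
        simp [plExt, hP, hxD, plSplit, hxQ]
  rw [plZ, pl_fub_aux (plSplit P D Q hQ hD) _ hF]
  simp only [key, plZ]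

/-- L-LIN-FUB (**Fubini**): integrate first off `P ∪ D`, then over the values on `D` (`D` disjoint from `P`).
Plan: index equivalence `{x // x ∉ P} ≃ {x // x ∈ D} ⊕ {x // x ∉ P ∪ D}`; `MeasurableEquiv.piCongrLeft` + `MeasurableEquiv.sumPiEquivProdPi` with `volume_measurePreserving_piCongrLeft`,
`volume_measurePreserving_sumPiEquivProdPi`; `integral_prod`; `plExt P u v = plExt (P ∪ D) (plMix D u y) v'` under the equivalence. -/
theorem pl_Z_fubini (a : ℝ) (P D : Set G.V) (hD : ∀ x ∈ D, x ∉ P) (u : G.V → ℝ) (F : (G.V → ℝ) → ℝ)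
    (hF : Integrable (fun v : {x : G.V // x ∉ P} → ℝ => F (plExt P u v) * Real.exp (-(H.form a (plExt P u v)) / 2))) :
    plZ H a P u F = ∫ y : {x : G.V // x ∈ D} → ℝ, plZ H a (P ∪ D) (plMix D u y) F :=
  pl_Z_fubini_gen H a P D (P ∪ D) (fun _ => Iff.rfl) hD u F hF

end

end Claimed.Agent.R285.Pot
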