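import Claimed.Agent.R285.Pot.LinMeas

/-!
# ROW 285, POT-LIN leaf L-LIN-MARKOV : domain Markov property of the Gaussian reference measure.   Paper-free.   Statements: helper83.
-/

set_option autoImplicit false

namespace Claimed.Agent.R285.Pot

open MeasureTheory ProbabilityTheory
open scoped Classical

noncomputable section

variable {G : HGraph} (H : HLaw G)

/-- transfer of integrability along a splitting of the index set -/
theorem pl_mk_integrable_split {ι α β : Type*} [Fintype ι] [Fintype α] [Fintype β] (e : α ⊕ β ≃ ι) (f : (ι → ℝ) → ℝ) :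
    Integrable (fun p : (α → ℝ) × (β → ℝ) => f (fun i => Sum.elim p.1 p.2 (e.symm i))) ↔ Integrable f := by
  have mp1 := volume_measurePreserving_piCongrLeft (fun _ : ι => ℝ) e
  have mp2 := volume_measurePreserving_sumPiEquivProdPi_symm (fun _ : α ⊕ β => ℝ)
  have mp := mp1.comp mp2
  have hpt : ∀ p : (α → ℝ) × (β → ℝ),
      (MeasurableEquiv.piCongrLeft (fun _ : ι => ℝ) e) ((MeasurableEquiv.sumPiEquivProdPi (fun _ : α ⊕ β => ℝ)).symm p)
        = fun i => Sum.elim p.1 p.2 (e.symm i) := by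
    intro p
    funext i
    obtain ⟨a, rfl⟩ := e.surjective i
    rw [MeasurableEquiv.coe_piCongrLeft, Equiv.piCongrLeft_apply_apply, Equiv.symm_apply_apply]
    cases a <;> rfl
  rw [← mp.integrable_comp_emb ((MeasurableEquiv.piCongrLeft (fun _ : ι => ℝ) e).measurableEmbedding.comp
      (MeasurableEquiv.sumPiEquivProdPi (fun _ : α ⊕ β => ℝ)).symm.measurableEmbedding)]
  refine integrable_congr (Filter.Eventually.of_forall fun p => ?_)
  simp only [Function.comp_apply, hpt]

/-- the field in the split coordinates -/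
theorem pl_mk_key (P D Q : Set G.V) (hQ : ∀ x, x ∈ Q ↔ x ∈ P ∨ x ∈ D) (hD : ∀ x ∈ D, x ∉ P) (u : G.V → ℝ)
    (y : {x : G.V // x ∈ D} → ℝ) (w : {x : G.V // x ∉ Q} → ℝ) :
    plExt P u (fun i => Sum.elim y w ((plSplit P D Q hQ hD).symm i)) = plExt Q (plMix D u y) w := by
  funext x
  by_cases hP : x ∈ P
  · have hxD : x ∉ D := fun h => hD x h hP
    have hxQ : x ∈ Q := (hQ x).2 (Or.inl hP)
    simp [plExt, plMix, hP, hxD, hxQ]
  · by_cases hxD : x ∈ D
    · have hxQ : x ∈ Q := (hQ x).2 (Or.inr hxD)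
      simp [plExt, plMix, hP, hxD, plSplit, hxQ]
    · have hxQ : x ∉ Q := fun h => ((hQ x).1 h).elim hP hxD
      simp [plExt, hP, hxD, plSplit, hxQ]

/-- a function of the data only comes out of the integral -/
theorem pl_mk_Z_const (a : ℝ) (P : Set G.V) (u : G.V → ℝ) (Φ : (G.V → ℝ) → ℝ) (c : ℝ)
    (hΦ : ∀ v : {x : G.V // x ∉ P} → ℝ, Φ (plExt P u v) = c) : plZ H a P u Φ = c * plZ H a P u fun _ => 1 := by
  simp only [plZ, hΦ, one_mul]
  exact integral_const_mul _ _

theorem pl_mk_Z_one_data {a : ℝ} (ha : 0 < a) {P : Set G.V} (h : plPD H P) (u : G.V → ℝ) :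
    plZ H a P u (fun _ => 1) = Real.exp (-(plEn H a P u) / 2) * plZ H a P 0 fun _ => 1 :=
  pl_Z_data H ha h u fun _ => 1

theorem pl_mk_Z_one_data_pos {a : ℝ} (ha : 0 < a) {P : Set G.V} (h : plPD H P) (u : G.V → ℝ) :
    0 < plZ H a P u fun _ => 1 := by
  rw [pl_mk_Z_one_data H ha h]
  exact mul_pos (Real.exp_pos _) (pl_Z_one_pos H ha h)

/-- the conditional expectation given the data on `P` -/
theorem pl_mk_Z_cond {a : ℝ} (ha : 0 < a) {P : Set G.V} (h : plPD H P) (u : G.V → ℝ) (F : (G.V → ℝ) → ℝ) :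
    plZ H a P u F = (∫ ψ, F (plHarm H a P u + ψ) ∂plMeas H a P) * plZ H a P u fun _ => 1 := by
  have hZ := pl_Z_one_pos H ha h
  have e1 := pl_mk_Z_one_data H ha h u
  rw [pl_meas_integral H ha h, e1, pl_Z_data H ha h u F]
  field_simp

/-- continuity of the field in the split coordinates -/
theorem pl_mk_ext_continuous (D Q : Set G.V) (u : G.V → ℝ) :
    Continuous fun p : ({x : G.V // x ∈ D} → ℝ) × ({x : G.V // x ∉ Q} → ℝ) => plExt Q (plMix D u p.1) p.2 := by
  refine continuous_pi fun x => ?_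
  by_cases hx : x ∈ Q
  · by_cases hxD : x ∈ D
    · simp only [plExt, plMix, hx, hxD, dite_true]
      exact (continuous_apply _).comp continuous_fst
    · simp only [plExt, plMix, hx, hxD, dite_true, dite_false]
      exact continuous_const
  · simp only [plExt, hx, dite_false]
    exact (continuous_apply _).comp continuous_snd

/-- L-LIN-S10 (**domain Markov property**): under the pins `P`, `φ = harm_{P'} φ + ψ` with `ψ` independent of `φ|_{P'}` and distributed with the pins `P'`.
Plan: `pl_Z_fubini` (`D = P' \ P`) + `pl_Z_data`, twice. -/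
theorem pl_meas_markov {a : ℝ} (ha : 0 < a) {P P' : Set G.V} (h : plPD H P) (hP : P ⊆ P') (F : (G.V → ℝ) → ℝ)
    (hF : Integrable F (plMeas H a P)) :
    ∫ φ, F φ ∂plMeas H a P = ∫ φ, (∫ ψ, F (plHarm H a P' φ + ψ) ∂plMeas H a P') ∂plMeas H a P := by
  have h' : plPD H P' := pl_PD_mono H h hP
  obtain ⟨D, hDdef⟩ : ∃ D : Set G.V, D = P' \ P := ⟨_, rfl⟩
  have hQ : ∀ x, x ∈ P' ↔ x ∈ P ∨ x ∈ D := by
    intro x
    rw [hDdef]
    constructor
    · intro hx
      by_cases hxP : x ∈ P
      · exact Or.inl hxP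
      · exact Or.inr ⟨hx, hxP⟩
    · rintro (hx | hx)
      · exact hP hx
      · exact hx.1
  have hD : ∀ x ∈ D, x ∉ P := by
    intro x hx
    rw [hDdef] at hx
    exact hx.2
  obtain ⟨Φ, hΦdef⟩ : ∃ Φ : (G.V → ℝ) → ℝ, Φ = fun φ => ∫ ψ, F (plHarm H a P' φ + ψ) ∂plMeas H a P' := ⟨_, rfl⟩
  -- `Φ` depends on the data on `P'` only
  have hΦc : ∀ (u : G.V → ℝ) (w : {x : G.V // x ∉ P'} → ℝ), Φ (plExt P' u w) = Φ u := by
    intro u w
    rw [hΦdef]
    simp only
    rw [pl_harm_congr H ha h' (u := plExt P' u w) (u' := u) fun x hx => pl_ext_of_mem u w hx]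
  have hcond : ∀ u : G.V → ℝ, plZ H a P' u F = Φ u * plZ H a P' u fun _ => 1 := by
    intro u
    rw [hΦdef]
    exact pl_mk_Z_cond H ha h' u F
  have hsame : ∀ u : G.V → ℝ, plZ H a P' u Φ = plZ H a P' u F := by
    intro u
    rw [hcond u]
    exact pl_mk_Z_const H a P' u Φ (Φ u) (hΦc u)
  have hF' := (pl_meas_integrable_iff H ha h F).1 hF
  -- integrability in the split coordinates
  have hk : Integrable (fun p : ({x : G.V // x ∈ D} → ℝ) × ({x : G.V // x ∉ P'} → ℝ) =>
      F (plExt P' (plMix D 0 p.1) p.2) * Real.exp (-(H.form a (plExt P' (plMix D 0 p.1) p.2)) / 2)) := by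
    have := (pl_mk_integrable_split (plSplit P D P' hQ hD) _).2 hF'
    simpa only [pl_mk_key] using this
  have hg : Integrable (fun y : {x : G.V // x ∈ D} → ℝ => plZ H a P' (plMix D 0 y) F) := by
    rw [Measure.volume_eq_prod] at hk
    exact hk.integral_prod_left
  have hrc : Continuous fun p : ({x : G.V // x ∈ D} → ℝ) × ({x : G.V // x ∉ P'} → ℝ) =>
      Real.exp (-(H.form a (plExt P' (plMix D 0 p.1) p.2)) / 2) := by
    have := (pl_form_continuous H a).comp (pl_mk_ext_continuous D P' 0)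
    simp only [Function.comp_def] at this
    fun_prop
  have hZm : StronglyMeasurable fun y : {x : G.V // x ∈ D} → ℝ => plZ H a P' (plMix D 0 y) fun _ => 1 := by
    have := hrc.stronglyMeasurable.integral_prod_right' (ν := (volume : Measure ({x : G.V // x ∉ P'} → ℝ)))
    simpa only [plZ, one_mul] using this
  have hΦm : AEStronglyMeasurable (fun y : {x : G.V // x ∈ D} → ℝ => Φ (plMix D 0 y)) volume := by
    have h1 : AEStronglyMeasurable (fun y : {x : G.V // x ∈ D} → ℝ =>
        plZ H a P' (plMix D 0 y) F * (plZ H a P' (plMix D 0 y) fun _ => 1)⁻¹) volume :=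
      hg.1.mul (hZm.measurable.inv.aestronglyMeasurable)
    refine h1.congr (Filter.Eventually.of_forall fun y => ?_)
    simp only
    rw [hcond, mul_assoc, mul_inv_cancel₀ (pl_mk_Z_one_data_pos H ha h' _).ne', mul_one]
  have hΦk : Integrable (fun p : ({x : G.V // x ∈ D} → ℝ) × ({x : G.V // x ∉ P'} → ℝ) =>
      Φ (plMix D 0 p.1) * Real.exp (-(H.form a (plExt P' (plMix D 0 p.1) p.2)) / 2)) := by
    have hm : AEStronglyMeasurable (fun p : ({x : G.V // x ∈ D} → ℝ) × ({x : G.V // x ∉ P'} → ℝ) =>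
        Φ (plMix D 0 p.1) * Real.exp (-(H.form a (plExt P' (plMix D 0 p.1) p.2)) / 2)) (volume.prod volume) :=
      hΦm.comp_fst.mul hrc.aestronglyMeasurable
    rw [Measure.volume_eq_prod]
    refine (integrable_prod_iff hm).2 ?_
    have hri : ∀ y : {x : G.V // x ∈ D} → ℝ, Integrable fun w : {x : G.V // x ∉ P'} → ℝ =>
        Real.exp (-(H.form a (plExt P' (plMix D 0 y) w)) / 2) := by
      intro y
      by_contra hcon
      have h1 := pl_mk_Z_one_data_pos H ha h' (plMix D 0 y)
      simp only [plZ, one_mul] at h1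
      rw [integral_undef hcon] at h1
      exact lt_irrefl _ h1
    refine ⟨Filter.Eventually.of_forall fun y => by
      simpa only using (hri y).const_mul (Φ (plMix D 0 y)), ?_⟩
    refine hg.norm.congr (Filter.Eventually.of_forall fun y => ?_)
    simp only [norm_mul]
    rw [integral_const_mul, hcond, norm_mul]
    congr 1
    rw [Real.norm_of_nonneg (pl_mk_Z_one_data_pos H ha h' _).le]
    simp only [plZ, one_mul]
    refine integral_congr_ae (Filter.Eventually.of_forall fun w => ?_)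
    exact (Real.norm_of_nonneg (Real.exp_pos _).le).symm
  have hΦ' : Integrable (fun v : {x : G.V // x ∉ P} → ℝ => Φ (plExt P 0 v) * Real.exp (-(H.form a (plExt P 0 v)) / 2)) := by
    rw [← pl_mk_integrable_split (plSplit P D P' hQ hD)]
    simpa only [pl_mk_key, hΦc] using hΦk
  have e1 := pl_Z_fubini_gen H a P D P' hQ hD 0 F hF'
  have e2 := pl_Z_fubini_gen H a P D P' hQ hD 0 Φ hΦ'
  simp only [hsame] at e2
  have e3 : ∫ φ, (∫ ψ, F (plHarm H a P' φ + ψ) ∂plMeas H a P') ∂plMeas H a P = ∫ φ, Φ φ ∂plMeas H a P := by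
    rw [hΦdef]
  rw [e3, pl_meas_integral H ha h, pl_meas_integral H ha h, e1, e2]

end

end Claimed.Agent.R285.Pot
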