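import Claimed.Agent.R285.Pot.LinFub

/-!
# ROW 285, POT-LIN block 3c : the Gaussian reference probability measure `plMeas H a P` on `G.V → ℝ` (owner helper83).   Paper-free.
`∫ F ∂plMeas = plZ F / plZ 1` for EVERY `F`.  So `C3.gExT H a P₀ 0 Ψ = ∫ Ψ ∂plMeas H a P₀`, and Jensen, Hölder, Markov of Mathlib apply.
-/

set_option autoImplicit false

namespace Claimed.Agent.R285.Pot

open MeasureTheory ProbabilityTheory
open scoped Classical

noncomputable section

variable {G : HGraph} (H : HLaw G)

theorem pl_ext_continuous (P : Set G.V) (u : G.V → ℝ) : Continuous (plExt P u) := by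
  refine continuous_pi fun x => ?_
  by_cases hx : x ∈ P
  · simp only [plExt, hx, dite_true]; exact continuous_const
  · simp only [plExt, hx, dite_false]; exact continuous_apply _

theorem pl_ext_injective (P : Set G.V) (u : G.V → ℝ) : Function.Injective (plExt P u) := fun v w h => by
  rw [← pl_off_ext P u v, h, pl_off_ext]

theorem pl_ext_measurableEmbedding (P : Set G.V) : MeasurableEmbedding (plExt P (0 : G.V → ℝ)) :=
  (pl_ext_continuous P 0).measurableEmbedding (pl_ext_injective P 0)

theorem pl_form_continuous (a : ℝ) : Continuous (H.form a) := by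
  unfold HLaw.form HLaw.en HLaw.obs
  fun_prop

theorem pl_pair_continuous (f : G.V → ℝ) : Continuous (HLaw.pair f) := by
  unfold HLaw.pair
  fun_prop

/-- the density of `plMeas` -/
theorem pl_dens_measurable (a : ℝ) (P : Set G.V) : Measurable fun v : {x : G.V // x ∉ P} → ℝ =>
    ENNReal.ofReal (Real.exp (-(H.form a (plExt P 0 v)) / 2) / plZ H a P 0 fun _ => 1) := by
  have : Continuous fun v : {x : G.V // x ∉ P} → ℝ => H.form a (plExt P 0 v) :=
    (pl_form_continuous H a).comp (pl_ext_continuous P 0)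
  exact (by fun_prop : Continuous fun v : {x : G.V // x ∉ P} → ℝ =>
    Real.exp (-(H.form a (plExt P 0 v)) / 2) / plZ H a P 0 fun _ => 1).measurable.ennreal_ofReal

theorem pl_meas_integral {a : ℝ} (ha : 0 < a) {P : Set G.V} (h : plPD H P) (F : (G.V → ℝ) → ℝ) :
    ∫ φ, F φ ∂plMeas H a P = plZ H a P 0 F / plZ H a P 0 fun _ => 1 := by
  have hZ := pl_Z_one_pos H ha h
  rw [plMeas, (pl_ext_measurableEmbedding P).integral_map,
    integral_withDensity_eq_integral_toReal_smul (pl_dens_measurable H a P) (Filter.Eventually.of_forall fun v => ENNReal.ofReal_lt_top)]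
  conv_rhs => rw [plZ, ← integral_div]
  refine integral_congr_ae (Filter.Eventually.of_forall fun v => ?_)
  simp only
  rw [ENNReal.toReal_ofReal (div_nonneg (Real.exp_pos _).le hZ.le), smul_eq_mul]
  ring

theorem pl_meas_prob {a : ℝ} (ha : 0 < a) {P : Set G.V} (h : plPD H P) : IsProbabilityMeasure (plMeas H a P) := by
  have hZ := pl_Z_one_pos H ha h
  constructor
  rw [plMeas, Measure.map_apply (pl_ext_measurableEmbedding P).measurable MeasurableSet.univ, Set.preimage_univ,
    withDensity_apply _ MeasurableSet.univ, Measure.restrict_univ,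
    ← ofReal_integral_eq_lintegral_ofReal ((pl_Z_one_integrable H ha h).div_const _)
      (Filter.Eventually.of_forall fun v => div_nonneg (Real.exp_pos _).le hZ.le), integral_div]
  have : ∫ v : {x : G.V // x ∉ P} → ℝ, Real.exp (-(H.form a (plExt P 0 v)) / 2) = plZ H a P 0 fun _ => 1 := by
    simp only [plZ, one_mul]
  rw [this, div_self hZ.ne', ENNReal.ofReal_one]

theorem pl_meas_integrable_iff {a : ℝ} (ha : 0 < a) {P : Set G.V} (h : plPD H P) (F : (G.V → ℝ) → ℝ) :
    Integrable F (plMeas H a P) ↔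
      Integrable (fun v : {x : G.V // x ∉ P} → ℝ => F (plExt P 0 v) * Real.exp (-(H.form a (plExt P 0 v)) / 2)) := by
  have hZ := pl_Z_one_pos H ha h
  rw [plMeas, (pl_ext_measurableEmbedding P).integrable_map_iff,
    integrable_withDensity_iff_integrable_smul' (pl_dens_measurable H a P) (Filter.Eventually.of_forall fun v => ENNReal.ofReal_lt_top)]
  have e : (fun v : {x : G.V // x ∉ P} → ℝ =>
      (ENNReal.ofReal (Real.exp (-(H.form a (plExt P 0 v)) / 2) / plZ H a P 0 fun _ => 1)).toReal • (F ∘ plExt P 0) v)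
      = fun v => (F (plExt P 0 v) * Real.exp (-(H.form a (plExt P 0 v)) / 2)) * (plZ H a P 0 fun _ => 1)⁻¹ := by
    funext v
    rw [ENNReal.toReal_ofReal (div_nonneg (Real.exp_pos _).le hZ.le), smul_eq_mul, Function.comp]
    ring
  rw [e]
  constructor
  · intro hi
    have := hi.mul_const (plZ H a P 0 fun _ => 1)
    refine this.congr (Filter.Eventually.of_forall fun v => ?_)
    simp only
    rw [mul_assoc, inv_mul_cancel₀ hZ.ne', mul_one]
  · intro hi
    exact hi.mul_const _

theorem pl_meas_ae_pin (a : ℝ) (P : Set G.V) : ∀ᵐ φ ∂plMeas H a P, ∀ x ∈ P, φ x = 0 := by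
  rw [plMeas, (pl_ext_measurableEmbedding P).ae_map_iff]
  exact Filter.Eventually.of_forall fun v x hx => by simp [plExt, hx]

/-- Laplace transform -/
theorem pl_meas_mgf {a : ℝ} (ha : 0 < a) {P : Set G.V} (h : plPD H P) (f : G.V → ℝ) :
    ∫ φ, Real.exp (HLaw.pair f φ) ∂plMeas H a P = Real.exp ((plPin H P).gVar a f / 2) := by
  rw [pl_meas_integral H ha h, pl_Z_laplace H ha h, mul_div_assoc, div_self (pl_Z_one_pos H ha h).ne', mul_one]

theorem pl_meas_exp_integrable {a : ℝ} (ha : 0 < a) {P : Set G.V} (h : plPD H P) (f : G.V → ℝ) :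
    Integrable (fun φ => Real.exp (HLaw.pair f φ)) (plMeas H a P) :=
  (pl_meas_integrable_iff H ha h _).2 (pl_Z_exp_integrable H ha h f)

/-- Cameron-Martin -/
theorem pl_meas_shift {a : ℝ} (ha : 0 < a) {P : Set G.V} (h : plPD H P) (f : G.V → ℝ) (F : (G.V → ℝ) → ℝ) :
    ∫ φ, F φ * Real.exp (HLaw.pair f φ) ∂plMeas H a P
      = Real.exp ((plPin H P).gVar a f / 2) * ∫ φ, F (φ + plGf H a P f) ∂plMeas H a P := by
  rw [pl_meas_integral H ha h, pl_meas_integral H ha h, pl_Z_tilt H ha h, mul_div_assoc]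

/-- the tilted expectation of `C3` -/
theorem pl_ExT_eq {a : ℝ} (ha : 0 < a) {P : Set G.V} (h : plPD H P) (f : G.V → ℝ) (Ψ : (G.V → ℝ) → ℝ) :
    plExT H a P f Ψ = ∫ φ, Ψ (φ + plGf H a P f) ∂plMeas H a P := by
  rw [plExT, pl_Z_tilt H ha h, pl_Z_laplace H ha h, pl_meas_integral H ha h,
    mul_div_mul_left _ _ (Real.exp_pos _).ne']

end

end Claimed.Agent.R285.Pot
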