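import Mathlib

/-!
# ROW 285, POT-DECAY (architect helper111): DEFINITIONS of the abstract core, v2.   Mathlib only, nothing is sorried here.

Source: [B] `annular.tex` l.1495-1889 (locality half of `an:gaussian-localization`), [S]L3.2, [F]L4.5 (energy part).

* `V` = sites, `I` = CELLS.   `A : PdAmb V I` = the AMBIENT data, common to all systems which are compared: the partition `blk : V → I`, a reflexive symmetric ADJACENCY of cells
  (for rectangular arrays: sup-distance `≤ 1`, contact through a face OR a corner, measured in the common uncut inclusion) and one CUTOFF `A.cut J` for every set of cells `J` (`1` on `J`, `0` off `nb J`).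
* `S : PdSys V I` = a positive quadratic form written as a sum of squares of local ROWS ("terms") + hard zero pins:    `T(v) = ∑_t (R_t v)²` on `{v : v = 0 on pin}`.
  Every row is carried by a clique `S.cs t` of cells.   Instances of rows: `a^{-1/2} ∇_e` (bond), `√w · (average over a cell)` (observation), `√δ (avg_j - avg_i)` (short range PSD perturbation `N`).   There is no `a` in the abstract theory.
* ALL the analysis is in the three constants of `PdOk A S σ CP K`, `σ = (cell side)⁻²`: cell Poincaré (`CP`) and two commutator bounds of the rows with the cutoffs (`K`).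
  NOTHING else is used, so the theory holds on tori, free squares, cut topologies, patches, with any pins.   Constructor from graph data (bonds + cell rows): `DecGraph.lean`.
-/

set_option autoImplicit false

namespace Claimed.Agent.R285.Pot

open scoped Classical

noncomputable section

/-- ambient data: cells, adjacency of cells, cutoffs -/
structure PdAmb (V I : Type) where
  blk : V → I
  adj : I → I → Prop
  cut : Set I → V → ℝ

/-- a sum of squares of local rows, with hard zero pins -/
structure PdSys (V I : Type) where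
  Tm : Type
  [fT : Fintype Tm]
  R : Tm → V → ℝ
  cs : Tm → Set I
  pin : Set V

attribute [instance] PdSys.fT

variable {V I : Type} [Fintype V] [Fintype I]

namespace PdAmb

variable (A : PdAmb V I)

/-- `v` vanishes outside the cells of `J` -/
def SuppIn (J : Set I) (v : V → ℝ) : Prop := ∀ x, A.blk x ∉ J → v x = 0

/-- `∑_{x ∈ cells of J} v(x)²` -/
def l2 (J : Set I) (v : V → ℝ) : ℝ := ∑ x, if A.blk x ∈ J then v x ^ 2 else 0

/-- the neighbourhood of a set of cells (contains `J` when `adj` is reflexive) -/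
def nb (J : Set I) : Set I := {i | ∃ j ∈ J, A.adj i j}

/-- layer functions: `1`-Lipschitz for the adjacency (e.g. the distance to a set of cells) -/
def Lay (ρ : I → ℕ) : Prop := ∀ i j, A.adj i j → ρ i ≤ ρ j + 1

/-- `{ρ ≥ r}` -/
def far (_A : PdAmb V I) (ρ : I → ℕ) (r : ℕ) : Set I := {i | r ≤ ρ i}

/-- the linear functional `f` is carried by the cells of `J` -/
def Carried (J : Set I) (f : (V → ℝ) →ₗ[ℝ] ℝ) : Prop := ∀ φ, (∀ x, A.blk x ∈ J → φ x = 0) → f φ = 0

/-- the cells touched by a set of sites -/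
def cellsV (P : Set V) : Set I := {i | ∃ x ∈ P, A.blk x = i}

/-- the sites of a set of cells -/
def sitesOf (J : Set I) : Set V := {x | A.blk x ∈ J}

/-- the ambient axioms -/
structure Ok : Prop where
  adj_refl : ∀ i, A.adj i i
  adj_symm : ∀ i j, A.adj i j → A.adj j i
  cut_mem : ∀ J x, 0 ≤ A.cut J x ∧ A.cut J x ≤ 1
  cut_one : ∀ J x, A.blk x ∈ J → A.cut J x = 1
  cut_zero : ∀ J x, A.blk x ∉ A.nb J → A.cut J x = 0

end PdAmb

namespace PdSys

variable (S : PdSys V I)

/-- `R_t v` -/
def row (v : V → ℝ) (t : S.Tm) : ℝ := ∑ x, S.R t x * v x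

/-- the bilinear form `∑_t R_t v · R_t w` -/
def bil (v w : V → ℝ) : ℝ := ∑ t, S.row v t * S.row w t

/-- the quadratic form `T` -/
def form (v : V → ℝ) : ℝ := ∑ t, S.row v t ^ 2

/-- admissible fields: zero on the pins -/
def Adm (v : V → ℝ) : Prop := ∀ x ∈ S.pin, v x = 0

/-- local energy, INNER version: the rows whose cells all lie in `J` -/
def enI (J : Set I) (v : V → ℝ) : ℝ := ∑ t, if S.cs t ⊆ J then S.row v t ^ 2 else 0

/-- local energy, TOUCHING version: the rows with at least one cell in `J` -/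
def enT (J : Set I) (v : V → ℝ) : ℝ := ∑ t, if (S.cs t ∩ J).Nonempty then S.row v t ^ 2 else 0

/-- `v = T⁻¹ f` on the admissible space -/
def IsSol (f : (V → ℝ) →ₗ[ℝ] ℝ) (v : V → ℝ) : Prop := S.Adm v ∧ ∀ φ, S.Adm φ → S.bil v φ = f φ

/-- the solution operator `T⁻¹` (junk value `0` if there is no solution; under `PdOk` there is exactly one: `pd_existsUnique_sol`) -/
def sol (f : (V → ℝ) →ₗ[ℝ] ℝ) : V → ℝ := if h : ∃ v, S.IsSol f v then h.choose else 0

/-- the Green form `𝒢(f, g) = g (T⁻¹ f)`; `𝒢(f,f)` is the squared dual norm of `f` (the Gaussian variance of the test `f`) -/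
def gf (f g : (V → ℝ) →ₗ[ℝ] ℝ) : ℝ := g (S.sol f)

/-- the functional `φ ↦ ∑_t z_t R_t φ` -/
def termF (z : S.Tm → ℝ) : (V → ℝ) →ₗ[ℝ] ℝ where
  toFun φ := ∑ t, z t * S.row φ t
  map_add' φ ψ := by
    simp only [row, Pi.add_apply, mul_add, Finset.sum_add_distrib]
  map_smul' c φ := by
    simp only [row, Pi.smul_apply, smul_eq_mul, RingHom.id_apply, Finset.mul_sum]
    refine Finset.sum_congr rfl fun t _ => Finset.sum_congr rfl fun x _ => by ring

/-- the affine cost `∑_t (R_t u - z_t)²` -/
def aff (z : S.Tm → ℝ) (u : V → ℝ) : ℝ := ∑ t, (S.row u t - z t) ^ 2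

/-- the minimal affine cost `min_u ∑_t (R_t u - z_t)²` over the admissible fields -/
def En (z : S.Tm → ℝ) : ℝ := ⨅ u : {u : V → ℝ // S.Adm u}, S.aff z u.1

/-- energy of the `T`-harmonic extension of `u|_P`: `‖Π_P u‖²` -/
def ext (P : Set V) (u : V → ℝ) : ℝ := ⨅ w : {w : V → ℝ // S.Adm w ∧ ∀ x ∈ P, w x = u x}, S.form w.1

/-- `V_P`: the admissible fields which are `T`-orthogonal to the admissible fields vanishing on `P` (span of the Green functions of the sites of `P`) -/
def HarmOff (P : Set V) (u : V → ℝ) : Prop := S.Adm u ∧ ∀ φ, S.Adm φ → (∀ x ∈ P, φ x = 0) → S.bil u φ = 0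

/-- the same system with the rows of `D` removed -/
def cutT (D : Set S.Tm) : PdSys V I where
  Tm := {t : S.Tm // t ∉ D}
  R t := S.R t.1
  cs t := S.cs t.1
  pin := S.pin

/-- the same system with additional hard pins -/
def addPin (P : Set V) : PdSys V I where
  Tm := S.Tm
  R := S.R
  cs := S.cs
  pin := S.pin ∪ P

/-- the union of the rows of two systems (pins: union) -/
def join (S' : PdSys V I) : PdSys V I where
  Tm := S.Tm ⊕ S'.Tm
  R := Sum.elim S.R S'.R
  cs := Sum.elim S.cs S'.cs
  pin := S.pin ∪ S'.pin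

/-- the cells touched by a set of rows -/
def cellsT (D : Set S.Tm) : Set I := {i | ∃ t ∈ D, i ∈ S.cs t}

end PdSys

/-- the functional `φ ↦ ∑_x f(x) φ(x)` of a row vector -/
def pdRowF (f : V → ℝ) : (V → ℝ) →ₗ[ℝ] ℝ where
  toFun φ := ∑ x, f x * φ x
  map_add' φ ψ := by simp [mul_add, Finset.sum_add_distrib]
  map_smul' c φ := by simp [Finset.mul_sum, mul_left_comm]

/-- `v` is `T`-harmonic in the cells of `J`: orthogonal to the admissible tests carried by `J` -/
def PdHarm (A : PdAmb V I) (S : PdSys V I) (J : Set I) (v : V → ℝ) : Prop := ∀ φ, S.Adm φ → A.SuppIn J φ → S.bil v φ = 0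

/-- the two commutator bounds of the rows of `S` with the multiplier `χ`; `c t` = reference value of `χ` for the row `t` (for a bond: the value at one endpoint). -/
def PdCom (A : PdAmb V I) (S : PdSys V I) (κ : ℝ) (χ : V → ℝ) : Prop :=
  ∃ c : S.Tm → ℝ, (∀ t, 0 ≤ c t ∧ c t ≤ 1) ∧
    (∀ (v : V → ℝ) (Y : Set I), (∑ t, if S.cs t ⊆ Y then S.row (fun x => (χ x - c t) * v x) t ^ 2 else 0) ≤ κ * A.l2 Y v) ∧
    ∀ (v : V → ℝ) (Y : Set I), (∑ t, if S.cs t ⊆ Y then |S.row v t * S.row (fun x => (χ x - c t) ^ 2 * v x) t| else 0) ≤ κ * A.l2 Y v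

/-- **the structure constants**; `σ = (cell side)⁻²`. -/
structure PdOk (A : PdAmb V I) (S : PdSys V I) (σ CP K : ℝ) : Prop where
  amb : A.Ok
  σ_pos : 0 < σ
  CP_nonneg : 0 ≤ CP
  K_nonneg : 0 ≤ K
  /-- a row sees only its cells -/
  supp : ∀ t x, S.R t x ≠ 0 → A.blk x ∈ S.cs t
  /-- the cells of a row are pairwise adjacent -/
  clique : ∀ t i j, i ∈ S.cs t → j ∈ S.cs t → A.adj i j
  /-- cell Poincaré with the rows (and pins) of the cell -/
  poincare : ∀ i v, S.Adm v → σ * A.l2 {i} v ≤ CP * S.enI {i} v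
  /-- commutators with the cutoffs -/
  com : ∀ J, PdCom A S (K * σ) (A.cut J)

/-- **sub-cell resolution** (for traces / Hilbert-Schmidt bounds): `4^k` linear functionals per cell (averages over a `2^k × 2^k` array of sub-rectangles)
whose vanishing improves the Poincaré constant by `4^{-k}` (for admissible fields: wholly pinned cells are allowed). -/
def PdRes (A : PdAmb V I) (S : PdSys V I) (σ CR : ℝ) : Prop :=
  ∀ (k : ℕ) (i : I), ∃ ℓ : Fin (4 ^ k) → (V → ℝ) →ₗ[ℝ] ℝ, ∀ v, S.Adm v → (∀ j, ℓ j v = 0) →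
    σ * A.l2 {i} v ≤ CR * ((4 : ℝ) ^ k)⁻¹ * S.enI {i} v

/-- two systems AGREE on the cells of `Y`: same admissible fields and same energy among the fields carried by `Y` -/
def PdAgree (A : PdAmb V I) (S S' : PdSys V I) (Y : Set I) : Prop :=
  ∀ v, A.SuppIn Y v → (S.Adm v ↔ S'.Adm v) ∧ S.form v = S'.form v

/-- THE constant of the theory: multiplier bound of a cutoff, `T(χ v; J) ≤ pdM · T(v; nb J)`. -/
def pdM (CP K : ℝ) : ℝ := 2 + 2 * K * CP

/-- the decay factor at distance `r` (in cells): `3 exp (- r / (3 (M + 1)))`. -/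
def pdE (CP K : ℝ) (r : ℕ) : ℝ := 3 * Real.exp (-(r : ℝ) / (3 * (pdM CP K + 1)))

end

end Claimed.Agent.R285.Pot
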