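import Claimed.Agent.R285.Pot.DecHS

/-!
# ROW 285, POT-DECAY, file 5: CONSTRUCTOR of `PdSys` / `PdOk` from graph data: `T_a(v) = a⁻¹ ∑_e (∇_e v)² + ∑_o (B_o v)²`, every observation row carried by ONE cell.   Mathlib only, paper-free.   Architect helper111.

`Gr : PdGr V I` = finite oriented multigraph on the sites + rows + pins.   `Gr.sys A a : PdSys V I` has the rows `a^{-1/2} ∇_e` and `B_o`.
`PdGrOk A Gr σ CP CN K₀ Δ` = cell Poincaré at `a = 1` (`CP`), rows bounded by the normalised `L²` norm (`CN`), Lipschitz cutoffs `(∇_e χ_J)² ≤ K₀ σ`, degree `≤ Δ`.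
**`pd_ok_graph`**:  `PdOk A (Gr.sys A a) σ (CP max(1,a)) (2 K₀ Δ a⁻¹ + CN)`:  explicit, monotone in `a`, `a⁻¹`, so all estimates are uniform for `a` in a compact interval of `(0,∞)` (`PdOk.mono`).
More rows (short range PSD perturbations `N`, rows on two adjacent cells): `PdSys.join` + `pd_ok_join`.
Leaf: N `L-PD-GRAPH`.
-/

set_option autoImplicit false
set_option linter.unusedSectionVars false

namespace Claimed.Agent.R285.Pot

open scoped Classical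

noncomputable section

/-- graph data: bonds, observation rows (each in one cell), pins -/
structure PdGr (V I : Type) where
  E : Type
  O : Type
  [fE : Fintype E]
  [fO : Fintype O]
  src : E → V
  tgt : E → V
  B : O → V → ℝ
  cel : O → I
  pin : Set V

attribute [instance] PdGr.fE PdGr.fO

variable {V I : Type} [Fintype V] [Fintype I]

namespace PdGr

variable (Gr : PdGr V I)

/-- `∇_e v` -/
def grad (v : V → ℝ) (e : Gr.E) : ℝ := v (Gr.tgt e) - v (Gr.src e)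

/-- `B_o v` -/
def obs (v : V → ℝ) (o : Gr.O) : ℝ := ∑ x, Gr.B o x * v x

/-- the system `a⁻¹ ∑_e (∇_e v)² + ∑_o (B_o v)²` -/
def sys (A : PdAmb V I) (a : ℝ) : PdSys V I where
  Tm := Gr.E ⊕ Gr.O
  R := Sum.elim (fun e x => (Real.sqrt a)⁻¹ * ((if Gr.tgt e = x then 1 else 0) - (if Gr.src e = x then 1 else 0))) Gr.B
  cs := Sum.elim (fun e => {A.blk (Gr.src e), A.blk (Gr.tgt e)}) (fun o => {Gr.cel o})
  pin := Gr.pin

end PdGr

/-- the structure constants of graph data; `σ = (cell side)⁻²` -/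
structure PdGrOk (A : PdAmb V I) (Gr : PdGr V I) (σ CP CN K₀ : ℝ) (Δ : ℕ) : Prop where
  amb : A.Ok
  σ_pos : 0 < σ
  CP_nonneg : 0 ≤ CP
  CN_nonneg : 0 ≤ CN
  K_nonneg : 0 ≤ K₀
  row_supp : ∀ o x, Gr.B o x ≠ 0 → A.blk x = Gr.cel o
  edge_adj : ∀ e, A.adj (A.blk (Gr.src e)) (A.blk (Gr.tgt e))
  deg : ∀ x, (Finset.univ.filter fun e => Gr.src e = x ∨ Gr.tgt e = x).card ≤ Δ
  /-- cell Poincaré with the bonds, rows (and pins) of the cell -/
  poincare : ∀ i v, (∀ x ∈ Gr.pin, v x = 0) → σ * A.l2 {i} v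
    ≤ CP * ((∑ e, if A.blk (Gr.src e) = i ∧ A.blk (Gr.tgt e) = i then Gr.grad v e ^ 2 else 0) + ∑ o, if Gr.cel o = i then Gr.obs v o ^ 2 else 0)
  /-- the rows of a cell are bounded by the normalised `L²` norm -/
  row_le : ∀ i v, (∑ o, if Gr.cel o = i then Gr.obs v o ^ 2 else 0) ≤ CN * (σ * A.l2 {i} v)
  /-- the ambient cutoffs are Lipschitz at the scale of one cell -/
  cut_lip : ∀ J e, Gr.grad (A.cut J) e ^ 2 ≤ K₀ * σ

variable {A : PdAmb V I} {Gr : PdGr V I} {σ CP CN K₀ : ℝ} {Δ : ℕ}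

/-! ## N. (`L-PD-GRAPH`): PROVED (helper111) -/

theorem pd_graph_sum (A : PdAmb V I) (Gr : PdGr V I) (a : ℝ) (F : Gr.E ⊕ Gr.O → ℝ) :
    (∑ t : (Gr.sys A a).Tm, F t) = ∑ e, F (Sum.inl e) + ∑ o, F (Sum.inr o) := Fintype.sum_sum_type F

theorem pd_graph_row_inl (A : PdAmb V I) (Gr : PdGr V I) (a : ℝ) (v : V → ℝ) (e : Gr.E) : (Gr.sys A a).row v (Sum.inl e) = (Real.sqrt a)⁻¹ * Gr.grad v e := by
  have h1 : ∀ x, (Real.sqrt a)⁻¹ * ((if Gr.tgt e = x then (1:ℝ) else 0) - (if Gr.src e = x then 1 else 0)) * v x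
      = (Real.sqrt a)⁻¹ * ((if Gr.tgt e = x then v x else 0) - (if Gr.src e = x then v x else 0)) := by
    intro x; split_ifs <;> ring
  simp only [PdSys.row, PdGr.sys, Sum.elim_inl, PdGr.grad, h1, ← Finset.mul_sum, Finset.sum_sub_distrib, Finset.sum_ite_eq, Finset.mem_univ, if_true]

theorem pd_graph_row_inr (A : PdAmb V I) (Gr : PdGr V I) (a : ℝ) (v : V → ℝ) (o : Gr.O) : (Gr.sys A a).row v (Sum.inr o) = Gr.obs v o := rfl

theorem pd_sqrt_inv_mul {a : ℝ} (ha : 0 < a) : (Real.sqrt a)⁻¹ * (Real.sqrt a)⁻¹ = a⁻¹ := by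
  rw [← mul_inv, Real.mul_self_sqrt ha.le]

theorem pd_graph_bil (A : PdAmb V I) (Gr : PdGr V I) {a : ℝ} (ha : 0 < a) (v w : V → ℝ) :
    (Gr.sys A a).bil v w = a⁻¹ * ∑ e, Gr.grad v e * Gr.grad w e + ∑ o, Gr.obs v o * Gr.obs w o := by
  refine (pd_graph_sum A Gr a (fun t => (Gr.sys A a).row v t * (Gr.sys A a).row w t)).trans ?_
  simp only [pd_graph_row_inl, pd_graph_row_inr, Finset.mul_sum]
  congr 1
  refine Finset.sum_congr rfl fun e _ => ?_
  rw [← pd_sqrt_inv_mul ha]; ring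

theorem pd_graph_form (A : PdAmb V I) (Gr : PdGr V I) {a : ℝ} (ha : 0 < a) (v : V → ℝ) :
    (Gr.sys A a).form v = a⁻¹ * ∑ e, Gr.grad v e ^ 2 + ∑ o, Gr.obs v o ^ 2 := by
  refine (pd_graph_sum A Gr a (fun t => (Gr.sys A a).row v t ^ 2)).trans ?_
  simp only [pd_graph_row_inl, pd_graph_row_inr, Finset.mul_sum]
  congr 1
  refine Finset.sum_congr rfl fun e _ => ?_
  rw [← pd_sqrt_inv_mul ha]; ring

theorem pd_graph_cs_inl (A : PdAmb V I) (Gr : PdGr V I) (a : ℝ) (e : Gr.E) : (Gr.sys A a).cs (Sum.inl e) = {A.blk (Gr.src e), A.blk (Gr.tgt e)} := rfl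

theorem pd_graph_cs_inr (A : PdAmb V I) (Gr : PdGr V I) (a : ℝ) (o : Gr.O) : (Gr.sys A a).cs (Sum.inr o) = {Gr.cel o} := rfl

theorem pd_graph_enI (A : PdAmb V I) (Gr : PdGr V I) {a : ℝ} (ha : 0 < a) (J : Set I) (v : V → ℝ) :
    (Gr.sys A a).enI J v = a⁻¹ * (∑ e, if A.blk (Gr.src e) ∈ J ∧ A.blk (Gr.tgt e) ∈ J then Gr.grad v e ^ 2 else 0)
      + ∑ o, if Gr.cel o ∈ J then Gr.obs v o ^ 2 else 0 := by
  refine (pd_graph_sum A Gr a (fun t => if (Gr.sys A a).cs t ⊆ J then (Gr.sys A a).row v t ^ 2 else 0)).trans ?_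
  simp only [pd_graph_row_inl, pd_graph_row_inr, pd_graph_cs_inl, pd_graph_cs_inr, Finset.mul_sum, Set.singleton_subset_iff, Set.insert_subset_iff]
  congr 1
  refine Finset.sum_congr rfl fun e _ => ?_
  split_ifs
  · rw [← pd_sqrt_inv_mul ha]; ring
  · simp

theorem pd_graph_enT (A : PdAmb V I) (Gr : PdGr V I) {a : ℝ} (ha : 0 < a) (J : Set I) (v : V → ℝ) :
    (Gr.sys A a).enT J v = a⁻¹ * (∑ e, if A.blk (Gr.src e) ∈ J ∨ A.blk (Gr.tgt e) ∈ J then Gr.grad v e ^ 2 else 0)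
      + ∑ o, if Gr.cel o ∈ J then Gr.obs v o ^ 2 else 0 := by
  refine (pd_graph_sum A Gr a (fun t => if ((Gr.sys A a).cs t ∩ J).Nonempty then (Gr.sys A a).row v t ^ 2 else 0)).trans ?_
  simp only [pd_graph_row_inl, pd_graph_row_inr, pd_graph_cs_inl, pd_graph_cs_inr, Finset.mul_sum, Set.singleton_inter_nonempty]
  congr 1
  refine Finset.sum_congr rfl fun e _ => ?_
  have : (({A.blk (Gr.src e), A.blk (Gr.tgt e)} : Set I) ∩ J).Nonempty ↔ (A.blk (Gr.src e) ∈ J ∨ A.blk (Gr.tgt e) ∈ J) := by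
    constructor
    · rintro ⟨i, hi, hJ⟩
      rcases hi with rfl | hi
      · exact Or.inl hJ
      · rw [Set.mem_singleton_iff] at hi; subst hi; exact Or.inr hJ
    · rintro (h | h)
      · exact ⟨_, Set.mem_insert _ _, h⟩
      · exact ⟨_, Set.mem_insert_of_mem _ rfl, h⟩
  simp only [this]
  split_ifs
  · rw [← pd_sqrt_inv_mul ha]; ring
  · simp

/-- degree count -/
theorem pd_graph_deg_sum (h : PdGrOk A Gr σ CP CN K₀ Δ) (p : Gr.E → V) (hp : ∀ e, p e = Gr.src e ∨ p e = Gr.tgt e) (g : V → ℝ) (hg : ∀ x, 0 ≤ g x) :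
    ∑ e, g (p e) ≤ Δ * ∑ x, g x := by
  rw [← Finset.sum_fiberwise (Finset.univ : Finset Gr.E) p (fun e => g (p e)), Finset.mul_sum]
  refine Finset.sum_le_sum fun x _ => ?_
  have h1 : ∑ e ∈ Finset.univ.filter (fun e => p e = x), g (p e) = ((Finset.univ.filter (fun e => p e = x)).card : ℝ) * g x := by
    rw [Finset.sum_congr rfl (fun e he => by rw [(Finset.mem_filter.1 he).2] : ∀ e ∈ Finset.univ.filter (fun e => p e = x), g (p e) = g x)]
    simp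
  rw [h1]
  refine mul_le_mul_of_nonneg_right ?_ (hg x)
  have h2 : (Finset.univ.filter (fun e => p e = x)).card ≤ (Finset.univ.filter fun e => Gr.src e = x ∨ Gr.tgt e = x).card := by
    refine Finset.card_le_card fun e he => ?_
    have he' := (Finset.mem_filter.1 he).2
    refine Finset.mem_filter.2 ⟨Finset.mem_univ _, ?_⟩
    rcases hp e with h3 | h3
    · exact Or.inl (h3 ▸ he')
    · exact Or.inr (h3 ▸ he')
  exact_mod_cast h2.trans (h.deg x)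

theorem pd_graph_rows_le (h : PdGrOk A Gr σ CP CN K₀ Δ) (Y : Set I) (w : V → ℝ) :
    (∑ o, if Gr.cel o ∈ Y then Gr.obs w o ^ 2 else 0) ≤ CN * (σ * A.l2 Y w) := by
  have h1 : (∑ o, if Gr.cel o ∈ Y then Gr.obs w o ^ 2 else 0) = ∑ i, if i ∈ Y then (∑ o, if Gr.cel o = i then Gr.obs w o ^ 2 else 0) else 0 := by
    have : ∀ i, (if i ∈ Y then (∑ o, if Gr.cel o = i then Gr.obs w o ^ 2 else 0) else 0)
        = ∑ o, if Gr.cel o = i then (if Gr.cel o ∈ Y then Gr.obs w o ^ 2 else 0) else 0 := by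
      intro i
      by_cases hi : i ∈ Y
      · rw [if_pos hi]
        refine Finset.sum_congr rfl fun o _ => ?_
        by_cases ho : Gr.cel o = i
        · rw [if_pos ho, if_pos ho, if_pos (ho ▸ hi)]
        · rw [if_neg ho, if_neg ho]
      · rw [if_neg hi]
        symm
        refine Finset.sum_eq_zero fun o _ => ?_
        by_cases ho : Gr.cel o = i
        · rw [if_pos ho, if_neg (ho ▸ hi)]
        · rw [if_neg ho]
    simp only [this]
    rw [Finset.sum_comm]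
    refine Finset.sum_congr rfl fun o _ => ?_
    simp
  rw [h1, pd_l2_eq_sum, Finset.mul_sum, Finset.mul_sum]
  refine Finset.sum_le_sum fun i _ => ?_
  by_cases hi : i ∈ Y
  · rw [if_pos hi, if_pos hi]; exact h.row_le i w
  · rw [if_neg hi, if_neg hi]; simp

theorem pd_l2_le_of_sq_le (A : PdAmb V I) (Y : Set I) {w v : V → ℝ} (hwv : ∀ x, w x ^ 2 ≤ v x ^ 2) : A.l2 Y w ≤ A.l2 Y v := by
  refine Finset.sum_le_sum fun x _ => ?_
  split_ifs
  · exact hwv x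
  · exact le_rfl

/-- commutators of the bonds: reference value `c_e = χ(tgt e)`;  `R_e((χ-c)v) = -a^{-1/2} ∇_eχ · v(src e)`,  `R_e v · R_e((χ-c)²v) = -a⁻¹ ∇_e v (∇_eχ)² v(src e)`;  degree count.
Commutators of the cell rows: reference value `0`, `row_le`, `0 ≤ χ ≤ 1`. -/
theorem pd_graph_com (h : PdGrOk A Gr σ CP CN K₀ Δ) {a : ℝ} (ha : 0 < a) (J : Set I) :
    PdCom A (Gr.sys A a) ((2 * K₀ * Δ * a⁻¹ + CN) * σ) (A.cut J) := by
  set χ := A.cut J with hχ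
  have hmem : ∀ x, 0 ≤ χ x ∧ χ x ≤ 1 := h.amb.cut_mem J
  have ha' : 0 < a⁻¹ := inv_pos.2 ha
  have hσ := h.σ_pos
  have hK := h.K_nonneg
  have hN := h.CN_nonneg
  refine ⟨Sum.elim (fun e => χ (Gr.tgt e)) (fun _ => 0), ?_, ?_, ?_⟩
  · rintro (e | o)
    · exact hmem _
    · exact ⟨le_rfl, zero_le_one⟩
  · intro v Y
    refine ((pd_graph_sum A Gr a _).trans_le ?_)
    simp only [pd_graph_row_inl, pd_graph_row_inr, pd_graph_cs_inl, pd_graph_cs_inr, Sum.elim_inl, Sum.elim_inr,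
      Set.singleton_subset_iff, Set.insert_subset_iff]
    have hl2 := pd_l2_nonneg A Y v
    have hb : (∑ e, if A.blk (Gr.src e) ∈ Y ∧ A.blk (Gr.tgt e) ∈ Y then
        ((Real.sqrt a)⁻¹ * Gr.grad (fun x => (χ x - χ (Gr.tgt e)) * v x) e) ^ 2 else 0) ≤ a⁻¹ * K₀ * σ * (Δ * A.l2 Y v) := by
      refine le_trans ?_ (mul_le_mul_of_nonneg_left (pd_graph_deg_sum h Gr.src (fun e => Or.inl rfl)
        (fun x => if A.blk x ∈ Y then v x ^ 2 else 0) (fun x => by split_ifs <;> positivity)) (by positivity))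
      rw [Finset.mul_sum]
      refine Finset.sum_le_sum fun e _ => ?_
      by_cases he : A.blk (Gr.src e) ∈ Y ∧ A.blk (Gr.tgt e) ∈ Y
      · rw [if_pos he, if_pos he.1]
        have e1 : Gr.grad (fun x => (χ x - χ (Gr.tgt e)) * v x) e = Gr.grad χ e * v (Gr.src e) := by
          simp only [PdGr.grad]; ring
        rw [e1, mul_pow, mul_pow, sq (Real.sqrt a)⁻¹, pd_sqrt_inv_mul ha]
        have := h.cut_lip J e
        have h3 : Gr.grad χ e ^ 2 * v (Gr.src e) ^ 2 ≤ K₀ * σ * v (Gr.src e) ^ 2 := mul_le_mul_of_nonneg_right this (sq_nonneg _)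
        calc a⁻¹ * (Gr.grad χ e ^ 2 * v (Gr.src e) ^ 2) ≤ a⁻¹ * (K₀ * σ * v (Gr.src e) ^ 2) := mul_le_mul_of_nonneg_left h3 ha'.le
          _ = a⁻¹ * K₀ * σ * v (Gr.src e) ^ 2 := by ring
      · rw [if_neg he]
        have : 0 ≤ (if A.blk (Gr.src e) ∈ Y then v (Gr.src e) ^ 2 else 0) := by split_ifs <;> positivity
        positivity
    have hr : (∑ o, if Gr.cel o ∈ Y then Gr.obs (fun x => (χ x - 0) * v x) o ^ 2 else 0) ≤ CN * (σ * A.l2 Y v) := by
      refine (pd_graph_rows_le h Y _).trans ?_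
      refine mul_le_mul_of_nonneg_left (mul_le_mul_of_nonneg_left (pd_l2_le_of_sq_le A Y fun x => ?_) hσ.le) hN
      have := hmem x
      rw [sub_zero, mul_pow]
      have h4 : χ x ^ 2 ≤ 1 := by nlinarith
      nlinarith [sq_nonneg (v x)]
    have hfin : a⁻¹ * K₀ * σ * (Δ * A.l2 Y v) ≤ 2 * K₀ * Δ * a⁻¹ * σ * A.l2 Y v := by
      have : 0 ≤ K₀ * Δ * a⁻¹ * σ * A.l2 Y v := by positivity
      nlinarith
    calc _ ≤ a⁻¹ * K₀ * σ * (Δ * A.l2 Y v) + CN * (σ * A.l2 Y v) := add_le_add hb hr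
      _ ≤ 2 * K₀ * Δ * a⁻¹ * σ * A.l2 Y v + CN * (σ * A.l2 Y v) := by linarith
      _ = (2 * K₀ * Δ * a⁻¹ + CN) * σ * A.l2 Y v := by ring
  · intro v Y
    refine ((pd_graph_sum A Gr a _).trans_le ?_)
    simp only [pd_graph_row_inl, pd_graph_row_inr, pd_graph_cs_inl, pd_graph_cs_inr, Sum.elim_inl, Sum.elim_inr,
      Set.singleton_subset_iff, Set.insert_subset_iff]
    have hl2 := pd_l2_nonneg A Y v
    set g : V → ℝ := fun x => if A.blk x ∈ Y then v x ^ 2 else 0 with hg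
    have hg0 : ∀ x, 0 ≤ g x := fun x => by simp only [hg]; split_ifs <;> positivity
    have hs := pd_graph_deg_sum h Gr.src (fun e => Or.inl rfl) g hg0
    have ht := pd_graph_deg_sum h Gr.tgt (fun e => Or.inr rfl) g hg0
    have hgl : ∑ x, g x = A.l2 Y v := rfl
    rw [hgl] at hs ht
    have hb : (∑ e, if A.blk (Gr.src e) ∈ Y ∧ A.blk (Gr.tgt e) ∈ Y then
        |(Real.sqrt a)⁻¹ * Gr.grad v e * ((Real.sqrt a)⁻¹ * Gr.grad (fun x => (χ x - χ (Gr.tgt e)) ^ 2 * v x) e)| else 0)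
        ≤ a⁻¹ * K₀ * σ * (2 * (Δ * A.l2 Y v)) := by
      have h5 : (∑ e, (a⁻¹ * K₀ * σ) * (1 / 2 * g (Gr.tgt e) + 3 / 2 * g (Gr.src e))) ≤ a⁻¹ * K₀ * σ * (2 * (Δ * A.l2 Y v)) := by
        rw [← Finset.mul_sum, Finset.sum_add_distrib, ← Finset.mul_sum, ← Finset.mul_sum]
        refine mul_le_mul_of_nonneg_left ?_ (by positivity)
        linarith
      refine le_trans (Finset.sum_le_sum fun e _ => ?_) h5
      by_cases he : A.blk (Gr.src e) ∈ Y ∧ A.blk (Gr.tgt e) ∈ Y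
      · rw [if_pos he]
        have e1 : Gr.grad (fun x => (χ x - χ (Gr.tgt e)) ^ 2 * v x) e = -(Gr.grad χ e ^ 2 * v (Gr.src e)) := by
          simp only [PdGr.grad]; ring
        have e2 : (Real.sqrt a)⁻¹ * Gr.grad v e * ((Real.sqrt a)⁻¹ * -(Gr.grad χ e ^ 2 * v (Gr.src e)))
            = -(a⁻¹ * (Gr.grad χ e ^ 2 * (Gr.grad v e * v (Gr.src e)))) := by
          rw [← pd_sqrt_inv_mul ha]; ring
        rw [e1, e2, abs_neg, abs_mul, abs_mul, abs_of_pos ha', abs_of_nonneg (sq_nonneg _)]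
        have hgs : g (Gr.src e) = v (Gr.src e) ^ 2 := by simp only [hg]; rw [if_pos he.1]
        have hgt : g (Gr.tgt e) = v (Gr.tgt e) ^ 2 := by simp only [hg]; rw [if_pos he.2]
        rw [hgs, hgt]
        have h6 : |Gr.grad v e * v (Gr.src e)| ≤ 1 / 2 * v (Gr.tgt e) ^ 2 + 3 / 2 * v (Gr.src e) ^ 2 := by
          rw [abs_le]
          simp only [PdGr.grad]
          constructor <;> nlinarith [sq_nonneg (v (Gr.tgt e) - v (Gr.src e)), sq_nonneg (v (Gr.tgt e) + v (Gr.src e))]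
        have h7 := h.cut_lip J e
        have h8 : 0 ≤ 1 / 2 * v (Gr.tgt e) ^ 2 + 3 / 2 * v (Gr.src e) ^ 2 := by positivity
        calc a⁻¹ * (Gr.grad χ e ^ 2 * |Gr.grad v e * v (Gr.src e)|)
            ≤ a⁻¹ * (K₀ * σ * (1 / 2 * v (Gr.tgt e) ^ 2 + 3 / 2 * v (Gr.src e) ^ 2)) :=
              mul_le_mul_of_nonneg_left (mul_le_mul h7 h6 (abs_nonneg _) (by positivity)) ha'.le
          _ = _ := by ring
      · rw [if_neg he]
        have := hg0 (Gr.src e); have := hg0 (Gr.tgt e)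
        positivity
    have hr : (∑ o, if Gr.cel o ∈ Y then |Gr.obs v o * Gr.obs (fun x => (χ x - 0) ^ 2 * v x) o| else 0) ≤ CN * (σ * A.l2 Y v) := by
      have h9 : (∑ o, if Gr.cel o ∈ Y then |Gr.obs v o * Gr.obs (fun x => (χ x - 0) ^ 2 * v x) o| else 0)
          ≤ 1 / 2 * (∑ o, if Gr.cel o ∈ Y then Gr.obs v o ^ 2 else 0)
            + 1 / 2 * ∑ o, if Gr.cel o ∈ Y then Gr.obs (fun x => (χ x - 0) ^ 2 * v x) o ^ 2 else 0 := by
        rw [Finset.mul_sum, Finset.mul_sum, ← Finset.sum_add_distrib]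
        refine Finset.sum_le_sum fun o _ => ?_
        split_ifs
        · rw [abs_le]
          constructor <;> nlinarith [sq_nonneg (Gr.obs v o - Gr.obs (fun x => (χ x - 0) ^ 2 * v x) o),
            sq_nonneg (Gr.obs v o + Gr.obs (fun x => (χ x - 0) ^ 2 * v x) o)]
        · simp
      have h10 := pd_graph_rows_le h Y v
      have h11 : (∑ o, if Gr.cel o ∈ Y then Gr.obs (fun x => (χ x - 0) ^ 2 * v x) o ^ 2 else 0) ≤ CN * (σ * A.l2 Y v) := by
        refine (pd_graph_rows_le h Y _).trans ?_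
        refine mul_le_mul_of_nonneg_left (mul_le_mul_of_nonneg_left (pd_l2_le_of_sq_le A Y fun x => ?_) hσ.le) hN
        have := hmem x
        rw [sub_zero, mul_pow]
        have h4 : χ x ^ 2 ≤ 1 := by nlinarith
        have h4' : 0 ≤ χ x ^ 2 := sq_nonneg _
        have h12 : (χ x ^ 2) ^ 2 ≤ 1 := by nlinarith
        nlinarith [sq_nonneg (v x)]
      linarith
    calc _ ≤ a⁻¹ * K₀ * σ * (2 * (Δ * A.l2 Y v)) + CN * (σ * A.l2 Y v) := add_le_add hb hr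
      _ = (2 * K₀ * Δ * a⁻¹ + CN) * σ * A.l2 Y v := by ring

/-- **the constructor.** -/
theorem pd_ok_graph (h : PdGrOk A Gr σ CP CN K₀ Δ) {a : ℝ} (ha : 0 < a) : PdOk A (Gr.sys A a) σ (CP * max 1 a) (2 * K₀ * Δ * a⁻¹ + CN) := by
  have ha' : 0 < a⁻¹ := inv_pos.2 ha
  have hK := h.K_nonneg
  have hN := h.CN_nonneg
  have hP := h.CP_nonneg
  refine ⟨h.amb, h.σ_pos, by positivity, by positivity, ?_, ?_, ?_, fun J => pd_graph_com h ha J⟩
  · rintro (e | o) x hx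
    · rw [pd_graph_cs_inl]
      have hx' : (Real.sqrt a)⁻¹ * ((if Gr.tgt e = x then (1:ℝ) else 0) - (if Gr.src e = x then 1 else 0)) ≠ 0 := hx
      by_cases h1 : Gr.src e = x
      · rw [← h1]; exact Set.mem_insert _ _
      · by_cases h2 : Gr.tgt e = x
        · rw [← h2]; exact Set.mem_insert_of_mem _ rfl
        · rw [if_neg h1, if_neg h2] at hx'; simp at hx'
    · rw [pd_graph_cs_inr]
      exact h.row_supp o x hx
  · rintro (e | o) i j hi hj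
    · rw [pd_graph_cs_inl] at hi hj
      rcases hi with rfl | hi <;> rcases hj with rfl | hj
      · exact h.amb.adj_refl _
      · rw [Set.mem_singleton_iff] at hj; subst hj; exact h.edge_adj e
      · rw [Set.mem_singleton_iff] at hi; subst hi; exact h.amb.adj_symm _ _ (h.edge_adj e)
      · rw [Set.mem_singleton_iff] at hi hj; subst hi; subst hj; exact h.amb.adj_refl _
    · rw [pd_graph_cs_inr, Set.mem_singleton_iff] at hi hj
      subst hi; subst hj; exact h.amb.adj_refl _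
  · intro i v hv
    refine (h.poincare i v hv).trans ?_
    rw [pd_graph_enI A Gr ha, mul_assoc]
    refine mul_le_mul_of_nonneg_left ?_ hP
    simp only [Set.mem_singleton_iff]
    set X := ∑ e, if A.blk (Gr.src e) = i ∧ A.blk (Gr.tgt e) = i then Gr.grad v e ^ 2 else 0 with hX
    set Z := ∑ o, if Gr.cel o = i then Gr.obs v o ^ 2 else 0 with hZ
    have hX0 : 0 ≤ X := Finset.sum_nonneg fun e _ => by split_ifs <;> positivity
    have hZ0 : 0 ≤ Z := Finset.sum_nonneg fun e _ => by split_ifs <;> positivity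
    have h1 : 1 ≤ max 1 a * a⁻¹ := by
      have : a * a⁻¹ = 1 := mul_inv_cancel₀ ha.ne'
      calc (1:ℝ) = a * a⁻¹ := this.symm
        _ ≤ max 1 a * a⁻¹ := mul_le_mul_of_nonneg_right (le_max_right _ _) ha'.le
    have h2 : (1:ℝ) ≤ max 1 a := le_max_left _ _
    calc X + Z ≤ (max 1 a * a⁻¹) * X + max 1 a * Z := by nlinarith
      _ = max 1 a * (a⁻¹ * X + Z) := by ring

/-- uniform constants on a compact interval of stiffnesses -/
theorem pd_ok_graph_unif (h : PdGrOk A Gr σ CP CN K₀ Δ) {a a₀ a₁ : ℝ} (h0 : 0 < a₀) (h1 : a₀ ≤ a) (h2 : a ≤ a₁) :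
    PdOk A (Gr.sys A a) σ (CP * max 1 a₁) (2 * K₀ * Δ * a₀⁻¹ + CN) := by
  have ha : 0 < a := h0.trans_le h1
  refine (pd_ok_graph h ha).mono ?_ ?_
  · exact mul_le_mul_of_nonneg_left (max_le_max le_rfl h2) h.CP_nonneg
  · have h3 : a⁻¹ ≤ a₀⁻¹ := inv_anti₀ h0 h1
    have hK := h.K_nonneg
    have : 2 * K₀ * Δ * a⁻¹ ≤ 2 * K₀ * Δ * a₀⁻¹ := mul_le_mul_of_nonneg_left h3 (by positivity)
    linarith

/-- resolution from the gradient energy of the cell -/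
theorem pd_res_graph {CR : ℝ} (hCR : 0 ≤ CR) {a : ℝ} (ha : 0 < a)
    (hres : ∀ (k : ℕ) (i : I), ∃ ℓ : Fin (4 ^ k) → (V → ℝ) →ₗ[ℝ] ℝ, ∀ v, (∀ x ∈ Gr.pin, v x = 0) → (∀ j, ℓ j v = 0) →
      σ * A.l2 {i} v ≤ CR * ((4 : ℝ) ^ k)⁻¹ * ∑ e, if A.blk (Gr.src e) = i ∧ A.blk (Gr.tgt e) = i then Gr.grad v e ^ 2 else 0) :
    PdRes A (Gr.sys A a) σ (CR * a) := by
  intro k i
  obtain ⟨ℓ, hℓ⟩ := hres k i
  refine ⟨ℓ, fun v hadm hv => (hℓ v hadm hv).trans ?_⟩
  rw [pd_graph_enI A Gr ha]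
  simp only [Set.mem_singleton_iff]
  set X := ∑ e, if A.blk (Gr.src e) = i ∧ A.blk (Gr.tgt e) = i then Gr.grad v e ^ 2 else 0 with hX
  set Z := ∑ o, if Gr.cel o = i then Gr.obs v o ^ 2 else 0 with hZ
  have hZ0 : 0 ≤ Z := Finset.sum_nonneg fun e _ => by split_ifs <;> positivity
  have h1 : a * a⁻¹ = 1 := mul_inv_cancel₀ ha.ne'
  have h2 : 0 ≤ CR * a * ((4 : ℝ) ^ k)⁻¹ * Z := by positivity
  calc CR * ((4 : ℝ) ^ k)⁻¹ * X = CR * ((4 : ℝ) ^ k)⁻¹ * ((a * a⁻¹) * X) := by rw [h1, one_mul]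
    _ ≤ CR * ((4 : ℝ) ^ k)⁻¹ * ((a * a⁻¹) * X) + CR * a * ((4 : ℝ) ^ k)⁻¹ * Z := le_add_of_nonneg_right h2
    _ = CR * a * ((4 : ℝ) ^ k)⁻¹ * (a⁻¹ * X + Z) := by ring

/-- bond functionals `φ ↦ ∑_e θ_e ∇_e φ` in the vocabulary of `termF` -/
theorem pd_graph_termF (A : PdAmb V I) (Gr : PdGr V I) {a : ℝ} (ha : 0 < a) (θ : Gr.E → ℝ) (c : Gr.O → ℝ) (φ : V → ℝ) :
    (Gr.sys A a).termF (Sum.elim (fun e => (Real.sqrt a)⁻¹ * θ e) c) φ = a⁻¹ * ∑ e, θ e * Gr.grad φ e + ∑ o, c o * Gr.obs φ o := by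
  refine (pd_graph_sum A Gr a (fun t => (Sum.elim (fun e => (Real.sqrt a)⁻¹ * θ e) c : Gr.E ⊕ Gr.O → ℝ) t * (Gr.sys A a).row φ t)).trans ?_
  simp only [pd_graph_row_inl, pd_graph_row_inr, Sum.elim_inl, Sum.elim_inr, Finset.mul_sum]
  congr 1
  refine Finset.sum_congr rfl fun e _ => ?_
  rw [← pd_sqrt_inv_mul ha]; ring

/-- the affine cost `a⁻¹ ∑_e (∇_e u + θ_e)² + ∑_o (B_o u - c_o)²` -/
theorem pd_graph_aff (A : PdAmb V I) (Gr : PdGr V I) {a : ℝ} (ha : 0 < a) (θ : Gr.E → ℝ) (c : Gr.O → ℝ) (u : V → ℝ) :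
    (Gr.sys A a).aff (Sum.elim (fun e => -((Real.sqrt a)⁻¹ * θ e)) c) u = a⁻¹ * ∑ e, (Gr.grad u e + θ e) ^ 2 + ∑ o, (Gr.obs u o - c o) ^ 2 := by
  refine (pd_graph_sum A Gr a (fun t => ((Gr.sys A a).row u t - (Sum.elim (fun e => -((Real.sqrt a)⁻¹ * θ e)) c : Gr.E ⊕ Gr.O → ℝ) t) ^ 2)).trans ?_
  simp only [pd_graph_row_inl, pd_graph_row_inr, Sum.elim_inl, Sum.elim_inr, Finset.mul_sum]
  congr 1
  refine Finset.sum_congr rfl fun e _ => ?_
  rw [← pd_sqrt_inv_mul ha]; ring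

end
end Claimed.Agent.R285.Pot
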