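import Mathlib

/-!
# ROW 285, POT-LIN : pure matrix leaf L-LIN-M2 (Mathlib only).   Statements: helper83.
-/

set_option autoImplicit false

namespace Claimed.Agent.R285.Pot

open MeasureTheory

/-- L-LIN-M2 (Jacobi's complementary minor).  Plan: `Matrix.det_toBlock`/`fromBlocks_toBlocks` + `Matrix.det_fromBlocks₂₂` + `Matrix.invOf_fromBlocks₂₂_eq` (the `11` block of the inverse is the inverse of the Schur complement). -/
theorem pl_mat_jacobi {n : Type} [Fintype n] [DecidableEq n] (M : Matrix n n ℝ) (hM : M.PosDef) (p : n → Prop) [DecidablePred p] :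
    (M⁻¹.submatrix (fun i : {i // p i} => i.1) (fun i : {i // p i} => i.1)).det * M.det
      = (M.submatrix (fun i : {i // ¬ p i} => i.1) (fun i : {i // ¬ p i} => i.1)).det := by
  obtain ⟨e, he⟩ : ∃ e : {a // p a} ⊕ {a // ¬ p a} ≃ n, e = Equiv.sumCompl p := ⟨_, rfl⟩
  obtain ⟨M', hM'⟩ : ∃ M' : Matrix ({a // p a} ⊕ {a // ¬ p a}) ({a // p a} ⊕ {a // ¬ p a}) ℝ, M' = M.submatrix e e := ⟨_, rfl⟩
  obtain ⟨N', hN'⟩ : ∃ N' : Matrix ({a // p a} ⊕ {a // ¬ p a}) ({a // p a} ⊕ {a // ¬ p a}) ℝ, N' = M⁻¹.submatrix e e := ⟨_, rfl⟩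
  have hdet : IsUnit M.det := (Matrix.isUnit_iff_isUnit_det M).mp hM.isUnit
  have hMN : M' * N' = 1 := by
    rw [hM', hN', Matrix.submatrix_mul_equiv, Matrix.mul_nonsing_inv M hdet, Matrix.submatrix_one_equiv]
  have h4 := hMN
  rw [← Matrix.fromBlocks_toBlocks M', ← Matrix.fromBlocks_toBlocks N', Matrix.fromBlocks_multiply, ← Matrix.fromBlocks_one,
    Matrix.fromBlocks_inj] at h4
  obtain ⟨b11, -, b21, -⟩ := h4
  have key : M' * Matrix.fromBlocks N'.toBlocks₁₁ 0 N'.toBlocks₂₁ 1 = Matrix.fromBlocks 1 M'.toBlocks₁₂ 0 M'.toBlocks₂₂ := by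
    conv_lhs => rw [← Matrix.fromBlocks_toBlocks M']
    rw [Matrix.fromBlocks_multiply, b11, b21]
    simp
  have h5 := congrArg Matrix.det key
  rw [Matrix.det_mul, Matrix.det_fromBlocks_zero₁₂, Matrix.det_fromBlocks_zero₂₁, Matrix.det_one, Matrix.det_one, mul_one, one_mul,
    hM', Matrix.det_submatrix_equiv_self] at h5
  have e1 : N'.toBlocks₁₁ = M⁻¹.submatrix (fun i : {i // p i} => i.1) (fun i : {i // p i} => i.1) := by
    rw [hN', he]; ext i j; rfl
  have e2 : (M.submatrix e e).toBlocks₂₂ = M.submatrix (fun i : {i // ¬ p i} => i.1) (fun i : {i // ¬ p i} => i.1) := by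
    rw [he]; ext i j; rfl
  rw [e1, e2] at h5
  rw [← h5, mul_comm]

/-- L-LIN-M5 (canonical correlations).  Block matrix `[[S₁, X],[Xᵀ, S₂]]` positive definite:  `det = det S₁ · det S₂ · det (1 - S₁⁻¹ X S₂⁻¹ Xᵀ)`. -/
theorem pl_mat_det_blocks {m n : Type} [Fintype m] [DecidableEq m] [Fintype n] [DecidableEq n] (S₁ : Matrix m m ℝ) (S₂ : Matrix n n ℝ)
    (X : Matrix m n ℝ) (h₁ : S₁.PosDef) (h₂ : S₂.PosDef) :
    (Matrix.fromBlocks S₁ X X.transpose S₂).det = S₁.det * S₂.det * (1 - S₁⁻¹ * X * S₂⁻¹ * X.transpose).det := by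
  have hd1 : IsUnit S₁.det := (Matrix.isUnit_iff_isUnit_det S₁).mp h₁.isUnit
  have hd2 : IsUnit S₂.det := (Matrix.isUnit_iff_isUnit_det S₂).mp h₂.isUnit
  letI := Matrix.invertibleOfIsUnitDet S₂ hd2
  rw [Matrix.det_fromBlocks₂₂, Matrix.invOf_eq_nonsing_inv]
  have e : S₁ - X * S₂⁻¹ * X.transpose = S₁ * (1 - S₁⁻¹ * X * S₂⁻¹ * X.transpose) := by
    rw [Matrix.mul_sub, Matrix.mul_one]
    congr 1
    simp only [← Matrix.mul_assoc]
    rw [Matrix.mul_nonsing_inv S₁ hd1, Matrix.one_mul]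
  rw [e, Matrix.det_mul]
  ring

/-! ## shared helpers of L-LIN-M4, L-LIN-M6 (helper58) -/

open scoped MatrixOrder in
/-- a positive definite matrix is `Bᵀ B` with `B` invertible -/
theorem pl_mat_factor {n : Type} [Fintype n] [DecidableEq n] (R : Matrix n n ℝ) (hR : R.PosDef) :
    ∃ B : Matrix n n ℝ, IsUnit B.det ∧ R = B.transpose * B := by
  obtain ⟨B, hB⟩ := CStarAlgebra.nonneg_iff_eq_star_mul_self.mp hR.posSemidef.nonneg
  have hB' : R = B.transpose * B := by
    rw [hB, Matrix.star_eq_conjTranspose, Matrix.conjTranspose_eq_transpose_of_trivial]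
  refine ⟨B, ?_, hB'⟩
  have h1 : IsUnit R.det := (Matrix.isUnit_iff_isUnit_det R).mp hR.isUnit
  rw [hB', Matrix.det_mul] at h1
  exact isUnit_of_mul_isUnit_right h1

/-- the spectral theorem of a real symmetric matrix, in plain coordinates, with sorted eigenvalues -/
theorem pl_mat_spectral {n : Type} [Fintype n] [DecidableEq n] (W : Matrix n n ℝ) (hW : W.IsHermitian) :
    ∃ (ν : Fin (Fintype.card n) → ℝ) (u : Fin (Fintype.card n) → n → ℝ), Antitone ν ∧
      (∀ i j, u i ⬝ᵥ u j = if i = j then 1 else 0) ∧ (∀ i, W.mulVec (u i) = ν i • u i) ∧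
      W.trace = ∑ i, ν i ∧ (1 - W).det = ∏ i, (1 - ν i) := by
  obtain ⟨e, he⟩ : ∃ e : Fin (Fintype.card n) ≃ n, e = Fintype.equivOfCardEq (Fintype.card_fin _) := ⟨_, rfl⟩
  have hev : ∀ k, hW.eigenvalues (e k) = hW.eigenvalues₀ k := by
    intro k
    rw [Matrix.IsHermitian.eigenvalues, ← he, Equiv.symm_apply_apply]
  refine ⟨hW.eigenvalues₀, fun k => ⇑(hW.eigenvectorBasis (e k)), hW.eigenvalues₀_antitone, ?_, ?_, ?_, ?_⟩
  · intro i j
    have h1 := orthonormal_iff_ite.mp hW.eigenvectorBasis.orthonormal (e j) (e i)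
    rw [EuclideanSpace.inner_eq_star_dotProduct] at h1
    simp only [star_trivial] at h1
    rw [h1]
    simp only [EmbeddingLike.apply_eq_iff_eq, eq_comm]
  · intro i
    rw [hW.mulVec_eigenvectorBasis, hev]
  · rw [hW.trace_eq_sum_eigenvalues, ← Equiv.sum_comp e]
    simp [hev]
  · have h1 := Matrix.eval_charpoly W 1
    rw [hW.charpoly_eq, Polynomial.eval_prod] at h1
    simp only [Polynomial.eval_sub, Polynomial.eval_X, Polynomial.eval_C, map_one] at h1
    rw [← h1, ← Equiv.prod_comp e]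
    simp [hev]

/-- simultaneous diagonalisation of a positive definite and a symmetric form -/
theorem pl_mat_simdiag {n : Type} [Fintype n] [DecidableEq n] (R Y : Matrix n n ℝ) (hR : R.PosDef) (hY : Y.IsHermitian) :
    ∃ (ν : Fin (Fintype.card n) → ℝ) (f : Fin (Fintype.card n) → n → ℝ), Antitone ν ∧
      (∀ i j, f i ⬝ᵥ R.mulVec (f j) = if i = j then 1 else 0) ∧
      (∀ i j, f i ⬝ᵥ Y.mulVec (f j) = if i = j then ν i else 0) ∧
      (R⁻¹ * Y).trace = ∑ i, ν i ∧ (1 - R⁻¹ * Y).det = ∏ i, (1 - ν i) := by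
  obtain ⟨B, hB, hRB⟩ := pl_mat_factor R hR
  obtain ⟨T, hT⟩ : ∃ T : Matrix n n ℝ, T = B⁻¹ := ⟨_, rfl⟩
  have hBT : B * T = 1 := by rw [hT]; exact Matrix.mul_nonsing_inv B hB
  have hTB : T * B = 1 := by rw [hT]; exact Matrix.nonsing_inv_mul B hB
  have hRi : R⁻¹ = T * T.transpose := by
    apply Matrix.inv_eq_right_inv
    rw [hRB]
    calc B.transpose * B * (T * T.transpose) = B.transpose * (B * T) * T.transpose := by simp only [Matrix.mul_assoc]
      _ = (T * B).transpose := by rw [hBT, Matrix.mul_one, Matrix.transpose_mul]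
      _ = 1 := by rw [hTB, Matrix.transpose_one]
  obtain ⟨W, hWd⟩ : ∃ W : Matrix n n ℝ, W = T.transpose * Y * T := ⟨_, rfl⟩
  have hYt : Y.transpose = Y := by
    have := hY
    rwa [Matrix.IsHermitian, Matrix.conjTranspose_eq_transpose_of_trivial] at this
  have hW : W.IsHermitian := by
    rw [Matrix.IsHermitian, Matrix.conjTranspose_eq_transpose_of_trivial, hWd]
    simp only [Matrix.transpose_mul, Matrix.transpose_transpose, hYt, Matrix.mul_assoc]
  obtain ⟨ν, u, hν, huu, hWu, htr, hdet⟩ := pl_mat_spectral W hW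
  have hbil : ∀ (M : Matrix n n ℝ) (v w : n → ℝ), (T.mulVec v) ⬝ᵥ M.mulVec (T.mulVec w) = v ⬝ᵥ (T.transpose * M * T).mulVec w := by
    intro M v w
    rw [← Matrix.mulVec_mulVec, ← Matrix.mulVec_mulVec, Matrix.dotProduct_mulVec v, Matrix.vecMul_transpose]
  have hTRT : T.transpose * R * T = 1 := by
    rw [hRB]
    calc T.transpose * (B.transpose * B) * T = (T.transpose * B.transpose) * (B * T) := by simp only [Matrix.mul_assoc]
      _ = 1 := by rw [← Matrix.transpose_mul, hBT, Matrix.transpose_one, Matrix.one_mul]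
  refine ⟨ν, fun i => T.mulVec (u i), hν, ?_, ?_, ?_, ?_⟩
  · intro i j
    rw [hbil, hTRT, Matrix.one_mulVec, huu]
  · intro i j
    rw [hbil, ← hWd, hWu, dotProduct_smul, huu]
    by_cases hij : i = j
    · simp [hij]
    · simp [hij]
  · rw [← htr, hRi, hWd, Matrix.mul_assoc, Matrix.trace_mul_comm]
  · rw [← hdet, hRi, hWd, Matrix.mul_assoc, Matrix.det_one_sub_mul_comm]

/-- a quadratic form on a combination of a diagonalising family -/
theorem pl_mat_quad_comb {n ι : Type} [Fintype n] [Fintype ι] [DecidableEq ι] (M : Matrix n n ℝ) (g : ι → n → ℝ) (d : ι → ℝ)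
    (h : ∀ k l, g k ⬝ᵥ M.mulVec (g l) = if k = l then d k else 0) (c : ι → ℝ) :
    (∑ k, c k • g k) ⬝ᵥ M.mulVec (∑ k, c k • g k) = ∑ k, c k ^ 2 * d k := by
  rw [Matrix.mulVec_sum, sum_dotProduct]
  refine Finset.sum_congr rfl fun k _ => ?_
  rw [dotProduct_sum]
  simp only [Matrix.mulVec_smul, smul_dotProduct, dotProduct_smul, h, smul_eq_mul]
  simp only [mul_ite, mul_zero, Finset.sum_ite_eq, Finset.mem_univ, if_true]
  ring

end Claimed.Agent.R285.Pot
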