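import Claimed.Agent.R285.Pot.LinMat2

/-!
# ROW 285, POT-LIN : pure matrix leaf L-LIN-M6 (Mathlib only).   Statements: helper83.
-/

set_option autoImplicit false

namespace Claimed.Agent.R285.Pot

open MeasureTheory

/-- L-LIN-M6 (HS bound).  If `(f·Xg)² ≤ κ (f·S₁f)(g·S₂g)` with `κ < 1` then `-log det (1 - S₁⁻¹ X S₂⁻¹ Xᵀ) ≤ tr (S₁⁻¹ X S₂⁻¹ Xᵀ) / (1 - κ)`.
Plan: `C = S₁^{-1/2} X S₂^{-1/2}`, `C Cᵀ` PSD with eigenvalues `λ_i ∈ [0, κ]`, similar to `S₁⁻¹ X S₂⁻¹ Xᵀ`; `-log(1-λ) ≤ λ/(1-λ) ≤ λ/(1-κ)`. -/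
theorem pl_mat_HS {m n : Type} [Fintype m] [DecidableEq m] [Fintype n] [DecidableEq n] (S₁ : Matrix m m ℝ) (S₂ : Matrix n n ℝ)
    (X : Matrix m n ℝ) (h₁ : S₁.PosDef) (h₂ : S₂.PosDef) (κ : ℝ) (hκ : κ < 1)
    (hX : ∀ (f : m → ℝ) (g : n → ℝ), (f ⬝ᵥ X.mulVec g) ^ 2 ≤ κ * (f ⬝ᵥ S₁.mulVec f) * (g ⬝ᵥ S₂.mulVec g)) :
    0 < (1 - S₁⁻¹ * X * S₂⁻¹ * X.transpose).det ∧
    - Real.log (1 - S₁⁻¹ * X * S₂⁻¹ * X.transpose).det ≤ (S₁⁻¹ * X * S₂⁻¹ * X.transpose).trace / (1 - κ) := by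
  obtain ⟨Y, hYd⟩ : ∃ Y : Matrix m m ℝ, Y = X * S₂⁻¹ * X.transpose := ⟨_, rfl⟩
  have hK : S₁⁻¹ * X * S₂⁻¹ * X.transpose = S₁⁻¹ * Y := by rw [hYd]; simp only [Matrix.mul_assoc]
  have hd2 : IsUnit S₂.det := (Matrix.isUnit_iff_isUnit_det S₂).mp h₂.isUnit
  have hS2t : S₂⁻¹.transpose = S₂⁻¹ := by
    have := h₂.inv.isHermitian
    rwa [Matrix.IsHermitian, Matrix.conjTranspose_eq_transpose_of_trivial] at this
  have hY : Y.IsHermitian := by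
    rw [Matrix.IsHermitian, Matrix.conjTranspose_eq_transpose_of_trivial, hYd]
    simp only [Matrix.transpose_mul, Matrix.transpose_transpose, hS2t, Matrix.mul_assoc]
  obtain ⟨ν, f, -, hR, hYf, htr, hdet⟩ := pl_mat_simdiag S₁ Y h₁ hY
  rw [hK, htr, hdet]
  have hb : ∀ i, 0 ≤ ν i ∧ (ν i = 0 ∨ ν i ≤ κ) := by
    intro i
    obtain ⟨g, hg⟩ : ∃ g : n → ℝ, g = S₂⁻¹.mulVec (X.transpose.mulVec (f i)) := ⟨_, rfl⟩
    have q1 : f i ⬝ᵥ X.mulVec g = ν i := by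
      have := hYf i i
      rw [if_pos rfl, hYd, ← Matrix.mulVec_mulVec, ← Matrix.mulVec_mulVec] at this
      rw [hg]; exact this
    have q2 : g ⬝ᵥ S₂.mulVec g = ν i := by
      have e1 : S₂.mulVec g = X.transpose.mulVec (f i) := by
        rw [hg, Matrix.mulVec_mulVec, Matrix.mul_nonsing_inv S₂ hd2, Matrix.one_mulVec]
      rw [e1, Matrix.mulVec_transpose, dotProduct_comm, ← Matrix.dotProduct_mulVec]
      exact q1
    have h0 : 0 ≤ ν i := by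
      have := h₂.posSemidef.dotProduct_mulVec_nonneg g
      rw [star_trivial, q2] at this
      exact this
    refine ⟨h0, ?_⟩
    have h3 := hX (f i) g
    rw [q1, q2, hR i i, if_pos rfl, mul_one] at h3
    rcases h0.eq_or_lt with h4 | h4
    · exact Or.inl h4.symm
    · right
      have : ν i * ν i ≤ κ * ν i := by rw [← sq]; exact h3
      exact le_of_mul_le_mul_right this h4
  have hlt : ∀ i, 0 < 1 - ν i := by
    intro i
    rcases (hb i).2 with h | h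
    · rw [h]; norm_num
    · linarith
  refine ⟨Finset.prod_pos fun i _ => hlt i, ?_⟩
  rw [Real.log_prod (fun i _ => (hlt i).ne'), ← Finset.sum_neg_distrib, Finset.sum_div]
  refine Finset.sum_le_sum fun i _ => ?_
  rcases (hb i).2 with h | h
  · rw [h]; simp
  · have h1κ : 0 < 1 - κ := by linarith
    have h5 := Real.one_sub_inv_le_log_of_pos (hlt i)
    have h6 : (1 - ν i)⁻¹ - 1 = ν i / (1 - ν i) := by
      field_simp [(hlt i).ne']
      ring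
    have h7 : ν i / (1 - ν i) ≤ ν i / (1 - κ) := div_le_div_of_nonneg_left (hb i).1 h1κ (by linarith)
    linarith

end Claimed.Agent.R285.Pot
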