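import Claimed.Agent.R285.Pot.LinPin
import Claimed.Agent.R285.Pot.LinMat2

/-!
# ROW 285, POT-LIN block 3b : covariance blocks and Schur complements (determinants only, NO measure).   Paper-free.
`pl_S_posDef`, `pl_det_S` = L-LIN-D6, D7 of helper83 (moved here verbatim from `LinCC.lean`, so that the determinant chain does not import the Gaussian integrals);  `pl_schur` : helper126 (POT-SEC-LOC).
-/

set_option autoImplicit false

namespace Claimed.Agent.R285.Pot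

open scoped Classical

noncomputable section

variable {G : HGraph} (H : HLaw G)

/-- covariance blocks are submatrices of the inverse precision -/
theorem pl_S_eq_sub (a : ℝ) (P A B : Set G.V) (hA : ∀ x ∈ A, x ∉ P) (hB : ∀ x ∈ B, x ∉ P) :
    plS H a P A B = ((plPrec H a P)⁻¹).submatrix (fun x : {x : G.V // x ∈ A} => (⟨x.1, hA x.1 x.2⟩ : {x : G.V // x ∉ P}))
      (fun x : {x : G.V // x ∈ B} => (⟨x.1, hB x.1 x.2⟩ : {x : G.V // x ∉ P})) := by
  ext x y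
  simp [plS, plGreen, hA x.1 x.2, hB y.1 y.2]

/-- a sum over all vertices of a function supported in `D` -/
theorem pl_sum_on (D : Set G.V) (F : G.V → ℝ) (hF : ∀ x ∉ D, F x = 0) : ∑ x, F x = ∑ x : {x : G.V // x ∈ D}, F x.1 := by
  rw [← Fintype.sum_subtype_add_sum_subtype (fun x => x ∈ D) F]
  have : ∑ i : {x // ¬ x ∈ D}, F i.1 = 0 := Finset.sum_eq_zero fun i _ => hF i.1 i.2
  rw [this, add_zero]

/-- L-LIN-D6: covariance blocks are positive definite.   Plan: `plS = ((plPrec H a P)⁻¹).submatrix e e`, `e : {x // x ∈ A} → {x // x ∉ P}` injective; `Matrix.PosDef.inv`, `Matrix.PosDef.submatrix`. -/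
theorem pl_S_posDef {a : ℝ} (ha : 0 < a) {P : Set G.V} (h : plPD H P) (A : Set G.V) (hA : ∀ x ∈ A, x ∉ P) : (plS H a P A A).PosDef := by
  rw [pl_S_eq_sub H a P A A hA hA]
  refine (pl_prec_posDef H ha h).inv.submatrix ?_
  intro x y hxy
  exact Subtype.ext (congrArg (fun z : {x : G.V // x ∉ P} => z.1) hxy)

theorem pl_det_S_gen {a : ℝ} (ha : 0 < a) {P : Set G.V} (h : plPD H P) (A Q : Set G.V) (hQ : ∀ x, x ∈ Q ↔ x ∈ P ∨ x ∈ A)
    (hA : ∀ x ∈ A, x ∉ P) : (plS H a P A A).det * H.detOff a P = H.detOff a Q := by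
  have hj := pl_mat_jacobi (plPrec H a P) (pl_prec_posDef H ha h) (fun i => i.1 ∈ A)
  let e1 : {x : G.V // x ∈ A} ≃ {i : {x : G.V // x ∉ P} // i.1 ∈ A} :=
    ⟨fun x => ⟨⟨x.1, hA x.1 x.2⟩, x.2⟩, fun i => ⟨i.1.1, i.2⟩, fun _ => rfl, fun _ => rfl⟩
  let e2 : {x : G.V // x ∉ Q} ≃ {i : {x : G.V // x ∉ P} // ¬ i.1 ∈ A} :=
    ⟨fun x => ⟨⟨x.1, fun h => x.2 ((hQ _).2 (Or.inl h))⟩, fun h => x.2 ((hQ _).2 (Or.inr h))⟩,
      fun i => ⟨i.1.1, fun h => ((hQ _).1 h).elim i.1.2 i.2⟩, fun _ => rfl, fun _ => rfl⟩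
  rw [← Matrix.det_submatrix_equiv_self e1, ← Matrix.det_submatrix_equiv_self e2] at hj
  rw [pl_S_eq_sub H a P A A hA hA, pl_detOff_eq, pl_detOff_eq]
  exact hj

/-- L-LIN-D7 (Jacobi): `det Σ_AA = detOff (P ∪ A) / detOff P`.  From `pl_mat_jacobi` + reindexing (`Matrix.det_submatrix_equiv_self`). -/
theorem pl_det_S {a : ℝ} (ha : 0 < a) {P : Set G.V} (h : plPD H P) (A : Set G.V) (hA : ∀ x ∈ A, x ∉ P) :
    (plS H a P A A).det * H.detOff a P = H.detOff a (P ∪ A) :=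
  pl_det_S_gen H ha h A (P ∪ A) (fun _ => Iff.rfl) hA

/-- **the inverse covariance block is the matrix of the minimal energy of the data.**
Plan: `c = (plS)⁻¹ u|_D`, `f` = `c` extended by zero, `w = plGf H a P f`.  Then `w = 0` on `P`, `w = u` on `D` (`plS * c = u|_D`), `plB w φ = pair f φ = 0` for `φ` vanishing on `P ∪ D` (`pl_Gf_opt`);
`pl_harm_unique`: `w = plHarm (P ∪ D) u`;  `plEn = form w = plB w w = pair f w = c ⬝ u|_D`. -/
theorem pl_S_inv_en {a : ℝ} (ha : 0 < a) {P : Set G.V} (h : plPD H P) (D : Set G.V) (hD : ∀ x ∈ D, x ∉ P)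
    (u : G.V → ℝ) (hu : ∀ x ∈ P, u x = 0) :
    (fun x : {x : G.V // x ∈ D} => u x.1) ⬝ᵥ ((plS H a P D D)⁻¹).mulVec (fun x : {x : G.V // x ∈ D} => u x.1) = plEn H a (P ∪ D) u := by
  have hS := pl_S_posDef H ha h D hD
  have hdet : IsUnit (plS H a P D D).det := hS.det_pos.ne'.isUnit
  obtain ⟨uD, huD⟩ : ∃ uD : {x : G.V // x ∈ D} → ℝ, uD = fun x => u x.1 := ⟨_, rfl⟩
  obtain ⟨c, hc⟩ : ∃ c : {x : G.V // x ∈ D} → ℝ, c = ((plS H a P D D)⁻¹).mulVec uD := ⟨_, rfl⟩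
  obtain ⟨f, hf⟩ : ∃ f : G.V → ℝ, f = fun x => if hx : x ∈ D then c ⟨x, hx⟩ else 0 := ⟨_, rfl⟩
  have hf0 : ∀ x ∉ D, f x = 0 := fun x hx => by rw [hf]; simp [hx]
  have hf1 : ∀ x : {x : G.V // x ∈ D}, f x.1 = c x := fun x => by rw [hf]; simp [x.2]
  obtain ⟨w, hw⟩ : ∃ w : G.V → ℝ, w = plGf H a P f := ⟨_, rfl⟩
  have hopt := pl_Gf_opt H ha h f
  rw [← hw] at hopt
  have hwP : ∀ x ∈ P, w x = 0 := (pl_mem_rspan_pin H P w).1 hopt.1
  have hwD : ∀ x : {x : G.V // x ∈ D}, w x.1 = u x.1 := by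
    intro x
    have e1 : (plS H a P D D).mulVec c = uD := by
      rw [hc, Matrix.mulVec_mulVec, Matrix.mul_nonsing_inv _ hdet, Matrix.one_mulVec]
    have e2 : (plS H a P D D).mulVec c x = u x.1 := by rw [e1, huD]
    rw [← e2, hw, plGf, pl_sum_on D _ (fun y hy => by rw [hf0 y hy, mul_zero])]
    simp only [Matrix.mulVec, dotProduct, plS, hf1]
  have hPD := pl_PD_mono H h (Set.subset_union_left (t := D))
  have hharm : w = plHarm H a (P ∪ D) u := by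
    refine pl_harm_unique H ha hPD u ?_ ?_
    · rintro x (hx | hx)
      · rw [hwP x hx, hu x hx]
      · exact hwD ⟨x, hx⟩
    · intro φ hφ
      have h1 := hopt.2 φ ((pl_mem_rspan_pin H P φ).2 fun x hx => hφ x (Or.inl hx))
      rw [pl_pin_B] at h1
      rw [h1, HLaw.pair]
      refine Finset.sum_eq_zero fun x _ => ?_
      by_cases hx : x ∈ D
      · rw [hφ x (Or.inr hx), mul_zero]
      · rw [hf0 x hx, zero_mul]
  have h2 := hopt.2 w hopt.1
  rw [pl_pin_B] at h2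
  rw [plEn, ← hharm, pl_form_eq, h2, HLaw.pair, pl_sum_on D _ (fun y hy => by rw [hf0 y hy, zero_mul]), ← huD, ← hc, dotProduct]
  refine Finset.sum_congr rfl fun x _ => ?_
  rw [hf1, hwD, huD, mul_comm]

/-- **Schur complement**: determinant and quadratic form.   `R = (plS H a P D D)⁻¹`; `pl_S_posDef`, `pl_det_S`, `pl_S_inv_en`. -/
theorem pl_schur {a : ℝ} (ha : 0 < a) {P : Set G.V} (h : plPD H P) (D : Set G.V) (hD : ∀ x ∈ D, x ∉ P) :
    ∃ R : Matrix {x : G.V // x ∈ D} {x : G.V // x ∈ D} ℝ, R.PosDef ∧ H.detOff a P = H.detOff a (P ∪ D) * R.det ∧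
      ∀ u : G.V → ℝ, (∀ x ∈ P, u x = 0) →
        (fun x : {x : G.V // x ∈ D} => u x.1) ⬝ᵥ R.mulVec (fun x : {x : G.V // x ∈ D} => u x.1) = plEn H a (P ∪ D) u := by
  have hS := pl_S_posDef H ha h D hD
  refine ⟨(plS H a P D D)⁻¹, hS.inv, ?_, fun u hu => pl_S_inv_en H ha h D hD u hu⟩
  have h1 := pl_det_S H ha h D hD
  have h2 : (plS H a P D D).det ≠ 0 := hS.det_pos.ne'
  rw [Matrix.det_nonsing_inv, Ring.inverse_eq_inv', ← h1]
  field_simp

end

end Claimed.Agent.R285.Pot
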