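import Claimed.Agent.R285.Pot.LinDet
import Claimed.Agent.R285.Pot.LinMat2
import Claimed.Agent.R285.Pot.LinMat6
import Claimed.Agent.R285.Pot.LinSchur

/-!
# ROW 285, POT-LIN leaf L-LIN-CC : canonical correlations, `gPin = -1/2 log det (1 - C C*)`, HS bound.   Paper-free.   Statements: helper83.
-/

set_option autoImplicit false

namespace Claimed.Agent.R285.Pot

open MeasureTheory ProbabilityTheory
open scoped Classical

noncomputable section

variable {G : HGraph} (H : HLaw G)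

/-! L-LIN-D6 `pl_S_posDef`, L-LIN-D7 `pl_det_S`: MOVED verbatim to `Pot/LinSchur.lean` (helper126, 15:50Z), imported here. -/

/-- the covariance block of a disjoint union -/
theorem pl_det_S_union (a : ℝ) (P A A' B : Set G.V) (hB : ∀ x, x ∈ B ↔ x ∈ A ∨ x ∈ A') (hd : ∀ x ∈ A, x ∉ A') :
    (plS H a P B B).det
      = (Matrix.fromBlocks (plS H a P A A) (plS H a P A A') (plS H a P A' A) (plS H a P A' A')).det := by
  let e : {x : G.V // x ∈ A} ⊕ {x : G.V // x ∈ A'} ≃ {x : G.V // x ∈ B} :=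
    { toFun := fun s => Sum.elim (fun x => ⟨x.1, (hB _).2 (Or.inl x.2)⟩) (fun x => ⟨x.1, (hB _).2 (Or.inr x.2)⟩) s
      invFun := fun x => if h : x.1 ∈ A then Sum.inl ⟨x.1, h⟩ else Sum.inr ⟨x.1, ((hB _).1 x.2).resolve_left h⟩
      left_inv := by
        rintro (x | x)
        · simp [x.2]
        · have : x.1 ∉ A := fun h => hd _ h x.2
          simp [this]
      right_inv := by
        intro x
        by_cases h : x.1 ∈ A <;> simp [h] }
  rw [← Matrix.det_submatrix_equiv_self e (plS H a P B B)]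
  congr 1
  ext (x | x) (y | y) <;> rfl

theorem pl_S_transpose (a : ℝ) (P A A' : Set G.V) : (plS H a P A A').transpose = plS H a P A' A := by
  ext x y
  simp only [Matrix.transpose_apply, plS]
  exact pl_green_symm H a P _ _

/-- all determinants in terms of covariance blocks -/
theorem pl_gPin_dets {a : ℝ} (ha : 0 < a) {P : Set G.V} (h : plPD H P) (A A' B : Set G.V) (hB : B = A ∪ A') (hA : ∀ x ∈ A, x ∉ P)
    (hA' : ∀ x ∈ A', x ∉ P) (hd : ∀ x ∈ A, x ∉ A') :
    0 < (1 - plCC H a P A A').det ∧ H.gPin a P A A' = -(1 / 2) * Real.log (1 - plCC H a P A A').det := by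
  have hBi : ∀ x, x ∈ B ↔ x ∈ A ∨ x ∈ A' := fun x => by rw [hB]; rfl
  have hAA' : ∀ x ∈ B, x ∉ P := by
    intro x hx
    rcases (hBi x).1 hx with hx | hx
    · exact hA x hx
    · exact hA' x hx
  have s1 := pl_S_posDef H ha h A hA
  have s2 := pl_S_posDef H ha h A' hA'
  have s3 := pl_S_posDef H ha h B hAA'
  have d1 := pl_det_S H ha h A hA
  have d2 := pl_det_S H ha h A' hA'
  have d3 := pl_det_S H ha h B hAA'
  have hP := pl_detOff_pos H ha h
  have e3 := pl_det_S_union H a P A A' B hBi hd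
  rw [← pl_S_transpose H a P A A', pl_mat_det_blocks _ _ _ s1 s2, pl_S_transpose] at e3
  have p1 := s1.det_pos
  have p2 := s2.det_pos
  have p3 := s3.det_pos
  have hcc : (plS H a P A A)⁻¹ * plS H a P A A' * (plS H a P A' A')⁻¹ * plS H a P A' A = plCC H a P A A' := rfl
  rw [hcc] at e3
  have pδ : 0 < (1 - plCC H a P A A').det := by
    rw [e3] at p3
    by_contra hneg
    push Not at hneg
    have : (plS H a P A A).det * (plS H a P A' A').det * (1 - plCC H a P A A').det ≤ 0 :=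
      mul_nonpos_of_nonneg_of_nonpos (by positivity) hneg
    linarith
  refine ⟨pδ, ?_⟩
  rw [HLaw.gPin, Set.union_assoc, ← hB, ← d1, ← d2, ← d3, e3, Real.log_mul p1.ne' hP.ne', Real.log_mul p2.ne' hP.ne',
    Real.log_mul (by positivity) hP.ne', Real.log_mul (by positivity) pδ.ne', Real.log_mul p1.ne' p2.ne']
  ring

/-- L-LIN-D8 (**`gPin = -½ log det (1 - C C*)`**).  From D7 (for `A`, `A'`, `A ∪ A'`) + `pl_mat_det_blocks` + reindexing `A ∪ A' ≃ A ⊕ A'`. -/
theorem pl_gPin_eq_det {a : ℝ} (ha : 0 < a) {P : Set G.V} (h : plPD H P) (A A' : Set G.V) (hA : ∀ x ∈ A, x ∉ P) (hA' : ∀ x ∈ A', x ∉ P)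
    (hd : ∀ x ∈ A, x ∉ A') : H.gPin a P A A' = -(1 / 2) * Real.log (1 - plCC H a P A A').det :=
  (pl_gPin_dets H ha h A A' (A ∪ A') rfl hA hA' hd).2

/-- extension by zero of a test on `A` -/
def plUp (A : Set G.V) (f : {x : G.V // x ∈ A} → ℝ) : G.V → ℝ := fun x => if h : x ∈ A then f ⟨x, h⟩ else 0

theorem plUp_eqns_cite : True := by
  have := @plUp.eq_1; trivial

theorem pl_up_green (a : ℝ) (P A B : Set G.V) (f : {x : G.V // x ∈ A} → ℝ) (g : {x : G.V // x ∈ B} → ℝ) :
    ∑ x, ∑ y, plUp A f x * plGreen H a P x y * plUp B g y = f ⬝ᵥ (plS H a P A B).mulVec g := by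
  rw [pl_sum_on A _ (fun x hx => by simp [plUp, hx])]
  simp only [dotProduct, Matrix.mulVec, Finset.mul_sum]
  refine Finset.sum_congr rfl fun x _ => ?_
  rw [pl_sum_on B _ (fun y hy => by simp [plUp, hy])]
  refine Finset.sum_congr rfl fun y _ => ?_
  simp [plUp, x.2, y.2, plS, mul_assoc]

/-- L-LIN-D9 (**HS bound**): `|C|² ≤ κ < 1` (correlation bound for tests supported in `A`, `A'`) implies `gPin ≤ HS² / (2 (1 - κ))`, `HS² = tr (C C*)`.  From D8 + `pl_mat_HS`. -/
theorem pl_gPin_le_HS {a : ℝ} (ha : 0 < a) {P : Set G.V} (h : plPD H P) (A A' : Set G.V) (hA : ∀ x ∈ A, x ∉ P) (hA' : ∀ x ∈ A', x ∉ P)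
    (hd : ∀ x ∈ A, x ∉ A') (κ : ℝ) (hκ : κ < 1)
    (hC : ∀ f g : G.V → ℝ, (∀ x ∉ A, f x = 0) → (∀ x ∉ A', g x = 0) →
      plCov (plPin H P) a f g ^ 2 ≤ κ * (plPin H P).gVar a f * (plPin H P).gVar a g) :
    H.gPin a P A A' ≤ (plCC H a P A A').trace / (2 * (1 - κ)) := by
  have s1 := pl_S_posDef H ha h A hA
  have s2 := pl_S_posDef H ha h A' hA'
  have hHS := pl_mat_HS (plS H a P A A) (plS H a P A' A') (plS H a P A A') s1 s2 κ hκ (by
    intro f g
    have := hC (plUp A f) (plUp A' g) (fun x hx => by simp [plUp, hx]) (fun x hx => by simp [plUp, hx])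
    rw [pl_cov_green H ha h, pl_gVar_green H ha h, pl_gVar_green H ha h, pl_up_green, pl_up_green, pl_up_green] at this
    exact this)
  rw [pl_S_transpose] at hHS
  have hcc : (plS H a P A A)⁻¹ * plS H a P A A' * (plS H a P A' A')⁻¹ * plS H a P A' A = plCC H a P A A' := rfl
  rw [hcc] at hHS
  rw [pl_gPin_eq_det H ha h A A' hA hA' hd]
  have h1κ : 0 < 1 - κ := by linarith
  have e : (plCC H a P A A').trace / (2 * (1 - κ)) = (1 / 2) * ((plCC H a P A A').trace / (1 - κ)) := by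
    field_simp
  rw [e]
  linarith [hHS.2]

end

end Claimed.Agent.R285.Pot
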