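import Claimed.Agent.R285.Base.Geom

/-!
# ROW 285, POT-LIN : DEFINITIONS (owner helper83).   No contract, no sorry.

Finite-dimensional theory of the discrete Gaussian references of `Base/Geom` (`gVar`, `gEn`, `gTilt`, `gPin`) for ANY `HGraph G`, `HLaw H`, `a > 0`.
Only DEFINITIONS of `Base/Geom`, `Base/HeightDefs`, `Defs` are used (never a contract).  Prefix `pl`.

* `plGrad v`, `plB H a u v` (polarised `form`), `plAdm H f` ("`f` kills the null vectors of `form` in `rspan`" = `gVar` finite), `plIsOpt H a f v` (normal equations `B(v,u) = ⟨f,u⟩`),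
  `plDiv w` (row vector of `u ↦ ∑_e w_e ∇_e u`), `plObsT H s` (row vector of `u ↦ ∑_o s_o obs u o`), `plRow H a θ c` (the test of the affine datum), `plCov`.
* `plPin H P` = the law with the rows of `H` and coordinate pins `P`;  `plPD H P` = real properness on `{v = 0 on P}`.
* `plExt`, `plZ` = `C3.ext`, `C3.gZ` verbatim (`rfl`);  `plMeas H a P` = the Gaussian reference PROBABILITY measure on `G.V → ℝ` (pins `P`).
* `plGreen H a P` = covariance matrix (inverse of the precision off `P`, zero on `P`);  `plHarm H a P` = harmonic extension of data on `P` (linear).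
-/

set_option autoImplicit false

namespace Claimed.Agent.R285.Pot

open MeasureTheory
open scoped Classical

noncomputable section

variable {G : HGraph} (H : HLaw G)

/-- the gradient `∇_e v` -/
def plGrad (v : G.V → ℝ) : G.E → ℝ := fun e => v (G.tgt e) - v (G.src e)

/-- the polarised reference form `a⁻¹ ∑_e ∇_e u ∇_e v + ∑_o (Bu)_o (Bv)_o` -/
def plB (a : ℝ) (u v : G.V → ℝ) : ℝ := a⁻¹ * ∑ e, plGrad u e * plGrad v e + ∑ o, H.obs u o * H.obs v o

/-- `f` annihilates the null vectors of the form in `rspan` (released, unconfined constants): exactly the tests of finite reference variance -/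
def plAdm (f : G.V → ℝ) : Prop :=
  ∀ v ∈ H.rspan, (∀ e, plGrad v e = 0) → (∀ o, H.obs v o = 0) → HLaw.pair f v = 0

/-- `v` solves the normal equations of the test `f` -/
def plIsOpt (a : ℝ) (f v : G.V → ℝ) : Prop := v ∈ H.rspan ∧ ∀ u ∈ H.rspan, plB H a v u = HLaw.pair f u

/-- the row vector of `u ↦ ∑_e w_e ∇_e u` (minus the divergence of the flow `w`) -/
def plDiv (w : G.E → ℝ) : G.V → ℝ :=
  fun x => ∑ e, w e * ((if G.tgt e = x then 1 else 0) - (if G.src e = x then 1 else 0))

/-- the row vector of `u ↦ ∑_o s_o (Bu)_o` -/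
def plObsT (s : H.O → ℝ) : G.V → ℝ := fun x => ∑ o, s o * H.B o x

/-- the test of the affine datum `(θ, c)`: `a⁻¹ en v θ + |Bv - c|² = form a v - 2 ⟨plRow, v⟩ + a⁻¹|θ|² + |c|²` -/
def plRow (a : ℝ) (θ : G.E → ℝ) (c : H.O → ℝ) : G.V → ℝ := plObsT H c - a⁻¹ • plDiv θ

/-- the constant of the affine datum -/
def plCst (a : ℝ) (θ : G.E → ℝ) (c : H.O → ℝ) : ℝ := a⁻¹ * ∑ e, θ e ^ 2 + ∑ o, c o ^ 2

/-- the reference covariance of two tests -/
def plCov (a : ℝ) (f g : G.V → ℝ) : ℝ := (H.gVar a (f + g) - H.gVar a (f - g)) / 4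

/-- the pair (flow `w`, row multipliers `s`) represents the test `f` on `rspan`:  `div w + Bᵀ s = f` -/
def plRep (f : G.V → ℝ) (w : G.E → ℝ) (s : H.O → ℝ) : Prop :=
  ∀ u ∈ H.rspan, HLaw.pair f u = ∑ e, w e * plGrad u e + ∑ o, s o * H.obs u o

/-- the law with the rows of `H` and the coordinate pins `P` -/
def plPin (P : Set G.V) : HLaw G := @HLaw.mk G (HLaw.pinned P) H.O H.fO H.B

/-- real properness off `P`: the form is definite on the fields vanishing on `P` -/
def plPD (P : Set G.V) : Prop :=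
  ∀ v : G.V → ℝ, (∀ x ∈ P, v x = 0) → (∀ e, plGrad v e = 0) → (∀ o, H.obs v o = 0) → v = 0

/-- a real field: the data `u` on `P`, the variable `v` off `P`   (`= C3.ext`) -/
def plExt (P : Set G.V) (u : G.V → ℝ) (v : {x : G.V // x ∉ P} → ℝ) : G.V → ℝ :=
  fun x => if h : x ∈ P then u x else v ⟨x, h⟩

/-- restriction to `P`, extended by zero  (`= C3.resR`) -/
def plRes (P : Set G.V) (φ : G.V → ℝ) : G.V → ℝ := fun v => if v ∈ P then φ v else 0

/-- Gaussian reference integral with prescribed data `u` on `P`   (`= C3.gZ`) -/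
def plZ (a : ℝ) (P : Set G.V) (u : G.V → ℝ) (F : (G.V → ℝ) → ℝ) : ℝ :=
  ∫ v : {x : G.V // x ∉ P} → ℝ, F (plExt P u v) * Real.exp (-(H.form a (plExt P u v)) / 2)

/-- the Gaussian reference probability measure with zero pins on `P`, as a measure on all fields -/
def plMeas (a : ℝ) (P : Set G.V) : Measure (G.V → ℝ) :=
  ((volume : Measure ({x : G.V // x ∉ P} → ℝ)).withDensity fun v =>
      ENNReal.ofReal (Real.exp (-(H.form a (plExt P 0 v)) / 2) / plZ H a P 0 fun _ => 1)).map (plExt P 0)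

/-- the precision matrix off `P` -/
def plPrec (a : ℝ) (P : Set G.V) : Matrix {x : G.V // x ∉ P} {x : G.V // x ∉ P} ℝ :=
  (H.prec a).submatrix (fun x : {x : G.V // x ∉ P} => x.1) (fun x : {x : G.V // x ∉ P} => x.1)

/-- the covariance matrix (Green function) with zero pins on `P` -/
def plGreen (a : ℝ) (P : Set G.V) : Matrix G.V G.V ℝ :=
  fun x y => if h : x ∉ P ∧ y ∉ P then (plPrec H a P)⁻¹ ⟨x, h.1⟩ ⟨y, h.2⟩ else 0

/-- the harmonic extension of the data `u|_P`:  `u` on `P`, `B(·, w) = 0` for all `w` vanishing on `P` -/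
def plHarm (a : ℝ) (P : Set G.V) (u : G.V → ℝ) : G.V → ℝ :=
  fun x => plRes P u x - ∑ y, plGreen H a P x y * ∑ z, H.prec a y z * plRes P u z

/-- the minimal energy of the data `u` on `P` -/
def plEn (a : ℝ) (P : Set G.V) (u : G.V → ℝ) : ℝ := H.form a (plHarm H a P u)

/-- the extra energy of an additional zero pin on `A`, for data `u` on `P` -/
def plGap (a : ℝ) (P A : Set G.V) (u : G.V → ℝ) : ℝ := plEn H a (P ∪ A) (plRes P u) - plEn H a P u

/-- restriction of a field to the complement of `P` -/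
def plOff (P : Set G.V) (φ : G.V → ℝ) : {x : G.V // x ∉ P} → ℝ := fun x => φ x.1

/-- `G f`: the optimiser of the test `f` under the pins `P` -/
def plGf (a : ℝ) (P : Set G.V) (f : G.V → ℝ) : G.V → ℝ := fun x => ∑ y, plGreen H a P x y * f y

/-- Gaussian conditional log-Laplace transform   (`= C3.gcLap`) -/
def plcLap (a : ℝ) (P : Set G.V) (f : G.V → ℝ) (u : G.V → ℝ) : ℝ :=
  Real.log (plZ H a P u (fun φ => Real.exp (HLaw.pair f φ)) / plZ H a P u fun _ => 1)

/-- Gaussian conditional density of `φ_A = 0`   (`= C3.gcPin`) -/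
def plcPin (a : ℝ) (P A : Set G.V) (u : G.V → ℝ) : ℝ :=
  plZ H a (P ∪ A) (plRes P u) (fun _ => 1) / plZ H a P u fun _ => 1

/-- Gaussian pin ratio   (`= C3.grPin`) -/
def plrPin (a : ℝ) (P A : Set G.V) (u : G.V → ℝ) : ℝ := plcPin H a P A u / plcPin H a P A 0

/-- Gaussian reference expectation (own pins `P₀`), tilted   (`= C3.gExT`) -/
def plExT (a : ℝ) (P₀ : Set G.V) (fL : G.V → ℝ) (Ψ : (G.V → ℝ) → ℝ) : ℝ :=
  plZ H a P₀ 0 (fun φ => Ψ φ * Real.exp (HLaw.pair fL φ)) / plZ H a P₀ 0 fun φ => Real.exp (HLaw.pair fL φ)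

/-- covariance block -/
def plS (a : ℝ) (P A B : Set G.V) : Matrix {x : G.V // x ∈ A} {x : G.V // x ∈ B} ℝ := fun x y => plGreen H a P x.1 y.1

/-- `C C*` in the (non orthonormal) coordinate basis: `Σ_AA⁻¹ Σ_AA' Σ_A'A'⁻¹ Σ_A'A` (similar to `C C*`, same determinant of `1 - ·`, same trace) -/
def plCC (a : ℝ) (P A A' : Set G.V) : Matrix {x : G.V // x ∈ A} {x : G.V // x ∈ A} ℝ :=
  (plS H a P A A)⁻¹ * plS H a P A A' * (plS H a P A' A')⁻¹ * plS H a P A' A

/-- the number of free sites (use THIS, not `Fintype.card {x // x ∉ P ∪ A}`: the decidability instances of compound sets differ) -/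
def plCard (P : Set G.V) : ℕ := Fintype.card {x : G.V // x ∉ P}

theorem pl_defs2_eqns_cite : True := by
  have := @plCard.eq_1
  have := @plGap.eq_1; have := @plOff.eq_1; have := @plGf.eq_1; have := @plcLap.eq_1; have := @plcPin.eq_1
  have := @plrPin.eq_1; have := @plExT.eq_1; have := @plS.eq_1; have := @plCC.eq_1
  trivial

theorem pl_defs_eqns_cite : True := by
  have := @plGrad.eq_1; have := @plB.eq_1; have := @plAdm.eq_1; have := @plIsOpt.eq_1; have := @plDiv.eq_1
  have := @plObsT.eq_1; have := @plRow.eq_1; have := @plCst.eq_1; have := @plCov.eq_1; have := @plRep.eq_1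
  have := @plPin.eq_1; have := @plPD.eq_1; have := @plExt.eq_1; have := @plRes.eq_1; have := @plZ.eq_1
  have := @plMeas.eq_1; have := @plPrec.eq_1; have := @plGreen.eq_1; have := @plHarm.eq_1; have := @plEn.eq_1
  trivial

end

end Claimed.Agent.R285.Pot
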