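import Mathlib

/-!
# ROW 285, POT-LIN : pure matrix leaf L-LIN-M1 (Mathlib only).   Statements: helper83.
-/

set_option autoImplicit false

namespace Claimed.Agent.R285.Pot

open MeasureTheory

/-- a positive definite real matrix is `Bᵀ B` with `B` invertible -/
theorem pl_mat_gauss_fac {n : Type} [Fintype n] [DecidableEq n] (A : Matrix n n ℝ) (hA : A.PosDef) :
    ∃ B : Matrix n n ℝ, A = B.transpose * B ∧ B.det ≠ 0 := by
  open scoped MatrixOrder in
  obtain ⟨B, hB⟩ := CStarAlgebra.nonneg_iff_eq_star_mul_self.mp hA.posSemidef.nonneg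
  have hB' : A = B.transpose * B := by
    rw [hB, Matrix.star_eq_conjTranspose, Matrix.conjTranspose_eq_transpose_of_trivial]
  refine ⟨B, hB', fun h0 => ?_⟩
  have := hA.det_pos
  rw [hB', Matrix.det_mul, h0, mul_zero] at this
  exact lt_irrefl _ this

/-- the standard Gaussian weight as a product -/
theorem pl_mat_gauss_std {n : Type} [Fintype n] :
    Integrable (fun w : n → ℝ => Real.exp (-(w ⬝ᵥ w) / 2)) ∧
      ∫ w : n → ℝ, Real.exp (-(w ⬝ᵥ w) / 2) = Real.sqrt (2 * Real.pi) ^ Fintype.card n := by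
  have e : (fun w : n → ℝ => Real.exp (-(w ⬝ᵥ w) / 2)) =
      fun w : n → ℝ => ∏ i, Real.exp (-(1 / 2) * (w i) ^ 2) := by
    funext w
    rw [← Real.exp_sum]
    congr 1
    rw [dotProduct, ← Finset.mul_sum, neg_div, neg_mul, one_div, inv_mul_eq_div]
    congr 2
    exact Finset.sum_congr rfl fun i _ => (sq (w i)).symm
  rw [e]
  refine ⟨Integrable.fintype_prod (f := fun _ x => Real.exp (-(1 / 2) * x ^ 2))
    (μ := fun _ => volume) fun i => integrable_exp_neg_mul_sq (by norm_num), ?_⟩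
  rw [integral_fintype_prod_volume_eq_prod (fun (_ : n) (x : ℝ) => Real.exp (-(1 / 2) * x ^ 2))]
  rw [Finset.prod_const, integral_gaussian, Finset.card_univ]
  congr 2
  ring

theorem pl_mat_gauss_comp {n : Type} [Fintype n] [DecidableEq n] (B : Matrix n n ℝ) (v : n → ℝ) :
    v ⬝ᵥ (B.transpose * B).mulVec v = (Matrix.toLin' B v) ⬝ᵥ (Matrix.toLin' B v) := by
  rw [Matrix.toLin'_apply, ← Matrix.mulVec_mulVec, Matrix.dotProduct_mulVec, Matrix.vecMul_transpose]

/-- L-LIN-M1a.  Plan: spectral theorem `A = U D Uᵀ` (`Matrix.IsHermitian.spectral_theorem`, `eigenvectorUnitary`), change of variables `v = U y` (`|det U| = 1`, `Real.map_linearMap_volume_pi_eq_smul_volume_pi` or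
`MeasureTheory.Measure.integral_comp...`), then `∏_i exp(-λ_i y_i²/2)`: `Integrable.fintype_prod`, `integrable_exp_neg_mul_sq`. -/
theorem pl_mat_gauss_integrable {n : Type} [Fintype n] [DecidableEq n] (A : Matrix n n ℝ) (hA : A.PosDef) :
    Integrable (fun v : n → ℝ => Real.exp (-(v ⬝ᵥ A.mulVec v) / 2)) := by
  obtain ⟨B, rfl, hB⟩ := pl_mat_gauss_fac A hA
  have h1 : Integrable (fun w : n → ℝ => Real.exp (-(w ⬝ᵥ w) / 2))
      (Measure.map (Matrix.toLin' B) volume) := by
    rw [Real.map_matrix_volume_pi_eq_smul_volume_pi hB]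
    exact pl_mat_gauss_std.1.smul_measure ENNReal.ofReal_ne_top
  have h2 := (integrable_map_measure h1.aestronglyMeasurable
    (Matrix.toLin' B).continuous_of_finiteDimensional.measurable.aemeasurable).1 h1
  refine h2.congr (ae_of_all _ fun v => ?_)
  show Real.exp (-((Matrix.toLin' B v) ⬝ᵥ (Matrix.toLin' B v)) / 2) =
    Real.exp (-(v ⬝ᵥ (B.transpose * B).mulVec v) / 2)
  rw [pl_mat_gauss_comp]

/-- L-LIN-M1b.  Same plan; `integral_fintype_prod_volume_eq_prod`, `integral_gaussian`, `det A = ∏ λ_i`. -/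
theorem pl_mat_gauss_integral {n : Type} [Fintype n] [DecidableEq n] (A : Matrix n n ℝ) (hA : A.PosDef) :
    ∫ v : n → ℝ, Real.exp (-(v ⬝ᵥ A.mulVec v) / 2) = Real.sqrt ((2 * Real.pi) ^ Fintype.card n / A.det) := by
  obtain ⟨B, rfl, hB⟩ := pl_mat_gauss_fac A hA
  have h1 : Integrable (fun w : n → ℝ => Real.exp (-(w ⬝ᵥ w) / 2))
      (Measure.map (Matrix.toLin' B) volume) := by
    rw [Real.map_matrix_volume_pi_eq_smul_volume_pi hB]
    exact pl_mat_gauss_std.1.smul_measure ENNReal.ofReal_ne_top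
  have h2 := integral_map (μ := (volume : Measure (n → ℝ)))
    (Matrix.toLin' B).continuous_of_finiteDimensional.measurable.aemeasurable h1.aestronglyMeasurable
  have h3 : ∫ v : n → ℝ, Real.exp (-(v ⬝ᵥ (B.transpose * B).mulVec v) / 2) =
      ∫ v : n → ℝ, Real.exp (-((Matrix.toLin' B v) ⬝ᵥ (Matrix.toLin' B v)) / 2) :=
    integral_congr_ae (ae_of_all _ fun v => by simp only [pl_mat_gauss_comp])
  rw [h3, ← h2, Real.map_matrix_volume_pi_eq_smul_volume_pi hB, integral_smul_measure,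
    pl_mat_gauss_std.2, ENNReal.toReal_ofReal (abs_nonneg _), smul_eq_mul, Matrix.det_mul,
    Matrix.det_transpose, ← sq, Real.sqrt_div (by positivity), Real.sqrt_sq_eq_abs, abs_inv,
    Real.sqrt_eq_rpow, Real.sqrt_eq_rpow, ← Real.rpow_natCast, ← Real.rpow_natCast,
    ← Real.rpow_mul (by positivity), ← Real.rpow_mul (by positivity), mul_comm (1 / 2 : ℝ),
    div_eq_inv_mul _ |B.det|]

end Claimed.Agent.R285.Pot
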