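import Claimed.Agent.R285.Pot.LinPin
import Claimed.Agent.R285.Pot.LinMat1

/-!
# ROW 285, POT-LIN block 3b : the Gaussian reference integrals `plZ` (`= C3.gZ`) (owner helper83).   Paper-free.
All statements under `0 < a` and `plPD H P`.
-/

set_option autoImplicit false

namespace Claimed.Agent.R285.Pot

open MeasureTheory
open scoped Classical

noncomputable section

variable {G : HGraph} (H : HLaw G)

theorem pl_form_ext (a : ℝ) (P : Set G.V) (v : {x : G.V // x ∉ P} → ℝ) :
    H.form a (plExt P 0 v) = v ⬝ᵥ (plPrec H a P).mulVec v := by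
  rw [pl_form_eq, pl_B_ext]

theorem pl_Z_one_integrable {a : ℝ} (ha : 0 < a) {P : Set G.V} (h : plPD H P) :
    Integrable (fun v : {x : G.V // x ∉ P} → ℝ => Real.exp (-(H.form a (plExt P 0 v)) / 2)) := by
  simp only [pl_form_ext]
  exact pl_mat_gauss_integrable _ (pl_prec_posDef H ha h)

/-- the normalisation -/
theorem pl_Z_one_eq {a : ℝ} (ha : 0 < a) {P : Set G.V} (h : plPD H P) :
    plZ H a P 0 (fun _ => 1) = Real.sqrt ((2 * Real.pi) ^ plCard P / H.detOff a P) := by
  simp only [plZ, one_mul, pl_form_ext, plCard]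
  exact pl_mat_gauss_integral _ (pl_prec_posDef H ha h)

theorem pl_Z_one_pos {a : ℝ} (ha : 0 < a) {P : Set G.V} (h : plPD H P) : 0 < plZ H a P 0 fun _ => 1 := by
  rw [pl_Z_one_eq H ha h]
  have := pl_detOff_pos H ha h
  have := Real.pi_pos
  positivity

/-- **prescribed data = shift by the harmonic extension** (no integrability needed) -/
theorem pl_Z_data {a : ℝ} (ha : 0 < a) {P : Set G.V} (h : plPD H P) (u : G.V → ℝ) (F : (G.V → ℝ) → ℝ) :
    plZ H a P u F = Real.exp (-(plEn H a P u) / 2) * plZ H a P 0 fun φ => F (plHarm H a P u + φ) := by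
  have e1 : ∀ v : {x : G.V // x ∉ P} → ℝ, plExt P u (v + plOff P (plHarm H a P u)) = plHarm H a P u + plExt P 0 v := by
    intro v
    funext x
    by_cases hx : x ∈ P
    · simp [plExt, hx, pl_harm_of_mem H a u hx]
    · simp [plExt, hx, plOff, add_comm]
  have e2 : ∀ v : {x : G.V // x ∉ P} → ℝ, H.form a (plHarm H a P u + plExt P 0 v) = plEn H a P u + H.form a (plExt P 0 v) := by
    intro v
    rw [pl_form_add, pl_harm_orth H ha h u (fun x hx => by simp [plExt, hx]), plEn]; ring
  rw [plZ, ← integral_add_right_eq_self _ (plOff P (plHarm H a P u)), plZ, ← integral_const_mul]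
  refine integral_congr_ae (Filter.Eventually.of_forall fun v => ?_)
  simp only [e1, e2]
  rw [show -(plEn H a P u + H.form a (plExt P 0 v)) / 2 = -(plEn H a P u) / 2 + -(H.form a (plExt P 0 v)) / 2 by ring, Real.exp_add]
  ring

/-- **a linear tilt = shift by `G f`** (Cameron-Martin; no integrability needed) -/
theorem pl_Z_tilt {a : ℝ} (ha : 0 < a) {P : Set G.V} (h : plPD H P) (f : G.V → ℝ) (F : (G.V → ℝ) → ℝ) :
    plZ H a P 0 (fun φ => F φ * Real.exp (HLaw.pair f φ))
      = Real.exp ((plPin H P).gVar a f / 2) * plZ H a P 0 fun φ => F (φ + plGf H a P f) := by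
  have hopt := pl_Gf_opt H ha h f
  have hG0 := (pl_mem_rspan_pin H P _).1 hopt.1
  have e1 : ∀ v : {x : G.V // x ∉ P} → ℝ, plExt P 0 (v + plOff P (plGf H a P f)) = plExt P 0 v + plGf H a P f := by
    intro v
    rw [pl_ext_add, pl_ext_off hG0]
  have e2 : ∀ v : {x : G.V // x ∉ P} → ℝ, HLaw.pair f (plExt P 0 v + plGf H a P f) + -(H.form a (plExt P 0 v + plGf H a P f)) / 2
      = (plPin H P).gVar a f / 2 + -(H.form a (plExt P 0 v)) / 2 := by
    intro v
    have h1 := hopt.2 (plExt P 0 v) ((pl_mem_rspan_pin H P _).2 fun x hx => by simp [plExt, hx])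
    rw [pl_pin_B] at h1
    have h2 := pl_gVar_eq_form _ ha hopt
    have h3 := pl_gVar_eq_pair _ ha hopt
    rw [pl_pin_form] at h2
    rw [pl_form_add, pl_pair_add_right, pl_B_comm, h1, ← h2, ← h3]; ring
  rw [plZ, ← integral_add_right_eq_self _ (plOff P (plGf H a P f)), plZ, ← integral_const_mul]
  refine integral_congr_ae (Filter.Eventually.of_forall fun v => ?_)
  simp only [e1]
  rw [mul_assoc, ← Real.exp_add, e2, Real.exp_add]; ring

/-- **Laplace transform** -/
theorem pl_Z_laplace {a : ℝ} (ha : 0 < a) {P : Set G.V} (h : plPD H P) (f : G.V → ℝ) :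
    plZ H a P 0 (fun φ => Real.exp (HLaw.pair f φ)) = Real.exp ((plPin H P).gVar a f / 2) * plZ H a P 0 fun _ => 1 := by
  have := pl_Z_tilt H ha h f fun _ => 1
  simpa using this

/-- exponential integrability -/
theorem pl_Z_exp_integrable {a : ℝ} (ha : 0 < a) {P : Set G.V} (h : plPD H P) (f : G.V → ℝ) :
    Integrable (fun v : {x : G.V // x ∉ P} → ℝ => Real.exp (HLaw.pair f (plExt P 0 v)) * Real.exp (-(H.form a (plExt P 0 v)) / 2)) := by
  have hopt := pl_Gf_opt H ha h f
  have hG0 := (pl_mem_rspan_pin H P _).1 hopt.1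
  have h1 := ((pl_Z_one_integrable H ha h).const_mul (Real.exp ((plPin H P).gVar a f / 2))).comp_sub_right (plOff P (plGf H a P f))
  refine h1.congr (Filter.Eventually.of_forall fun v => ?_)
  simp only
  set w := v - plOff P (plGf H a P f) with hw
  have hv : plExt P 0 v = plExt P 0 w + plGf H a P f := by
    rw [← pl_ext_off hG0, ← pl_ext_add, hw, sub_add_cancel]
  have k1 := hopt.2 (plExt P 0 w) ((pl_mem_rspan_pin H P _).2 fun x hx => by simp [plExt, hx])
  rw [pl_pin_B] at k1
  have k2 := pl_gVar_eq_form _ ha hopt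
  have k3 := pl_gVar_eq_pair _ ha hopt
  rw [pl_pin_form] at k2
  rw [← Real.exp_add, ← Real.exp_add, hv]
  congr 1
  rw [pl_form_add, pl_pair_add_right, pl_B_comm, k1, ← k2, ← k3]; ring

end

end Claimed.Agent.R285.Pot
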