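import Claimed.Agent.R285.Pot.LinMat2

/-!
# ROW 285, POT-LIN : pure matrix leaf L-LIN-M4 (Mathlib only).   Statements: helper83.
-/

set_option autoImplicit false

namespace Claimed.Agent.R285.Pot

open MeasureTheory

/-- L-LIN-M4 (Courant-Fischer bound of a relative trace).  If for every `j < card n` the form `Q` is at most `μ j · R` on the common kernel of `j` linear functionals, then `tr (R⁻¹ Q) ≤ ∑_{j < card n} μ j`.
Plan: simultaneous diagonalisation (`K = R^{-1/2} Q R^{-1/2}`, eigenvalues sorted decreasingly `ν_0 ≥ ν_1 ≥ ...`); the span of the first `j+1` eigenvectors meets the common kernel of `j` functionals (dimension count): `ν_j ≤ μ j`. -/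
theorem pl_mat_trace_le_of_codim {n : Type} [Fintype n] [DecidableEq n] (R Q : Matrix n n ℝ) (hR : R.PosDef) (hQ : Q.PosSemidef)
    (μ : ℕ → ℝ)
    (h : ∀ j < Fintype.card n, ∃ ℓ : Fin j → n → ℝ, ∀ v : n → ℝ, (∀ i, ℓ i ⬝ᵥ v = 0) → v ⬝ᵥ Q.mulVec v ≤ μ j * (v ⬝ᵥ R.mulVec v)) :
    (R⁻¹ * Q).trace ≤ ∑ j ∈ Finset.range (Fintype.card n), μ j := by
  obtain ⟨ν, f, hν, hRf, hQf, htr, -⟩ := pl_mat_simdiag R Q hR hQ.isHermitian
  rw [htr, ← Fin.sum_univ_eq_sum_range]
  refine Finset.sum_le_sum fun j _ => ?_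
  obtain ⟨ℓ, hℓ⟩ := h j j.2
  obtain ⟨emb, hemb⟩ : ∃ emb : Fin ((j : ℕ) + 1) → Fin (Fintype.card n), emb = Fin.castLE (Nat.succ_le_of_lt j.2) := ⟨_, rfl⟩
  have hinj : Function.Injective emb := by rw [hemb]; exact Fin.castLE_injective _
  have hle : ∀ k, emb k ≤ j := by
    intro k
    rw [hemb, Fin.le_def]
    simp only [Fin.val_castLE]
    omega
  obtain ⟨A, hA⟩ : ∃ A : Matrix (Fin (j : ℕ)) (Fin ((j : ℕ) + 1)) ℝ, A = fun i k => ℓ i ⬝ᵥ f (emb k) := ⟨_, rfl⟩
  have hex : ∃ c : Fin ((j : ℕ) + 1) → ℝ, c ≠ 0 ∧ A.mulVec c = 0 := by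
    have h1 := LinearMap.ker_ne_bot_of_finrank_lt (f := A.mulVecLin) (by simp)
    obtain ⟨c, hc, hc0⟩ := (Submodule.ne_bot_iff _).mp h1
    exact ⟨c, hc0, by simpa using hc⟩
  obtain ⟨c, hc0, hAc⟩ := hex
  have hx : ∀ i, ℓ i ⬝ᵥ (∑ k, c k • f (emb k)) = 0 := by
    intro i
    have h1 := congrFun hAc i
    rw [hA] at h1
    simp only [Matrix.mulVec, dotProduct, Pi.zero_apply] at h1
    rw [dotProduct_sum]
    simp only [dotProduct_smul, smul_eq_mul]
    rw [← h1]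
    refine Finset.sum_congr rfl fun k _ => ?_
    simp only [dotProduct]
    ring
  have h1 := hℓ _ hx
  rw [pl_mat_quad_comb Q (fun k => f (emb k)) (fun k => ν (emb k)) (by
        intro k l
        rw [hQf]
        simp only [hinj.eq_iff]) c,
    pl_mat_quad_comb R (fun k => f (emb k)) (fun _ => 1) (by
        intro k l
        rw [hRf]
        simp only [hinj.eq_iff]) c] at h1
  simp only [mul_one] at h1
  have h2 : ν j * ∑ k, c k ^ 2 ≤ ∑ k, c k ^ 2 * ν (emb k) := by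
    rw [Finset.mul_sum]
    refine Finset.sum_le_sum fun k _ => ?_
    rw [mul_comm]
    exact mul_le_mul_of_nonneg_left (hν (hle k)) (sq_nonneg _)
  have h3 : 0 < ∑ k, c k ^ 2 := by
    obtain ⟨k, hk⟩ := Function.ne_iff.mp hc0
    exact Finset.sum_pos' (fun _ _ => sq_nonneg _) ⟨k, Finset.mem_univ _, (sq_pos_of_ne_zero (by simpa using hk))⟩
  exact le_of_mul_le_mul_right (h2.trans h1) h3

end Claimed.Agent.R285.Pot
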