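import Claimed.Agent.R285.Pot.LinDet
import Claimed.Agent.R285.Pot.LinMat4
import Claimed.Agent.R285.Pot.LinCC

/-!
# ROW 285, POT-LIN leaf L-LIN-TR : Courant-Fischer bound of Gaussian means of quadratic functionals.   Paper-free.   Statements: helper83.
-/

set_option autoImplicit false

namespace Claimed.Agent.R285.Pot

open MeasureTheory ProbabilityTheory
open scoped Classical

noncomputable section

variable {G : HGraph} (H : HLaw G)

theorem pl_up_res (D : Set G.V) (f : G.V → ℝ) (hf : ∀ x ∉ D, f x = 0) : plUp D (fun x : {x : G.V // x ∈ D} => f x.1) = f := by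
  funext x
  by_cases hx : x ∈ D
  · simp [plUp, hx]
  · simp [plUp, hx, hf x hx]

theorem pl_pair_up (D : Set G.V) (f : G.V → ℝ) (v : {x : G.V // x ∈ D} → ℝ) :
    HLaw.pair f (plUp D v) = (fun x : {x : G.V // x ∈ D} => f x.1) ⬝ᵥ v := by
  rw [HLaw.pair, pl_sum_on D _ (fun x hx => by simp [plUp, hx])]
  simp only [dotProduct]
  refine Finset.sum_congr rfl fun x _ => ?_
  simp [plUp, x.2]

/-- L-LIN-TR (**Courant-Fischer bound of a Gaussian mean of a quadratic functional of the data on `D`**).  `q φ = ∑_k ⟨g k, φ⟩²`, `g k` supported in `D`, `D` disjoint from `P`.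
If for every `j < |D|` there are `j` linear functionals such that `q u ≤ μ j · plEn (P ∪ D) u` on their common kernel, then `E_P q ≤ ∑_{j<|D|} μ j`.
Plan: `E_P q = tr (S Q)`, `S = plS P D D`, `R = S⁻¹` = matrix of `plEn (P ∪ D)` on the data (L-LIN-D4); `pl_mat_trace_le_of_codim`. -/
theorem pl_quad_mean_le_of_codim {a : ℝ} (ha : 0 < a) {P : Set G.V} (h : plPD H P) (D : Set G.V) (hD : ∀ x ∈ D, x ∉ P)
    {K : Type} [Fintype K] (g : K → G.V → ℝ) (hg : ∀ k, ∀ x ∉ D, g k x = 0) (μ : ℕ → ℝ)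
    (hμ : ∀ j < Fintype.card {x : G.V // x ∈ D}, ∃ ℓ : Fin j → G.V → ℝ, ∀ u : G.V → ℝ, (∀ x ∈ P, u x = 0) → (∀ i, HLaw.pair (ℓ i) u = 0) →
      ∑ k, HLaw.pair (g k) u ^ 2 ≤ μ j * plEn H a (P ∪ D) u) :
    ∫ φ, ∑ k, HLaw.pair (g k) φ ^ 2 ∂plMeas H a P ≤ ∑ j ∈ Finset.range (Fintype.card {x : G.V // x ∈ D}), μ j := by
  have hS := pl_S_posDef H ha h D hD
  have hdet : IsUnit (plS H a P D D).det := hS.det_pos.ne'.isUnit
  obtain ⟨gD, hgD⟩ : ∃ gD : K → {x : G.V // x ∈ D} → ℝ, gD = fun k x => g k x.1 := ⟨_, rfl⟩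
  obtain ⟨Q, hQd⟩ : ∃ Q : Matrix {x : G.V // x ∈ D} {x : G.V // x ∈ D} ℝ, Q = fun x y => ∑ k, gD k x * gD k y := ⟨_, rfl⟩
  have hQa : ∀ x y, Q x y = ∑ k, gD k x * gD k y := fun x y => by rw [hQd]
  have hswap : ∀ F : {x : G.V // x ∈ D} → {x : G.V // x ∈ D} → K → ℝ, ∑ x, ∑ y, ∑ k, F x y k = ∑ k, ∑ x, ∑ y, F x y k := by
    intro F
    calc ∑ x, ∑ y, ∑ k, F x y k = ∑ x, ∑ k, ∑ y, F x y k := Finset.sum_congr rfl fun x _ => Finset.sum_comm
      _ = ∑ k, ∑ x, ∑ y, F x y k := Finset.sum_comm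
  have hQv : ∀ v w : {x : G.V // x ∈ D} → ℝ, v ⬝ᵥ Q.mulVec w = ∑ k, (gD k ⬝ᵥ v) * (gD k ⬝ᵥ w) := by
    intro v w
    calc v ⬝ᵥ Q.mulVec w = ∑ x, ∑ y, ∑ k, (gD k x * v x) * (gD k y * w y) := by
          simp only [dotProduct, Matrix.mulVec, hQa, Finset.sum_mul, Finset.mul_sum]
          exact Finset.sum_congr rfl fun x _ => Finset.sum_congr rfl fun y _ => Finset.sum_congr rfl fun k _ => by ring
      _ = ∑ k, ∑ x, ∑ y, (gD k x * v x) * (gD k y * w y) := hswap _
      _ = ∑ k, (gD k ⬝ᵥ v) * (gD k ⬝ᵥ w) := by simp only [dotProduct, Finset.sum_mul_sum]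
  have hQ : Q.PosSemidef := by
    refine Matrix.PosSemidef.of_dotProduct_mulVec_nonneg ?_ fun v => ?_
    · rw [Matrix.IsHermitian, Matrix.conjTranspose_eq_transpose_of_trivial]
      ext x y
      rw [Matrix.transpose_apply, hQa, hQa]
      exact Finset.sum_congr rfl fun k _ => mul_comm _ _
    · rw [star_trivial, hQv]
      exact Finset.sum_nonneg fun k _ => mul_self_nonneg _
  have key := pl_mat_trace_le_of_codim (plS H a P D D)⁻¹ Q hS.inv hQ μ (by
    intro j hj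
    obtain ⟨ℓ, hℓ⟩ := hμ j hj
    refine ⟨fun i x => ℓ i x.1, fun v hv => ?_⟩
    have h1 := hℓ (plUp D v) (fun x hx => by
      have : x ∉ D := fun hxD => hD x hxD hx
      simp [plUp, this]) (fun i => by rw [pl_pair_up]; exact hv i)
    have h2 := pl_S_inv_en H ha h D hD (plUp D v) (fun x hx => by
      have : x ∉ D := fun hxD => hD x hxD hx
      simp [plUp, this])
    have h3 : (fun x : {x : G.V // x ∈ D} => plUp D v x.1) = v := by
      funext x; simp [plUp, x.2]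
    rw [h3] at h2
    rw [h2, hQv]
    simp only [pl_pair_up] at h1
    rw [hgD]
    simpa only [sq] using h1)
  rw [Matrix.nonsing_inv_nonsing_inv _ hdet] at key
  refine le_trans (le_of_eq ?_) key
  rw [integral_finsetSum _ fun k _ => pl_meas_sq_integrable H ha h _]
  simp only [pl_meas_sq H ha h, pl_gVar_green H ha h]
  have e1 : ∀ k, ∑ x, ∑ y, g k x * plGreen H a P x y * g k y = gD k ⬝ᵥ (plS H a P D D).mulVec (gD k) := by
    intro k
    rw [← pl_up_green, hgD, pl_up_res D (g k) (hg k)]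
  simp only [e1]
  symm
  calc (plS H a P D D * Q).trace = ∑ x, ∑ y, ∑ k, gD k x * (plS H a P D D x y * gD k y) := by
        simp only [Matrix.trace, Matrix.diag, Matrix.mul_apply, hQa, Finset.mul_sum]
        exact Finset.sum_congr rfl fun x _ => Finset.sum_congr rfl fun y _ => Finset.sum_congr rfl fun k _ => by ring
    _ = ∑ k, ∑ x, ∑ y, gD k x * (plS H a P D D x y * gD k y) := hswap _
    _ = ∑ k, gD k ⬝ᵥ (plS H a P D D).mulVec (gD k) := by simp only [dotProduct, Matrix.mulVec, Finset.mul_sum]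

end

end Claimed.Agent.R285.Pot
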