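import Claimed.Agent.R285.Pot.LinDefs

/-!
# ROW 285, POT-LIN block 1 : the reference variance `gVar` (owner helper83).   Paper-free, any `HGraph`, any `HLaw`, `a > 0`.
-/

set_option autoImplicit false

namespace Claimed.Agent.R285.Pot

open scoped Classical

noncomputable section

variable {G : HGraph} (H : HLaw G)

/-! ## 0. algebra of `plGrad`, `obs`, `pair`, `plB` -/

theorem pl_grad_add (u v : G.V → ℝ) : plGrad (u + v) = plGrad u + plGrad v := by
  funext e; simp [plGrad]; ring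

theorem pl_grad_sub (u v : G.V → ℝ) : plGrad (u - v) = plGrad u - plGrad v := by
  funext e; simp [plGrad]; ring

theorem pl_grad_smul (t : ℝ) (v : G.V → ℝ) : plGrad (t • v) = t • plGrad v := by
  funext e; simp [plGrad]; ring

theorem pl_grad_zero : plGrad (0 : G.V → ℝ) = 0 := by
  funext e; simp [plGrad]

theorem pl_grad_neg (v : G.V → ℝ) : plGrad (-v) = -plGrad v := by
  funext e; simp [plGrad]; ring

theorem pl_obs_add (u v : G.V → ℝ) (o : H.O) : H.obs (u + v) o = H.obs u o + H.obs v o := by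
  simp [HLaw.obs, mul_add, Finset.sum_add_distrib]

theorem pl_obs_sub (u v : G.V → ℝ) (o : H.O) : H.obs (u - v) o = H.obs u o - H.obs v o := by
  simp [HLaw.obs, mul_sub, Finset.sum_sub_distrib]

theorem pl_obs_smul (t : ℝ) (v : G.V → ℝ) (o : H.O) : H.obs (t • v) o = t * H.obs v o := by
  simp only [HLaw.obs, Pi.smul_apply, smul_eq_mul, Finset.mul_sum]
  exact Finset.sum_congr rfl fun x _ => by ring

theorem pl_obs_zero (o : H.O) : H.obs (0 : G.V → ℝ) o = 0 := by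
  simp [HLaw.obs]

theorem pl_obs_neg (v : G.V → ℝ) (o : H.O) : H.obs (-v) o = -H.obs v o := by
  simp [HLaw.obs]

theorem pl_pair_add_right (f u v : G.V → ℝ) : HLaw.pair f (u + v) = HLaw.pair f u + HLaw.pair f v := by
  simp [HLaw.pair, mul_add, Finset.sum_add_distrib]

theorem pl_pair_sub_right (f u v : G.V → ℝ) : HLaw.pair f (u - v) = HLaw.pair f u - HLaw.pair f v := by
  simp [HLaw.pair, mul_sub, Finset.sum_sub_distrib]

theorem pl_pair_smul_right (t : ℝ) (f v : G.V → ℝ) : HLaw.pair f (t • v) = t * HLaw.pair f v := by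
  simp only [HLaw.pair, Pi.smul_apply, smul_eq_mul, Finset.mul_sum]
  exact Finset.sum_congr rfl fun x _ => by ring

theorem pl_pair_add_left (f g v : G.V → ℝ) : HLaw.pair (f + g) v = HLaw.pair f v + HLaw.pair g v := by
  simp [HLaw.pair, add_mul, Finset.sum_add_distrib]

theorem pl_pair_sub_left (f g v : G.V → ℝ) : HLaw.pair (f - g) v = HLaw.pair f v - HLaw.pair g v := by
  simp [HLaw.pair, sub_mul, Finset.sum_sub_distrib]

theorem pl_pair_smul_left (t : ℝ) (f v : G.V → ℝ) : HLaw.pair (t • f) v = t * HLaw.pair f v := by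
  simp only [HLaw.pair, Pi.smul_apply, smul_eq_mul, Finset.mul_sum]
  exact Finset.sum_congr rfl fun x _ => by ring

theorem pl_pair_zero_right (f : G.V → ℝ) : HLaw.pair f 0 = 0 := by simp [HLaw.pair]

theorem pl_pair_zero_left (v : G.V → ℝ) : HLaw.pair 0 v = 0 := by simp [HLaw.pair]

theorem pl_pair_comm (f v : G.V → ℝ) : HLaw.pair f v = HLaw.pair v f := by
  simp only [HLaw.pair]; exact Finset.sum_congr rfl fun x _ => by ring

theorem pl_B_comm (a : ℝ) (u v : G.V → ℝ) : plB H a u v = plB H a v u := by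
  simp only [plB, mul_comm]

theorem pl_B_add_left (a : ℝ) (u u' v : G.V → ℝ) : plB H a (u + u') v = plB H a u v + plB H a u' v := by
  simp only [plB, pl_grad_add, pl_obs_add, Pi.add_apply, add_mul, Finset.sum_add_distrib]; ring

theorem pl_B_smul_left (a t : ℝ) (u v : G.V → ℝ) : plB H a (t • u) v = t * plB H a u v := by
  simp only [plB, pl_grad_smul, pl_obs_smul, Pi.smul_apply, smul_eq_mul, mul_assoc, ← Finset.mul_sum]; ring

theorem pl_B_add_right (a : ℝ) (u v v' : G.V → ℝ) : plB H a u (v + v') = plB H a u v + plB H a u v' := by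
  rw [pl_B_comm, pl_B_add_left, pl_B_comm H a v, pl_B_comm H a v']

theorem pl_B_smul_right (a t : ℝ) (u v : G.V → ℝ) : plB H a u (t • v) = t * plB H a u v := by
  rw [pl_B_comm, pl_B_smul_left, pl_B_comm]

theorem pl_B_sub_left (a : ℝ) (u u' v : G.V → ℝ) : plB H a (u - u') v = plB H a u v - plB H a u' v := by
  have := pl_B_add_left H a (u - u') u' v
  rw [sub_add_cancel] at this; linarith

theorem pl_B_sub_right (a : ℝ) (u v v' : G.V → ℝ) : plB H a u (v - v') = plB H a u v - plB H a u v' := by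
  rw [pl_B_comm, pl_B_sub_left, pl_B_comm H a v, pl_B_comm H a v']

theorem pl_B_zero_left (a : ℝ) (v : G.V → ℝ) : plB H a 0 v = 0 := by
  simp [plB, pl_grad_zero, pl_obs_zero]

theorem pl_B_zero_right (a : ℝ) (v : G.V → ℝ) : plB H a v 0 = 0 := by
  rw [pl_B_comm, pl_B_zero_left]

theorem pl_form_eq (a : ℝ) (v : G.V → ℝ) : H.form a v = plB H a v v := by
  simp only [HLaw.form, plB, HLaw.en, plGrad, Pi.zero_apply, add_zero, sq]

theorem pl_form_nonneg {a : ℝ} (ha : 0 < a) (v : G.V → ℝ) : 0 ≤ H.form a v := by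
  have h1 : 0 ≤ a⁻¹ := (inv_pos.2 ha).le
  exact add_nonneg (mul_nonneg h1 (Finset.sum_nonneg fun e _ => sq_nonneg _)) (Finset.sum_nonneg fun o _ => sq_nonneg _)

theorem pl_form_add (a : ℝ) (u v : G.V → ℝ) : H.form a (u + v) = H.form a u + 2 * plB H a u v + H.form a v := by
  simp only [pl_form_eq, pl_B_add_left, pl_B_add_right, pl_B_comm H a v u]; ring

theorem pl_form_sub (a : ℝ) (u v : G.V → ℝ) : H.form a (u - v) = H.form a u - 2 * plB H a u v + H.form a v := by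
  simp only [pl_form_eq, pl_B_sub_left, pl_B_sub_right, pl_B_comm H a v u]; ring

theorem pl_form_smul (a t : ℝ) (v : G.V → ℝ) : H.form a (t • v) = t ^ 2 * H.form a v := by
  simp only [pl_form_eq, pl_B_smul_left, pl_B_smul_right]; ring

theorem pl_form_zero (a : ℝ) : H.form a 0 = 0 := by rw [pl_form_eq, pl_B_zero_left]

/-- the null vectors of the form -/
theorem pl_form_eq_zero_iff {a : ℝ} (ha : 0 < a) (v : G.V → ℝ) :
    H.form a v = 0 ↔ (∀ e, plGrad v e = 0) ∧ ∀ o, H.obs v o = 0 := by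
  have h1 : 0 < a⁻¹ := inv_pos.2 ha
  constructor
  · intro h
    have h2 : 0 ≤ ∑ e, (v (G.tgt e) - v (G.src e) + (0 : G.E → ℝ) e) ^ 2 := Finset.sum_nonneg fun e _ => sq_nonneg _
    have h3 : 0 ≤ ∑ o, H.obs v o ^ 2 := Finset.sum_nonneg fun o _ => sq_nonneg _
    simp only [HLaw.form, HLaw.en] at h
    have h4 : ∑ e, (v (G.tgt e) - v (G.src e) + (0 : G.E → ℝ) e) ^ 2 = 0 := by
      by_contra hne
      have : 0 < ∑ e, (v (G.tgt e) - v (G.src e) + (0 : G.E → ℝ) e) ^ 2 := lt_of_le_of_ne h2 (Ne.symm hne)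
      have := mul_pos h1 this
      linarith
    have h5 : ∑ o, H.obs v o ^ 2 = 0 := by rw [h4] at h; linarith
    refine ⟨fun e => ?_, fun o => ?_⟩
    · have := (Finset.sum_eq_zero_iff_of_nonneg fun e _ => sq_nonneg _).1 h4 e (Finset.mem_univ e)
      simpa [plGrad] using this
    · have := (Finset.sum_eq_zero_iff_of_nonneg fun e _ => sq_nonneg _).1 h5 o (Finset.mem_univ o)
      simpa using this
  · rintro ⟨h1, h2⟩
    rw [pl_form_eq]
    simp [plB, h1, h2]

theorem pl_B_eq_zero_of_null (a : ℝ) {v : G.V → ℝ} (h1 : ∀ e, plGrad v e = 0) (h2 : ∀ o, H.obs v o = 0) (u : G.V → ℝ) :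
    plB H a v u = 0 := by
  simp [plB, h1, h2]

/-- the terms of `gVar` -/
theorem pl_gVar_def (a : ℝ) (f : G.V → ℝ) :
    H.gVar a f = ⨆ v : H.rspan, 2 * HLaw.pair f (v : G.V → ℝ) - H.form a (v : G.V → ℝ) := rfl

/-! ## 1. optimisers -/

/-- the form as a linear map `rspan → rspan*` -/
def plBmap (a : ℝ) : H.rspan →ₗ[ℝ] Module.Dual ℝ H.rspan :=
  LinearMap.mk₂ ℝ (fun u v => plB H a (u : G.V → ℝ) (v : G.V → ℝ))
    (fun _ _ _ => pl_B_add_left H a _ _ _) (fun t _ _ => pl_B_smul_left H a t _ _)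
    (fun _ _ _ => pl_B_add_right H a _ _ _) (fun t _ _ => pl_B_smul_right H a t _ _)

theorem plBmap_eqns_cite : True := by
  have := @plBmap.eq_1; trivial

theorem pl_Bmap_apply (a : ℝ) (u v : H.rspan) : plBmap H a u v = plB H a (u : G.V → ℝ) (v : G.V → ℝ) := rfl

/-- **existence of the optimiser** (normal equations) -/
theorem pl_opt_exists {a : ℝ} (ha : 0 < a) {f : G.V → ℝ} (hf : plAdm H f) : ∃ v, plIsOpt H a f v := by
  let F : Module.Dual ℝ H.rspan :=
    { toFun := fun u => HLaw.pair f (u : G.V → ℝ)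
      map_add' := fun u v => pl_pair_add_right f _ _
      map_smul' := fun t u => pl_pair_smul_right t f _ }
  have hF : F ∈ (LinearMap.ker (plBmap H a)).dualAnnihilator := by
    rw [Submodule.mem_dualAnnihilator]
    intro w hw
    have h0 : plBmap H a w w = 0 := by rw [LinearMap.mem_ker.1 hw]; rfl
    rw [pl_Bmap_apply, ← pl_form_eq] at h0
    obtain ⟨h1, h2⟩ := (pl_form_eq_zero_iff H ha _).1 h0
    exact hf _ w.2 h1 h2
  rw [← LinearMap.range_dualMap_eq_dualAnnihilator_ker] at hF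
  obtain ⟨ξ, hξ⟩ := hF
  obtain ⟨v, hv⟩ := (Module.evalEquiv ℝ H.rspan).surjective ξ
  refine ⟨v, v.2, fun u hu => ?_⟩
  have h3 : F ⟨u, hu⟩ = ξ (plBmap H a ⟨u, hu⟩) := by rw [← hξ]; rfl
  rw [← hv] at h3
  have h4 : (Module.evalEquiv ℝ H.rspan) v (plBmap H a ⟨u, hu⟩) = plBmap H a ⟨u, hu⟩ v := rfl
  rw [h4, pl_Bmap_apply] at h3
  rw [pl_B_comm]
  exact h3.symm

/-- completing the square at an optimiser -/
theorem pl_opt_square {a : ℝ} {f v : G.V → ℝ} (hv : plIsOpt H a f v) {u : G.V → ℝ} (hu : u ∈ H.rspan) :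
    2 * HLaw.pair f u - H.form a u = H.form a v - H.form a (u - v) := by
  rw [pl_form_sub, ← hv.2 u hu, pl_B_comm H a u v]; ring

theorem pl_opt_pair {a : ℝ} {f v : G.V → ℝ} (hv : plIsOpt H a f v) : HLaw.pair f v = H.form a v := by
  rw [pl_form_eq, hv.2 v hv.1]

theorem pl_bdd_of_opt {a : ℝ} (ha : 0 < a) {f v : G.V → ℝ} (hv : plIsOpt H a f v) :
    BddAbove (Set.range fun u : H.rspan => 2 * HLaw.pair f (u : G.V → ℝ) - H.form a (u : G.V → ℝ)) := by
  refine ⟨H.form a v, ?_⟩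
  rintro _ ⟨u, rfl⟩
  simp only
  rw [pl_opt_square H hv u.2]
  linarith [pl_form_nonneg H ha ((u : G.V → ℝ) - v)]

/-- `gVar a f = form a v*` -/
theorem pl_gVar_eq_form {a : ℝ} (ha : 0 < a) {f v : G.V → ℝ} (hv : plIsOpt H a f v) : H.gVar a f = H.form a v := by
  rw [pl_gVar_def]
  apply le_antisymm
  · apply ciSup_le
    intro u
    rw [pl_opt_square H hv u.2]
    linarith [pl_form_nonneg H ha ((u : G.V → ℝ) - v)]
  · have := le_ciSup (pl_bdd_of_opt H ha hv) ⟨v, hv.1⟩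
    simp only at this
    rw [pl_opt_pair H hv] at this
    linarith

/-- `gVar a f = ⟨f, v*⟩` -/
theorem pl_gVar_eq_pair {a : ℝ} (ha : 0 < a) {f v : G.V → ℝ} (hv : plIsOpt H a f v) : H.gVar a f = HLaw.pair f v := by
  rw [pl_gVar_eq_form H ha hv, pl_opt_pair H hv]

theorem pl_bdd {a : ℝ} (ha : 0 < a) {f : G.V → ℝ} (hf : plAdm H f) :
    BddAbove (Set.range fun u : H.rspan => 2 * HLaw.pair f (u : G.V → ℝ) - H.form a (u : G.V → ℝ)) := by
  obtain ⟨v, hv⟩ := pl_opt_exists H ha hf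
  exact pl_bdd_of_opt H ha hv

/-- **finiteness criterion** -/
theorem pl_bdd_iff {a : ℝ} (ha : 0 < a) (f : G.V → ℝ) :
    BddAbove (Set.range fun u : H.rspan => 2 * HLaw.pair f (u : G.V → ℝ) - H.form a (u : G.V → ℝ)) ↔ plAdm H f := by
  refine ⟨?_, pl_bdd H ha⟩
  rintro ⟨C, hC⟩ v hv h1 h2
  by_contra hne
  have h0 : H.form a v = 0 := (pl_form_eq_zero_iff H ha v).2 ⟨h1, h2⟩
  set p := HLaw.pair f v with hp
  have key : ∀ t : ℝ, 2 * (t * p) ≤ C := by
    intro t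
    have := hC ⟨⟨t • v, H.rspan.smul_mem t hv⟩, rfl⟩
    simp only at this
    rw [pl_pair_smul_right, pl_form_smul, h0] at this
    linarith
  have h3 := key ((C + 1) / (2 * p))
  have h4 : 2 * ((C + 1) / (2 * p) * p) = C + 1 := by field_simp
  linarith

/-- junk value for a non admissible test -/
theorem pl_gVar_of_not_adm {a : ℝ} (ha : 0 < a) {f : G.V → ℝ} (hf : ¬ plAdm H f) : H.gVar a f = 0 := by
  rw [pl_gVar_def]
  exact Real.iSup_of_not_bddAbove fun h => hf ((pl_bdd_iff H ha f).1 h)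

/-- **trial field**: lower bound of the variance -/
theorem pl_le_gVar {a : ℝ} (ha : 0 < a) {f : G.V → ℝ} (hf : plAdm H f) {v : G.V → ℝ} (hv : v ∈ H.rspan) :
    2 * HLaw.pair f v - H.form a v ≤ H.gVar a f :=
  le_ciSup (pl_bdd H ha hf) ⟨v, hv⟩

theorem pl_gVar_nonneg {a : ℝ} (ha : 0 < a) (f : G.V → ℝ) : 0 ≤ H.gVar a f := by
  by_cases hf : plAdm H f
  · have := pl_le_gVar H ha hf H.rspan.zero_mem
    rwa [pl_pair_zero_right, pl_form_zero, mul_zero, sub_zero] at this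
  · rw [pl_gVar_of_not_adm H ha hf]

/-- **Cauchy-Schwarz** (homogeneous trial bound) -/
theorem pl_pair_sq_le {a : ℝ} (ha : 0 < a) {f : G.V → ℝ} (hf : plAdm H f) {v : G.V → ℝ} (hv : v ∈ H.rspan) :
    HLaw.pair f v ^ 2 ≤ H.gVar a f * H.form a v := by
  have h0 := pl_form_nonneg H ha v
  have hg := pl_gVar_nonneg H ha f
  rcases h0.eq_or_lt with h | h
  · obtain ⟨h1, h2⟩ := (pl_form_eq_zero_iff H ha v).1 h.symm
    rw [hf v hv h1 h2, ← h]; simp
  · have key := pl_le_gVar H ha hf (H.rspan.smul_mem (HLaw.pair f v / H.form a v) hv)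
    rw [pl_pair_smul_right, pl_form_smul] at key
    have h5 : 2 * (HLaw.pair f v / H.form a v * HLaw.pair f v) - (HLaw.pair f v / H.form a v) ^ 2 * H.form a v
        = HLaw.pair f v ^ 2 / H.form a v := by field_simp; ring
    rw [h5, div_le_iff₀ h] at key
    exact key

/-! ## 2. admissible tests form a subspace; quadratic structure -/

theorem pl_adm_zero : plAdm H 0 := fun v _ _ _ => pl_pair_zero_left v

theorem pl_adm_add {f g : G.V → ℝ} (hf : plAdm H f) (hg : plAdm H g) : plAdm H (f + g) := fun v hv h1 h2 => by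
  rw [pl_pair_add_left, hf v hv h1 h2, hg v hv h1 h2, add_zero]

theorem pl_adm_sub {f g : G.V → ℝ} (hf : plAdm H f) (hg : plAdm H g) : plAdm H (f - g) := fun v hv h1 h2 => by
  rw [pl_pair_sub_left, hf v hv h1 h2, hg v hv h1 h2, sub_zero]

theorem pl_adm_smul (t : ℝ) {f : G.V → ℝ} (hf : plAdm H f) : plAdm H (t • f) := fun v hv h1 h2 => by
  rw [pl_pair_smul_left, hf v hv h1 h2, mul_zero]

theorem pl_adm_neg {f : G.V → ℝ} (hf : plAdm H f) : plAdm H (-f) := by
  have := pl_adm_smul H (-1) hf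
  simpa using this

theorem pl_adm_of_smul {t : ℝ} (ht : t ≠ 0) {f : G.V → ℝ} (hf : plAdm H (t • f)) : plAdm H f := by
  have := pl_adm_smul H t⁻¹ hf
  rwa [smul_smul, inv_mul_cancel₀ ht, one_smul] at this

theorem pl_opt_add {a : ℝ} {f g u v : G.V → ℝ} (hu : plIsOpt H a f u) (hv : plIsOpt H a g v) : plIsOpt H a (f + g) (u + v) :=
  ⟨H.rspan.add_mem hu.1 hv.1, fun w hw => by rw [pl_B_add_left, pl_pair_add_left, hu.2 w hw, hv.2 w hw]⟩

theorem pl_opt_sub {a : ℝ} {f g u v : G.V → ℝ} (hu : plIsOpt H a f u) (hv : plIsOpt H a g v) : plIsOpt H a (f - g) (u - v) :=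
  ⟨H.rspan.sub_mem hu.1 hv.1, fun w hw => by rw [pl_B_sub_left, pl_pair_sub_left, hu.2 w hw, hv.2 w hw]⟩

theorem pl_opt_smul {a : ℝ} (t : ℝ) {f u : G.V → ℝ} (hu : plIsOpt H a f u) : plIsOpt H a (t • f) (t • u) :=
  ⟨H.rspan.smul_mem t hu.1, fun w hw => by rw [pl_B_smul_left, pl_pair_smul_left, hu.2 w hw]⟩

theorem pl_adm_of_opt {a : ℝ} {f v : G.V → ℝ} (hv : plIsOpt H a f v) : plAdm H f := fun u hu h1 h2 => by
  rw [← hv.2 u hu, pl_B_comm, pl_B_eq_zero_of_null H a h1 h2]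

theorem pl_gVar_zero {a : ℝ} (ha : 0 < a) : H.gVar a 0 = 0 := by
  have h : plIsOpt H a 0 0 := ⟨H.rspan.zero_mem, fun u _ => by rw [pl_B_zero_left, pl_pair_zero_left]⟩
  rw [pl_gVar_eq_form H ha h, pl_form_zero]

/-- homogeneity (no admissibility needed) -/
theorem pl_gVar_smul {a : ℝ} (ha : 0 < a) (t : ℝ) (f : G.V → ℝ) : H.gVar a (t • f) = t ^ 2 * H.gVar a f := by
  by_cases ht : t = 0
  · subst ht; simp [pl_gVar_zero H ha]
  by_cases hf : plAdm H f
  · obtain ⟨v, hv⟩ := pl_opt_exists H ha hf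
    rw [pl_gVar_eq_form H ha hv, pl_gVar_eq_form H ha (pl_opt_smul H t hv), pl_form_smul]
  · rw [pl_gVar_of_not_adm H ha hf, pl_gVar_of_not_adm H ha fun h => hf (pl_adm_of_smul H ht h), mul_zero]

theorem pl_gVar_neg {a : ℝ} (ha : 0 < a) (f : G.V → ℝ) : H.gVar a (-f) = H.gVar a f := by
  have := pl_gVar_smul H ha (-1) f
  simpa using this

/-- the covariance at optimisers -/
theorem pl_cov_eq_B {a : ℝ} (ha : 0 < a) {f g u v : G.V → ℝ} (hu : plIsOpt H a f u) (hv : plIsOpt H a g v) :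
    plCov H a f g = plB H a u v := by
  rw [plCov, pl_gVar_eq_form H ha (pl_opt_add H hu hv), pl_gVar_eq_form H ha (pl_opt_sub H hu hv), pl_form_add, pl_form_sub]
  ring

theorem pl_cov_eq_pair {a : ℝ} (ha : 0 < a) {f g v : G.V → ℝ} (hf : plAdm H f) (hv : plIsOpt H a g v) :
    plCov H a f g = HLaw.pair f v := by
  obtain ⟨u, hu⟩ := pl_opt_exists H ha hf
  rw [pl_cov_eq_B H ha hu hv, hu.2 v hv.1]

theorem pl_cov_self {a : ℝ} (ha : 0 < a) (f : G.V → ℝ) : plCov H a f f = H.gVar a f := by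
  have h2 : f + f = (2 : ℝ) • f := (two_smul ℝ f).symm
  rw [plCov, sub_self, pl_gVar_zero H ha, h2, pl_gVar_smul H ha]; ring

theorem pl_cov_comm {a : ℝ} (ha : 0 < a) (f g : G.V → ℝ) : plCov H a f g = plCov H a g f := by
  have h : g - f = -(f - g) := by abel
  rw [plCov, plCov, add_comm g f, h, pl_gVar_neg H ha]

theorem pl_cov_add_left {a : ℝ} (ha : 0 < a) {f f' g : G.V → ℝ} (hf : plAdm H f) (hf' : plAdm H f') (hg : plAdm H g) :
    plCov H a (f + f') g = plCov H a f g + plCov H a f' g := by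
  obtain ⟨v, hv⟩ := pl_opt_exists H ha hg
  rw [pl_cov_eq_pair H ha (pl_adm_add H hf hf') hv, pl_cov_eq_pair H ha hf hv, pl_cov_eq_pair H ha hf' hv, pl_pair_add_left]

theorem pl_cov_smul_left {a : ℝ} (ha : 0 < a) (t : ℝ) {f g : G.V → ℝ} (hf : plAdm H f) (hg : plAdm H g) :
    plCov H a (t • f) g = t * plCov H a f g := by
  obtain ⟨v, hv⟩ := pl_opt_exists H ha hg
  rw [pl_cov_eq_pair H ha (pl_adm_smul H t hf) hv, pl_cov_eq_pair H ha hf hv, pl_pair_smul_left]

/-- expansion of the variance of a sum -/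
theorem pl_gVar_add {a : ℝ} (ha : 0 < a) {f g : G.V → ℝ} (hf : plAdm H f) (hg : plAdm H g) :
    H.gVar a (f + g) = H.gVar a f + 2 * plCov H a f g + H.gVar a g := by
  obtain ⟨u, hu⟩ := pl_opt_exists H ha hf
  obtain ⟨v, hv⟩ := pl_opt_exists H ha hg
  rw [pl_cov_eq_B H ha hu hv, pl_gVar_eq_form H ha (pl_opt_add H hu hv), pl_gVar_eq_form H ha hu, pl_gVar_eq_form H ha hv,
    pl_form_add]

theorem pl_gVar_sub {a : ℝ} (ha : 0 < a) {f g : G.V → ℝ} (hf : plAdm H f) (hg : plAdm H g) :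
    H.gVar a (f - g) = H.gVar a f - 2 * plCov H a f g + H.gVar a g := by
  obtain ⟨u, hu⟩ := pl_opt_exists H ha hf
  obtain ⟨v, hv⟩ := pl_opt_exists H ha hg
  rw [pl_cov_eq_B H ha hu hv, pl_gVar_eq_form H ha (pl_opt_sub H hu hv), pl_gVar_eq_form H ha hu, pl_gVar_eq_form H ha hv,
    pl_form_sub]

/-- parallelogram law -/
theorem pl_gVar_parallelogram {a : ℝ} (ha : 0 < a) {f g : G.V → ℝ} (hf : plAdm H f) (hg : plAdm H g) :
    H.gVar a (f + g) + H.gVar a (f - g) = 2 * H.gVar a f + 2 * H.gVar a g := by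
  rw [pl_gVar_add H ha hf hg, pl_gVar_sub H ha hf hg]; ring

/-- Cauchy-Schwarz for the covariance -/
theorem pl_cov_sq_le {a : ℝ} (ha : 0 < a) {f g : G.V → ℝ} (hf : plAdm H f) (hg : plAdm H g) :
    plCov H a f g ^ 2 ≤ H.gVar a f * H.gVar a g := by
  obtain ⟨v, hv⟩ := pl_opt_exists H ha hg
  rw [pl_cov_eq_pair H ha hf hv, pl_gVar_eq_form H ha hv]
  exact pl_pair_sq_le H ha hf hv.1

theorem pl_abs_cov_le {a : ℝ} (ha : 0 < a) {f g : G.V → ℝ} (hf : plAdm H f) (hg : plAdm H g) :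
    |plCov H a f g| ≤ Real.sqrt (H.gVar a f) * Real.sqrt (H.gVar a g) := by
  rw [← Real.sqrt_mul (pl_gVar_nonneg H ha f)]
  exact Real.abs_le_sqrt (pl_cov_sq_le H ha hf hg)

/-- `√gVar` is a seminorm on the admissible tests -/
theorem pl_sqrt_gVar_add_le {a : ℝ} (ha : 0 < a) {f g : G.V → ℝ} (hf : plAdm H f) (hg : plAdm H g) :
    Real.sqrt (H.gVar a (f + g)) ≤ Real.sqrt (H.gVar a f) + Real.sqrt (H.gVar a g) := by
  have h1 := pl_abs_cov_le H ha hf hg
  have h2 := Real.sq_sqrt (pl_gVar_nonneg H ha f)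
  have h3 := Real.sq_sqrt (pl_gVar_nonneg H ha g)
  apply Real.sqrt_le_iff.2
  refine ⟨by positivity, ?_⟩
  rw [pl_gVar_add H ha hf hg]
  nlinarith [le_abs_self (plCov H a f g)]

theorem pl_sqrt_gVar_sub_le {a : ℝ} (ha : 0 < a) {f g : G.V → ℝ} (hf : plAdm H f) (hg : plAdm H g) :
    Real.sqrt (H.gVar a (f - g)) ≤ Real.sqrt (H.gVar a f) + Real.sqrt (H.gVar a g) := by
  have := pl_sqrt_gVar_add_le H ha hf (pl_adm_neg H hg)
  rwa [pl_gVar_neg H ha, ← sub_eq_add_neg] at this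

/-- continuity in the seminorm: `|gVar f - gVar g| ≤ √gVar(f-g) (√gVar f + √gVar g)` -/
theorem pl_abs_gVar_sub_le {a : ℝ} (ha : 0 < a) {f g : G.V → ℝ} (hf : plAdm H f) (hg : plAdm H g) :
    |H.gVar a f - H.gVar a g| ≤ Real.sqrt (H.gVar a (f - g)) * (Real.sqrt (H.gVar a f) + Real.sqrt (H.gVar a g)) := by
  have e1 : H.gVar a f - H.gVar a g = plCov H a (f - g) f + plCov H a (f - g) g := by
    obtain ⟨u, hu⟩ := pl_opt_exists H ha hf
    obtain ⟨v, hv⟩ := pl_opt_exists H ha hg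
    rw [pl_cov_eq_B H ha (pl_opt_sub H hu hv) hu, pl_cov_eq_B H ha (pl_opt_sub H hu hv) hv, pl_gVar_eq_form H ha hu,
      pl_gVar_eq_form H ha hv, pl_form_eq, pl_form_eq, pl_B_sub_left, pl_B_sub_left, pl_B_comm H a v u]
    ring
  rw [e1, mul_add]
  exact (abs_add_le _ _).trans (add_le_add (pl_abs_cov_le H ha (pl_adm_sub H hf hg) hf) (pl_abs_cov_le H ha (pl_adm_sub H hf hg) hg))

/-- `gVar (f + g) ≤ (1+ε) gVar f + (1+1/ε) gVar g` -/
theorem pl_gVar_add_le_eps {a : ℝ} (ha : 0 < a) {f g : G.V → ℝ} (hf : plAdm H f) (hg : plAdm H g) {ε : ℝ} (hε : 0 < ε) :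
    H.gVar a (f + g) ≤ (1 + ε) * H.gVar a f + (1 + ε⁻¹) * H.gVar a g := by
  obtain ⟨u, hu⟩ := pl_opt_exists H ha hf
  obtain ⟨v, hv⟩ := pl_opt_exists H ha hg
  rw [pl_gVar_eq_form H ha (pl_opt_add H hu hv), pl_gVar_eq_form H ha hu, pl_gVar_eq_form H ha hv, pl_form_add]
  have h := pl_form_nonneg H ha (ε • u - v)
  rw [pl_form_sub, pl_form_smul, pl_B_smul_left] at h
  have h2 : 2 * plB H a u v ≤ ε * H.form a u + ε⁻¹ * H.form a v := by
    have : ε * (2 * plB H a u v) ≤ ε * (ε * H.form a u + ε⁻¹ * H.form a v) := by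
      have e : ε * (ε * H.form a u + ε⁻¹ * H.form a v) = ε ^ 2 * H.form a u + H.form a v := by field_simp
      rw [e]; linarith
    exact le_of_mul_le_mul_left this hε
  linarith

/-! ## 3. comparison -/

/-- **general comparison principle** (covers: more pins, more bonds, more rows, smaller `a`, restriction, gluing, coarse graining).  `φ` need not be linear. -/
theorem pl_gVar_compare {G' : HGraph} (H' : HLaw G') {a a' : ℝ} (ha : 0 < a) {f : G.V → ℝ} (hf : plAdm H f) (f' : G'.V → ℝ)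
    (φ : (G'.V → ℝ) → (G.V → ℝ)) (h1 : ∀ v ∈ H'.rspan, φ v ∈ H.rspan) (h2 : ∀ v ∈ H'.rspan, H.form a (φ v) ≤ H'.form a' v)
    (h3 : ∀ v ∈ H'.rspan, HLaw.pair f' v = HLaw.pair f (φ v)) : H'.gVar a' f' ≤ H.gVar a f := by
  rw [pl_gVar_def H']
  apply ciSup_le
  intro v
  have := pl_le_gVar H ha hf (h1 _ v.2)
  rw [h3 _ v.2]
  linarith [h2 _ v.2]

/-- admissibility passes along a comparison -/
theorem pl_adm_compare {G' : HGraph} (H' : HLaw G') {a a' : ℝ} (ha : 0 < a) (ha' : 0 < a') {f : G.V → ℝ} (hf : plAdm H f) (f' : G'.V → ℝ)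
    (φ : (G'.V → ℝ) → (G.V → ℝ)) (h1 : ∀ v ∈ H'.rspan, φ v ∈ H.rspan) (h2 : ∀ v ∈ H'.rspan, H.form a (φ v) ≤ H'.form a' v)
    (h3 : ∀ v ∈ H'.rspan, HLaw.pair f' v = HLaw.pair f (φ v)) : plAdm H' f' := by
  intro v hv g1 g2
  have h0 : H'.form a' v = 0 := (pl_form_eq_zero_iff H' ha' v).2 ⟨g1, g2⟩
  have h4 : H.form a (φ v) = 0 := le_antisymm ((h2 v hv).trans h0.le) (pl_form_nonneg H ha _)
  obtain ⟨k1, k2⟩ := (pl_form_eq_zero_iff H ha _).1 h4
  rw [h3 v hv, hf _ (h1 v hv) k1 k2]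

/-- monotone in `a` -/
theorem pl_gVar_mono_a {a a' : ℝ} (ha : 0 < a) (h : a ≤ a') {f : G.V → ℝ} (hf : plAdm H f) : H.gVar a f ≤ H.gVar a' f := by
  refine pl_gVar_compare H H (ha.trans_le h) hf f id (fun v hv => hv) (fun v _ => ?_) fun v _ => rfl
  have h1 : a'⁻¹ ≤ a⁻¹ := inv_anti₀ ha h
  have h2 : 0 ≤ HLaw.en v 0 := Finset.sum_nonneg fun e _ => sq_nonneg _
  simp only [HLaw.form, id]
  nlinarith

/-- `gVar a ≤ max(a,1) gVar 1` -/
theorem pl_gVar_le_max {a : ℝ} (ha : 0 < a) (f : G.V → ℝ) : H.gVar a f ≤ max a 1 * H.gVar 1 f := by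
  by_cases hf : plAdm H f
  · have hm : 0 < max a 1 := lt_max_of_lt_left ha
    have e : max a 1 * H.gVar 1 f = (max a 1)⁻¹ * H.gVar 1 (max a 1 • f) := by
      rw [pl_gVar_smul H one_pos]; field_simp
    obtain ⟨v, hv⟩ := pl_opt_exists H ha hf
    obtain ⟨u, hu⟩ := pl_opt_exists H one_pos hf
    -- `⟨f,v⟩² ≤ gVar 1 f · form 1 v ≤ gVar 1 f · max(a,1) form a v`
    have h1 := pl_pair_sq_le H one_pos hf hv.1
    have h2 : H.form 1 v ≤ max a 1 * H.form a v := by
      have k1 : 0 ≤ HLaw.en v 0 := Finset.sum_nonneg fun e _ => sq_nonneg _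
      have k2 : 0 ≤ ∑ o, H.obs v o ^ 2 := Finset.sum_nonneg fun o _ => sq_nonneg _
      simp only [HLaw.form, inv_one, one_mul, mul_add]
      have k3 : 1 ≤ max a 1 * a⁻¹ := by
        have : a * a⁻¹ ≤ max a 1 * a⁻¹ := mul_le_mul_of_nonneg_right (le_max_left _ _) (inv_pos.2 ha).le
        rwa [mul_inv_cancel₀ ha.ne'] at this
      have k4 : (1 : ℝ) ≤ max a 1 := le_max_right _ _
      nlinarith
    rw [pl_opt_pair H hv] at h1
    rw [pl_gVar_eq_form H ha hv]
    have h0 := pl_form_nonneg H ha v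
    have hg := pl_gVar_nonneg H one_pos f
    rcases h0.eq_or_lt with h | h
    · rw [← h]; positivity
    · have : H.form a v ^ 2 ≤ (max a 1 * H.gVar 1 f) * H.form a v := by nlinarith
      rw [sq] at this
      exact le_of_mul_le_mul_right this h
  · rw [pl_gVar_of_not_adm H ha hf, pl_gVar_of_not_adm H one_pos hf, mul_zero]

/-- `min(a,1) gVar 1 ≤ gVar a` -/
theorem pl_min_gVar_le {a : ℝ} (ha : 0 < a) (f : G.V → ℝ) : min a 1 * H.gVar 1 f ≤ H.gVar a f := by
  by_cases hf : plAdm H f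
  · have hm : 0 < min a 1 := lt_min ha one_pos
    obtain ⟨u, hu⟩ := pl_opt_exists H one_pos hf
    have h1 := pl_pair_sq_le H ha hf hu.1
    have h2 : min a 1 * H.form a u ≤ H.form 1 u := by
      have k1 : 0 ≤ HLaw.en u 0 := Finset.sum_nonneg fun e _ => sq_nonneg _
      have k2 : 0 ≤ ∑ o, H.obs u o ^ 2 := Finset.sum_nonneg fun o _ => sq_nonneg _
      simp only [HLaw.form, inv_one, one_mul, mul_add]
      have k3 : min a 1 * a⁻¹ ≤ 1 := by
        have : min a 1 * a⁻¹ ≤ a * a⁻¹ := mul_le_mul_of_nonneg_right (min_le_left _ _) (inv_pos.2 ha).le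
        rwa [mul_inv_cancel₀ ha.ne'] at this
      have k4 : min a 1 ≤ (1 : ℝ) := min_le_right _ _
      nlinarith
    rw [pl_opt_pair H hu] at h1
    rw [pl_gVar_eq_form H one_pos hu]
    have h0 := pl_form_nonneg H one_pos u
    have hg := pl_gVar_nonneg H ha f
    rcases h0.eq_or_lt with h | h
    · rw [← h]; simpa using hg
    · have : (min a 1 * H.form 1 u) * H.form 1 u ≤ H.gVar a f * H.form 1 u := by nlinarith
      exact le_of_mul_le_mul_right this h
  · rw [pl_gVar_of_not_adm H ha hf, pl_gVar_of_not_adm H one_pos hf, mul_zero]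

end

end Claimed.Agent.R285.Pot
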