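import Claimed.Agent.R285.Pot.LogDefs

/-!
# ROW 285, POT-LOG, leaf L-LOG-BRANDT: the interior gradient estimate for discrete harmonic functions, by Brandt's barrier      (architect helper281)
PAPER-FREE ([Gilbarg-Trudinger, Thm 3.9] on the lattice; the discrete Laplacian of a quadratic polynomial is exact).   No Caccioppoli, no Sobolev.
`lg_brandt`.  W.l.o.g. `x0 = 0` in the notation.  `M ≥ 0`.  `d = 1`: trivial (`|u| ≤ M` at both points).  `d ≥ 2`:
  `φ(i,k) = (u(i,k) - u(i,1-k))/2` is harmonic for `|i| < d`, `1 ≤ k < d` (both `(i,k)` and `(i,1-k)` lie in the open box; the reflection `k ↦ 1-k` commutes with `lgLap`), `φ(i,0) = -φ(i,1)`, `|φ| ≤ M` for `|i| ≤ d`, `0 ≤ k ≤ d`.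
  Barrier, for `ε > 0`: `ψ(i,k) = (M/d²) (i² + (k-½)(2d-k+½) + ¼) + ε (d² - i²)`:  `Δψ = -2ε < 0`;  `ψ ≥ M` for `|i| = d`, `1 ≤ k ≤ d` and for `k = d`, `|i| ≤ d` (`(d-½)(d+½)+¼ = d²`);   `ψ(i,0) + ψ(i,1) = (M/d²) 2i² + 2ε(d²-i²) ≥ 0` for `|i| ≤ d`.
  CLAIM `w := ψ ∓ φ ≥ 0` on `T = {|i| ≤ d, 1 ≤ k ≤ d}`.  Take a minimiser `p` of `w` on the finite set `T` and suppose `w p = μ < 0`.  Then `p` is interior (`|i| < d`, `k < d`).  If `k ≥ 2` all four neighbours lie in `T`: `Δ w(p) ≥ 0`, contradiction with `Δ w = -2ε`.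
  If `k = 1`: three neighbours lie in `T` (`≥ μ`), the fourth is `w(i,0) = ψ(i,0) + ψ(i,1) - w(i,1) ≥ -μ > μ`: again `Δ w(p) > 0`.
  At `(0,1)`: `|u(0,1) - u(0,0)| = 2 |φ(0,1)| ≤ 2 ψ(0,1) = 2M/d + 2ε d²`; `ε → 0` (`le_of_forall_pos_le_add`).
`lg_brandt'`: apply `lg_brandt` to `u ∘ swap` (`lgLap` commutes with the swap of the coordinates).
`lg_lip`: walk from `x0` to `z` first in the first, then in the second coordinate (induction on `|z.1 - x0.1|`, `|z.2 - x0.2|`; steps in the negative direction: apply the estimate at the lower endpoint); every point `z'` of the walk has `lgSup (z' - x0) ≤ d`, so the box of radius `d` around `z'` lies in the box of radius `2d` around `x0`.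
-/

set_option autoImplicit false

namespace Claimed.Agent.R285.Pot

open scoped Classical

noncomputable section

/-- the barrier -/
def lgBrPsi (c D ε : ℝ) (x : ℤ × ℤ) : ℝ :=
  c * ((x.1 : ℝ) ^ 2 + ((x.2 : ℝ) - 1 / 2) * (2 * D - x.2 + 1 / 2) + 1 / 4) + ε * (D ^ 2 - (x.1 : ℝ) ^ 2)

theorem lgBr_lap_psi (c D ε : ℝ) (x : ℤ × ℤ) : lgLap (lgBrPsi c D ε) x = -2 * ε := by
  unfold lgLap lgBrPsi
  push_cast
  ring

theorem lgBr_barrier (d : ℕ) (hd : 1 ≤ d) (M ε : ℝ) (hM : 0 ≤ M) (hε : 0 < ε) (φ : ℤ × ℤ → ℝ)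
    (h1 : ∀ i k : ℤ, |i| < d → 1 ≤ k → k < d → lgLap φ (i, k) = 0)
    (h2 : ∀ i k : ℤ, |i| ≤ d → 1 ≤ k → k ≤ d → φ (i, k) ≤ M)
    (h3 : ∀ i : ℤ, φ (i, 0) = -φ (i, 1)) : φ (0, 1) ≤ M / d + ε * (d : ℝ) ^ 2 := by
  set D : ℝ := (d : ℝ) with hD
  have hD1 : 1 ≤ D := by rw [hD]; exact_mod_cast hd
  have hD0 : 0 < D := by linarith
  set c : ℝ := M / D ^ 2 with hc
  have hc0 : 0 ≤ c := by positivity
  have hcD : c * D ^ 2 = M := by rw [hc]; field_simp
  set w : ℤ × ℤ → ℝ := lgBrPsi c D ε - φ with hw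
  have hsq : ∀ i : ℤ, |i| ≤ d → (i : ℝ) ^ 2 ≤ D ^ 2 := by
    intro i hi
    have h := abs_le.1 hi
    have a1 : -D ≤ (i : ℝ) := by have : (-(d : ℤ) : ℤ) ≤ i := h.1; rw [hD]; exact_mod_cast this
    have a2 : (i : ℝ) ≤ D := by rw [hD]; exact_mod_cast h.2
    exact sq_le_sq' a1 a2
  have hbdry : ∀ i k : ℤ, |i| ≤ d → 1 ≤ k → k ≤ d → (|i| = d ∨ k = d) → 0 ≤ w (i, k) := by
    intro i k hi hk1 hkd hor
    have hφ := h2 i k hi hk1 hkd
    have hk1' : (1 : ℝ) ≤ (k : ℝ) := by exact_mod_cast hk1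
    have hkd' : (k : ℝ) ≤ D := by rw [hD]; exact_mod_cast hkd
    have hi2 := hsq i hi
    have : M ≤ lgBrPsi c D ε (i, k) := by
      unfold lgBrPsi
      simp only
      rcases hor with h | h
      · have e : (i : ℝ) ^ 2 = D ^ 2 := by
          have : i ^ 2 = (d : ℤ) ^ 2 := by rw [← sq_abs, h]
          rw [hD]; exact_mod_cast this
        rw [e, sub_self, mul_zero, add_zero]
        have : 0 ≤ ((k : ℝ) - 1 / 2) * (2 * D - k + 1 / 2) := mul_nonneg (by linarith) (by linarith)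
        nlinarith
      · have e : (k : ℝ) = D := by rw [hD]; exact_mod_cast h
        rw [e]
        have e2 : (D - 1 / 2) * (2 * D - D + 1 / 2) + 1 / 4 = D ^ 2 := by ring
        have : 0 ≤ ε * (D ^ 2 - (i : ℝ) ^ 2) := mul_nonneg hε.le (by linarith)
        have : 0 ≤ c * (i : ℝ) ^ 2 := by positivity
        nlinarith
    simp only [hw, Pi.sub_apply]
    linarith
  set T : Finset (ℤ × ℤ) := Finset.Icc (-(d : ℤ)) d ×ˢ Finset.Icc 1 (d : ℤ) with hT
  have hmemT : ∀ i k : ℤ, (i, k) ∈ T ↔ |i| ≤ d ∧ 1 ≤ k ∧ k ≤ d := by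
    intro i k
    rw [hT, Finset.mem_product, Finset.mem_Icc, Finset.mem_Icc, abs_le]
  have h01 : ((0 : ℤ), (1 : ℤ)) ∈ T := by
    rw [hmemT]; refine ⟨by simp, le_rfl, by exact_mod_cast hd⟩
  obtain ⟨p, hpT, hpmin⟩ := T.exists_min_image w ⟨_, h01⟩
  have hp0 : 0 ≤ w p := by
    by_contra hneg
    push Not at hneg
    obtain ⟨i, k⟩ := p
    obtain ⟨hi, hk1, hkd⟩ := (hmemT i k).1 hpT
    have hi' : |i| < d := by
      by_contra h
      exact absurd (hbdry i k hi hk1 hkd (Or.inl (le_antisymm hi (not_lt.1 h)))) (not_le.2 hneg)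
    have hk' : k < d := by
      by_contra h
      exact absurd (hbdry i k hi hk1 hkd (Or.inr (le_antisymm hkd (not_lt.1 h)))) (not_le.2 hneg)
    have hlap : lgLap w (i, k) = -2 * ε := by
      rw [hw, lgLap_sub, lgBr_lap_psi, h1 i k hi' hk1 hk', sub_zero]
    have hia := abs_lt.1 hi'
    have n1 : w (i, k) ≤ w (i + 1, k) := hpmin _ ((hmemT _ _).2 ⟨abs_le.2 ⟨by omega, by omega⟩, hk1, hkd⟩)
    have n2 : w (i, k) ≤ w (i - 1, k) := hpmin _ ((hmemT _ _).2 ⟨abs_le.2 ⟨by omega, by omega⟩, hk1, hkd⟩)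
    have n3 : w (i, k) ≤ w (i, k + 1) := hpmin _ ((hmemT _ _).2 ⟨hi, by omega, by omega⟩)
    have n4 : w (i, k) ≤ w (i, k - 1) := by
      rcases eq_or_lt_of_le hk1 with h | h
      · subst h
        have e : w (i, 1 - 1) + w (i, 1) = c * (2 * (i : ℝ) ^ 2) + 2 * ε * (D ^ 2 - (i : ℝ) ^ 2) := by
          simp only [hw, Pi.sub_apply, sub_self, h3 i, lgBrPsi]
          push_cast
          ring
        have hi2 := hsq i hi
        have : 0 ≤ c * (2 * (i : ℝ) ^ 2) + 2 * ε * (D ^ 2 - (i : ℝ) ^ 2) :=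
          add_nonneg (by positivity) (mul_nonneg (by positivity) (by linarith))
        linarith
      · exact hpmin _ ((hmemT _ _).2 ⟨hi, by omega, by omega⟩)
    unfold lgLap at hlap
    simp only at hlap
    linarith
  have hfin := hp0.trans (hpmin _ h01)
  have e : lgBrPsi c D ε (0, 1) = M / D + ε * D ^ 2 := by
    unfold lgBrPsi
    push_cast
    have : c * D = M / D := by rw [hc]; field_simp
    linear_combination this
  simp only [hw, Pi.sub_apply, e] at hfin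
  linarith

theorem lgBr_core (v : ℤ × ℤ → ℝ) (d : ℕ) (hd : 1 ≤ d) (M : ℝ)
    (hh : ∀ x, lgSup x < d → lgLap v x = 0) (hM : ∀ x, lgSup x ≤ d → |v x| ≤ M) :
    |v (0, 1) - v (0, 0)| ≤ 2 * M / d := by
  have hd' : (1 : ℤ) ≤ d := by exact_mod_cast hd
  have hM0 : 0 ≤ M := (abs_nonneg _).trans (hM (0, 0) (by simp [lgSup]))
  have hD0 : (0 : ℝ) < d := by exact_mod_cast hd
  set φ : ℤ × ℤ → ℝ := fun x => (v x - v (x.1, 1 - x.2)) / 2 with hφ
  have hsup : ∀ i k : ℤ, lgSup (i, k) = max |i| |k| := fun _ _ => rfl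
  have h1 : ∀ i k : ℤ, |i| < d → 1 ≤ k → k < d → lgLap φ (i, k) = 0 := by
    intro i k hi hk1 hkd
    have a1 := hh (i, k) (by rw [hsup]; exact max_lt hi (abs_lt.2 ⟨by omega, hkd⟩))
    have a2 := hh (i, 1 - k) (by rw [hsup]; exact max_lt hi (abs_lt.2 ⟨by omega, by omega⟩))
    unfold lgLap at a1 a2 ⊢
    simp only [hφ] at a1 a2 ⊢
    rw [show (1 : ℤ) - (k + 1) = 1 - k - 1 by ring, show (1 : ℤ) - (k - 1) = 1 - k + 1 by ring]
    linarith
  have hb : ∀ i k : ℤ, |i| ≤ d → 1 ≤ k → k ≤ d → |φ (i, k)| ≤ M := by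
    intro i k hi hk1 hkd
    have a1 := hM (i, k) (by rw [hsup]; exact max_le hi (abs_le.2 ⟨by omega, hkd⟩))
    have a2 := hM (i, 1 - k) (by rw [hsup]; exact max_le hi (abs_le.2 ⟨by omega, by omega⟩))
    simp only [hφ]
    rw [abs_le] at a1 a2 ⊢
    constructor <;> linarith [a1.1, a1.2, a2.1, a2.2]
  have h3 : ∀ i : ℤ, φ (i, 0) = -φ (i, 1) := by
    intro i
    simp only [hφ, sub_zero, sub_self]
    ring
  have e : v (0, 1) - v (0, 0) = 2 * φ (0, 1) := by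
    simp only [hφ, sub_self]; ring
  rw [e]
  refine le_of_forall_pos_le_add fun δ hδ => ?_
  set ε : ℝ := δ / (2 * (d : ℝ) ^ 2) with hε
  have hε0 : 0 < ε := by positivity
  have u1 := lgBr_barrier d hd M ε hM0 hε0 φ h1 (fun i k a b c => (le_abs_self _).trans (hb i k a b c)) h3
  have u2 := lgBr_barrier d hd M ε hM0 hε0 (-φ) (fun i k a b c => by rw [lgLap_neg, h1 i k a b c, neg_zero])
    (fun i k a b c => (neg_le_abs _).trans (hb i k a b c)) (fun i => by simp only [Pi.neg_apply, h3 i])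
  have e2 : ε * (d : ℝ) ^ 2 = δ / 2 := by rw [hε]; field_simp
  rw [e2] at u1 u2
  simp only [Pi.neg_apply] at u2
  rw [abs_mul, abs_two, show 2 * M / (d : ℝ) = 2 * (M / d) by ring]
  have : |φ (0, 1)| ≤ M / d + δ / 2 := abs_le.2 ⟨by linarith, u1⟩
  linarith

/-- **Brandt's gradient estimate**, second coordinate -/
theorem lg_brandt (u : ℤ × ℤ → ℝ) (x0 : ℤ × ℤ) (d : ℕ) (hd : 1 ≤ d) (M : ℝ)
    (hh : ∀ x, lgSup (x - x0) < d → lgLap u x = 0) (hM : ∀ x, lgSup (x - x0) ≤ d → |u x| ≤ M) :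
    |u (x0.1, x0.2 + 1) - u x0| ≤ 2 * M / d := by
  have := lgBr_core (fun x => u (x.1 + x0.1, x.2 + x0.2)) d hd M (fun x hx => by
      have h := hh (x.1 + x0.1, x.2 + x0.2) (by simpa [lgSup] using hx)
      unfold lgLap at h ⊢
      simp only at h ⊢
      rw [show x.1 + 1 + x0.1 = x.1 + x0.1 + 1 by ring, show x.1 - 1 + x0.1 = x.1 + x0.1 - 1 by ring,
        show x.2 + 1 + x0.2 = x.2 + x0.2 + 1 by ring, show x.2 - 1 + x0.2 = x.2 + x0.2 - 1 by ring]
      exact h)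
    (fun x hx => hM (x.1 + x0.1, x.2 + x0.2) (by simpa [lgSup] using hx))
  simp only [zero_add] at this
  rwa [add_comm 1 x0.2] at this

/-- first coordinate -/
theorem lg_brandt' (u : ℤ × ℤ → ℝ) (x0 : ℤ × ℤ) (d : ℕ) (hd : 1 ≤ d) (M : ℝ)
    (hh : ∀ x, lgSup (x - x0) < d → lgLap u x = 0) (hM : ∀ x, lgSup (x - x0) ≤ d → |u x| ≤ M) :
    |u (x0.1 + 1, x0.2) - u x0| ≤ 2 * M / d := by
  have hs : ∀ x : ℤ × ℤ, lgSup ((x.2, x.1) - x0) = lgSup (x - (x0.2, x0.1)) := by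
    intro x
    simp only [lgSup, Prod.fst_sub, Prod.snd_sub]
    exact max_comm _ _
  have := lg_brandt (fun x => u (x.2, x.1)) (x0.2, x0.1) d hd M (fun x hx => by
      have h := hh (x.2, x.1) (by rw [hs]; exact hx)
      unfold lgLap at h ⊢
      simp only at h ⊢
      linarith)
    (fun x hx => hM (x.2, x.1) (by rw [hs]; exact hx))
  simpa using this

theorem lgBr_walk (w : ℤ → ℝ) (K : ℝ) (s t : ℤ) (h : s ≤ t) (hw : ∀ i, s ≤ i → i < t → |w (i + 1) - w i| ≤ K) :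
    |w t - w s| ≤ K * ((t - s : ℤ) : ℝ) := by
  induction t, h using Int.leInduction with
  | base => simp
  | succ k hk ih =>
    have h1 := ih fun i a b => hw i a (by omega)
    have h2 := hw k hk (by omega)
    calc |w (k + 1) - w s| = |(w (k + 1) - w k) + (w k - w s)| := by congr 1; ring
      _ ≤ |w (k + 1) - w k| + |w k - w s| := abs_add_le _ _
      _ ≤ K + K * ((k - s : ℤ) : ℝ) := add_le_add h2 h1
      _ = _ := by push_cast; ring

theorem lgBr_walk' (w : ℤ → ℝ) (K : ℝ) (p q : ℤ) (hw : ∀ i, min p q ≤ i → i < max p q → |w (i + 1) - w i| ≤ K) :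
    |w p - w q| ≤ K * ((|p - q| : ℤ) : ℝ) := by
  rcases le_total p q with h | h
  · rw [min_eq_left h, max_eq_right h] at hw
    rw [abs_sub_comm, abs_of_nonpos (by omega : p - q ≤ 0), neg_sub]
    exact lgBr_walk w K p q h hw
  · rw [min_eq_right h, max_eq_left h] at hw
    rw [abs_of_nonneg (by omega : 0 ≤ p - q)]
    exact lgBr_walk w K q p h hw

/-- **Lipschitz estimate** -/
theorem lg_lip (u : ℤ × ℤ → ℝ) (x0 : ℤ × ℤ) (d : ℕ) (hd : 1 ≤ d) (M : ℝ)
    (hh : ∀ x, lgSup (x - x0) < 2 * d → lgLap u x = 0) (hM : ∀ x, lgSup (x - x0) ≤ 2 * d → |u x| ≤ M)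
    (z : ℤ × ℤ) (hz : lgSup (z - x0) ≤ d) : |u z - u x0| ≤ 2 * M * (lgOne (z - x0) : ℝ) / d := by
  have htri : ∀ x y : ℤ × ℤ, lgSup (x - x0) ≤ lgSup (x - y) + lgSup (y - x0) := by
    intro x y
    simp only [lgSup, Prod.fst_sub, Prod.snd_sub]
    have a1 : |x.1 - x0.1| ≤ |x.1 - y.1| + |y.1 - x0.1| := abs_sub_le _ _ _
    have a2 : |x.2 - x0.2| ≤ |x.2 - y.2| + |y.2 - x0.2| := abs_sub_le _ _ _
    have b1 := le_max_left |x.1 - y.1| |x.2 - y.2|
    have b2 := le_max_right |x.1 - y.1| |x.2 - y.2|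
    have b3 := le_max_left |y.1 - x0.1| |y.2 - x0.2|
    have b4 := le_max_right |y.1 - x0.1| |y.2 - x0.2|
    exact max_le (by omega) (by omega)
  have hloc1 : ∀ y : ℤ × ℤ, lgSup (y - x0) ≤ d → |u (y.1 + 1, y.2) - u y| ≤ 2 * M / d := fun y hy =>
    lg_brandt' u y d hd M (fun x hx => hh x (by have := htri x y; omega))
      (fun x hx => hM x (by have := htri x y; omega))
  have hloc2 : ∀ y : ℤ × ℤ, lgSup (y - x0) ≤ d → |u (y.1, y.2 + 1) - u y| ≤ 2 * M / d := fun y hy =>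
    lg_brandt u y d hd M (fun x hx => hh x (by have := htri x y; omega))
      (fun x hx => hM x (by have := htri x y; omega))
  have hz1 : |z.1 - x0.1| ≤ d := (le_max_left _ _).trans hz
  have hz2 : |z.2 - x0.2| ≤ d := (le_max_right _ _).trans hz
  have l1 : |u (z.1, x0.2) - u (x0.1, x0.2)| ≤ 2 * M / d * ((|z.1 - x0.1| : ℤ) : ℝ) :=
    lgBr_walk' (fun i => u (i, x0.2)) (2 * M / d) z.1 x0.1 fun i a b => hloc1 (i, x0.2) (by
      simp only [lgSup, Prod.fst_sub, Prod.snd_sub, sub_self, abs_zero]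
      have h := abs_le.1 hz1
      refine max_le (abs_le.2 ?_) (by positivity)
      rcases le_total z.1 x0.1 with h' | h'
      · rw [min_eq_left h'] at a; rw [max_eq_right h'] at b; constructor <;> omega
      · rw [min_eq_right h'] at a; rw [max_eq_left h'] at b; constructor <;> omega)
  have l2 : |u (z.1, z.2) - u (z.1, x0.2)| ≤ 2 * M / d * ((|z.2 - x0.2| : ℤ) : ℝ) :=
    lgBr_walk' (fun j => u (z.1, j)) (2 * M / d) z.2 x0.2 fun j a b => hloc2 (z.1, j) (by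
      simp only [lgSup, Prod.fst_sub, Prod.snd_sub]
      have h := abs_le.1 hz2
      refine max_le hz1 (abs_le.2 ?_)
      rcases le_total z.2 x0.2 with h' | h'
      · rw [min_eq_left h'] at a; rw [max_eq_right h'] at b; constructor <;> omega
      · rw [min_eq_right h'] at a; rw [max_eq_left h'] at b; constructor <;> omega)
  have e : (lgOne (z - x0) : ℝ) = ((|z.1 - x0.1| : ℤ) : ℝ) + ((|z.2 - x0.2| : ℤ) : ℝ) := by
    unfold lgOne; push_cast; simp
  rw [e]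
  calc |u z - u x0| = |(u (z.1, z.2) - u (z.1, x0.2)) + (u (z.1, x0.2) - u (x0.1, x0.2))| := by
        congr 1; simp only [Prod.mk.eta]; ring
    _ ≤ _ := abs_add_le _ _
    _ ≤ 2 * M / d * ((|z.2 - x0.2| : ℤ) : ℝ) + 2 * M / d * ((|z.1 - x0.1| : ℤ) : ℝ) := add_le_add l2 l1
    _ = _ := by ring

end

end Claimed.Agent.R285.Pot
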