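import Claimed.Agent.R285.Pot.LogShell

/-!
# ROW 285, POT-LOG, leaf L-LOG-FLUX: the total error charge vanishes      (architect helper281)
PAPER-FREE.  This is the ONLY place where the constant `2π` (isotropy of the lattice Laplacian) is computed.
* `lg_flux` (discrete divergence theorem on a square): row by row telescoping, `∑_{i ∈ [-R,R]} (f(i+1,j) + f(i-1,j) - 2 f(i,j)) = (f(R+1,j) - f(R,j)) + (f(-R-1,j) - f(-R,j))`
  (induction on `R`, or `Finset.sum_Icc`-shifts).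
* `lgL_flux`: `lgL_swap`, `lgL_neg_*`: the four sides contribute equally; `lgL (R+1,t) - lgL (R,t) = -(4π)⁻¹ log (((R+1)²+t²)/(R²+t²))` for `R ≥ 1`.
* `lg_arctan_sum`: mean value theorem / monotonicity: `R/(R²+(t+1)²) ≤ arctan ((t+1)/R) - arctan (t/R) ≤ R/(R²+t²)`; telescoping, `arctan 1 = π/4` (`Real.arctan_one`), `arctan 0 = 0`:
  `π/4 - 1/R ≤ π/4 - (1/R - R/(2R²)) ≤ ∑_{t=1}^{R} R/(R²+t²) ≤ π/4`.
* `lg_logsum_tendsto`: `x - x² ≤ log (1+x) ≤ x` for `0 ≤ x`, `x_t = (2R+1)/(R²+t²) ≤ 3/R`; `∑_{|t| ≤ R} x_t = (2R+1)/R (1/R + 2 ∑_{t=1}^R R/(R²+t²)) → π`, `∑ x_t² ≤ (2R+1) 9/R² → 0`.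
* `lgErr_box_tendsto`: `∑_{lgCb R} lgErr = 1 + ∑_{lgCb R} Δ lgL → 1 - π/π = 0`.
* `lgErr_box`: for `R' ≥ R`: `|∑_{lgCb R'} - ∑_{lgCb R}| ≤ ∑_{lgCb R' \ lgCb R} |lgErr| ≤ 8/R²` (`lgErr_sum_far`); let `R' → ∞` (`le_of_tendsto`).
-/

set_option autoImplicit false

namespace Claimed.Agent.R285.Pot

open Filter Topology
open scoped Classical

noncomputable section

/-- telescoping over an integer interval -/
theorem lg_tele_int (h : ℤ → ℝ) (a : ℤ) (k : ℕ) : ∑ i ∈ Finset.Ico a (a + k), (h (i + 1) - h i) = h (a + k) - h a := by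
  induction k with
  | zero => simp
  | succ k ih =>
    have e : Finset.Ico a (a + ((k + 1 : ℕ) : ℤ)) = insert (a + (k : ℤ)) (Finset.Ico a (a + k)) := by
      rw [Finset.insert_Ico_right_eq_Ico_add_one (by omega)]
      congr 1
      push_cast
      ring
    rw [e, Finset.sum_insert (by simp), ih]
    push_cast
    rw [← add_assoc]
    ring

/-- the second difference telescopes -/
theorem lg_flux_row (g : ℤ → ℝ) (R : ℕ) :
    ∑ i ∈ Finset.Icc (-(R : ℤ)) R, (g (i + 1) + g (i - 1) - 2 * g i) =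
      (g ((R : ℤ) + 1) - g R) + (g (-(R : ℤ) - 1) - g (-(R : ℤ))) := by
  have e : Finset.Icc (-(R : ℤ)) R = Finset.Ico (-(R : ℤ)) (-(R : ℤ) + ((2 * R + 1 : ℕ) : ℤ)) := by
    rw [← Finset.Ico_add_one_right_eq_Icc]
    congr 1
    push_cast
    ring
  have h1 := lg_tele_int g (-(R : ℤ)) (2 * R + 1)
  have h2 := lg_tele_int (fun i => g (i - 1)) (-(R : ℤ)) (2 * R + 1)
  have e1 : (-(R : ℤ) + ((2 * R + 1 : ℕ) : ℤ)) = (R : ℤ) + 1 := by push_cast; ring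
  rw [e]
  have h3 : ∀ i ∈ Finset.Ico (-(R : ℤ)) (-(R : ℤ) + ((2 * R + 1 : ℕ) : ℤ)), g (i + 1) + g (i - 1) - 2 * g i =
      (g (i + 1) - g i) - ((fun i => g (i - 1)) (i + 1) - (fun i => g (i - 1)) i) := fun i _ => by
    simp only [add_sub_cancel_right]
    ring
  rw [Finset.sum_congr rfl h3, Finset.sum_sub_distrib, h1, h2, e1]
  simp only [add_sub_cancel_right]
  ring

theorem lg_flux (f : ℤ × ℤ → ℝ) (R : ℕ) :
    ∑ x ∈ lgCb R, lgLap f x = ∑ t ∈ Finset.Icc (-(R : ℤ)) R,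
      ((f ((R : ℤ) + 1, t) - f ((R : ℤ), t)) + (f (-(R : ℤ) - 1, t) - f (-(R : ℤ), t))
        + (f (t, (R : ℤ) + 1) - f (t, (R : ℤ))) + (f (t, -(R : ℤ) - 1) - f (t, -(R : ℤ)))) := by
  have hsplit : ∀ x : ℤ × ℤ, lgLap f x = (f (x.1 + 1, x.2) + f (x.1 - 1, x.2) - 2 * f (x.1, x.2))
      + (f (x.1, x.2 + 1) + f (x.1, x.2 - 1) - 2 * f (x.1, x.2)) := fun x => by
    simp only [lgLap, Prod.mk.eta]
    ring
  simp only [hsplit]
  rw [Finset.sum_add_distrib]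
  have hA : ∑ x ∈ lgCb R, (f (x.1 + 1, x.2) + f (x.1 - 1, x.2) - 2 * f (x.1, x.2)) =
      ∑ t ∈ Finset.Icc (-(R : ℤ)) R, ((f ((R : ℤ) + 1, t) - f ((R : ℤ), t)) + (f (-(R : ℤ) - 1, t) - f (-(R : ℤ), t))) := by
    unfold lgCb
    rw [Finset.sum_product_right]
    exact Finset.sum_congr rfl fun t _ => lg_flux_row (fun i => f (i, t)) R
  have hB : ∑ x ∈ lgCb R, (f (x.1, x.2 + 1) + f (x.1, x.2 - 1) - 2 * f (x.1, x.2)) =
      ∑ t ∈ Finset.Icc (-(R : ℤ)) R, ((f (t, (R : ℤ) + 1) - f (t, (R : ℤ))) + (f (t, -(R : ℤ) - 1) - f (t, -(R : ℤ)))) := by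
    unfold lgCb
    rw [Finset.sum_product]
    exact Finset.sum_congr rfl fun t _ => lg_flux_row (fun i => f (t, i)) R
  rw [hA, hB, ← Finset.sum_add_distrib]
  exact Finset.sum_congr rfl fun t _ => by ring

theorem lgL_flux (R : ℕ) (hR : 1 ≤ R) :
    ∑ x ∈ lgCb R, lgLap lgL x = -(1 / Real.pi) * ∑ t ∈ Finset.Icc (-(R : ℤ)) R,
      Real.log ((((R : ℝ) + 1) ^ 2 + (t : ℝ) ^ 2) / ((R : ℝ) ^ 2 + (t : ℝ) ^ 2)) := by
  have hR' : (1 : ℝ) ≤ R := by exact_mod_cast hR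
  rw [lg_flux, Finset.mul_sum]
  refine Finset.sum_congr rfl fun t _ => ?_
  have e1 : lgL (-(R : ℤ) - 1, t) = lgL ((R : ℤ) + 1, t) := by
    rw [← lgL_neg_fst ((R : ℤ) + 1, t)]
    congr 2
    ring
  have e2 : lgL (-(R : ℤ), t) = lgL ((R : ℤ), t) := lgL_neg_fst ((R : ℤ), t)
  have e3 : lgL (t, (R : ℤ) + 1) = lgL ((R : ℤ) + 1, t) := lgL_swap ((R : ℤ) + 1, t)
  have e4 : lgL (t, (R : ℤ)) = lgL ((R : ℤ), t) := lgL_swap ((R : ℤ), t)
  have e5 : lgL (t, -(R : ℤ) - 1) = lgL ((R : ℤ) + 1, t) := by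
    rw [← e3, ← lgL_neg_snd (t, (R : ℤ) + 1)]
    congr 2
    ring
  have e6 : lgL (t, -(R : ℤ)) = lgL ((R : ℤ), t) := by
    rw [← e4]
    exact lgL_neg_snd (t, (R : ℤ))
  rw [e1, e2, e3, e4, e5, e6]
  have n1 : (((R : ℤ) + 1, t) : ℤ × ℤ) ≠ 0 := by
    intro h
    have := congrArg Prod.fst h
    simp only [Prod.fst_zero] at this
    omega
  have n2 : (((R : ℤ), t) : ℤ × ℤ) ≠ 0 := by
    intro h
    have := congrArg Prod.fst h
    simp only [Prod.fst_zero] at this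
    omega
  have p1 : (0 : ℝ) < ((R : ℝ) + 1) ^ 2 + (t : ℝ) ^ 2 := by positivity
  have p2 : (0 : ℝ) < (R : ℝ) ^ 2 + (t : ℝ) ^ 2 := by positivity
  simp only [lgL, if_neg n1, if_neg n2, lgSq]
  push_cast
  rw [Real.log_div p1.ne' p2.ne']
  have hpi : Real.pi ≠ 0 := Real.pi_ne_zero
  field_simp
  ring

/-- mean value bounds for `arctan` on the positive half line -/
theorem lg_arctan_diff {a b : ℝ} (ha : 0 ≤ a) (hab : a ≤ b) :
    (b - a) / (1 + b ^ 2) ≤ Real.arctan b - Real.arctan a ∧ Real.arctan b - Real.arctan a ≤ (b - a) / (1 + a ^ 2) := by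
  rcases hab.eq_or_lt with rfl | hlt
  · simp
  obtain ⟨c, hc, hd⟩ := exists_deriv_eq_slope Real.arctan hlt Real.differentiable_arctan.continuous.continuousOn
    Real.differentiable_arctan.differentiableOn
  rw [Real.deriv_arctan] at hd
  have hba : 0 < b - a := sub_pos.2 hlt
  have e : Real.arctan b - Real.arctan a = (b - a) * (1 / (1 + c ^ 2)) := by
    have hd' : 1 / (1 + c ^ 2) = (Real.arctan b - Real.arctan a) / (b - a) := hd
    rw [hd']; field_simp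
  have hc0 : 0 ≤ c := ha.trans hc.1.le
  rw [e, div_eq_mul_one_div (b - a), div_eq_mul_one_div (b - a)]
  constructor
  · refine mul_le_mul_of_nonneg_left (one_div_le_one_div_of_le (by positivity) ?_) hba.le
    have := pow_le_pow_left₀ hc0 hc.2.le 2
    linarith
  · refine mul_le_mul_of_nonneg_left (one_div_le_one_div_of_le (by positivity) ?_) hba.le
    have := pow_le_pow_left₀ ha hc.1.le 2
    linarith

theorem lg_tele_nat (F : ℕ → ℝ) (n : ℕ) : ∑ t ∈ Finset.Icc 1 n, (F t - F (t - 1)) = F n - F 0 := by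
  induction n with
  | zero => simp
  | succ n ih =>
    rw [Finset.sum_Icc_succ_top (by omega), ih]
    simp

theorem lg_tele_nat' (F : ℕ → ℝ) (n : ℕ) : ∑ t ∈ Finset.Icc 1 n, (F (t + 1) - F t) = F (n + 1) - F 1 := by
  induction n with
  | zero => simp
  | succ n ih =>
    rw [Finset.sum_Icc_succ_top (by omega), ih]
    ring

theorem lg_arctan_sum (R : ℕ) (hR : 1 ≤ R) :
    |∑ t ∈ Finset.Icc 1 R, (R : ℝ) / ((R : ℝ) ^ 2 + (t : ℝ) ^ 2) - Real.pi / 4| ≤ 1 / (R : ℝ) := by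
  have hR' : (1 : ℝ) ≤ R := by exact_mod_cast hR
  have hR0 : (0 : ℝ) < R := by linarith
  set F : ℕ → ℝ := fun t => Real.arctan ((t : ℝ) / R) with hF
  have hstep : ∀ t : ℕ, (R : ℝ) / ((R : ℝ) ^ 2 + ((t : ℝ) + 1) ^ 2) ≤ F (t + 1) - F t ∧
      F (t + 1) - F t ≤ (R : ℝ) / ((R : ℝ) ^ 2 + (t : ℝ) ^ 2) := by
    intro t
    have ht : (0 : ℝ) ≤ t := Nat.cast_nonneg t
    have h := lg_arctan_diff (a := (t : ℝ) / R) (b := ((t : ℝ) + 1) / R) (by positivity)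
      (div_le_div_of_nonneg_right (by linarith) hR0.le)
    have e0 : ((t : ℝ) + 1) / R - (t : ℝ) / R = 1 / R := by field_simp; ring
    have e1 : (((t : ℝ) + 1) / R - (t : ℝ) / R) / (1 + (((t : ℝ) + 1) / R) ^ 2) = (R : ℝ) / ((R : ℝ) ^ 2 + ((t : ℝ) + 1) ^ 2) := by
      rw [e0]; field_simp
    have e2 : (((t : ℝ) + 1) / R - (t : ℝ) / R) / (1 + ((t : ℝ) / R) ^ 2) = (R : ℝ) / ((R : ℝ) ^ 2 + (t : ℝ) ^ 2) := by
      rw [e0]; field_simp
    rw [e1, e2] at h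
    simp only [hF]
    push_cast
    exact h
  have hup : ∑ t ∈ Finset.Icc 1 R, (R : ℝ) / ((R : ℝ) ^ 2 + (t : ℝ) ^ 2) ≤ F R - F 0 := by
    rw [← lg_tele_nat F R]
    refine Finset.sum_le_sum fun t ht => ?_
    obtain ⟨s, rfl⟩ : ∃ s, t = s + 1 := ⟨t - 1, by have := (Finset.mem_Icc.1 ht).1; omega⟩
    have := (hstep s).1
    simpa using this
  have hlow : F (R + 1) - F 1 ≤ ∑ t ∈ Finset.Icc 1 R, (R : ℝ) / ((R : ℝ) ^ 2 + (t : ℝ) ^ 2) := by
    rw [← lg_tele_nat' F R]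
    exact Finset.sum_le_sum fun t _ => (hstep t).2
  have hFR : F R = Real.pi / 4 := by
    simp only [hF]
    rw [div_self hR0.ne', Real.arctan_one]
  have hF0 : F 0 = 0 := by simp [hF]
  have hFR1 : Real.pi / 4 ≤ F (R + 1) := by
    rw [← hFR]
    simp only [hF]
    exact Real.arctan_strictMono.monotone (div_le_div_of_nonneg_right (by push_cast; linarith) hR0.le)
  have hF1 : F 1 ≤ 1 / R := by
    have h := (lg_arctan_diff (a := 0) (b := 1 / (R : ℝ)) le_rfl (by positivity)).2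
    simp only [hF]
    simpa using h
  rw [abs_le]
  constructor <;> linarith

theorem lg_log_one_add {x : ℝ} (hx : 0 ≤ x) : x - x ^ 2 ≤ Real.log (1 + x) ∧ Real.log (1 + x) ≤ x := by
  have h1 : 0 < 1 + x := by linarith
  constructor
  · have h := Real.one_sub_inv_le_log_of_pos h1
    have h2 : x - x ^ 2 ≤ 1 - (1 + x)⁻¹ := by
      rw [← sub_nonneg]
      have e : 1 - (1 + x)⁻¹ - (x - x ^ 2) = x ^ 3 / (1 + x) := by field_simp; ring
      rw [e]; positivity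
    linarith
  · have := Real.log_le_sub_one_of_pos h1
    linarith

/-- the sum of an even function over a symmetric interval -/
theorem lg_sum_even (e : ℤ → ℝ) (he : ∀ t, e (-t) = e t) (R : ℕ) :
    ∑ t ∈ Finset.Icc (-(R : ℤ)) R, e t = e 0 + 2 * ∑ t ∈ Finset.Icc 1 R, e (t : ℤ) := by
  induction R with
  | zero => simp
  | succ R ih =>
    have hs : Finset.Icc (-((R + 1 : ℕ) : ℤ)) ((R + 1 : ℕ) : ℤ) =
        insert (((R + 1 : ℕ) : ℤ)) (insert (-((R + 1 : ℕ) : ℤ)) (Finset.Icc (-(R : ℤ)) R)) := by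
      ext t
      simp only [Finset.mem_Icc, Finset.mem_insert]
      push_cast
      omega
    rw [hs, Finset.sum_insert (by simp only [Finset.mem_insert, Finset.mem_Icc]; push_cast; omega),
      Finset.sum_insert (by simp only [Finset.mem_Icc]; push_cast; omega), ih, Finset.sum_Icc_succ_top (by omega), he]
    ring

/-- the quantitative form -/
theorem lg_logsum_bound (R : ℕ) (hR : 1 ≤ R) :
    |∑ t ∈ Finset.Icc (-(R : ℤ)) R, Real.log ((((R : ℝ) + 1) ^ 2 + (t : ℝ) ^ 2) / ((R : ℝ) ^ 2 + (t : ℝ) ^ 2)) - Real.pi|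
      ≤ 40 / (R : ℝ) := by
  have hr : (1 : ℝ) ≤ R := by exact_mod_cast hR
  set r : ℝ := (R : ℝ) with hrdef
  have hr0 : 0 < r := by linarith
  set x : ℤ → ℝ := fun t => (2 * r + 1) / (r ^ 2 + (t : ℝ) ^ 2) with hx
  have hpos : ∀ t : ℤ, 0 < r ^ 2 + (t : ℝ) ^ 2 := fun t => by positivity
  have hratio : ∀ t : ℤ, ((r + 1) ^ 2 + (t : ℝ) ^ 2) / (r ^ 2 + (t : ℝ) ^ 2) = 1 + x t := fun t => by
    have := (hpos t).ne'
    simp only [hx]
    field_simp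
    ring
  have hx0 : ∀ t, 0 ≤ x t := fun t => by
    have := hpos t
    simp only [hx]
    positivity
  have hx3 : ∀ t, x t ≤ 3 / r := fun t => by
    simp only [hx]
    rw [div_le_div_iff₀ (hpos t) hr0]
    nlinarith [sq_nonneg (t : ℝ)]
  simp only [hratio]
  have hup : ∑ t ∈ Finset.Icc (-(R : ℤ)) R, Real.log (1 + x t) ≤ ∑ t ∈ Finset.Icc (-(R : ℤ)) R, x t :=
    Finset.sum_le_sum fun t _ => (lg_log_one_add (hx0 t)).2
  have hlow : ∑ t ∈ Finset.Icc (-(R : ℤ)) R, x t - ∑ t ∈ Finset.Icc (-(R : ℤ)) R, x t ^ 2 ≤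
      ∑ t ∈ Finset.Icc (-(R : ℤ)) R, Real.log (1 + x t) := by
    rw [← Finset.sum_sub_distrib]
    exact Finset.sum_le_sum fun t _ => (lg_log_one_add (hx0 t)).1
  have hsq : ∑ t ∈ Finset.Icc (-(R : ℤ)) R, x t ^ 2 ≤ (2 * r + 1) * (3 / r) ^ 2 := by
    have h := Finset.sum_le_card_nsmul (Finset.Icc (-(R : ℤ)) R) (fun t => x t ^ 2) ((3 / r) ^ 2)
      fun t _ => pow_le_pow_left₀ (hx0 t) (hx3 t) 2
    have hc : (Finset.Icc (-(R : ℤ)) R).card = 2 * R + 1 := by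
      rw [Int.card_Icc]
      omega
    rw [hc, nsmul_eq_mul] at h
    push_cast at h
    exact h
  have heven : ∀ t, x (-t) = x t := fun t => by simp only [hx, Int.cast_neg, neg_sq]
  have hS : ∑ t ∈ Finset.Icc (-(R : ℤ)) R, x t =
      (2 * r + 1) / r ^ 2 + 2 * (((2 * r + 1) / r) * ∑ t ∈ Finset.Icc 1 R, r / (r ^ 2 + (t : ℝ) ^ 2)) := by
    have h1 : x 0 = (2 * r + 1) / r ^ 2 := by simp [hx]
    have h2 : ∑ t ∈ Finset.Icc 1 R, x (t : ℤ) = ((2 * r + 1) / r) * ∑ t ∈ Finset.Icc 1 R, r / (r ^ 2 + (t : ℝ) ^ 2) := by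
      rw [Finset.mul_sum]
      refine Finset.sum_congr rfl fun t _ => ?_
      have := (hpos (t : ℤ)).ne'
      simp only [hx, Int.cast_natCast] at this ⊢
      field_simp
    rw [lg_sum_even x heven R, h1, h2]
  have hA := lg_arctan_sum R hR
  rw [← hrdef] at hA
  set A : ℝ := ∑ t ∈ Finset.Icc 1 R, r / (r ^ 2 + (t : ℝ) ^ 2) with hAdef
  have hA0 : 0 ≤ A := Finset.sum_nonneg fun t _ => by positivity
  rw [abs_le] at hA
  set u : ℝ := 1 / r with hu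
  have hu0 : 0 < u := by positivity
  have hu1 : u ≤ 1 := by
    rw [hu, div_le_one hr0]
    exact hr
  have e1 : (2 * r + 1) / r ^ 2 = 2 * u + u ^ 2 := by rw [hu]; field_simp
  have e2 : (2 * r + 1) / r = 2 + u := by rw [hu]; field_simp
  have e3 : (2 * r + 1) * (3 / r) ^ 2 = 18 * u + 9 * u ^ 2 := by rw [hu]; field_simp; ring
  have e4 : 40 / r = 40 * u := by rw [hu]; ring
  rw [e3] at hsq
  rw [e1, e2] at hS
  rw [e4]
  have hpi4 := Real.pi_le_four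
  have hpi0 := Real.pi_pos
  rw [abs_le]
  constructor
  · nlinarith
  · nlinarith

theorem lg_logsum_tendsto :
    Tendsto (fun R : ℕ => ∑ t ∈ Finset.Icc (-(R : ℤ)) R,
      Real.log ((((R : ℝ) + 1) ^ 2 + (t : ℝ) ^ 2) / ((R : ℝ) ^ 2 + (t : ℝ) ^ 2))) atTop (𝓝 Real.pi) := by
  have h0 := tendsto_const_div_atTop_nhds_zero_nat (40 : ℝ)
  have h1 : Tendsto (fun R : ℕ => Real.pi - 40 / (R : ℝ)) atTop (𝓝 Real.pi) := by
    simpa using (tendsto_const_nhds (x := Real.pi)).sub h0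
  have h2 : Tendsto (fun R : ℕ => Real.pi + 40 / (R : ℝ)) atTop (𝓝 Real.pi) := by
    simpa using (tendsto_const_nhds (x := Real.pi)).add h0
  refine tendsto_of_tendsto_of_tendsto_of_le_of_le' h1 h2 ?_ ?_
  · filter_upwards [eventually_ge_atTop 1] with R hR
    have := (abs_le.1 (lg_logsum_bound R hR)).1
    linarith
  · filter_upwards [eventually_ge_atTop 1] with R hR
    have := (abs_le.1 (lg_logsum_bound R hR)).2
    linarith

theorem lg_mem_Cb {n : ℕ} {x : ℤ × ℤ} : x ∈ lgCb n ↔ lgSup x ≤ n := by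
  simp only [lgCb, lgSup, Finset.mem_product, Finset.mem_Icc, max_le_iff, abs_le]

theorem lgErr_box_eq (R : ℕ) : ∑ x ∈ lgCb R, lgErr x = ∑ x ∈ lgCb R, lgLap lgL x + 1 := by
  have h0 : (0 : ℤ × ℤ) ∈ lgCb R := by
    rw [lg_mem_Cb]
    simp [lgSup]
  simp only [lgErr]
  rw [Finset.sum_add_distrib, Finset.sum_ite_eq' (lgCb R) (0 : ℤ × ℤ) fun _ => (1 : ℝ), if_pos h0]

theorem lgErr_box_tendsto : Tendsto (fun R : ℕ => ∑ x ∈ lgCb R, lgErr x) atTop (𝓝 0) := by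
  have h1 : Tendsto (fun R : ℕ => -(1 / Real.pi) * (∑ t ∈ Finset.Icc (-(R : ℤ)) R,
      Real.log ((((R : ℝ) + 1) ^ 2 + (t : ℝ) ^ 2) / ((R : ℝ) ^ 2 + (t : ℝ) ^ 2))) + 1) atTop (𝓝 (-(1 / Real.pi) * Real.pi + 1)) :=
    (lg_logsum_tendsto.const_mul _).add_const 1
  have e : -(1 / Real.pi) * Real.pi + 1 = 0 := by
    have := Real.pi_ne_zero
    field_simp
    ring
  rw [e] at h1
  refine h1.congr' ?_
  filter_upwards [eventually_ge_atTop 1] with R hR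
  rw [lgErr_box_eq, lgL_flux R hR]

/-- **the total charge of `lgErr` vanishes**, with rate -/
theorem lgCb_mono {R R' : ℕ} (h : R ≤ R') : lgCb R ⊆ lgCb R' := fun x hx => by
  rw [lg_mem_Cb] at hx ⊢
  exact hx.trans (by exact_mod_cast h)

/-- the charge outside of a closed box -/
theorem lgErr_sdiff (F : Finset (ℤ × ℤ)) (R : ℕ) (hR : 1 ≤ R) : |∑ x ∈ F \ lgCb R, lgErr x| ≤ 8 / (R : ℝ) ^ 2 :=
  (Finset.abs_sum_le_sum_abs _ _).trans (lgErr_sum_far _ R hR fun x hx => by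
    have := (Finset.mem_sdiff.1 hx).2
    rw [lg_mem_Cb] at this
    exact not_le.1 this)

theorem lgErr_box (R : ℕ) (hR : 1 ≤ R) : |∑ x ∈ lgCb R, lgErr x| ≤ 8 / (R : ℝ) ^ 2 := by
  have h1 : Tendsto (fun R' : ℕ => |∑ x ∈ lgCb R', lgErr x| + 8 / (R : ℝ) ^ 2) atTop (𝓝 (|(0 : ℝ)| + 8 / (R : ℝ) ^ 2)) :=
    lgErr_box_tendsto.abs.add_const _
  rw [abs_zero, zero_add] at h1
  refine ge_of_tendsto h1 ?_
  filter_upwards [eventually_ge_atTop R] with R' hR'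
  have h2 := Finset.sum_sdiff (f := lgErr) (lgCb_mono hR')
  have h3 := lgErr_sdiff (lgCb R') R hR
  have h4 : ∑ x ∈ lgCb R, lgErr x = ∑ x ∈ lgCb R', lgErr x - ∑ x ∈ lgCb R' \ lgCb R, lgErr x := by linarith
  rw [h4]
  exact (abs_sub _ _).trans (by linarith)

theorem lgErr_sum_big (F : Finset (ℤ × ℤ)) (R : ℕ) (hR : 1 ≤ R) (hF : lgCb R ⊆ F) :
    |∑ x ∈ F, lgErr x| ≤ 16 / (R : ℝ) ^ 2 := by
  have h2 := Finset.sum_sdiff (f := lgErr) hF
  have h3 := lgErr_sdiff F R hR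
  have h4 := lgErr_box R hR
  rw [← h2]
  refine (abs_add_le _ _).trans ?_
  have e : (16 : ℝ) / (R : ℝ) ^ 2 = 8 / (R : ℝ) ^ 2 + 8 / (R : ℝ) ^ 2 := by ring
  rw [e]
  exact add_le_add h3 h4

end

end Claimed.Agent.R285.Pot
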