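import Claimed.Agent.R285.Pot.LogGreen
import Claimed.Agent.R285.Pot.LogFlux
import Claimed.Agent.R285.Pot.LogBrandt

/-!
# ROW 285, POT-LOG: asymptotics of the killed Green function at macroscopic distance      (architect helper281)
PAPER-FREE.   `G_n(·,y) = lgL(· - y) + lgH n y + lgP n y`,  `lgH n y` harmonic with boundary values `-lgL(· - y)`,  `lgP n y = ∑_z G_n(·,z) lgErr(z - y)`.
LEAVES (one per theorem group):
* L-LOG-REP `lgP_eq_sum`: `w = lgP n y` vanishes off the box (`lgG_off`, `lgHarm_off`) and `-Δ w = δ_y - (δ_y - lgErr(· - y)) - 0` in the box (`lgLap` commutes with translations; def of `lgErr`), so `w = lgPot (lgBx n) (lgErr(· - y))` (`lg_unique`), `lgPot_eq_sum`.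
* L-LOG-BDD `lgP_bdd`, `lgG_far`:  `∑_z G_z(x) e(z-y) = G_y(x) ∑_{z ∈ box} e(z-y) + ∑_z (G_z(x) - G_y(x)) e(z-y)`;  second sum `≤ ∑ 2 |z-y|₁ |e(z-y)| ≤ 128` (`lgG_diff`, `lgErr_mom`, reindex `z ↦ z - y`: `Finset.sum_image` / `Finset.sum_map`);
  first: `G_y(x) ≤ G_y(y) ≤ 4n`, the translated box contains `lgCb R`, `R = n - 1 - lgSup y ≥ n/32`: `lgErr_sum_big`.
  `lgG_far`: `lgL (z-y) ≤ -(2π)⁻¹ log (lgSup (z-y))` (`lgSq ≥ lgSup²`), `lgH n y z ≤ (2π)⁻¹ log (3n)` (`lgHarm_le`: `lgSq (w-y) ≤ 8n² ≤ 9n²` for `lgSup w = n`).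
* L-LOG-SMALL `lgP_small`:  `g := G_x = lgG n x` (`G_z(x) = G_x(z)`, `lgG_symm`).  `d := ⌊min(c,1/16) n/4⌋`.  `g` is harmonic on the open box of radius `2d` around `y` (it lies in `lgBx n`, and `x` is not in it), `0 ≤ g ≤ C₀ + (2π)⁻¹ log (6/c) =: M` there (`lgG_far` with pole `x`).
  Split `∑_z (g z - g y) e(z-y)` at `lgSup (z-y) ≤ d`: near part `≤ ∑ 2 M |w|₁ |e(w)|/d ≤ 128 M/d` (`lg_lip`, `lgErr_mom`), far part `≤ ∑ 2|w|₁|e(w)| ≤ 64/d` (`lgG_diff`, `lgErr_mom_far`), first term `≤ 4n · 16/(n/32)²`.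
* L-LOG-HARM `lgH_lip`, `lgH_pair`, `lgA_bounds`: `u = lgH n 0 - log n/(2π)` is harmonic in the box, `0 ≤ u ≤ log 2/(4π) ≤ 1/8` on `lgCb n` (`lgHarm_le`, `le_lgHarm`, `lgHarm_off`: `n² ≤ lgSq w ≤ 2n²` on the boundary layer);
  `lg_lip` with `d = (n-1)/2 ≥ n/4`; for `lgSup x > d` trivially `|u x - u 0| ≤ 1/8 ≤ |x|₁/n · 1/2`.   `lgH_pair`: `lgHarm_sub`, `|log (|w-y|/|w|)| ≤ 2|y|/|w|` for `|y| ≤ |w|/2`.
GLUE (proved here): `lgG_center`, `lgG_pair`.
-/

set_option autoImplicit false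

namespace Claimed.Agent.R285.Pot

open Filter Topology
open scoped Classical

noncomputable section

/-- `a` has distance at least `n/16` from the boundary of the box -/
def lgIn (n : ℕ) (a : ℤ × ℤ) : Prop := 16 * lgSup a ≤ 15 * (n : ℤ)

/-- the harmonic part of the Green function with pole `y` -/
def lgH (n : ℕ) (y : ℤ × ℤ) : ℤ × ℤ → ℝ := lgHarm n fun w => -lgL (w - y)

/-- the remainder -/
def lgP (n : ℕ) (y x : ℤ × ℤ) : ℝ := lgG n y x - lgL (x - y) - lgH n y x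

/-- the regular part at the centre -/
def lgA (n : ℕ) : ℝ := lgH n 0 0 - Real.log n / (2 * Real.pi)

theorem lgIn_mem {n : ℕ} (hn : 1 ≤ n) {a : ℤ × ℤ} (h : lgIn n a) : a ∈ lgBx n := by
  rw [mem_lgBx]
  unfold lgIn at h
  have : (1 : ℤ) ≤ n := by exact_mod_cast hn
  omega

theorem lgL_of_ne {x : ℤ × ℤ} (hx : x ≠ 0) : lgL x = -(1 / (4 * Real.pi)) * Real.log (lgSq x) := by
  simp [lgL, hx]

theorem lgSq_pos {x : ℤ × ℤ} (hx : x ≠ 0) : 0 < lgSq x := by
  unfold lgSq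
  rcases x with ⟨a, b⟩
  by_cases ha : a = 0
  · have hb : b ≠ 0 := fun hb => hx (by rw [ha, hb]; rfl)
    have : (0 : ℝ) < (b : ℝ) ^ 2 := by positivity
    positivity
  · have : (0 : ℝ) < (a : ℝ) ^ 2 := by positivity
    positivity

theorem lgSup_ne_zero_of {x : ℤ × ℤ} {t : ℝ} (ht : 0 < t) (h : t ≤ (lgSup x : ℝ)) : x ≠ 0 := by
  rintro rfl
  simp [lgSup] at h
  linarith

theorem lgAs_sup_nonneg (x : ℤ × ℤ) : 0 ≤ lgSup x := le_max_of_le_left (abs_nonneg _)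

theorem lgAs_sup_add (a b : ℤ × ℤ) : lgSup (a + b) ≤ lgSup a + lgSup b := by
  unfold lgSup
  simp only [Prod.fst_add, Prod.snd_add]
  have h1 := abs_add_le a.1 b.1
  have h2 := abs_add_le a.2 b.2
  have h3 := le_max_left |a.1| |a.2|
  have h4 := le_max_right |a.1| |a.2|
  have h5 := le_max_left |b.1| |b.2|
  have h6 := le_max_right |b.1| |b.2|
  exact max_le (by linarith) (by linarith)

theorem lgAs_sup_neg (a : ℤ × ℤ) : lgSup (-a) = lgSup a := by
  unfold lgSup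
  simp only [Prod.fst_neg, Prod.snd_neg, abs_neg]

theorem lgAs_sup_sub (a b : ℤ × ℤ) : lgSup (a - b) ≤ lgSup a + lgSup b := by
  rw [sub_eq_add_neg]
  exact (lgAs_sup_add a (-b)).trans (by rw [lgAs_sup_neg])

theorem lgAs_sup_sub_comm (a b : ℤ × ℤ) : lgSup (a - b) = lgSup (b - a) := by
  rw [← lgAs_sup_neg (a - b), neg_sub]

theorem lgAs_sup_le_sub (a b : ℤ × ℤ) : lgSup a - lgSup b ≤ lgSup (a - b) := by
  have := lgAs_sup_add (a - b) b
  rw [sub_add_cancel] at this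
  linarith

theorem lgAs_sup_le_one (x : ℤ × ℤ) : lgSup x ≤ lgOne x := by
  unfold lgSup lgOne
  exact max_le (by linarith [abs_nonneg x.2]) (by linarith [abs_nonneg x.1])

theorem lgAs_sup_zero : lgSup 0 = 0 := by simp [lgSup]

theorem lgAs_sq_le (x : ℤ × ℤ) : lgSq x ≤ 2 * (lgSup x : ℝ) ^ 2 := by
  have h1 : (|x.1| : ℤ) ≤ lgSup x := le_max_left _ _
  have h2 : (|x.2| : ℤ) ≤ lgSup x := le_max_right _ _
  have h1' : |(x.1 : ℝ)| ≤ (lgSup x : ℝ) := by exact_mod_cast h1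
  have h2' : |(x.2 : ℝ)| ≤ (lgSup x : ℝ) := by exact_mod_cast h2
  have h3 : (x.1 : ℝ) ^ 2 ≤ (lgSup x : ℝ) ^ 2 := by
    rw [← sq_abs]; exact pow_le_pow_left₀ (abs_nonneg _) h1' 2
  have h4 : (x.2 : ℝ) ^ 2 ≤ (lgSup x : ℝ) ^ 2 := by
    rw [← sq_abs]; exact pow_le_pow_left₀ (abs_nonneg _) h2' 2
  unfold lgSq
  linarith

theorem lgAs_lap_shift (f : ℤ × ℤ → ℝ) (y x : ℤ × ℤ) : lgLap (fun z => f (z - y)) x = lgLap f (x - y) := by
  have e1 : ((x.1 + 1, x.2) : ℤ × ℤ) - y = ((x - y).1 + 1, (x - y).2) := by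
    ext <;> simp; ring
  have e2 : ((x.1 - 1, x.2) : ℤ × ℤ) - y = ((x - y).1 - 1, (x - y).2) := by
    ext <;> simp; ring
  have e3 : ((x.1, x.2 + 1) : ℤ × ℤ) - y = ((x - y).1, (x - y).2 + 1) := by
    ext <;> simp; ring
  have e4 : ((x.1, x.2 - 1) : ℤ × ℤ) - y = ((x - y).1, (x - y).2 - 1) := by
    ext <;> simp; ring
  simp only [lgLap, e1, e2, e3, e4]

theorem lgAs_sum_shift (F : Finset (ℤ × ℤ)) (y : ℤ × ℤ) (f : ℤ × ℤ → ℝ) :
    ∑ z ∈ F, f (z - y) = ∑ w ∈ F.image (fun z => z - y), f w :=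
  (Finset.sum_image fun _ _ _ _ h => sub_left_injective h).symm

theorem lgAs_mom (F : Finset (ℤ × ℤ)) (y : ℤ × ℤ) :
    ∑ z ∈ F, (lgOne (z - y) : ℝ) * |lgErr (z - y)| ≤ 64 := by
  rw [lgAs_sum_shift F y fun w => (lgOne w : ℝ) * |lgErr w|]
  exact lgErr_mom _

theorem lgAs_mom_far (F : Finset (ℤ × ℤ)) (y : ℤ × ℤ) (R : ℕ) (hR : 1 ≤ R) (hF : ∀ z ∈ F, (R : ℤ) < lgSup (z - y)) :
    ∑ z ∈ F, (lgOne (z - y) : ℝ) * |lgErr (z - y)| ≤ 32 / (R : ℝ) := by
  rw [lgAs_sum_shift F y fun w => (lgOne w : ℝ) * |lgErr w|]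
  refine lgErr_mom_far _ R hR fun w hw => ?_
  obtain ⟨z, hz, rfl⟩ := Finset.mem_image.1 hw
  exact hF z hz

theorem lgAs_sum_big (F : Finset (ℤ × ℤ)) (y : ℤ × ℤ) (R : ℕ) (hR : 1 ≤ R) (hF : ∀ w, lgSup w ≤ R → w + y ∈ F) :
    |∑ z ∈ F, lgErr (z - y)| ≤ 16 / (R : ℝ) ^ 2 := by
  rw [lgAs_sum_shift F y lgErr]
  refine lgErr_sum_big _ R hR fun w hw => ?_
  exact Finset.mem_image.2 ⟨w + y, hF w (mem_lgCb.1 hw), by simp⟩

theorem lgP_eq_sum (n : ℕ) {y : ℤ × ℤ} (hy : y ∈ lgBx n) (x : ℤ × ℤ) :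
    lgP n y x = ∑ z ∈ lgBx n, lgG n z x * lgErr (z - y) := by
  rw [← lgPot_eq_sum n (fun z => lgErr (z - y)) x]
  have : lgP n y = lgPot (lgBx n) (fun z => lgErr (z - y)) := by
    apply lg_unique (lgBx n)
    · intro x hx
      rw [lgPot_off _ _ hx]
      unfold lgP lgH
      rw [lgG_off n y hx, lgHarm_off n _ hx]; ring
    · intro x hx
      have h1 := lgPot_lap (lgBx n) (fun z => lgErr (z - y)) hx
      have h2 : lgP n y = lgG n y - (fun z => lgL (z - y)) - lgH n y := by funext z; simp [lgP]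
      rw [h2, lgLap_sub, lgLap_sub, lgAs_lap_shift]
      have h3 := lgG_lap n y hx
      have h4 : lgLap (lgH n y) x = 0 := lgHarm_lap n _ hx
      rw [h4]
      have h5 : lgErr (x - y) = lgLap lgL (x - y) + if x = y then 1 else 0 := by
        unfold lgErr; simp only [sub_eq_zero]
      linarith
  rw [this]

/-- comparison of logarithms -/
theorem lgAs_log_sub {A B m : ℝ} (hm : 0 < m) (hA : m ≤ A) (hB : m ≤ B) :
    |Real.log A - Real.log B| ≤ |A - B| / m := by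
  have hA0 : 0 < A := lt_of_lt_of_le hm hA
  have hB0 : 0 < B := lt_of_lt_of_le hm hB
  have key : ∀ {A B : ℝ}, 0 < A → 0 < B → m ≤ B → Real.log A - Real.log B ≤ |A - B| / m := by
    intro A B hA0 hB0 hB
    rw [← Real.log_div hA0.ne' hB0.ne']
    have h1 := Real.log_le_sub_one_of_pos (div_pos hA0 hB0)
    have h2 : A / B - 1 = (A - B) / B := by field_simp
    rw [h2] at h1
    refine h1.trans ?_
    calc (A - B) / B ≤ |A - B| / B := by gcongr; exact le_abs_self _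
      _ ≤ |A - B| / m := by gcongr
  rw [abs_le]
  constructor
  · have := key hB0 hA0 hA
    rw [abs_sub_comm] at this
    linarith
  · exact key hA0 hB0 hB

theorem lgAs_ne_zero {x : ℤ × ℤ} (h : 0 < lgSup x) : x ≠ 0 := by
  rintro rfl
  simp [lgSup] at h

theorem lgAs_log_two_div : Real.log 2 / (4 * Real.pi) ≤ 1 / 8 := by
  have h1 := Real.log_two_lt_d9
  have h2 := Real.pi_gt_three
  rw [div_le_div_iff₀ (by positivity) (by norm_num)]
  linarith

theorem lgAs_bdry (n : ℕ) (hn : 1 ≤ n) (w : ℤ × ℤ) (hw : lgSup w = n) :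
    Real.log n / (2 * Real.pi) ≤ -lgL (w - 0) ∧ -lgL (w - 0) ≤ Real.log n / (2 * Real.pi) + 1 / 8 := by
  have hn0 : (0 : ℝ) < n := by exact_mod_cast hn
  have hw0 : w ≠ 0 := lgAs_ne_zero (by rw [hw]; exact_mod_cast hn)
  rw [sub_zero, lgL_of_ne hw0]
  have h1 := lgSup_sq_le w
  have h2 := lgAs_sq_le w
  rw [hw] at h1 h2
  push_cast at h1 h2
  have hpi := Real.pi_pos
  have e1 : Real.log n / (2 * Real.pi) = 1 / (4 * Real.pi) * Real.log ((n : ℝ) ^ 2) := by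
    rw [Real.log_pow]; field_simp; ring
  have h3 : Real.log ((n : ℝ) ^ 2) ≤ Real.log (lgSq w) := Real.log_le_log (by positivity) h1
  have h4 : Real.log (lgSq w) ≤ Real.log 2 + Real.log ((n : ℝ) ^ 2) := by
    rw [← Real.log_mul (by norm_num) (by positivity)]
    exact Real.log_le_log (lgSq_pos hw0) h2
  have hc : 0 < 1 / (4 * Real.pi) := by positivity
  rw [e1]
  constructor
  · have := mul_le_mul_of_nonneg_left h3 hc.le
    linarith
  · have := mul_le_mul_of_nonneg_left h4 hc.le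
    have h5 := lgAs_log_two_div
    have e2 : 1 / (4 * Real.pi) * (Real.log 2 + Real.log ((n : ℝ) ^ 2))
        = Real.log 2 / (4 * Real.pi) + 1 / (4 * Real.pi) * Real.log ((n : ℝ) ^ 2) := by ring
    linarith

theorem lgAs_H_range (n : ℕ) (hn : 1 ≤ n) {x : ℤ × ℤ} (hx : x ∈ lgCb n) :
    0 ≤ lgH n 0 x - Real.log n / (2 * Real.pi) ∧ lgH n 0 x - Real.log n / (2 * Real.pi) ≤ 1 / 8 := by
  by_cases hxb : x ∈ lgBx n
  · have h1 : Real.log n / (2 * Real.pi) ≤ lgH n 0 x :=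
      le_lgHarm n _ _ (fun w hw => (lgAs_bdry n hn w hw).1) hxb
    have h2 : lgH n 0 x ≤ Real.log n / (2 * Real.pi) + 1 / 8 :=
      lgHarm_le n _ _ (fun w hw => (lgAs_bdry n hn w hw).2) hxb
    constructor <;> linarith
  · have hs : lgSup x = n := by
      rw [mem_lgBx] at hxb
      rw [mem_lgCb] at hx
      omega
    have h0 : lgH n 0 x = -lgL (x - 0) := lgHarm_off n _ hxb
    have := lgAs_bdry n hn x hs
    rw [h0]
    constructor <;> linarith [this.1, this.2]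

theorem lgA_bounds (n : ℕ) (hn : 1 ≤ n) : 0 ≤ lgA n ∧ lgA n ≤ 1 / 8 :=
  lgAs_H_range n hn (mem_lgCb.2 (by rw [lgAs_sup_zero]; positivity))

theorem lgH_lip (n : ℕ) (hn : 4 ≤ n) {x : ℤ × ℤ} (hx : x ∈ lgBx n) :
    |lgH n 0 x - Real.log n / (2 * Real.pi) - lgA n| ≤ (lgOne x : ℝ) / n := by
  have hn0 : (0 : ℝ) < n := by
    have : (4 : ℝ) ≤ n := by exact_mod_cast hn
    linarith
  obtain ⟨d, hd⟩ : ∃ d : ℕ, d = (n - 1) / 2 := ⟨_, rfl⟩
  have hd1 : 1 ≤ d := by omega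
  have hd2 : 2 * d < n := by omega
  have hd4 : n ≤ 4 * d := by omega
  have hone : (0 : ℝ) ≤ lgOne x := by exact_mod_cast lgSh_One_nonneg x
  have hrange : ∀ z : ℤ × ℤ, lgSup z < n → 0 ≤ lgH n 0 z - Real.log n / (2 * Real.pi)
      ∧ lgH n 0 z - Real.log n / (2 * Real.pi) ≤ 1 / 8 := fun z hz =>
    lgAs_H_range n (by omega) (mem_lgCb.2 hz.le)
  have e0 : lgH n 0 x - Real.log n / (2 * Real.pi) - lgA n
      = (lgH n 0 x - Real.log n / (2 * Real.pi)) - (lgH n 0 0 - Real.log n / (2 * Real.pi)) := rfl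
  rw [e0]
  by_cases hxd : lgSup x ≤ d
  · have := lg_lip (fun z => lgH n 0 z - Real.log n / (2 * Real.pi)) 0 d hd1 (1 / 8)
      (fun z hz => by
        rw [sub_zero] at hz
        have hz' : z ∈ lgBx n := mem_lgBx.2 (by omega)
        have e : (fun z => lgH n 0 z - Real.log n / (2 * Real.pi))
            = lgH n 0 - fun _ => Real.log n / (2 * Real.pi) := rfl
        rw [e, lgLap_sub, lgLap_const, sub_zero]
        exact lgHarm_lap n _ hz')
      (fun z hz => by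
        rw [sub_zero] at hz
        have := hrange z (by omega)
        rw [abs_le]
        constructor <;> linarith [this.1, this.2])
      x (by rwa [sub_zero])
    rw [sub_zero] at this
    refine this.trans ?_
    have hd0 : (0 : ℝ) < d := by exact_mod_cast hd1
    have hd4' : (n : ℝ) ≤ 4 * d := by exact_mod_cast hd4
    rw [div_le_div_iff₀ hd0 hn0]
    nlinarith
  · have h1 := hrange x (mem_lgBx.1 hx)
    have h2 := hrange 0 (by rw [lgAs_sup_zero]; omega)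
    have h3 : (n : ℤ) ≤ 2 * lgOne x := by
      have := lgAs_sup_le_one x
      omega
    have h3' : (n : ℝ) ≤ 2 * lgOne x := by exact_mod_cast h3
    have h4 : |lgH n 0 x - Real.log n / (2 * Real.pi) - (lgH n 0 0 - Real.log n / (2 * Real.pi))| ≤ 1 / 8 := by
      rw [abs_le]
      constructor <;> linarith [h1.1, h1.2, h2.1, h2.2]
    refine h4.trans ?_
    rw [le_div_iff₀ hn0]
    linarith

theorem lgAs_sq_sub (w y : ℤ × ℤ) (n : ℝ) (hw : (lgSup w : ℝ) ≤ n) (hy : 4 * (lgSup y : ℝ) ≤ n) :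
    |lgSq w - lgSq (w - y)| ≤ 9 * n / 4 * (lgOne y : ℝ) := by
  have h1 : (|w.1| : ℤ) ≤ lgSup w := le_max_left _ _
  have h2 : (|w.2| : ℤ) ≤ lgSup w := le_max_right _ _
  have h3 : (|y.1| : ℤ) ≤ lgSup y := le_max_left _ _
  have h4 : (|y.2| : ℤ) ≤ lgSup y := le_max_right _ _
  have h1' : |(w.1 : ℝ)| ≤ (lgSup w : ℝ) := by exact_mod_cast h1
  have h2' : |(w.2 : ℝ)| ≤ (lgSup w : ℝ) := by exact_mod_cast h2
  have h3' : |(y.1 : ℝ)| ≤ (lgSup y : ℝ) := by exact_mod_cast h3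
  have h4' : |(y.2 : ℝ)| ≤ (lgSup y : ℝ) := by exact_mod_cast h4
  have e : lgSq w - lgSq (w - y) = (y.1 : ℝ) * (2 * w.1 - y.1) + (y.2 : ℝ) * (2 * w.2 - y.2) := by
    simp only [lgSq, Prod.fst_sub, Prod.snd_sub]; push_cast; ring
  have e2 : (lgOne y : ℝ) = |(y.1 : ℝ)| + |(y.2 : ℝ)| := by simp [lgOne]
  rw [e, e2]
  have b1 : |2 * (w.1 : ℝ) - y.1| ≤ 9 * n / 4 := by
    have := abs_sub (2 * (w.1 : ℝ)) y.1
    rw [abs_mul, abs_two] at this
    linarith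
  have b2 : |2 * (w.2 : ℝ) - y.2| ≤ 9 * n / 4 := by
    have := abs_sub (2 * (w.2 : ℝ)) y.2
    rw [abs_mul, abs_two] at this
    linarith
  calc |(y.1 : ℝ) * (2 * w.1 - y.1) + (y.2 : ℝ) * (2 * w.2 - y.2)|
      ≤ |(y.1 : ℝ)| * |2 * (w.1 : ℝ) - y.1| + |(y.2 : ℝ)| * |2 * (w.2 : ℝ) - y.2| := by
        rw [← abs_mul, ← abs_mul]; exact abs_add_le _ _
    _ ≤ |(y.1 : ℝ)| * (9 * n / 4) + |(y.2 : ℝ)| * (9 * n / 4) := by gcongr
    _ = _ := by ring

theorem lgH_pair (n : ℕ) (hn : 1 ≤ n) (y : ℤ × ℤ) (hy : 4 * lgSup y ≤ n) {x : ℤ × ℤ} (hx : x ∈ lgBx n) :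
    |lgH n 0 x - lgH n y x| ≤ (lgOne y : ℝ) / n := by
  have hn0 : (0 : ℝ) < n := by exact_mod_cast hn
  have hpi := Real.pi_gt_three
  have hone : (0 : ℝ) ≤ lgOne y := by exact_mod_cast lgSh_One_nonneg y
  have e : lgH n 0 x - lgH n y x = lgHarm n ((fun w => -lgL (w - 0)) - fun w => -lgL (w - y)) x := by
    rw [lgHarm_sub]; rfl
  have key : ∀ w, lgSup w = n → |((fun w => -lgL (w - 0)) - fun w => -lgL (w - y)) w| ≤ (lgOne y : ℝ) / n := by
    intro w hw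
    have hw0 : w ≠ 0 := lgAs_ne_zero (by rw [hw]; exact_mod_cast hn)
    have hs : 3 * (n : ℤ) ≤ 4 * lgSup (w - y) := by
      have := lgAs_sup_le_sub w y
      omega
    have hwy0 : w - y ≠ 0 := lgAs_ne_zero (by omega)
    simp only [Pi.sub_apply, sub_zero]
    rw [lgL_of_ne hw0, lgL_of_ne hwy0]
    have hs' : 3 * (n : ℝ) ≤ 4 * (lgSup (w - y) : ℝ) := by exact_mod_cast hs
    have hA : 9 * (n : ℝ) ^ 2 / 16 ≤ lgSq w := by
      have := lgSup_sq_le w
      rw [hw] at this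
      push_cast at this
      nlinarith
    have hB : 9 * (n : ℝ) ^ 2 / 16 ≤ lgSq (w - y) := by
      have := lgSup_sq_le (w - y)
      nlinarith
    have h1 := lgAs_log_sub (by positivity) hA hB
    have h2 := lgAs_sq_sub w y n (by rw [hw]; simp) (by exact_mod_cast hy)
    have h3 : |lgSq w - lgSq (w - y)| / (9 * (n : ℝ) ^ 2 / 16) ≤ 4 * ((lgOne y : ℝ) / n) := by
      rw [div_le_iff₀ (by positivity)]
      calc |lgSq w - lgSq (w - y)| ≤ 9 * n / 4 * (lgOne y : ℝ) := h2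
        _ = 4 * ((lgOne y : ℝ) / n) * (9 * (n : ℝ) ^ 2 / 16) := by field_simp; ring
    have e3 : -(-(1 / (4 * Real.pi)) * Real.log (lgSq w)) - -(-(1 / (4 * Real.pi)) * Real.log (lgSq (w - y)))
        = 1 / (4 * Real.pi) * (Real.log (lgSq w) - Real.log (lgSq (w - y))) := by ring
    rw [e3, abs_mul, abs_of_pos (by positivity)]
    have h4 : |Real.log (lgSq w) - Real.log (lgSq (w - y))| ≤ 4 * ((lgOne y : ℝ) / n) := h1.trans h3
    have h5 : 0 ≤ (lgOne y : ℝ) / n := by positivity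
    calc 1 / (4 * Real.pi) * |Real.log (lgSq w) - Real.log (lgSq (w - y))|
        ≤ 1 / (4 * Real.pi) * (4 * ((lgOne y : ℝ) / n)) := by gcongr
      _ = (1 / Real.pi) * ((lgOne y : ℝ) / n) := by field_simp
      _ ≤ 1 * ((lgOne y : ℝ) / n) := by
        gcongr
        rw [div_le_one (by positivity)]; linarith
      _ = _ := one_mul _
  rw [e, abs_le]
  constructor
  · exact le_lgHarm n _ _ (fun w hw => (abs_le.1 (key w hw)).1) hx
  · exact lgHarm_le n _ _ (fun w hw => (abs_le.1 (key w hw)).2) hx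

theorem lgAs_split (n : ℕ) {y : ℤ × ℤ} (hy : y ∈ lgBx n) (x : ℤ × ℤ) :
    lgP n y x = lgG n y x * ∑ z ∈ lgBx n, lgErr (z - y)
      + ∑ z ∈ lgBx n, (lgG n z x - lgG n y x) * lgErr (z - y) := by
  rw [lgP_eq_sum n hy x, Finset.mul_sum, ← Finset.sum_add_distrib]
  exact Finset.sum_congr rfl fun z _ => by ring

theorem lgAs_num {n R : ℝ} (hn : 0 < n) (hR : n ≤ 32 * R) : 4 * n * (16 / R ^ 2) ≤ 65536 / n := by
  have hR0 : 0 < R := by linarith
  rw [mul_div_assoc', div_le_div_iff₀ (by positivity) hn]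
  nlinarith [mul_pos hn hn, mul_self_nonneg (32 * R - n), mul_pos hn hR0]

/-- the first term of the splitting -/
theorem lgAs_first (n : ℕ) (hn : 32 ≤ n) {y : ℤ × ℤ} (hy : lgIn n y) (x : ℤ × ℤ) :
    |lgG n y x * ∑ z ∈ lgBx n, lgErr (z - y)| ≤ 65536 / n := by
  have hyb : y ∈ lgBx n := lgIn_mem (by omega) hy
  have hn0 : (0 : ℝ) < n := by
    have : (32 : ℝ) ≤ n := by exact_mod_cast hn
    linarith
  unfold lgIn at hy
  have hs := lgAs_sup_nonneg y
  obtain ⟨R, hR⟩ : ∃ R : ℕ, (R : ℤ) = n - 1 - lgSup y := ⟨(n - 1 - lgSup y).toNat, by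
    rw [Int.toNat_of_nonneg]; omega⟩
  have hR1 : 1 ≤ R := by omega
  have hR32 : n ≤ 32 * R := by omega
  have h1 := lgAs_sum_big (lgBx n) y R hR1 (fun w hw => by
    rw [mem_lgBx]
    have := lgAs_sup_add w y
    omega)
  have h2 : lgG n y x ≤ 4 * n := (lgG_le_pole n hyb x).trans (lgG_pole_le n hyb)
  have h3 := lgG_nonneg n y x
  rw [abs_mul, abs_of_nonneg h3]
  have hR32' : (n : ℝ) ≤ 32 * R := by exact_mod_cast hR32
  calc lgG n y x * |∑ z ∈ lgBx n, lgErr (z - y)| ≤ 4 * n * (16 / (R : ℝ) ^ 2) := by gcongr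
    _ ≤ 65536 / n := lgAs_num hn0 hR32'

theorem lgAs_term (n : ℕ) {y z : ℤ × ℤ} (hy : y ∈ lgBx n) (hz : z ∈ lgBx n) (x : ℤ × ℤ) :
    |(lgG n z x - lgG n y x) * lgErr (z - y)| ≤ 2 * ((lgOne (z - y) : ℝ) * |lgErr (z - y)|) := by
  rw [abs_mul, ← mul_assoc]
  exact mul_le_mul_of_nonneg_right (lgG_diff n hz hy x) (abs_nonneg _)

theorem lgAs_P_bdd (n : ℕ) (hn : 32 ≤ n) {y : ℤ × ℤ} (hy : lgIn n y) (x : ℤ × ℤ) : |lgP n y x| ≤ 2176 := by
  have hyb : y ∈ lgBx n := lgIn_mem (by omega) hy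
  have hn32 : (32 : ℝ) ≤ n := by exact_mod_cast hn
  rw [lgAs_split n hyb x]
  have h1 := lgAs_first n hn hy x
  have h2 : |∑ z ∈ lgBx n, (lgG n z x - lgG n y x) * lgErr (z - y)| ≤ 128 := by
    calc |∑ z ∈ lgBx n, (lgG n z x - lgG n y x) * lgErr (z - y)|
        ≤ ∑ z ∈ lgBx n, |(lgG n z x - lgG n y x) * lgErr (z - y)| := Finset.abs_sum_le_sum_abs _ _
      _ ≤ ∑ z ∈ lgBx n, 2 * ((lgOne (z - y) : ℝ) * |lgErr (z - y)|) :=
          Finset.sum_le_sum fun z hz => lgAs_term n hyb hz x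
      _ = 2 * ∑ z ∈ lgBx n, (lgOne (z - y) : ℝ) * |lgErr (z - y)| := by rw [Finset.mul_sum]
      _ ≤ 2 * 64 := by gcongr; exact lgAs_mom _ _
      _ = 128 := by norm_num
  have h3 : (65536 : ℝ) / n ≤ 2048 := by
    rw [div_le_iff₀ (by linarith)]; linarith
  have := abs_add_le (lgG n y x * ∑ z ∈ lgBx n, lgErr (z - y))
    (∑ z ∈ lgBx n, (lgG n z x - lgG n y x) * lgErr (z - y))
  linarith

theorem lgP_bdd : ∃ C₀ : ℝ, 0 ≤ C₀ ∧ ∀ n : ℕ, 32 ≤ n → ∀ y, lgIn n y → ∀ x, |lgP n y x| ≤ C₀ :=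
  ⟨2176, by norm_num, fun n hn _ hy x => lgAs_P_bdd n hn hy x⟩

theorem lgAs_L_le {x : ℤ × ℤ} (hx : 0 < lgSup x) : lgL x ≤ -(Real.log (lgSup x : ℝ) / (2 * Real.pi)) := by
  have hx0 := lgAs_ne_zero hx
  have hs : (0 : ℝ) < lgSup x := by exact_mod_cast hx
  rw [lgL_of_ne hx0]
  have h1 : Real.log ((lgSup x : ℝ) ^ 2) ≤ Real.log (lgSq x) := Real.log_le_log (by positivity) (lgSup_sq_le x)
  rw [Real.log_pow] at h1
  have hpi := Real.pi_pos
  have hc : 0 < 1 / (4 * Real.pi) := by positivity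
  have := mul_le_mul_of_nonneg_left h1 hc.le
  have e : Real.log (lgSup x : ℝ) / (2 * Real.pi) = 1 / (4 * Real.pi) * (((2 : ℕ) : ℝ) * Real.log (lgSup x : ℝ)) := by
    push_cast; field_simp; ring
  rw [e]
  linarith

theorem lgAs_H_le (n : ℕ) (hn : 1 ≤ n) {y : ℤ × ℤ} (hy : y ∈ lgBx n) {z : ℤ × ℤ} (hz : z ∈ lgBx n) :
    lgH n y z ≤ Real.log (3 * n) / (2 * Real.pi) := by
  have hn0 : (0 : ℝ) < n := by exact_mod_cast hn
  refine lgHarm_le n _ _ (fun w hw => ?_) hz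
  rw [mem_lgBx] at hy
  have h1 := lgAs_sup_le_sub w y
  have h2 := lgAs_sup_sub w y
  have hwy : w - y ≠ 0 := lgAs_ne_zero (by omega)
  rw [lgL_of_ne hwy]
  have h3 : lgSup (w - y) ≤ 2 * n := by omega
  have h3' : (lgSup (w - y) : ℝ) ≤ 2 * n := by exact_mod_cast h3
  have h4 : (0 : ℝ) ≤ lgSup (w - y) := by exact_mod_cast lgAs_sup_nonneg _
  have h5 : lgSq (w - y) ≤ (3 * (n : ℝ)) ^ 2 := by
    have := lgAs_sq_le (w - y)
    nlinarith
  have h6 : Real.log (lgSq (w - y)) ≤ Real.log ((3 * (n : ℝ)) ^ 2) := Real.log_le_log (lgSq_pos hwy) h5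
  rw [Real.log_pow] at h6
  have hpi := Real.pi_pos
  have hc : 0 < 1 / (4 * Real.pi) := by positivity
  have := mul_le_mul_of_nonneg_left h6 hc.le
  have e : Real.log (3 * n) / (2 * Real.pi) = 1 / (4 * Real.pi) * (((2 : ℕ) : ℝ) * Real.log (3 * n)) := by
    push_cast; field_simp; ring
  rw [e]
  linarith

theorem lgAs_G_far (n : ℕ) (hn : 32 ≤ n) {y : ℤ × ℤ} (hy : lgIn n y) {z : ℤ × ℤ} (hz : z ∈ lgBx n) (hzy : z ≠ y) :
    lgG n y z ≤ 2176 + Real.log (3 * n / (lgSup (z - y) : ℝ)) / (2 * Real.pi) := by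
  have hyb : y ∈ lgBx n := lgIn_mem (by omega) hy
  have hn0 : (0 : ℝ) < n := by
    have : (32 : ℝ) ≤ n := by exact_mod_cast hn
    linarith
  have hs : 0 < lgSup (z - y) := by
    rcases (lgAs_sup_nonneg (z - y)).lt_or_eq with h | h
    · exact h
    · exact absurd (sub_eq_zero.1 (lgSh_Sup_eq_zero h.symm.le)) hzy
  have hs' : (0 : ℝ) < lgSup (z - y) := by exact_mod_cast hs
  have h1 := lgAs_L_le hs
  have h2 := lgAs_H_le n (by omega) hyb hz
  have h3 := (abs_le.1 (lgAs_P_bdd n hn hy z)).2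
  unfold lgP at h3
  rw [Real.log_div (by positivity) hs'.ne', sub_div]
  linarith

theorem lgG_far : ∃ C₀ : ℝ, 0 ≤ C₀ ∧ ∀ n : ℕ, 32 ≤ n → ∀ y, lgIn n y → ∀ z ∈ lgBx n, z ≠ y →
    lgG n y z ≤ C₀ + Real.log (3 * n / (lgSup (z - y) : ℝ)) / (2 * Real.pi) :=
  ⟨2176, by norm_num, fun n hn _ hy _ hz hzy => lgAs_G_far n hn hy hz hzy⟩

theorem lgAs_small_core (n d : ℕ) (hn : 32 ≤ n) (hd : 1 ≤ d) (hdn : 64 * d ≤ n) (M : ℝ) {y x : ℤ × ℤ}
    (hy : lgIn n y) (hx : lgIn n x) (hxy : 4 * (d : ℤ) ≤ lgSup (x - y))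
    (hM : ∀ z ∈ lgBx n, lgSup (z - y) ≤ 2 * d → lgG n x z ≤ M) :
    |lgP n y x| ≤ 65536 / n + (64 + 128 * M) / d := by
  have hyb : y ∈ lgBx n := lgIn_mem (by omega) hy
  have hxb : x ∈ lgBx n := lgIn_mem (by omega) hx
  have hd0 : (0 : ℝ) < d := by exact_mod_cast hd
  have hM0 : 0 ≤ M := (lgG_nonneg n x y).trans (hM y hyb (by rw [sub_self, lgAs_sup_zero]; positivity))
  have hbox : ∀ z, lgSup (z - y) ≤ 2 * d → z ∈ lgBx n := by
    intro z hz
    rw [mem_lgBx]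
    have := lgAs_sup_add (z - y) y
    rw [sub_add_cancel] at this
    unfold lgIn at hy
    omega
  have hlip : ∀ z, lgSup (z - y) ≤ d → |lgG n x z - lgG n x y| ≤ 2 * M * (lgOne (z - y) : ℝ) / d :=
    lg_lip (lgG n x) y d hd M
      (fun z hz => by
        have hzb := hbox z hz.le
        have h1 := lgG_lap n x hzb
        have hne : z ≠ x := by
          rintro rfl
          omega
        rw [if_neg hne] at h1
        linarith)
      (fun z hz => by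
        rw [abs_of_nonneg (lgG_nonneg n x z)]
        exact hM z (hbox z hz) hz)
  rw [lgAs_split n hyb x]
  have h1 := lgAs_first n hn hy x
  have hnear : |∑ z ∈ (lgBx n).filter (fun z => lgSup (z - y) ≤ d), (lgG n z x - lgG n y x) * lgErr (z - y)|
      ≤ 128 * M / d := by
    calc |∑ z ∈ (lgBx n).filter (fun z => lgSup (z - y) ≤ d), (lgG n z x - lgG n y x) * lgErr (z - y)|
        ≤ ∑ z ∈ (lgBx n).filter (fun z => lgSup (z - y) ≤ d), |(lgG n z x - lgG n y x) * lgErr (z - y)| :=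
          Finset.abs_sum_le_sum_abs _ _
      _ ≤ ∑ z ∈ (lgBx n).filter (fun z => lgSup (z - y) ≤ d),
            2 * M / d * ((lgOne (z - y) : ℝ) * |lgErr (z - y)|) := by
          refine Finset.sum_le_sum fun z hz => ?_
          rw [Finset.mem_filter] at hz
          rw [abs_mul, lgG_symm n hxb hz.1, lgG_symm n hxb hyb]
          have := hlip z hz.2
          calc |lgG n x z - lgG n x y| * |lgErr (z - y)|
              ≤ 2 * M * (lgOne (z - y) : ℝ) / d * |lgErr (z - y)| := by gcongr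
            _ = _ := by ring
      _ = 2 * M / d * ∑ z ∈ (lgBx n).filter (fun z => lgSup (z - y) ≤ d),
            (lgOne (z - y) : ℝ) * |lgErr (z - y)| := by rw [Finset.mul_sum]
      _ ≤ 2 * M / d * 64 := by gcongr; exact lgAs_mom _ _
      _ = _ := by ring
  have hfar : |∑ z ∈ (lgBx n).filter (fun z => ¬ lgSup (z - y) ≤ d), (lgG n z x - lgG n y x) * lgErr (z - y)|
      ≤ 64 / d := by
    calc |∑ z ∈ (lgBx n).filter (fun z => ¬ lgSup (z - y) ≤ d), (lgG n z x - lgG n y x) * lgErr (z - y)|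
        ≤ ∑ z ∈ (lgBx n).filter (fun z => ¬ lgSup (z - y) ≤ d), |(lgG n z x - lgG n y x) * lgErr (z - y)| :=
          Finset.abs_sum_le_sum_abs _ _
      _ ≤ ∑ z ∈ (lgBx n).filter (fun z => ¬ lgSup (z - y) ≤ d),
            2 * ((lgOne (z - y) : ℝ) * |lgErr (z - y)|) :=
          Finset.sum_le_sum fun z hz => lgAs_term n hyb (Finset.mem_filter.1 hz).1 x
      _ = 2 * ∑ z ∈ (lgBx n).filter (fun z => ¬ lgSup (z - y) ≤ d),
            (lgOne (z - y) : ℝ) * |lgErr (z - y)| := by rw [Finset.mul_sum]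
      _ ≤ 2 * (32 / d) := by
          gcongr
          exact lgAs_mom_far _ _ d hd fun z hz => not_le.1 (Finset.mem_filter.1 hz).2
      _ = _ := by ring
  rw [← Finset.sum_filter_add_sum_filter_not (lgBx n) (fun z => lgSup (z - y) ≤ d)
    (fun z => (lgG n z x - lgG n y x) * lgErr (z - y))]
  have e : 65536 / (n : ℝ) + (64 + 128 * M) / d = 65536 / (n : ℝ) + (128 * M / d + 64 / d) := by ring
  rw [e]
  exact (abs_add_le _ _).trans (add_le_add h1 ((abs_add_le _ _).trans (add_le_add hnear hfar)))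

/-- **the remainder is uniformly small at macroscopic distance** -/
theorem lgP_small (c ε : ℝ) (hc : 0 < c) (hε : 0 < ε) : ∀ᶠ n : ℕ in atTop, ∀ y x, lgIn n y → lgIn n x →
    c * n ≤ (lgSup (x - y) : ℝ) → |lgP n y x| ≤ ε := by
  obtain ⟨κ, hκ⟩ : ∃ κ : ℝ, κ = min c (1 / 16) / 4 := ⟨_, rfl⟩
  have hκ0 : 0 < κ := by rw [hκ]; have := lt_min hc (by norm_num : (0 : ℝ) < 1 / 16); positivity
  have hκc : 4 * κ ≤ c := by rw [hκ]; linarith [min_le_left c (1 / 16)]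
  have hκ1 : 64 * κ ≤ 1 := by rw [hκ]; linarith [min_le_right c (1 / 16)]
  have hpi := Real.pi_pos
  obtain ⟨M, hMdef⟩ : ∃ M : ℝ, M = 2176 + |Real.log (6 / c)| / (2 * Real.pi) := ⟨_, rfl⟩
  have hM0 : 0 ≤ M := by rw [hMdef]; positivity
  obtain ⟨K, hK⟩ : ∃ K : ℝ, K = 65536 + 2 * (64 + 128 * M) / κ := ⟨_, rfl⟩
  have hK0 : 0 < K := by rw [hK]; positivity
  filter_upwards [eventually_ge_atTop 32, eventually_ge_atTop ⌈2 / κ⌉₊, eventually_ge_atTop ⌈K / ε⌉₊]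
    with n hn h2 h3 y x hy hx hcx
  have hn0 : (0 : ℝ) < n := by
    have : (32 : ℝ) ≤ n := by exact_mod_cast hn
    linarith
  have h2' : 2 ≤ κ * n := by
    have := (Nat.le_ceil (2 / κ)).trans (by exact_mod_cast h2 : ((⌈2 / κ⌉₊ : ℕ) : ℝ) ≤ n)
    rw [div_le_iff₀ hκ0] at this
    linarith
  have h3' : K ≤ ε * n := by
    have := (Nat.le_ceil (K / ε)).trans (by exact_mod_cast h3 : ((⌈K / ε⌉₊ : ℕ) : ℝ) ≤ n)
    rw [div_le_iff₀ hε] at this
    linarith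
  obtain ⟨d, hd⟩ : ∃ d : ℕ, d = ⌊κ * n⌋₊ := ⟨_, rfl⟩
  have hdle : (d : ℝ) ≤ κ * n := by rw [hd]; exact Nat.floor_le (by positivity)
  have hdge : κ * n < d + 1 := by rw [hd]; exact Nat.lt_floor_add_one _
  have hd1 : 1 ≤ d := by
    have : (0 : ℝ) < d := by linarith
    exact_mod_cast this
  have hd0 : (0 : ℝ) < d := by exact_mod_cast hd1
  have hdn : 64 * d ≤ n := by
    have : 64 * (d : ℝ) ≤ n := by nlinarith
    exact_mod_cast this
  have hxy : 4 * (d : ℤ) ≤ lgSup (x - y) := by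
    have : 4 * (d : ℝ) ≤ (lgSup (x - y) : ℝ) := by nlinarith
    exact_mod_cast this
  have hcore := lgAs_small_core n d hn hd1 hdn M hy hx hxy (fun z hz hzy => by
    have hs1 : lgSup (x - y) - lgSup (z - y) ≤ lgSup (z - x) := by
      have := lgAs_sup_le_sub (x - y) (z - y)
      rw [sub_sub_sub_cancel_right, lgAs_sup_sub_comm x z] at this
      exact this
    have hs2 : (lgSup (x - y) : ℝ) - (lgSup (z - y) : ℝ) ≤ (lgSup (z - x) : ℝ) := by exact_mod_cast hs1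
    have hzy' : (lgSup (z - y) : ℝ) ≤ 2 * d := by exact_mod_cast hzy
    have hs3 : c * n / 2 ≤ (lgSup (z - x) : ℝ) := by nlinarith
    have hs4 : (0 : ℝ) < lgSup (z - x) := lt_of_lt_of_le (by positivity) hs3
    have hne : z ≠ x := by
      rintro rfl
      simp [lgAs_sup_zero] at hs4
    have h1 := lgAs_G_far n hn hx hz hne
    have h4 : 3 * (n : ℝ) / (lgSup (z - x) : ℝ) ≤ 6 / c := by
      rw [div_le_div_iff₀ hs4 hc]
      nlinarith
    have h5 : Real.log (3 * (n : ℝ) / (lgSup (z - x) : ℝ)) ≤ |Real.log (6 / c)| :=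
      (Real.log_le_log (by positivity) h4).trans (le_abs_self _)
    have h6 : Real.log (3 * (n : ℝ) / (lgSup (z - x) : ℝ)) / (2 * Real.pi) ≤ |Real.log (6 / c)| / (2 * Real.pi) := by
      gcongr
    rw [hMdef]
    linarith)
  refine hcore.trans ?_
  have h7 : (64 + 128 * M) / d ≤ 2 * (64 + 128 * M) / κ / n := by
    rw [div_div, div_le_div_iff₀ hd0 (by positivity)]
    have : κ * n ≤ 2 * d := by linarith
    nlinarith
  have h8 : 65536 / (n : ℝ) + 2 * (64 + 128 * M) / κ / n = K / n := by rw [hK]; ring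
  have h9 : K / n ≤ ε := by rw [div_le_iff₀ hn0]; exact h3'
  linarith

/-- **centre asymptotics** (with the regular part `lgA n`, whose convergence is `lgA_tendsto` in `LogConst`) -/
theorem lgG_center (c ε : ℝ) (hc : 0 < c) (hε : 0 < ε) : ∀ᶠ n : ℕ in atTop, ∀ x, lgIn n x → c * n ≤ (lgSup x : ℝ) →
    |lgG n 0 x - Real.log ((n : ℝ) ^ 2 / lgSq x) / (4 * Real.pi) - lgA n| ≤ ε + (lgOne x : ℝ) / n := by
  filter_upwards [lgP_small c ε hc hε, eventually_ge_atTop 4] with n hn h4 x hx hcx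
  have hn0 : (0 : ℝ) < n := by
    have : (4 : ℝ) ≤ n := by exact_mod_cast h4
    linarith
  have h0 : lgIn n 0 := by simp [lgIn, lgSup]
  have h1 := hn 0 x h0 hx (by simpa using hcx)
  have h2 := lgH_lip n h4 (lgIn_mem (by omega) hx)
  have hx0 : x ≠ 0 := lgSup_ne_zero_of (mul_pos hc hn0) hcx
  have hsq := lgSq_pos hx0
  unfold lgP at h1
  rw [sub_zero, lgL_of_ne hx0] at h1
  have e1 : Real.log ((n : ℝ) ^ 2 / lgSq x) / (4 * Real.pi)
      = Real.log n / (2 * Real.pi) - 1 / (4 * Real.pi) * Real.log (lgSq x) := by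
    rw [Real.log_div (by positivity) hsq.ne', Real.log_pow]
    have := Real.pi_pos
    field_simp
    ring
  rw [e1]
  have e2 : lgG n 0 x - (Real.log n / (2 * Real.pi) - 1 / (4 * Real.pi) * Real.log (lgSq x)) - lgA n
      = (lgG n 0 x - -(1 / (4 * Real.pi)) * Real.log (lgSq x) - lgH n 0 x)
        + (lgH n 0 x - Real.log n / (2 * Real.pi) - lgA n) := by ring
  rw [e2]
  exact (abs_add_le _ _).trans (add_le_add h1 h2)

/-- **pair asymptotics** -/
theorem lgG_pair (c ε : ℝ) (hc : 0 < c) (hε : 0 < ε) : ∀ᶠ n : ℕ in atTop, ∀ y x, 4 * lgSup y ≤ n → lgIn n x →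
    c * n ≤ (lgSup x : ℝ) → c * n ≤ (lgSup (x - y) : ℝ) →
    |lgG n 0 x - lgG n y x - Real.log (lgSq (x - y) / lgSq x) / (4 * Real.pi)| ≤ ε + (lgOne y : ℝ) / n := by
  filter_upwards [lgP_small c (ε / 2) hc (by positivity), eventually_ge_atTop 4] with n hn h4 y x hy hx hcx hcxy
  have hn0 : (0 : ℝ) < n := by
    have : (4 : ℝ) ≤ n := by exact_mod_cast h4
    linarith
  have h0 : lgIn n 0 := by simp [lgIn, lgSup]
  have hyin : lgIn n y := by unfold lgIn; omega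
  have h1 := hn 0 x h0 hx (by simpa using hcx)
  have h2 := hn y x hyin hx hcxy
  have h3 := lgH_pair n (by omega) y hy (lgIn_mem (by omega) hx)
  have hx0 : x ≠ 0 := lgSup_ne_zero_of (mul_pos hc hn0) hcx
  have hxy0 : x - y ≠ 0 := lgSup_ne_zero_of (mul_pos hc hn0) hcxy
  have hsq := lgSq_pos hx0
  have hsq' := lgSq_pos hxy0
  unfold lgP at h1 h2
  rw [sub_zero, lgL_of_ne hx0] at h1
  rw [lgL_of_ne hxy0] at h2
  have e1 : Real.log (lgSq (x - y) / lgSq x) / (4 * Real.pi)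
      = 1 / (4 * Real.pi) * Real.log (lgSq (x - y)) - 1 / (4 * Real.pi) * Real.log (lgSq x) := by
    rw [Real.log_div hsq'.ne' hsq.ne']
    ring
  rw [e1]
  have e2 : lgG n 0 x - lgG n y x
        - (1 / (4 * Real.pi) * Real.log (lgSq (x - y)) - 1 / (4 * Real.pi) * Real.log (lgSq x))
      = (lgG n 0 x - -(1 / (4 * Real.pi)) * Real.log (lgSq x) - lgH n 0 x)
        - (lgG n y x - -(1 / (4 * Real.pi)) * Real.log (lgSq (x - y)) - lgH n y x)
        + (lgH n 0 x - lgH n y x) := by ring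
  rw [e2]
  have h4' := abs_add_le ((lgG n 0 x - -(1 / (4 * Real.pi)) * Real.log (lgSq x) - lgH n 0 x)
        - (lgG n y x - -(1 / (4 * Real.pi)) * Real.log (lgSq (x - y)) - lgH n y x)) (lgH n 0 x - lgH n y x)
  have h5 := abs_sub (lgG n 0 x - -(1 / (4 * Real.pi)) * Real.log (lgSq x) - lgH n 0 x)
        (lgG n y x - -(1 / (4 * Real.pi)) * Real.log (lgSq (x - y)) - lgH n y x)
  linarith

end

end Claimed.Agent.R285.Pot
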