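import Claimed.Agent.R285.Pot.LogAsy
import Claimed.Agent.R285.Obs.Green

/-!
# ROW 285, POT-LOG: the regular part of the Green function at the centre converges      (architect helper281)
PAPER-FREE.   Input from unit OBS (helper271): the explicit Green function `Obs.gf n` of `[0,2n]²` (`gf_lap`, `gf_zero_left`, `gf_right`, `gf_zero_bot`, `gf_top`, `gf_center`) and `Obs.tanhSum_asymp`.
LEAVES:
* L-LOG-LINK `lgG_zero_zero`: `f x := if x ∈ lgCb n then Obs.gf n (x.1 + n).toNat (x.2 + n).toNat else 0` vanishes off `lgBx n` (the four sides) and `-Δ f = δ₀` in `lgBx n` (`gf_lap` with `i + 1 = (x.1 + n).toNat`, `j + 1 = (x.2+n).toNat`);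
  `lg_unique` gives `f = lgG n 0`; `gf_center`.
* L-LOG-KERNEL `lgK_cauchy`: `a_n(z) := G_n(0,0) - G_n(z,0)` (`lgK n z`).  For `n ≤ n'`: `H := lgG n' 0 - lgG n 0` is harmonic in `lgBx n`;  `H = (lgH n' 0 - lgH n 0) + (lgP n' 0 - lgP n 0)`, so
  `|H - log (n'/n)/(2π)| ≤ 1/8 + 1/8 + 2 C₀` on `lgBx n` (`lgH_lip`-type bounds `0 ≤ lgH n 0 x - log n/(2π) ≤ 1/8` = first step of L-LOG-HARM, restated here as `lgH_range`; `lgP_bdd`);  `lg_lip` with `d = (n-1)/2`.
* L-LOG-REG `lgP_zero_cauchy`: `lgP n 0 0 = G_n(0,0) ∑_{box} e - ∑_{z ∈ box} a_n(z) e(z)` (`lgP_eq_sum`, `lgG_symm`);  first term `≤ 4n · 16/(n-1)²`;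
  `|∑_{box n'} a_{n'} e - ∑_{box n} a_n e| ≤ ∑_{box n' \ box n} 2|z|₁|e| + ∑_{lgSup z ≤ n/4} (C|z|₁/n)|e| + ∑_{n/4 < lgSup z < n} 4|z|₁|e| ≤ C'/n`   (`lgG_diff`: `|a_n(z)| ≤ 2|z|₁`; `lgErr_mom`, `lgErr_mom_far`).
GLUE (proved here): `lgA_tendsto`.
-/

set_option autoImplicit false

namespace Claimed.Agent.R285.Pot

open Filter Topology
open scoped Classical

noncomputable section

/-- the value at the pole is helper271's closed form -/
theorem lgG_zero_zero (n : ℕ) (hn : 0 < n) : lgG n 0 0 = Obs.tanhSum n := by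
  obtain ⟨f, hf⟩ : ∃ f : ℤ × ℤ → ℝ,
      f = fun x => if x ∈ lgCb n then Obs.gf n (x.1 + n).toNat (x.2 + n).toNat else 0 := ⟨_, rfl⟩
  have hfab : ∀ a b : ℕ, a ≤ 2 * n → b ≤ 2 * n → f ((a : ℤ) - n, (b : ℤ) - n) = Obs.gf n a b := by
    intro a b ha hb
    have hmem : (((a : ℤ) - n, (b : ℤ) - n) : ℤ × ℤ) ∈ lgCb n := by
      simp only [lgCb, Finset.mem_product, Finset.mem_Icc]
      omega
    rw [hf]
    simp only [if_pos hmem]
    congr 1 <;> omega
  have key : f = lgG n 0 := by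
    apply lg_unique (lgBx n)
    · intro x hx
      rw [lgG_off n 0 hx]
      by_cases hc : x ∈ lgCb n
      · simp only [lgCb, Finset.mem_product, Finset.mem_Icc] at hc
        simp only [lgBx, Finset.mem_product, Finset.mem_Ioo] at hx
        obtain ⟨a, ha⟩ : ∃ a : ℕ, (a : ℤ) = x.1 + n := ⟨(x.1 + n).toNat, by rw [Int.toNat_of_nonneg]; omega⟩
        obtain ⟨b, hb⟩ : ∃ b : ℕ, (b : ℤ) = x.2 + n := ⟨(x.2 + n).toNat, by rw [Int.toNat_of_nonneg]; omega⟩
        have hx' : x = ((a : ℤ) - n, (b : ℤ) - n) := by ext <;> simp <;> omega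
        rw [hx', hfab a b (by omega) (by omega)]
        have : a = 0 ∨ a = 2 * n ∨ b = 0 ∨ b = 2 * n := by omega
        rcases this with rfl | rfl | rfl | rfl
        · exact Obs.gf_zero_left n b
        · exact Obs.gf_right n b
        · exact Obs.gf_zero_bot n a
        · exact Obs.gf_top n a
      · rw [hf]; simp only [if_neg hc]
    · intro x hx
      have h1 := lgG_lap n 0 hx
      simp only [lgBx, Finset.mem_product, Finset.mem_Ioo] at hx
      obtain ⟨i, hi⟩ : ∃ i : ℕ, (i : ℤ) = x.1 + n - 1 := ⟨(x.1 + n - 1).toNat, by rw [Int.toNat_of_nonneg]; omega⟩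
      obtain ⟨j, hj⟩ : ∃ j : ℕ, (j : ℤ) = x.2 + n - 1 := ⟨(x.2 + n - 1).toNat, by rw [Int.toNat_of_nonneg]; omega⟩
      have h2 := Obs.gf_lap n hn i j (by omega) (by omega)
      have e0 : x = (((i + 1 : ℕ) : ℤ) - n, ((j + 1 : ℕ) : ℤ) - n) := by ext <;> simp <;> omega
      have e1 : ((x.1 + 1, x.2) : ℤ × ℤ) = (((i + 2 : ℕ) : ℤ) - n, ((j + 1 : ℕ) : ℤ) - n) := by ext <;> simp <;> omega
      have e2 : ((x.1 - 1, x.2) : ℤ × ℤ) = (((i : ℕ) : ℤ) - n, ((j + 1 : ℕ) : ℤ) - n) := by ext <;> simp <;> omega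
      have e3 : ((x.1, x.2 + 1) : ℤ × ℤ) = (((i + 1 : ℕ) : ℤ) - n, ((j + 2 : ℕ) : ℤ) - n) := by ext <;> simp <;> omega
      have e4 : ((x.1, x.2 - 1) : ℤ × ℤ) = (((i + 1 : ℕ) : ℤ) - n, ((j : ℕ) : ℤ) - n) := by ext <;> simp <;> omega
      have h3 : lgLap f x = Obs.gf n (i + 2) (j + 1) + Obs.gf n i (j + 1) + Obs.gf n (i + 1) (j + 2)
          + Obs.gf n (i + 1) j - 4 * Obs.gf n (i + 1) (j + 1) := by
        unfold lgLap
        rw [e1, e2, e3, e4, hfab _ _ (by omega) (by omega), hfab _ _ (by omega) (by omega),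
          hfab _ _ (by omega) (by omega), hfab _ _ (by omega) (by omega)]
        conv_lhs => rw [e0]
        rw [hfab _ _ (by omega) (by omega)]
      have h4 : (x = 0) ↔ (i + 1 = n ∧ j + 1 = n) := by
        rw [Prod.ext_iff]
        simp only [Prod.fst_zero, Prod.snd_zero]
        omega
      simp only [h4] at h1
      rw [h3]
      linarith
  rw [← key, ← Obs.gf_center n hn]
  have := hfab n n (by omega) (by omega)
  rw [sub_self] at this
  exact this

/-- the approximate potential kernel -/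
def lgK (n : ℕ) (z : ℤ × ℤ) : ℝ := lgG n 0 0 - lgG n 0 z

theorem lgH_range (n : ℕ) (hn : 1 ≤ n) {x : ℤ × ℤ} (hx : x ∈ lgCb n) :
    0 ≤ lgH n 0 x - Real.log n / (2 * Real.pi) ∧ lgH n 0 x - Real.log n / (2 * Real.pi) ≤ 1 / 8 :=
  lgAs_H_range n hn hx

theorem lgAs_in_zero (n : ℕ) : lgIn n 0 := by simp [lgIn, lgSup]

theorem lgK_cauchy : ∃ C : ℝ, ∀ n n' : ℕ, 32 ≤ n → n ≤ n' → ∀ z, 4 * lgSup z ≤ n →
    |lgK n' z - lgK n z| ≤ C * (lgOne z : ℝ) / n := by
  refine ⟨8 * (1 / 8 + 2 * 2176), fun n n' hn hnn z hz => ?_⟩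
  have hn0 : (0 : ℝ) < n := by
    have : (32 : ℝ) ≤ n := by exact_mod_cast hn
    linarith
  obtain ⟨d, hd⟩ : ∃ d : ℕ, d = (n - 1) / 2 := ⟨_, rfl⟩
  have hd1 : 1 ≤ d := by omega
  have hd2 : 2 * d < n := by omega
  have hd4 : n ≤ 4 * d := by omega
  have hone : (0 : ℝ) ≤ lgOne z := by exact_mod_cast lgSh_One_nonneg z
  have hlip := lg_lip (lgG n' 0 - lgG n 0 - fun _ => (Real.log n' - Real.log n) / (2 * Real.pi)) 0 d hd1
    (1 / 8 + 2 * 2176)
    (fun x hx => by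
      rw [sub_zero] at hx
      have hx1 : x ∈ lgBx n := mem_lgBx.2 (by omega)
      have hx2 : x ∈ lgBx n' := mem_lgBx.2 (by omega)
      rw [lgLap_sub, lgLap_sub, lgLap_const]
      have h1 := lgG_lap n 0 hx1
      have h2 := lgG_lap n' 0 hx2
      linarith)
    (fun x hx => by
      rw [sub_zero] at hx
      have hx1 : x ∈ lgCb n := mem_lgCb.2 (by omega)
      have hx2 : x ∈ lgCb n' := mem_lgCb.2 (by omega)
      have h1 := lgAs_H_range n (by omega) hx1
      have h2 := lgAs_H_range n' (by omega) hx2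
      have h3 := abs_le.1 (lgAs_P_bdd n hn (lgAs_in_zero n) x)
      have h4 := abs_le.1 (lgAs_P_bdd n' (by omega) (lgAs_in_zero n') x)
      unfold lgP at h3 h4
      simp only [Pi.sub_apply]
      rw [sub_div, abs_le]
      constructor <;> linarith [h1.1, h1.2, h2.1, h2.2, h3.1, h3.2, h4.1, h4.2])
    z (by rw [sub_zero]; omega)
  simp only [Pi.sub_apply, sub_zero] at hlip
  have e : lgK n' z - lgK n z = -(lgG n' 0 z - lgG n 0 z - (Real.log n' - Real.log n) / (2 * Real.pi)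
      - (lgG n' 0 0 - lgG n 0 0 - (Real.log n' - Real.log n) / (2 * Real.pi))) := by
    unfold lgK; ring
  rw [e, abs_neg]
  refine hlip.trans ?_
  have hd0 : (0 : ℝ) < d := by exact_mod_cast hd1
  have hd4' : (n : ℝ) ≤ 4 * d := by exact_mod_cast hd4
  rw [div_le_div_iff₀ hd0 hn0]
  nlinarith

theorem lgAs_one_neg (a : ℤ × ℤ) : lgOne (-a) = lgOne a := by
  unfold lgOne
  simp only [Prod.fst_neg, Prod.snd_neg, abs_neg]

theorem lgAs_zero_mem {n : ℕ} (hn : 1 ≤ n) : (0 : ℤ × ℤ) ∈ lgBx n := lgIn_mem hn (lgAs_in_zero n)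

theorem lgAs_K_le (n : ℕ) (hn : 1 ≤ n) {z : ℤ × ℤ} (hz : z ∈ lgBx n) : |lgK n z| ≤ 2 * (lgOne z : ℝ) := by
  have h0 := lgAs_zero_mem hn
  have := lgG_diff n h0 hz 0
  rw [zero_sub, lgAs_one_neg, lgG_symm n h0 hz] at this
  exact this

theorem lgAs_P_zero (n : ℕ) (hn : 1 ≤ n) :
    lgP n 0 0 = lgG n 0 0 * ∑ z ∈ lgBx n, lgErr (z - 0) - ∑ z ∈ lgBx n, lgK n z * lgErr z := by
  have h0 := lgAs_zero_mem hn
  rw [lgAs_split n h0 0, sub_eq_add_neg, ← Finset.sum_neg_distrib]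
  congr 1
  refine Finset.sum_congr rfl fun z hz => ?_
  rw [sub_zero, lgG_symm n h0 hz]
  unfold lgK
  ring

theorem lgAs_bx_mono {n n' : ℕ} (h : n ≤ n') : lgBx n ⊆ lgBx n' := fun x hx => by
  rw [mem_lgBx] at hx ⊢
  omega

theorem lgP_zero_cauchy : ∃ C : ℝ, ∀ n n' : ℕ, 32 ≤ n → n ≤ n' → |lgP n' 0 0 - lgP n 0 0| ≤ C / n := by
  obtain ⟨C, hC⟩ := lgK_cauchy
  refine ⟨2 * 65536 + 128 + 64 * |C| + 1024, fun n n' hn hnn => ?_⟩
  have hn32 : (32 : ℝ) ≤ n := by exact_mod_cast hn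
  have hn0 : (0 : ℝ) < n := by linarith
  have hnn' : (n : ℝ) ≤ n' := by exact_mod_cast hnn
  have hT := lgAs_first n hn (lgAs_in_zero n) 0
  have hT' : |lgG n' 0 0 * ∑ z ∈ lgBx n', lgErr (z - 0)| ≤ 65536 / n :=
    (lgAs_first n' (by omega) (lgAs_in_zero n') 0).trans (by gcongr)
  -- outer part
  have hA : |∑ z ∈ lgBx n' \ lgBx n, lgK n' z * lgErr z| ≤ 128 / n := by
    calc |∑ z ∈ lgBx n' \ lgBx n, lgK n' z * lgErr z|
        ≤ ∑ z ∈ lgBx n' \ lgBx n, |lgK n' z * lgErr z| := Finset.abs_sum_le_sum_abs _ _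
      _ ≤ ∑ z ∈ lgBx n' \ lgBx n, 2 * ((lgOne z : ℝ) * |lgErr z|) := by
          refine Finset.sum_le_sum fun z hz => ?_
          rw [abs_mul, ← mul_assoc]
          exact mul_le_mul_of_nonneg_right (lgAs_K_le n' (by omega) (Finset.mem_sdiff.1 hz).1) (abs_nonneg _)
      _ = 2 * ∑ z ∈ lgBx n' \ lgBx n, (lgOne z : ℝ) * |lgErr z| := by rw [Finset.mul_sum]
      _ ≤ 2 * (32 / ((n - 1 : ℕ) : ℝ)) := by
          gcongr
          refine lgErr_mom_far _ (n - 1) (by omega) fun z hz => ?_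
          have := (Finset.mem_sdiff.1 hz).2
          rw [mem_lgBx] at this
          omega
      _ ≤ 128 / n := by
          have e : ((n - 1 : ℕ) : ℝ) = n - 1 := by
            rw [Nat.cast_sub (by omega)]; simp
          rw [e, mul_div_assoc', div_le_div_iff₀ (by linarith) hn0]
          linarith
  have hnear : |∑ z ∈ (lgBx n).filter (fun z => 4 * lgSup z ≤ n), (lgK n' z - lgK n z) * lgErr z|
      ≤ 64 * |C| / n := by
    calc |∑ z ∈ (lgBx n).filter (fun z => 4 * lgSup z ≤ n), (lgK n' z - lgK n z) * lgErr z|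
        ≤ ∑ z ∈ (lgBx n).filter (fun z => 4 * lgSup z ≤ n), |(lgK n' z - lgK n z) * lgErr z| :=
          Finset.abs_sum_le_sum_abs _ _
      _ ≤ ∑ z ∈ (lgBx n).filter (fun z => 4 * lgSup z ≤ n), |C| / n * ((lgOne z : ℝ) * |lgErr z|) := by
          refine Finset.sum_le_sum fun z hz => ?_
          have h1 := hC n n' hn hnn z (Finset.mem_filter.1 hz).2
          have hone : (0 : ℝ) ≤ lgOne z := by exact_mod_cast lgSh_One_nonneg z
          rw [abs_mul]
          calc |lgK n' z - lgK n z| * |lgErr z| ≤ (|C| * (lgOne z : ℝ) / n) * |lgErr z| := by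
                gcongr
                exact h1.trans (by gcongr; exact le_abs_self C)
            _ = _ := by ring
      _ = |C| / n * ∑ z ∈ (lgBx n).filter (fun z => 4 * lgSup z ≤ n), (lgOne z : ℝ) * |lgErr z| := by
          rw [Finset.mul_sum]
      _ ≤ |C| / n * 64 := by gcongr; exact lgErr_mom _
      _ = _ := by ring
  have hfar : |∑ z ∈ (lgBx n).filter (fun z => ¬ 4 * lgSup z ≤ n), (lgK n' z - lgK n z) * lgErr z|
      ≤ 1024 / n := by
    calc |∑ z ∈ (lgBx n).filter (fun z => ¬ 4 * lgSup z ≤ n), (lgK n' z - lgK n z) * lgErr z|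
        ≤ ∑ z ∈ (lgBx n).filter (fun z => ¬ 4 * lgSup z ≤ n), |(lgK n' z - lgK n z) * lgErr z| :=
          Finset.abs_sum_le_sum_abs _ _
      _ ≤ ∑ z ∈ (lgBx n).filter (fun z => ¬ 4 * lgSup z ≤ n), 4 * ((lgOne z : ℝ) * |lgErr z|) := by
          refine Finset.sum_le_sum fun z hz => ?_
          have hz1 := (Finset.mem_filter.1 hz).1
          have h1 := lgAs_K_le n (by omega) hz1
          have h2 := lgAs_K_le n' (by omega) (lgAs_bx_mono hnn hz1)
          have h3 := abs_sub (lgK n' z) (lgK n z)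
          rw [abs_mul, ← mul_assoc]
          exact mul_le_mul_of_nonneg_right (by linarith) (abs_nonneg _)
      _ = 4 * ∑ z ∈ (lgBx n).filter (fun z => ¬ 4 * lgSup z ≤ n), (lgOne z : ℝ) * |lgErr z| := by
          rw [Finset.mul_sum]
      _ ≤ 4 * (32 / ((n / 4 : ℕ) : ℝ)) := by
          gcongr
          refine lgErr_mom_far _ (n / 4) (by omega) fun z hz => ?_
          have := (Finset.mem_filter.1 hz).2
          omega
      _ ≤ 1024 / n := by
          have h8 : n ≤ 8 * (n / 4) := by omega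
          have h8' : (n : ℝ) ≤ 8 * ((n / 4 : ℕ) : ℝ) := by exact_mod_cast h8
          rw [mul_div_assoc', div_le_div_iff₀ (by linarith) hn0]
          linarith
  have hS : ∑ z ∈ lgBx n', lgK n' z * lgErr z - ∑ z ∈ lgBx n, lgK n z * lgErr z
      = ∑ z ∈ lgBx n' \ lgBx n, lgK n' z * lgErr z
        + (∑ z ∈ (lgBx n).filter (fun z => 4 * lgSup z ≤ n), (lgK n' z - lgK n z) * lgErr z
          + ∑ z ∈ (lgBx n).filter (fun z => ¬ 4 * lgSup z ≤ n), (lgK n' z - lgK n z) * lgErr z) := by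
    rw [Finset.sum_filter_add_sum_filter_not, ← Finset.sum_sdiff (lgAs_bx_mono hnn), add_sub_assoc,
      ← Finset.sum_sub_distrib]
    congr 1
    exact Finset.sum_congr rfl fun z _ => by ring
  rw [lgAs_P_zero n (by omega), lgAs_P_zero n' (by omega)]
  have e : lgG n' 0 0 * ∑ z ∈ lgBx n', lgErr (z - 0) - ∑ z ∈ lgBx n', lgK n' z * lgErr z
      - (lgG n 0 0 * ∑ z ∈ lgBx n, lgErr (z - 0) - ∑ z ∈ lgBx n, lgK n z * lgErr z)
      = lgG n' 0 0 * ∑ z ∈ lgBx n', lgErr (z - 0) - lgG n 0 0 * ∑ z ∈ lgBx n, lgErr (z - 0)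
        - (∑ z ∈ lgBx n', lgK n' z * lgErr z - ∑ z ∈ lgBx n, lgK n z * lgErr z) := by ring
  rw [e, hS]
  have e2 : (2 * 65536 + 128 + 64 * |C| + 1024) / (n : ℝ)
      = 65536 / n + 65536 / n + (128 / n + (64 * |C| / n + 1024 / n)) := by ring
  rw [e2]
  exact (abs_sub _ _).trans (add_le_add ((abs_sub _ _).trans (add_le_add hT' hT))
    ((abs_add_le _ _).trans (add_le_add hA ((abs_add_le _ _).trans (add_le_add hnear hfar)))))

theorem lgP_zero_tendsto : ∃ p : ℝ, Tendsto (fun n : ℕ => lgP n 0 0) atTop (𝓝 p) := by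
  obtain ⟨C, hC⟩ := lgP_zero_cauchy
  refine cauchySeq_tendsto_of_complete ?_
  rw [Metric.cauchySeq_iff']
  intro ε hε
  obtain ⟨N, hN⟩ := exists_nat_gt (|C| / ε)
  refine ⟨max 32 (N + 1), fun n hn => ?_⟩
  have h32 : 32 ≤ max 32 (N + 1) := le_max_left _ _
  have h1 := hC (max 32 (N + 1)) n h32 hn
  rw [Real.dist_eq]
  refine lt_of_le_of_lt h1 ?_
  have hpos : (0 : ℝ) < ((max 32 (N + 1) : ℕ) : ℝ) := by
    have : 0 < max 32 (N + 1) := by omega
    exact_mod_cast this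
  have hNle : (N : ℝ) < ((max 32 (N + 1) : ℕ) : ℝ) := by
    have : N < max 32 (N + 1) := lt_of_lt_of_le (Nat.lt_succ_self N) (le_max_right _ _)
    exact_mod_cast this
  rw [div_lt_iff₀ hpos]
  have h2 : |C| < ε * N := by
    rw [div_lt_iff₀ hε] at hN
    linarith
  have h3 : ε * N < ε * ((max 32 (N + 1) : ℕ) : ℝ) := mul_lt_mul_of_pos_left hNle hε
  linarith [le_abs_self C]

/-- **the regular part converges** -/
theorem lgA_tendsto : ∃ κ : ℝ, Tendsto lgA atTop (𝓝 κ) := by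
  obtain ⟨c, hc⟩ := Obs.tanhSum_asymp
  obtain ⟨p, hp⟩ := lgP_zero_tendsto
  refine ⟨c - 1 / 4 - p, ?_⟩
  have h := (hc.sub_const (1 / 4)).sub hp
  refine h.congr' ?_
  filter_upwards [eventually_gt_atTop 0] with n hn
  rw [← lgG_zero_zero n hn]
  have : lgL ((0 : ℤ × ℤ) - 0) = 1 / 4 := by simp [lgL]
  unfold lgP lgA
  rw [this]
  ring

end

end Claimed.Agent.R285.Pot
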