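import Claimed.Agent.R285.Pot.LogSum

/-!
# ROW 285, POT-LOG: planar duality on subsets of a square, the two sandwich inequalities      (architect helper281)
PAPER-FREE, finite sums.   Dual vertex `(i,j)` = face `[i,i+1] × [j,j+1]`.   `lgCross ((i,j),true) = ((i+1,j),false)`, `lgCross ((i,j),false) = ((i,j+1),true)`.
`lgRot ψ ((i,j),true) = ψ(i+1,j+1) - ψ(i+1,j)`,   `lgRot ψ ((i,j),false) = -(ψ(i+1,j+1) - ψ(i,j+1))`.
LEAVES:
* L-LOG-ROT `lgRot_div`, `lgRot_flux`, `lgRot_energy`.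
  `lgRot_div`: `J = lgRot ψ` vanishes off `domBonds D ∅`, so the sum extends to `lgBd m` for any `m` with `D ⊆ lgFc m` (take `m` one larger than needed, so that `J = 0` on all bonds touching the boundary rows/columns);
     resummation (as in `lg_sbp`): `∑_e J_e (v e.snd - v e.1) = ∑_z v z (J((z.1-1,z.2),true) - J(z,true) + J((z.1,z.2-1),false) - J(z,false))` and the bracket vanishes identically (telescoping around the face `z`: `ring` after unfolding).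
  `lgRot_flux`: only the bonds `((i,x.2-1),false)`, `x.1 ≤ i < x.1 + r` count; for those not in `domBonds D ∅` the gradient vanishes by `hψ`; `∑_{i} -(ψ(i+1,x.2) - ψ(i,x.2))` telescopes (`Finset.sum_range_sub`-type).
  `lgRot_energy`: `lgCross` is injective and maps `domBonds D ∅` into `lgBd n`; `(lgRot ψ e)² = (lgGr ψ (lgCross e))²`; `Finset.sum_image`, `Finset.sum_le_sum_of_subset_of_nonneg`.
* L-LOG-POINC `lg_poincare`: `v(i,j) := ∑_{k ∈ [-n,i)} ω((k,-n),true) + ∑_{l ∈ [-n,j)} ω((i,l),false)`; vertical bonds: by definition; horizontal bonds at height `j`: induction on `j` with the closedness of the plaquette.  (Compare `Obs.potential` in `Obs/GreenSq.lean`, in `ℕ` coordinates: you may shift and cite it.)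
* L-LOG-CONJ `lg_conj`: `ω = 2π (lgRot g - lgSeg x r)`; the curl of `lgRot g` around the plaquette with lower left face `z` is `-Δ g (z.1+1,z.2+1)` (`ring`), the curl of `lgSeg x r` is `[c = x] - [c = (x.1+r,x.2)]`, `c = (z.1+1,z.2+1) ∈ lgBx n`  (case analysis with `omega`).
GLUE (proved here): `lg_clamp_dir`, `lg_sand_lower`, `lg_sand_upper`.
-/

set_option autoImplicit false

namespace Claimed.Agent.R285.Pot

open scoped Classical

noncomputable section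

theorem lgDu_mem_dom (D : Finset (ℤ × ℤ)) (e : Bond) : e ∈ domBonds D ∅ ↔ e.1 ∈ D ∧ e.snd ∈ D := by
  simp [domBonds]

theorem lgDu_rot_zero (D : Finset (ℤ × ℤ)) (ψ : ℤ × ℤ → ℝ) (hψ : ∀ e : Bond, e ∉ domBonds D ∅ → lgGr ψ (lgCross e) = 0)
    (e : Bond) (he : e ∉ domBonds D ∅) : lgRot ψ e = 0 := by
  unfold lgRot
  rw [hψ e he]
  simp

theorem lgDu_shift (D : Finset (ℤ × ℤ)) (a : ℤ × ℤ → ℝ) (ha : ∀ z, z ∉ D → a z = 0) (T : ℤ × ℤ ≃ ℤ × ℤ)
    (v : ℤ × ℤ → ℝ) (B : Finset (ℤ × ℤ)) (hB1 : D ⊆ B) (hB2 : D.image T ⊆ B) :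
    ∑ z ∈ B, a z * v (T z) = ∑ z ∈ B, a (T.symm z) * v z := by
  rw [← Finset.sum_subset hB1 (fun z _ hz => by rw [ha z hz, zero_mul]),
    ← Finset.sum_subset hB2 (fun z _ hz => by
      rw [ha (T.symm z) (fun h => hz (Finset.mem_image.2 ⟨_, h, by simp⟩)), zero_mul]),
    Finset.sum_image (fun x _ y _ h => T.injective h)]
  simp

/-- the two shifts as equivalences -/
def lgDuT1 : ℤ × ℤ ≃ ℤ × ℤ where
  toFun z := (z.1 + 1, z.2)
  invFun z := (z.1 - 1, z.2)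
  left_inv z := by simp
  right_inv z := by simp

def lgDuT2 : ℤ × ℤ ≃ ℤ × ℤ where
  toFun z := (z.1, z.2 + 1)
  invFun z := (z.1, z.2 - 1)
  left_inv z := by simp
  right_inv z := by simp

/-- the rotated gradient is divergence free on `domG D ∅` if it does not cross the walls of `D` -/
theorem lgRot_div (D : Finset (ℤ × ℤ)) (ψ : ℤ × ℤ → ℝ) (hψ : ∀ e : Bond, e ∉ domBonds D ∅ → lgGr ψ (lgCross e) = 0)
    (v : ℤ × ℤ → ℝ) : ∑ e ∈ domBonds D ∅, lgRot ψ e * (v e.snd - v e.1) = 0 := by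
  set B : Finset (ℤ × ℤ) := D ∪ D.image lgDuT1 ∪ D.image lgDuT2 with hB
  have hDB : D ⊆ B := fun z hz => Finset.mem_union_left _ (Finset.mem_union_left _ hz)
  have h1B : D.image lgDuT1 ⊆ B := fun z hz => Finset.mem_union_left _ (Finset.mem_union_right _ hz)
  have h2B : D.image lgDuT2 ⊆ B := fun z hz => Finset.mem_union_right _ hz
  have hsub : domBonds D ∅ ⊆ B ×ˢ (Finset.univ : Finset Bool) := fun e he =>
    Finset.mem_product.2 ⟨hDB ((lgDu_mem_dom D e).1 he).1, Finset.mem_univ _⟩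
  rw [Finset.sum_subset hsub (fun e _ he => by rw [lgDu_rot_zero D ψ hψ e he, zero_mul]), Finset.sum_product]
  simp only [Fintype.sum_bool]
  have ha : ∀ b : Bool, ∀ z, z ∉ D → lgRot ψ (z, b) = 0 := fun b z hz =>
    lgDu_rot_zero D ψ hψ _ (fun h => hz ((lgDu_mem_dom D _).1 h).1)
  have e1 := lgDu_shift D (fun z => lgRot ψ (z, true)) (ha true) lgDuT1 v B hDB h1B
  have e2 := lgDu_shift D (fun z => lgRot ψ (z, false)) (ha false) lgDuT2 v B hDB h2B
  have key : ∀ z : ℤ × ℤ, lgRot ψ (z, true) * (v (Bond.snd (z, true)) - v z) + lgRot ψ (z, false) * (v (Bond.snd (z, false)) - v z)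
      = lgRot ψ (z, true) * v (lgDuT1 z) + lgRot ψ (z, false) * v (lgDuT2 z)
        - (lgRot ψ (z, true) + lgRot ψ (z, false)) * v z := by
    intro z
    simp only [Bond.snd, lgDuT1, lgDuT2, Equiv.coe_fn_mk, if_true, Bool.false_eq_true, if_false]
    ring
  rw [Finset.sum_congr rfl fun z _ => key z, Finset.sum_sub_distrib, Finset.sum_add_distrib, e1, e2,
    ← Finset.sum_add_distrib, ← Finset.sum_sub_distrib]
  refine Finset.sum_eq_zero fun z _ => ?_
  simp only [lgRot, lgCross, lgGr, Bond.snd, lgDuT1, lgDuT2, Equiv.coe_fn_symm_mk, if_true, Bool.false_eq_true, if_false,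
    sub_add_cancel]
  ring

/-- its flux through the string -/
theorem lgRot_flux (D : Finset (ℤ × ℤ)) (ψ : ℤ × ℤ → ℝ) (hψ : ∀ e : Bond, e ∉ domBonds D ∅ → lgGr ψ (lgCross e) = 0)
    (x : ℤ × ℤ) (r : ℕ) : ∑ e ∈ domBonds D ∅, lgRot ψ e * (lgSeg x r e : ℝ) = ψ x - ψ (x.1 + r, x.2) := by
  set T : ℤ → Bond := fun i => ((i, x.2 - 1), false) with hT
  have hTinj : Function.Injective T := fun i j h => by simpa [hT] using h
  set S : Finset Bond := (Finset.Ico x.1 (x.1 + r)).image T with hS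
  have hseg : ∀ e : Bond, e ∉ S → lgSeg x r e = 0 := by
    intro e he
    unfold lgSeg
    rw [if_neg]
    rintro ⟨h1, h2, h3, h4⟩
    apply he
    rw [hS, Finset.mem_image]
    refine ⟨e.1.1, Finset.mem_Ico.2 ⟨h3, h4⟩, ?_⟩
    obtain ⟨⟨i, j⟩, b⟩ := e
    simp only at h1 h2
    simp only [hT, h1, Prod.mk.injEq, and_true, true_and]
    omega
  have hseg1 : ∀ i ∈ Finset.Ico x.1 (x.1 + r), lgSeg x r (T i) = 1 := by
    intro i hi
    rw [Finset.mem_Ico] at hi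
    unfold lgSeg
    rw [if_pos]
    simp only [hT]
    exact ⟨trivial, by omega, hi.1, hi.2⟩
  rw [Finset.sum_subset (Finset.subset_union_left (s₂ := S)) (fun e _ he => by
      rw [lgDu_rot_zero D ψ hψ e he, zero_mul]),
    ← Finset.sum_subset (Finset.subset_union_right (s₁ := domBonds D ∅) (s₂ := S)) (fun e _ he => by
      rw [hseg e he]; simp), hS, Finset.sum_image (fun a _ b _ h => hTinj h)]
  have h1 : ∀ i ∈ Finset.Ico x.1 (x.1 + r), lgRot ψ (T i) * (lgSeg x r (T i) : ℝ)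
      = -((fun i : ℤ => ψ (i, x.2)) (i + 1) - (fun i : ℤ => ψ (i, x.2)) i) := by
    intro i hi
    rw [hseg1 i hi]
    simp only [lgRot, lgCross, lgGr, Bond.snd, hT, Bool.false_eq_true, if_false, if_true, sub_add_cancel, Int.cast_one, mul_one]
  have h2 := lgSm_tele (fun i : ℤ => ψ (i, x.2)) x.1 (x.1 + r) (by omega)
  rw [Finset.sum_congr rfl h1, Finset.sum_neg_distrib, h2]
  simp

theorem lgDu_cross_inj : Function.Injective lgCross := by
  rintro ⟨⟨i, j⟩, b⟩ ⟨⟨i', j'⟩, b'⟩ h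
  cases b <;> cases b' <;> simp [lgCross] at h ⊢ <;> omega

theorem lgDu_cross_fst (e : Bond) : (lgCross e).1 = e.snd := by
  obtain ⟨⟨i, j⟩, b⟩ := e
  cases b <;> simp [lgCross, Bond.snd]

/-- its energy -/
theorem lgRot_energy (n : ℕ) (D : Finset (ℤ × ℤ)) (hD : D ⊆ lgFc n) (ψ : ℤ × ℤ → ℝ) :
    ∑ e ∈ domBonds D ∅, lgRot ψ e ^ 2 ≤ lgDir n ψ ψ := by
  have h1 : ∀ e : Bond, lgRot ψ e ^ 2 = lgGr ψ (lgCross e) * lgGr ψ (lgCross e) := by
    intro e
    unfold lgRot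
    split_ifs <;> ring
  rw [Finset.sum_congr rfl fun e _ => h1 e,
    ← Finset.sum_image (s := domBonds D ∅) (g := lgCross) (f := fun e => lgGr ψ e * lgGr ψ e)
      (fun a _ b _ h => lgDu_cross_inj h)]
  unfold lgDir
  refine Finset.sum_le_sum_of_subset_of_nonneg (fun e he => ?_) fun e _ _ => mul_self_nonneg _
  obtain ⟨e', he', rfl⟩ := Finset.mem_image.1 he
  unfold lgBd
  rw [Finset.mem_product]
  refine ⟨?_, Finset.mem_univ _⟩
  rw [lgDu_cross_fst]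
  exact hD ((lgDu_mem_dom D e').1 he').2

/-- **Poincare lemma on the square** -/
theorem lg_poincare (n : ℕ) (ω : Bond → ℝ)
    (hcl : ∀ z : ℤ × ℤ, z ∈ lgFc n → (z.1 + 1, z.2 + 1) ∈ lgFc n →
      ω (z, true) + ω ((z.1 + 1, z.2), false) - ω ((z.1, z.2 + 1), true) - ω (z, false) = 0) :
    ∃ v : ℤ × ℤ → ℝ, ∀ e ∈ domBonds (lgFc n) ∅, v e.snd - v e.1 = ω e := by
  refine ⟨fun z => ∑ k ∈ Finset.Ico (-(n : ℤ)) z.1, ω ((k, -(n : ℤ)), true)
    + ∑ l ∈ Finset.Ico (-(n : ℤ)) z.2, ω ((z.1, l), false), ?_⟩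
  rintro ⟨⟨i, j⟩, b⟩ he
  rw [lgDu_mem_dom, lgSm_mem_Fc, lgSm_mem_Fc] at he
  have hins : ∀ (f : ℤ → ℝ) (t : ℤ), -(n : ℤ) ≤ t →
      ∑ k ∈ Finset.Ico (-(n : ℤ)) (t + 1), f k = ∑ k ∈ Finset.Ico (-(n : ℤ)) t, f k + f t := by
    intro f t ht
    rw [← Finset.insert_Ico_right_eq_Ico_add_one ht, Finset.sum_insert (by simp), add_comm]
  cases b
  · simp only [Bond.snd, Bool.false_eq_true, if_false] at he ⊢
    rw [hins _ j he.1.2.1]
    ring
  · simp only [Bond.snd, if_true] at he ⊢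
    rw [hins _ i he.1.1.1]
    have h1 : ∀ l ∈ Finset.Ico (-(n : ℤ)) j, ω ((i + 1, l), false) - ω ((i, l), false)
        = (fun l : ℤ => ω ((i, l), true)) (l + 1) - (fun l : ℤ => ω ((i, l), true)) l := by
      intro l hl
      rw [Finset.mem_Ico] at hl
      have := hcl (i, l) (by rw [lgSm_mem_Fc]; simp only; omega) (by rw [lgSm_mem_Fc]; simp only; omega)
      simp only at this ⊢
      linarith
    have h2 := lgSm_tele (fun l : ℤ => ω ((i, l), true)) (-(n : ℤ)) j he.1.2.1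
    rw [← Finset.sum_congr rfl h1, Finset.sum_sub_distrib] at h2
    linarith

/-- **the conjugate function** of a primal potential with a unit source at `x` and a unit sink at `x + r e₁` -/
theorem lg_conj (n : ℕ) (g : ℤ × ℤ → ℝ) (x : ℤ × ℤ) (r : ℕ)
    (hg : ∀ c ∈ lgBx n, -lgLap g c = (if c = x then 1 else 0) - (if c = (x.1 + r, x.2) then 1 else 0)) :
    ∃ v : ℤ × ℤ → ℝ, ∀ e ∈ domBonds (lgFc n) ∅,
      v e.snd - v e.1 + 2 * Real.pi * (lgSeg x r e : ℝ) = 2 * Real.pi * lgRot g e := by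
  obtain ⟨v, hv⟩ := lg_poincare n (fun e => 2 * Real.pi * (lgRot g e - (lgSeg x r e : ℝ))) (by
    rintro ⟨i, j⟩ hz hz'
    rw [lgSm_mem_Fc] at hz hz'
    simp only at hz hz'
    have hc := hg (i + 1, j + 1) (by rw [lgSm_mem_Bx]; simp only; omega)
    have hrot : lgRot g ((i, j), true) + lgRot g ((i + 1, j), false) - lgRot g ((i, j + 1), true) - lgRot g ((i, j), false)
        = -lgLap g (i + 1, j + 1) := by
      simp only [lgRot, lgCross, lgGr, Bond.snd, lgLap, if_true, Bool.false_eq_true, if_false, add_sub_cancel_right]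
      ring
    have hseg : ((lgSeg x r ((i, j), true) : ℤ) : ℝ) + (lgSeg x r ((i + 1, j), false) : ℝ) - (lgSeg x r ((i, j + 1), true) : ℝ)
        - (lgSeg x r ((i, j), false) : ℝ)
        = (if ((i + 1, j + 1) : ℤ × ℤ) = x then 1 else 0) - (if ((i + 1, j + 1) : ℤ × ℤ) = (x.1 + r, x.2) then 1 else 0) := by
      obtain ⟨a, b⟩ := x
      simp only [lgSeg, Prod.mk.injEq, Bool.true_eq_false, false_and, if_false, true_and]
      split_ifs <;> first | omega | simp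
    simp only
    rw [hc] at hrot
    linear_combination 2 * Real.pi * (hrot - hseg))
  refine ⟨v, fun e he => ?_⟩
  rw [hv e he]
  ring

theorem lgClamp_mem (a b : ℝ) (hab : a ≤ b) (g : ℤ × ℤ → ℝ) (x : ℤ × ℤ) :
    a ≤ lgClamp a b g x ∧ lgClamp a b g x ≤ b :=
  ⟨le_max_left _ _, max_le hab (min_le_left _ _)⟩

/-- the energy of a truncated potential -/
theorem lg_clamp_dir (n : ℕ) (g : ℤ × ℤ → ℝ) (x : ℤ × ℤ) (r : ℕ) (hoff : ∀ c, c ∉ lgBx n → g c = 0)
    (hg : ∀ c ∈ lgBx n, -lgLap g c = (if c = x then 1 else 0) - (if c = (x.1 + r, x.2) then 1 else 0))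
    (a b : ℝ) (hab : a ≤ b) :
    lgDir n (lgClamp a b g) (lgClamp a b g) ≤ lgClamp a b g x - lgClamp a b g (x.1 + r, x.2) := by
  refine (lgDir_clamp n a b hab g).trans (le_of_eq ?_)
  obtain ⟨c₀, hc₀⟩ : ∃ c₀ : ℝ, c₀ = max a (min b 0) := ⟨_, rfl⟩
  have hz : ∀ c, c ∉ lgBx n → lgClamp a b g c + -c₀ = 0 := fun c hc => by
    simp only [lgClamp, hoff c hc, hc₀]; ring
  rw [← lgDir_add_const n (lgClamp a b g) g (-c₀), lg_sbp n _ g hz, ← Finset.sum_neg_distrib]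
  have e1 : ∀ c ∈ lgBx n, -((lgClamp a b g c + -c₀) * lgLap g c)
      = (if c = x then (lgClamp a b g c + -c₀) else 0) - (if c = (x.1 + r, x.2) then (lgClamp a b g c + -c₀) else 0) := by
    intro c hc
    have := hg c hc
    have h2 : lgLap g c = -((if c = x then (1 : ℝ) else 0) - (if c = (x.1 + r, x.2) then 1 else 0)) := by linarith
    rw [h2]
    split_ifs <;> ring
  rw [Finset.sum_congr rfl e1, Finset.sum_sub_distrib, Finset.sum_ite_eq', Finset.sum_ite_eq']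
  have h3 : (if x ∈ lgBx n then lgClamp a b g x + -c₀ else 0) = lgClamp a b g x + -c₀ := by
    split_ifs with h
    · rfl
    · exact (hz x h).symm
  have h4 : (if ((x.1 + r, x.2) : ℤ × ℤ) ∈ lgBx n then lgClamp a b g (x.1 + r, x.2) + -c₀ else 0)
      = lgClamp a b g (x.1 + r, x.2) + -c₀ := by
    split_ifs with h
    · rfl
    · exact (hz _ h).symm
  rw [h3, h4]
  ring

/-- **lower sandwich**: every field on `D` costs at least `4π²` times the potential drop between the walls -/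
theorem lg_sand_lower (n : ℕ) (D : Finset (ℤ × ℤ)) (hD : D ⊆ lgFc n) (g : ℤ × ℤ → ℝ) (x : ℤ × ℤ) (r : ℕ)
    (hoff : ∀ c, c ∉ lgBx n → g c = 0)
    (hg : ∀ c ∈ lgBx n, -lgLap g c = (if c = x then 1 else 0) - (if c = (x.1 + r, x.2) then 1 else 0))
    (a₁ a₀ : ℝ) (ha : a₁ ≤ a₀) (hx : a₀ ≤ g x) (hx' : g (x.1 + r, x.2) ≤ a₁)
    (hw : ∀ e : Bond, e ∉ domBonds D ∅ → lgGr (lgClamp a₁ a₀ g) (lgCross e) = 0) (v : ℤ × ℤ → ℝ) :
    4 * Real.pi ^ 2 * (a₀ - a₁) ≤ lgEn D v (lgSeg x r) := by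
  obtain ⟨ψ, hψ⟩ : ∃ ψ, ψ = lgClamp a₁ a₀ g := ⟨_, rfl⟩
  rw [← hψ] at hw
  have hψx : ψ x = a₀ := by
    rw [hψ]; simp only [lgClamp, min_eq_left hx, max_eq_right ha]
  have hψx' : ψ (x.1 + r, x.2) = a₁ := by
    rw [hψ]; simp only [lgClamp]
    exact max_eq_left ((min_le_right _ _).trans hx')
  have hE : ∑ e ∈ domBonds D ∅, lgRot ψ e ^ 2 ≤ a₀ - a₁ := by
    refine (lgRot_energy n D hD ψ).trans ?_
    have := lg_clamp_dir n g x r hoff hg a₁ a₀ ha
    rw [← hψ, hψx, hψx'] at this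
    exact this
  have hS : ∑ e ∈ domBonds D ∅, lgRot ψ e * (v e.snd - v e.1 + 2 * Real.pi * (lgSeg x r e : ℝ))
      = 2 * Real.pi * (a₀ - a₁) := by
    have h1 := lgRot_div D ψ hw v
    have h2 := lgRot_flux D ψ hw x r
    rw [hψx, hψx'] at h2
    calc ∑ e ∈ domBonds D ∅, lgRot ψ e * (v e.snd - v e.1 + 2 * Real.pi * (lgSeg x r e : ℝ))
        = ∑ e ∈ domBonds D ∅, lgRot ψ e * (v e.snd - v e.1)
          + 2 * Real.pi * ∑ e ∈ domBonds D ∅, lgRot ψ e * (lgSeg x r e : ℝ) := by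
          rw [Finset.mul_sum, ← Finset.sum_add_distrib]
          exact Finset.sum_congr rfl fun e _ => by ring
      _ = 2 * Real.pi * (a₀ - a₁) := by rw [h1, h2]; ring
  have hcs := Finset.sum_mul_sq_le_sq_mul_sq (domBonds D ∅) (lgRot ψ)
    (fun e => v e.snd - v e.1 + 2 * Real.pi * (lgSeg x r e : ℝ))
  rw [hS] at hcs
  have hEn : 0 ≤ lgEn D v (lgSeg x r) := Finset.sum_nonneg fun e _ => sq_nonneg _
  change (2 * Real.pi * (a₀ - a₁)) ^ 2 ≤ (∑ e ∈ domBonds D ∅, lgRot ψ e ^ 2) * lgEn D v (lgSeg x r) at hcs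
  rcases eq_or_lt_of_le ha with h | h
  · rw [h, sub_self, mul_zero]; exact hEn
  · have hpos : 0 < a₀ - a₁ := sub_pos.2 h
    have h3 : (2 * Real.pi * (a₀ - a₁)) ^ 2 ≤ (a₀ - a₁) * lgEn D v (lgSeg x r) :=
      hcs.trans (mul_le_mul_of_nonneg_right hE hEn)
    have h4 : (a₀ - a₁) * (4 * Real.pi ^ 2 * (a₀ - a₁)) ≤ (a₀ - a₁) * lgEn D v (lgSeg x r) := by
      calc (a₀ - a₁) * (4 * Real.pi ^ 2 * (a₀ - a₁)) = (2 * Real.pi * (a₀ - a₁)) ^ 2 := by ring
        _ ≤ _ := h3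
    exact le_of_mul_le_mul_left h4 hpos

theorem lg_domBonds_mono {D D' : Finset (ℤ × ℤ)} (h : D ⊆ D') : domBonds D ∅ ⊆ domBonds D' ∅ := by
  intro e he
  simp only [domBonds, Finset.mem_filter, Finset.mem_product, Finset.mem_univ, and_true] at he ⊢
  exact ⟨h he.1, h he.2.1, he.2.2⟩

/-- **upper sandwich**: the conjugate function of `g`, restricted to `D`, costs at most `4π²` times the oscillation of `g` over the primal vertices met by `D` -/
theorem lg_sand_upper (n : ℕ) (D : Finset (ℤ × ℤ)) (hD : D ⊆ lgFc n) (g : ℤ × ℤ → ℝ) (x : ℤ × ℤ) (r : ℕ)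
    (hoff : ∀ c, c ∉ lgBx n → g c = 0)
    (hg : ∀ c ∈ lgBx n, -lgLap g c = (if c = x then 1 else 0) - (if c = (x.1 + r, x.2) then 1 else 0))
    (a₁ a₀ : ℝ) (ha : a₁ ≤ a₀)
    (hw : ∀ e ∈ domBonds D ∅, (a₁ ≤ g (lgCross e).1 ∧ g (lgCross e).1 ≤ a₀) ∧
      (a₁ ≤ g (lgCross e).snd ∧ g (lgCross e).snd ≤ a₀)) :
    ∃ v : ℤ × ℤ → ℝ, (∀ e ∈ domBonds (lgFc n) ∅,
      v e.snd - v e.1 + 2 * Real.pi * (lgSeg x r e : ℝ) = 2 * Real.pi * lgRot g e) ∧
      lgEn D v (lgSeg x r) ≤ 4 * Real.pi ^ 2 * (a₀ - a₁) := by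
  obtain ⟨v, hv⟩ := lg_conj n g x r hg
  refine ⟨v, hv, ?_⟩
  have h1 : lgEn D v (lgSeg x r) = 4 * Real.pi ^ 2 * ∑ e ∈ domBonds D ∅, lgRot (lgClamp a₁ a₀ g) e ^ 2 := by
    unfold lgEn
    rw [Finset.mul_sum]
    refine Finset.sum_congr rfl fun e he => ?_
    rw [hv e (lg_domBonds_mono hD he)]
    have h2 : lgRot (lgClamp a₁ a₀ g) e = lgRot g e := by
      obtain ⟨⟨p1, p2⟩, p3, p4⟩ := hw e he
      unfold lgRot
      rw [lgGr_clamp_eq a₁ a₀ g (lgCross e) p1 p2 p3 p4]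
    rw [h2]; ring
  rw [h1]
  have h3 := (lgRot_energy n D hD (lgClamp a₁ a₀ g)).trans (lg_clamp_dir n g x r hoff hg a₁ a₀ ha)
  have h4 := (lgClamp_mem a₁ a₀ ha g x).2
  have h5 := (lgClamp_mem a₁ a₀ ha g (x.1 + r, x.2)).1
  have hpi : 0 ≤ 4 * Real.pi ^ 2 := by positivity
  exact mul_le_mul_of_nonneg_left (by linarith) hpi

end

end Claimed.Agent.R285.Pot
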