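import Claimed.Agent.R285.Pot.LogAsy

/-!
# ROW 285, POT-LOG: level bounds for the Green function on discs and their complements      (architect helper281)
PAPER-FREE.   From the asymptotics on ONE lattice layer (`lgG_center`, `lgG_pair`) and the maximum / minimum principle (`lg_max`, `lg_min`).
LEAVES:
* L-LOG-NORM: the elementary facts on `lgSq`, `lgSup`, `lgOne`, `lgAdj` (first block; `lgSup_sq_le`, `lgSq_nonneg` are in `LogErr`).
* L-LOG-LEVC `lg_center_min`, `lg_center_max`.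
  `min`: `S = (lgCb R).filter (lgSq · ≤ R²) ⊆ lgBx n`; `Δ G ≤ 0` on `lgBx n`; a neighbour `w ∉ S` of a point of `S` has `R² < lgSq w ≤ (R+1)²`, so `lgSup w ≥ R/2 ≥ (c/2) n` (`lgSq ≤ 2 lgSup²`), `lgSup w ≤ R+1`, `lgIn n w`, `lgOne w ≤ 2(R+1)`:
     `lgG_center (c/2) ε` gives `G w ≥ log (n²/(R+1)²)/(4π) + lgA n - ε - 2(R+1)/n`.  `log (n²/(R+1)²)/(4π) = log (n/(R+1))/(2π)`.
  `max`: `S = (lgBx n).filter (R² ≤ lgSq ·)`, `0 ∉ S`, `Δ G = 0` on `S`; a neighbour `w ∉ S`: either `w ∉ lgBx n`, `G w = 0 ≤` r.h.s. (`R - 1 < n`, `lgA n ≥ 0`), or `(R-1)² ≤ lgSq w < R²`.   Points off the box: `G = 0`.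
* L-LOG-LEVP `lg_pair_min0`, `lg_pair_max0`, `lg_pair_max1`, `lg_pair_min1`: the same with `U = lgU n r`, `-Δ U = δ_0 - δ_y`, `y = (r,0)`, and `lgG_pair (c/2) ε`;
  on the layer around `0`: `(r-R-1)² ≤ lgSq (w - y) ≤ (r+R+1)²` (triangle inequality in the form `lgSq_sub_le`, `le_lgSq_sub`).   `lgOne y = r`.   The last two: same proof around `y` (or reflect `x ↦ y - x`).
-/

set_option autoImplicit false

namespace Claimed.Agent.R285.Pot

open Filter Topology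
open scoped Classical

noncomputable section

/-! ### L-LOG-NORM -/

theorem lgSq_le_two (x : ℤ × ℤ) : lgSq x ≤ 2 * (lgSup x : ℝ) ^ 2 := by
  have h1 : (x.1 : ℝ) ^ 2 ≤ (lgSup x : ℝ) ^ 2 := by
    have : |x.1| ≤ lgSup x := le_max_left _ _
    have h : |(x.1 : ℝ)| ≤ (lgSup x : ℝ) := by exact_mod_cast this
    rw [← sq_abs]
    exact pow_le_pow_left₀ (abs_nonneg _) h 2
  have h2 : (x.2 : ℝ) ^ 2 ≤ (lgSup x : ℝ) ^ 2 := by
    have : |x.2| ≤ lgSup x := le_max_right _ _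
    have h : |(x.2 : ℝ)| ≤ (lgSup x : ℝ) := by exact_mod_cast this
    rw [← sq_abs]
    exact pow_le_pow_left₀ (abs_nonneg _) h 2
  unfold lgSq
  linarith

theorem lgSup_nonneg (x : ℤ × ℤ) : 0 ≤ lgSup x := le_max_of_le_left (abs_nonneg _)

theorem lgOne_le_two (x : ℤ × ℤ) : lgOne x ≤ 2 * lgSup x := by
  have h1 : |x.1| ≤ lgSup x := le_max_left _ _
  have h2 : |x.2| ≤ lgSup x := le_max_right _ _
  unfold lgOne
  linarith

theorem lgSup_le_lgOne (x : ℤ × ℤ) : lgSup x ≤ lgOne x := by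
  unfold lgSup lgOne
  exact max_le (by linarith [abs_nonneg x.2]) (by linarith [abs_nonneg x.1])

/-- Cauchy-Schwarz in the plane, in the form used for the triangle inequalities -/
theorem lg_cs (a b c d R R' : ℝ) (hR : 0 ≤ R) (hR' : 0 ≤ R') (hx : a ^ 2 + b ^ 2 ≤ R ^ 2) (hy : c ^ 2 + d ^ 2 ≤ R' ^ 2) :
    |a * c + b * d| ≤ R * R' := by
  have h1 : (a * c + b * d) ^ 2 ≤ (R * R') ^ 2 := by
    have h2 : (a * c + b * d) ^ 2 ≤ (a ^ 2 + b ^ 2) * (c ^ 2 + d ^ 2) := by nlinarith [sq_nonneg (a * d - b * c)]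
    have h3 : (a ^ 2 + b ^ 2) * (c ^ 2 + d ^ 2) ≤ R ^ 2 * R' ^ 2 :=
      mul_le_mul hx hy (by positivity) (by positivity)
    calc (a * c + b * d) ^ 2 ≤ _ := h2
      _ ≤ _ := h3
      _ = (R * R') ^ 2 := by ring
  exact abs_le_of_sq_le_sq h1 (by positivity)

/-- `|x| ≤ R`, `|y| ≤ R'` imply `|x ± y| ≤ R + R'` -/
theorem lgSq_sub_le (x y : ℤ × ℤ) (R R' : ℝ) (hR : 0 ≤ R) (hR' : 0 ≤ R') (hx : lgSq x ≤ R ^ 2) (hy : lgSq y ≤ R' ^ 2) :
    lgSq (x - y) ≤ (R + R') ^ 2 := by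
  unfold lgSq at *
  have h := abs_le.1 (lg_cs _ _ _ _ R R' hR hR' hx hy)
  simp only [Prod.fst_sub, Prod.snd_sub, Int.cast_sub]
  nlinarith [h.1, h.2]

/-- `|x| ≥ R`, `|y| ≤ R' ≤ R` imply `|x - y| ≥ R - R'` -/
theorem le_lgSq_sub (x y : ℤ × ℤ) (R R' : ℝ) (hR' : 0 ≤ R') (hRR : R' ≤ R) (hx : R ^ 2 ≤ lgSq x) (hy : lgSq y ≤ R' ^ 2) :
    (R - R') ^ 2 ≤ lgSq (x - y) := by
  have hs0 := Real.sqrt_nonneg (lgSq x)
  have ht0 := Real.sqrt_nonneg (lgSq y)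
  have hs : Real.sqrt (lgSq x) ^ 2 = lgSq x := Real.sq_sqrt (lgSq_nonneg x)
  have ht : Real.sqrt (lgSq y) ^ 2 = lgSq y := Real.sq_sqrt (lgSq_nonneg y)
  have hRs : R ≤ Real.sqrt (lgSq x) := Real.le_sqrt_of_sq_le hx
  have htR : Real.sqrt (lgSq y) ≤ R' := (Real.sqrt_le_left hR').2 hy
  have h := abs_le.1 (lg_cs (x.1 : ℝ) x.2 y.1 y.2 _ _ hs0 ht0 (by rw [hs]; rfl) (by rw [ht]; rfl))
  have h1 : (Real.sqrt (lgSq x) - Real.sqrt (lgSq y)) ^ 2 ≤ lgSq (x - y) := by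
    have e : lgSq (x - y) = lgSq x + lgSq y - 2 * ((x.1 : ℝ) * y.1 + x.2 * y.2) := by
      unfold lgSq
      simp only [Prod.fst_sub, Prod.snd_sub, Int.cast_sub]
      ring
    rw [e]
    nlinarith [h.2]
  refine le_trans ?_ h1
  exact pow_le_pow_left₀ (by linarith) (by linarith) 2

theorem lgAdj_lgSq_one {x y : ℤ × ℤ} (h : lgAdj x y) : lgSq (x - y) = 1 := by
  unfold lgSq
  rcases h with h | h | h | h <;> subst h <;> simp

theorem lgAdj_lgSq_le {x y : ℤ × ℤ} (h : lgAdj x y) (R : ℝ) (hR : 0 ≤ R) (hx : lgSq x ≤ R ^ 2) : lgSq y ≤ (R + 1) ^ 2 := by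
  have h1 := lgSq_sub_le x (x - y) R 1 hR zero_le_one hx (by rw [lgAdj_lgSq_one h]; norm_num)
  rwa [sub_sub_cancel] at h1

theorem lgAdj_le_lgSq {x y : ℤ × ℤ} (h : lgAdj x y) (R : ℝ) (hR : 1 ≤ R) (hx : R ^ 2 ≤ lgSq x) : (R - 1) ^ 2 ≤ lgSq y := by
  have h1 := le_lgSq_sub x (x - y) R 1 zero_le_one hR hx (by rw [lgAdj_lgSq_one h]; norm_num)
  rwa [sub_sub_cancel] at h1

theorem lgAdj_sub {x y : ℤ × ℤ} (h : lgAdj x y) (a : ℤ × ℤ) : lgAdj (x - a) (y - a) := by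
  unfold lgAdj at *
  rcases h with h | h | h | h <;> subst h
  · left; ext <;> simp; ring
  · right; left; ext <;> simp; ring
  · right; right; left; ext <;> simp; ring
  · right; right; right; ext <;> simp; ring

/-! ### L-LOG-LEVC -/

theorem lgSup_le_of_lgSq_le (x : ℤ × ℤ) (R : ℝ) (hR : 0 ≤ R) (h : lgSq x ≤ R ^ 2) : (lgSup x : ℝ) ≤ R := by
  have h1 := lgSup_sq_le x
  by_contra hcon
  push Not at hcon
  nlinarith

theorem lg_half_le_lgSup (x : ℤ × ℤ) (R : ℝ) (hR : 0 ≤ R) (h : R ^ 2 ≤ lgSq x) : R / 2 ≤ (lgSup x : ℝ) := by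
  have h1 := lgSq_le_two x
  have h2 : (0 : ℝ) ≤ (lgSup x : ℝ) := by exact_mod_cast lgSup_nonneg x
  by_contra hcon
  push Not at hcon
  nlinarith

theorem lg_log_sq_div (n r : ℝ) (hn : 0 < n) (hr : 0 < r) :
    Real.log (n ^ 2 / r ^ 2) / (4 * Real.pi) = Real.log (n / r) / (2 * Real.pi) := by
  rw [← div_pow, Real.log_pow]
  have := Real.pi_pos
  field_simp
  ring

theorem lg_center_min (c ε : ℝ) (hc : 0 < c) (hε : 0 < ε) : ∀ᶠ n : ℕ in atTop, ∀ R : ℕ, c * n ≤ R → 4 * (R + 1) ≤ 3 * n →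
    ∀ x, lgSq x ≤ (R : ℝ) ^ 2 →
      Real.log ((n : ℝ) / ((R : ℝ) + 1)) / (2 * Real.pi) + lgA n - ε - 2 * ((R : ℝ) + 1) / n ≤ lgG n 0 x := by
  filter_upwards [lgG_center (c / 2) ε (by positivity) hε, eventually_ge_atTop 4] with n hn h4 R hcR hRn x hx
  have hn0 : (0 : ℝ) < n := by
    have : (4 : ℝ) ≤ n := by exact_mod_cast h4
    linarith
  have hR0 : (0 : ℝ) ≤ (R : ℝ) := Nat.cast_nonneg R
  have hpi := Real.pi_pos
  have hmem : ∀ y : ℤ × ℤ, lgSq y ≤ (R : ℝ) ^ 2 → y ∈ (lgCb R).filter (fun y => lgSq y ≤ (R : ℝ) ^ 2) := by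
    intro y hy
    refine Finset.mem_filter.2 ⟨mem_lgCb.2 ?_, hy⟩
    have := lgSup_le_of_lgSq_le y R hR0 hy
    exact_mod_cast this
  refine lg_min ((lgCb R).filter (fun y => lgSq y ≤ (R : ℝ) ^ 2)) (lgG n 0) _ ?_ ?_ x (hmem x hx)
  · intro y hy
    have hy1 := mem_lgCb.1 (Finset.mem_filter.1 hy).1
    have hyB : y ∈ lgBx n := by
      rw [mem_lgBx]
      omega
    rw [lgG_lap' n 0 hyB]
    split_ifs <;> norm_num
  · intro y hy w hyw hw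
    have hy2 := (Finset.mem_filter.1 hy).2
    have hw1 : lgSq w ≤ ((R : ℝ) + 1) ^ 2 := lgAdj_lgSq_le hyw R hR0 hy2
    have hw2 : (R : ℝ) ^ 2 < lgSq w := by
      by_contra hcon
      exact hw (hmem w (not_lt.1 hcon))
    have hw3 : (R : ℝ) / 2 ≤ (lgSup w : ℝ) := lg_half_le_lgSup w R hR0 hw2.le
    have hw4 : (lgSup w : ℝ) ≤ (R : ℝ) + 1 := lgSup_le_of_lgSq_le w _ (by positivity) hw1
    have hw4' : lgSup w ≤ (R : ℤ) + 1 := by exact_mod_cast hw4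
    have hin : lgIn n w := by
      unfold lgIn
      omega
    have hone : (lgOne w : ℝ) ≤ 2 * ((R : ℝ) + 1) := by
      have h1 : (lgOne w : ℝ) ≤ 2 * (lgSup w : ℝ) := by exact_mod_cast lgOne_le_two w
      linarith
    have hpos : 0 < lgSq w := lt_of_le_of_lt (by positivity) hw2
    have hmain := hn w hin (by linarith)
    have hlog : Real.log ((n : ℝ) / ((R : ℝ) + 1)) / (2 * Real.pi)
        ≤ Real.log ((n : ℝ) ^ 2 / lgSq w) / (4 * Real.pi) := by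
      rw [← lg_log_sq_div (n : ℝ) ((R : ℝ) + 1) hn0 (by positivity)]
      refine div_le_div_of_nonneg_right (Real.log_le_log (by positivity) ?_) (by positivity)
      exact div_le_div_of_nonneg_left (by positivity) hpos hw1
    have hdiv : (lgOne w : ℝ) / n ≤ 2 * ((R : ℝ) + 1) / n := div_le_div_of_nonneg_right hone hn0.le
    have := (abs_le.1 hmain).1
    linarith

theorem lg_center_max (c ε : ℝ) (hc : 0 < c) (hε : 0 < ε) : ∀ᶠ n : ℕ in atTop, ∀ R : ℕ, c * n + 1 ≤ R → 4 * R ≤ 3 * n →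
    ∀ x, (R : ℝ) ^ 2 ≤ lgSq x →
      lgG n 0 x ≤ Real.log ((n : ℝ) / ((R : ℝ) - 1)) / (2 * Real.pi) + lgA n + ε + 2 * (R : ℝ) / n := by
  filter_upwards [lgG_center (c / 2) ε (by positivity) hε, eventually_ge_atTop 4] with n hn h4 R hcR hRn x hx
  have hn0 : (0 : ℝ) < n := by
    have : (4 : ℝ) ≤ n := by exact_mod_cast h4
    linarith
  have hR0 : (0 : ℝ) ≤ (R : ℝ) := Nat.cast_nonneg R
  have hcn : 0 < c * n := mul_pos hc hn0
  have hR1 : (0 : ℝ) < (R : ℝ) - 1 := by linarith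
  have hRn' : 4 * (R : ℝ) ≤ 3 * n := by exact_mod_cast hRn
  have hpi := Real.pi_pos
  have hA := (lgA_bounds n (by omega)).1
  have hrhs : 0 ≤ Real.log ((n : ℝ) / ((R : ℝ) - 1)) / (2 * Real.pi) + lgA n + ε + 2 * (R : ℝ) / n := by
    have h1 : 0 ≤ Real.log ((n : ℝ) / ((R : ℝ) - 1)) := by
      refine Real.log_nonneg ?_
      rw [one_le_div hR1]
      linarith
    have h2 : 0 ≤ Real.log ((n : ℝ) / ((R : ℝ) - 1)) / (2 * Real.pi) := by positivity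
    have h3 : 0 ≤ 2 * (R : ℝ) / n := by positivity
    linarith
  by_cases hxB : x ∈ lgBx n
  swap
  · rw [lgG_off n 0 hxB]
    exact hrhs
  refine lg_max ((lgBx n).filter (fun y => (R : ℝ) ^ 2 ≤ lgSq y)) (lgG n 0) _ ?_ ?_ x
    (Finset.mem_filter.2 ⟨hxB, hx⟩)
  · intro y hy
    have hyB := (Finset.mem_filter.1 hy).1
    have hy2 := (Finset.mem_filter.1 hy).2
    have hy0 : y ≠ 0 := by
      rintro rfl
      have : lgSq 0 = 0 := by simp [lgSq]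
      rw [this] at hy2
      nlinarith
    rw [lgG_lap' n 0 hyB, if_neg hy0, neg_zero]
  · intro y hy w hyw hw
    have hy2 := (Finset.mem_filter.1 hy).2
    by_cases hwB : w ∈ lgBx n
    swap
    · rw [lgG_off n 0 hwB]
      exact hrhs
    have hw2 : lgSq w < (R : ℝ) ^ 2 := by
      by_contra hcon
      exact hw (Finset.mem_filter.2 ⟨hwB, not_lt.1 hcon⟩)
    have hw1 : ((R : ℝ) - 1) ^ 2 ≤ lgSq w := lgAdj_le_lgSq hyw R (by linarith) hy2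
    have hw3 : ((R : ℝ) - 1) / 2 ≤ (lgSup w : ℝ) := lg_half_le_lgSup w _ hR1.le hw1
    have hw4 : (lgSup w : ℝ) ≤ (R : ℝ) := lgSup_le_of_lgSq_le w _ hR0 hw2.le
    have hw4' : lgSup w ≤ (R : ℤ) := by exact_mod_cast hw4
    have hin : lgIn n w := by
      unfold lgIn
      omega
    have hone : (lgOne w : ℝ) ≤ 2 * (R : ℝ) := by
      have h1 : (lgOne w : ℝ) ≤ 2 * (lgSup w : ℝ) := by exact_mod_cast lgOne_le_two w
      linarith
    have hpos : 0 < lgSq w := lt_of_lt_of_le (by positivity) hw1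
    have hmain := hn w hin (by linarith)
    have hlog : Real.log ((n : ℝ) ^ 2 / lgSq w) / (4 * Real.pi)
        ≤ Real.log ((n : ℝ) / ((R : ℝ) - 1)) / (2 * Real.pi) := by
      rw [← lg_log_sq_div (n : ℝ) ((R : ℝ) - 1) hn0 hR1]
      refine div_le_div_of_nonneg_right (Real.log_le_log (by positivity) ?_) (by positivity)
      exact div_le_div_of_nonneg_left (by positivity) (by positivity) hw1
    have hdiv : (lgOne w : ℝ) / n ≤ 2 * (R : ℝ) / n := div_le_div_of_nonneg_right hone hn0.le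
    have := (abs_le.1 hmain).2
    linarith

/-! ### L-LOG-LEVP -/

/-- the potential of a unit source at `0` and a unit sink at `(r,0)` in the box `lgBx n` -/
def lgU (n r : ℕ) : ℤ × ℤ → ℝ := fun x => lgG n 0 x - lgG n ((r : ℤ), 0) x

theorem lgSq_sub_comm (a b : ℤ × ℤ) : lgSq (a - b) = lgSq (b - a) := by
  unfold lgSq
  simp only [Prod.fst_sub, Prod.snd_sub]
  push_cast
  ring

theorem lgSq_pole (r : ℕ) : lgSq ((r : ℤ), 0) = (r : ℝ) ^ 2 := by simp [lgSq]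

theorem lgSup_pole (r : ℕ) : lgSup ((r : ℤ), 0) = r := by simp [lgSup]

theorem lgOne_pole (r : ℕ) : lgOne ((r : ℤ), 0) = r := by simp [lgOne]

theorem lgSup_le_add_pole (x : ℤ × ℤ) (r : ℕ) : lgSup x ≤ lgSup (x - ((r : ℤ), 0)) + r := by
  unfold lgSup
  simp only [Prod.fst_sub, Prod.snd_sub, sub_zero]
  have h1 := le_max_left |x.1 - (r : ℤ)| |x.2|
  have h2 := le_max_right |x.1 - (r : ℤ)| |x.2|
  have h3 : |x.1| ≤ |x.1 - (r : ℤ)| + r := by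
    rcases abs_cases x.1 with h | h <;> rcases abs_cases (x.1 - (r : ℤ)) with h' | h' <;> omega
  exact max_le (by omega) (by omega)

theorem lgU_lap_aux (n r : ℕ) {v : ℤ × ℤ} (hv : v ∈ lgBx n) :
    lgLap (lgU n r) v = -(if v = (0 : ℤ × ℤ) then 1 else 0) + (if v = ((r : ℤ), 0) then 1 else 0) := by
  have h3 : lgLap (lgU n r) v = lgLap (lgG n 0) v - lgLap (lgG n ((r : ℤ), 0)) v := lgLap_sub _ _ v
  rw [h3, lgG_lap' n 0 hv, lgG_lap' n _ hv]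
  ring

theorem lgU_off_aux (n r : ℕ) {x : ℤ × ℤ} (hx : x ∉ lgBx n) : lgU n r x = 0 := by
  unfold lgU
  rw [lgG_off n _ hx, lgG_off n _ hx, sub_zero]

/-- the pair asymptotics on a layer `α ≤ |w| ≤ β`, `γ ≤ |w - y|` -/
theorem lg_pair_core {c ε : ℝ} {n : ℕ} (hc : 0 < c) (hn0 : 0 < n)
    (hn : ∀ y x : ℤ × ℤ, 4 * lgSup y ≤ n → lgIn n x → c / 2 * n ≤ (lgSup x : ℝ) → c / 2 * n ≤ (lgSup (x - y) : ℝ) →
      |lgG n 0 x - lgG n y x - Real.log (lgSq (x - y) / lgSq x) / (4 * Real.pi)| ≤ ε + (lgOne y : ℝ) / n)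
    (r : ℕ) (hr : 4 * r ≤ n) (w : ℤ × ℤ) (α β γ : ℝ) (hα : c * n ≤ α) (hγ : c * n ≤ γ) (hβ : 0 ≤ β)
    (hβn : 16 * β ≤ 15 * n) (h1 : α ^ 2 ≤ lgSq w) (h2 : lgSq w ≤ β ^ 2) (h3 : γ ^ 2 ≤ lgSq (w - ((r : ℤ), 0))) :
    |lgU n r w - Real.log (lgSq (w - ((r : ℤ), 0)) / lgSq w) / (4 * Real.pi)| ≤ ε + (r : ℝ) / n := by
  have hn0' : (0 : ℝ) < n := by exact_mod_cast hn0
  have hcn : 0 < c * n := mul_pos hc hn0'
  have e1 : α / 2 ≤ (lgSup w : ℝ) := lg_half_le_lgSup w α (by linarith) h1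
  have e2 : γ / 2 ≤ (lgSup (w - ((r : ℤ), 0)) : ℝ) := lg_half_le_lgSup _ γ (by linarith) h3
  have e3 : (lgSup w : ℝ) ≤ β := lgSup_le_of_lgSq_le w β hβ h2
  have hin : lgIn n w := by
    unfold lgIn
    have : (16 : ℝ) * (lgSup w : ℝ) ≤ 15 * (n : ℝ) := by linarith
    exact_mod_cast this
  have hy : 4 * lgSup ((r : ℤ), 0) ≤ n := by
    rw [lgSup_pole]
    exact_mod_cast hr
  have := hn ((r : ℤ), 0) w hy hin (by linarith) (by linarith)
  rw [lgOne_pole] at this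
  simpa [lgU] using this

theorem lg_pair_lower {c ε : ℝ} {n : ℕ} (hc : 0 < c) (hn0 : 0 < n)
    (hn : ∀ y x : ℤ × ℤ, 4 * lgSup y ≤ n → lgIn n x → c / 2 * n ≤ (lgSup x : ℝ) → c / 2 * n ≤ (lgSup (x - y) : ℝ) →
      |lgG n 0 x - lgG n y x - Real.log (lgSq (x - y) / lgSq x) / (4 * Real.pi)| ≤ ε + (lgOne y : ℝ) / n)
    (r : ℕ) (hr : 4 * r ≤ n) (w : ℤ × ℤ) (α β γ : ℝ) (hα : c * n ≤ α) (hγ : c * n ≤ γ) (hβ : 0 ≤ β)
    (hβn : 16 * β ≤ 15 * n) (h1 : α ^ 2 ≤ lgSq w) (h2 : lgSq w ≤ β ^ 2) (h3 : γ ^ 2 ≤ lgSq (w - ((r : ℤ), 0))) :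
    Real.log (γ / β) / (2 * Real.pi) - ε - (r : ℝ) / n ≤ lgU n r w := by
  have hcore := lg_pair_core hc hn0 hn r hr w α β γ hα hγ hβ hβn h1 h2 h3
  have hn0' : (0 : ℝ) < n := by exact_mod_cast hn0
  have hcn : 0 < c * n := mul_pos hc hn0'
  have hα0 : 0 < α := by linarith
  have hγ0 : 0 < γ := by linarith
  have hw : 0 < lgSq w := lt_of_lt_of_le (by positivity) h1
  have hβ0 : 0 < β := by
    rcases hβ.lt_or_eq with h | h
    · exact h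
    · rw [← h] at h2
      norm_num at h2
      linarith
  have hpi := Real.pi_pos
  have hlog : Real.log (γ / β) / (2 * Real.pi)
      ≤ Real.log (lgSq (w - ((r : ℤ), 0)) / lgSq w) / (4 * Real.pi) := by
    rw [← lg_log_sq_div γ β hγ0 hβ0]
    refine div_le_div_of_nonneg_right (Real.log_le_log (by positivity) ?_) (by positivity)
    exact div_le_div₀ (lgSq_nonneg _) h3 hw h2
  have := (abs_le.1 hcore).1
  linarith

theorem lg_pair_upper {c ε : ℝ} {n : ℕ} (hc : 0 < c) (hn0 : 0 < n)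
    (hn : ∀ y x : ℤ × ℤ, 4 * lgSup y ≤ n → lgIn n x → c / 2 * n ≤ (lgSup x : ℝ) → c / 2 * n ≤ (lgSup (x - y) : ℝ) →
      |lgG n 0 x - lgG n y x - Real.log (lgSq (x - y) / lgSq x) / (4 * Real.pi)| ≤ ε + (lgOne y : ℝ) / n)
    (r : ℕ) (hr : 4 * r ≤ n) (w : ℤ × ℤ) (α β γ δ : ℝ) (hα : c * n ≤ α) (hγ : c * n ≤ γ) (hβ : 0 ≤ β)
    (hβn : 16 * β ≤ 15 * n) (h1 : α ^ 2 ≤ lgSq w) (h2 : lgSq w ≤ β ^ 2) (h3 : γ ^ 2 ≤ lgSq (w - ((r : ℤ), 0)))
    (hδ : 0 ≤ δ) (h4 : lgSq (w - ((r : ℤ), 0)) ≤ δ ^ 2) :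
    lgU n r w ≤ Real.log (δ / α) / (2 * Real.pi) + ε + (r : ℝ) / n := by
  have hcore := lg_pair_core hc hn0 hn r hr w α β γ hα hγ hβ hβn h1 h2 h3
  have hn0' : (0 : ℝ) < n := by exact_mod_cast hn0
  have hcn : 0 < c * n := mul_pos hc hn0'
  have hα0 : 0 < α := by linarith
  have hγ0 : 0 < γ := by linarith
  have hw : 0 < lgSq w := lt_of_lt_of_le (by positivity) h1
  have hwy : 0 < lgSq (w - ((r : ℤ), 0)) := lt_of_lt_of_le (by positivity) h3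
  have hδ0 : 0 < δ := by
    rcases hδ.lt_or_eq with h | h
    · exact h
    · rw [← h] at h4
      norm_num at h4
      linarith
  have hpi := Real.pi_pos
  have hlog : Real.log (lgSq (w - ((r : ℤ), 0)) / lgSq w) / (4 * Real.pi)
      ≤ Real.log (δ / α) / (2 * Real.pi) := by
    rw [← lg_log_sq_div δ α hδ0 hα0]
    refine div_le_div_of_nonneg_right (Real.log_le_log (by positivity) ?_) (by positivity)
    exact div_le_div₀ (by positivity) h4 (by positivity) h1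
  have := (abs_le.1 hcore).2
  linarith

theorem lg_log_div_swap (a b : ℝ) : Real.log (a / b) = -Real.log (b / a) := by
  rw [← Real.log_inv, inv_div]

theorem lg_pair_min0 (c ε : ℝ) (hc : 0 < c) (hε : 0 < ε) : ∀ᶠ n : ℕ in atTop, ∀ r R : ℕ, 4 * r ≤ n → c * n ≤ R →
    2 * (R + 1) ≤ r → ∀ x, lgSq x ≤ (R : ℝ) ^ 2 →
      Real.log (((r : ℝ) - R - 1) / ((R : ℝ) + 1)) / (2 * Real.pi) - ε - (r : ℝ) / n ≤ lgU n r x := by
  filter_upwards [lgG_pair (c / 2) ε (by positivity) hε, eventually_ge_atTop 4] with n hn h4 r R hr hcR hRr x hx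
  have hR0 : (0 : ℝ) ≤ (R : ℝ) := Nat.cast_nonneg R
  have hr' : 4 * (r : ℝ) ≤ n := by exact_mod_cast hr
  have hRr' : 2 * ((R : ℝ) + 1) ≤ r := by exact_mod_cast hRr
  have hmem : ∀ y : ℤ × ℤ, lgSq y ≤ (R : ℝ) ^ 2 → y ∈ (lgCb R).filter (fun y => lgSq y ≤ (R : ℝ) ^ 2) := by
    intro y hy
    refine Finset.mem_filter.2 ⟨mem_lgCb.2 ?_, hy⟩
    have := lgSup_le_of_lgSq_le y R hR0 hy
    exact_mod_cast this
  refine lg_min ((lgCb R).filter (fun y => lgSq y ≤ (R : ℝ) ^ 2)) (lgU n r) _ ?_ ?_ x (hmem x hx)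
  · intro v hv
    have hv1 := mem_lgCb.1 (Finset.mem_filter.1 hv).1
    have hv2 := (Finset.mem_filter.1 hv).2
    have hvB : v ∈ lgBx n := by
      rw [mem_lgBx]
      omega
    have hvy : v ≠ ((r : ℤ), 0) := by
      rintro rfl
      rw [lgSq_pole] at hv2
      nlinarith
    rw [lgU_lap_aux n r hvB, if_neg hvy]
    split_ifs <;> norm_num
  · intro v hv w hvw hw
    have hv2 := (Finset.mem_filter.1 hv).2
    have hw1 : lgSq w ≤ ((R : ℝ) + 1) ^ 2 := lgAdj_lgSq_le hvw R hR0 hv2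
    have hw2 : (R : ℝ) ^ 2 < lgSq w := by
      by_contra hcon
      exact hw (hmem w (not_lt.1 hcon))
    have hw3 : ((r : ℝ) - ((R : ℝ) + 1)) ^ 2 ≤ lgSq (w - ((r : ℤ), 0)) := by
      rw [lgSq_sub_comm]
      exact le_lgSq_sub _ w r ((R : ℝ) + 1) (by positivity) (by linarith) (lgSq_pole r).ge hw1
    have e : (r : ℝ) - R - 1 = (r : ℝ) - ((R : ℝ) + 1) := by ring
    rw [e]
    exact lg_pair_lower hc (by omega) hn r hr w R ((R : ℝ) + 1) _ hcR (by linarith) (by positivity) (by linarith)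
      hw2.le hw1 hw3

theorem lg_pair_max0 (c ε : ℝ) (hc : 0 < c) (hε : 0 < ε) : ∀ᶠ n : ℕ in atTop, ∀ r R : ℕ, 4 * r ≤ n → c * n + 1 ≤ R →
    2 * (R + 1) ≤ r → ∀ x, (R : ℝ) ^ 2 ≤ lgSq x →
      lgU n r x ≤ Real.log (((r : ℝ) + R) / ((R : ℝ) - 1)) / (2 * Real.pi) + ε + (r : ℝ) / n := by
  filter_upwards [lgG_pair (c / 2) ε (by positivity) hε, eventually_ge_atTop 4] with n hn h4 r R hr hcR hRr x hx
  have hn0 : (0 : ℝ) < n := by
    have : (4 : ℝ) ≤ n := by exact_mod_cast h4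
    linarith
  have hR0 : (0 : ℝ) ≤ (R : ℝ) := Nat.cast_nonneg R
  have hr0 : (0 : ℝ) ≤ (r : ℝ) := Nat.cast_nonneg r
  have hr' : 4 * (r : ℝ) ≤ n := by exact_mod_cast hr
  have hRr' : 2 * ((R : ℝ) + 1) ≤ r := by exact_mod_cast hRr
  have hcn : 0 < c * n := mul_pos hc hn0
  have hR1 : (0 : ℝ) < (R : ℝ) - 1 := by linarith
  have hpi := Real.pi_pos
  have hrhs : 0 ≤ Real.log (((r : ℝ) + R) / ((R : ℝ) - 1)) / (2 * Real.pi) + ε + (r : ℝ) / n := by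
    have h1 : 0 ≤ Real.log (((r : ℝ) + R) / ((R : ℝ) - 1)) := by
      refine Real.log_nonneg ?_
      rw [one_le_div hR1]
      linarith
    have h2 : 0 ≤ Real.log (((r : ℝ) + R) / ((R : ℝ) - 1)) / (2 * Real.pi) := by positivity
    have h3 : 0 ≤ (r : ℝ) / n := by positivity
    linarith
  by_cases hxB : x ∈ lgBx n
  swap
  · rw [lgU_off_aux n r hxB]
    exact hrhs
  refine lg_max ((lgBx n).filter (fun y => (R : ℝ) ^ 2 ≤ lgSq y)) (lgU n r) _ ?_ ?_ x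
    (Finset.mem_filter.2 ⟨hxB, hx⟩)
  · intro v hv
    have hvB := (Finset.mem_filter.1 hv).1
    have hv2 := (Finset.mem_filter.1 hv).2
    have hv0 : v ≠ 0 := by
      rintro rfl
      have : lgSq 0 = 0 := by simp [lgSq]
      rw [this] at hv2
      nlinarith
    rw [lgU_lap_aux n r hvB, if_neg hv0]
    split_ifs <;> norm_num
  · intro v hv w hvw hw
    have hv2 := (Finset.mem_filter.1 hv).2
    by_cases hwB : w ∈ lgBx n
    swap
    · rw [lgU_off_aux n r hwB]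
      exact hrhs
    have hw2 : lgSq w < (R : ℝ) ^ 2 := by
      by_contra hcon
      exact hw (Finset.mem_filter.2 ⟨hwB, not_lt.1 hcon⟩)
    have hw1 : ((R : ℝ) - 1) ^ 2 ≤ lgSq w := lgAdj_le_lgSq hvw R (by linarith) hv2
    have hw3 : ((r : ℝ) - (R : ℝ)) ^ 2 ≤ lgSq (w - ((r : ℤ), 0)) := by
      rw [lgSq_sub_comm]
      exact le_lgSq_sub _ w r (R : ℝ) hR0 (by linarith) (lgSq_pole r).ge hw2.le
    have hw4 : lgSq (w - ((r : ℤ), 0)) ≤ ((r : ℝ) + R) ^ 2 := by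
      have := lgSq_sub_le w ((r : ℤ), 0) R r hR0 hr0 hw2.le (lgSq_pole r).le
      rwa [add_comm] at this
    exact lg_pair_upper hc (by omega) hn r hr w ((R : ℝ) - 1) R ((r : ℝ) - R) _ (by linarith) (by linarith) hR0
      (by linarith) hw1 hw2.le hw3 (by positivity) hw4

theorem lg_pair_max1 (c ε : ℝ) (hc : 0 < c) (hε : 0 < ε) : ∀ᶠ n : ℕ in atTop, ∀ r R : ℕ, 4 * r ≤ n → c * n ≤ R →
    2 * (R + 1) ≤ r → ∀ x, lgSq (x - ((r : ℤ), 0)) ≤ (R : ℝ) ^ 2 →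
      lgU n r x ≤ -(Real.log (((r : ℝ) - R - 1) / ((R : ℝ) + 1)) / (2 * Real.pi) - ε - (r : ℝ) / n) := by
  filter_upwards [lgG_pair (c / 2) ε (by positivity) hε, eventually_ge_atTop 4] with n hn h4 r R hr hcR hRr x hx
  have hR0 : (0 : ℝ) ≤ (R : ℝ) := Nat.cast_nonneg R
  have hr0 : (0 : ℝ) ≤ (r : ℝ) := Nat.cast_nonneg r
  have hr' : 4 * (r : ℝ) ≤ n := by exact_mod_cast hr
  have hRr' : 2 * ((R : ℝ) + 1) ≤ r := by exact_mod_cast hRr
  have hbox : ∀ y : ℤ × ℤ, lgSq (y - ((r : ℤ), 0)) ≤ ((R : ℝ) + 1) ^ 2 → y ∈ lgBx n := by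
    intro y hy
    have h1 := lgSup_le_of_lgSq_le _ ((R : ℝ) + 1) (by positivity) hy
    have h1' : lgSup (y - ((r : ℤ), 0)) ≤ (R : ℤ) + 1 := by exact_mod_cast h1
    have h2 := lgSup_le_add_pole y r
    rw [mem_lgBx]
    omega
  have hmem : ∀ y : ℤ × ℤ, lgSq (y - ((r : ℤ), 0)) ≤ (R : ℝ) ^ 2 →
      y ∈ (lgBx n).filter (fun y => lgSq (y - ((r : ℤ), 0)) ≤ (R : ℝ) ^ 2) := by
    intro y hy
    refine Finset.mem_filter.2 ⟨hbox y (hy.trans ?_), hy⟩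
    nlinarith
  refine lg_max ((lgBx n).filter (fun y => lgSq (y - ((r : ℤ), 0)) ≤ (R : ℝ) ^ 2)) (lgU n r) _ ?_ ?_ x (hmem x hx)
  · intro v hv
    have hvB := (Finset.mem_filter.1 hv).1
    have hv2 := (Finset.mem_filter.1 hv).2
    have hv0 : v ≠ 0 := by
      rintro rfl
      rw [lgSq_sub_comm, sub_zero, lgSq_pole] at hv2
      nlinarith
    rw [lgU_lap_aux n r hvB, if_neg hv0]
    split_ifs <;> norm_num
  · intro v hv w hvw hw
    have hv2 := (Finset.mem_filter.1 hv).2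
    have hw1 : lgSq (w - ((r : ℤ), 0)) ≤ ((R : ℝ) + 1) ^ 2 := lgAdj_lgSq_le (lgAdj_sub hvw _) R hR0 hv2
    have hw2 : (R : ℝ) ^ 2 < lgSq (w - ((r : ℤ), 0)) := by
      by_contra hcon
      exact hw (hmem w (not_lt.1 hcon))
    have hw1' : lgSq (((r : ℤ), 0) - w) ≤ ((R : ℝ) + 1) ^ 2 := by rwa [lgSq_sub_comm]
    have hw3 : ((r : ℝ) - ((R : ℝ) + 1)) ^ 2 ≤ lgSq w := by
      have := le_lgSq_sub ((r : ℤ), 0) (((r : ℤ), 0) - w) r ((R : ℝ) + 1) (by positivity) (by linarith)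
        (lgSq_pole r).ge hw1'
      rwa [sub_sub_cancel] at this
    have hw4 : lgSq w ≤ ((r : ℝ) + ((R : ℝ) + 1)) ^ 2 := by
      have := lgSq_sub_le ((r : ℤ), 0) (((r : ℤ), 0) - w) r ((R : ℝ) + 1) hr0 (by positivity)
        (lgSq_pole r).le hw1'
      rwa [sub_sub_cancel] at this
    have hup := lg_pair_upper hc (by omega) hn r hr w ((r : ℝ) - ((R : ℝ) + 1)) ((r : ℝ) + ((R : ℝ) + 1)) R
      ((R : ℝ) + 1) (by linarith) hcR (by positivity) (by linarith) hw3 hw4 hw2.le (by positivity) hw1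
    have e : (r : ℝ) - R - 1 = (r : ℝ) - ((R : ℝ) + 1) := by ring
    rw [e, lg_log_div_swap ((r : ℝ) - ((R : ℝ) + 1)) ((R : ℝ) + 1)]
    have e2 : -(-Real.log (((R : ℝ) + 1) / ((r : ℝ) - ((R : ℝ) + 1))) / (2 * Real.pi) - ε - (r : ℝ) / n)
        = Real.log (((R : ℝ) + 1) / ((r : ℝ) - ((R : ℝ) + 1))) / (2 * Real.pi) + ε + (r : ℝ) / n := by ring
    rw [e2]
    exact hup

theorem lg_pair_min1 (c ε : ℝ) (hc : 0 < c) (hε : 0 < ε) : ∀ᶠ n : ℕ in atTop, ∀ r R : ℕ, 4 * r ≤ n → c * n + 1 ≤ R →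
    2 * (R + 1) ≤ r → ∀ x, (R : ℝ) ^ 2 ≤ lgSq (x - ((r : ℤ), 0)) →
      -(Real.log (((r : ℝ) + R) / ((R : ℝ) - 1)) / (2 * Real.pi) + ε + (r : ℝ) / n) ≤ lgU n r x := by
  filter_upwards [lgG_pair (c / 2) ε (by positivity) hε, eventually_ge_atTop 4] with n hn h4 r R hr hcR hRr x hx
  have hn0 : (0 : ℝ) < n := by
    have : (4 : ℝ) ≤ n := by exact_mod_cast h4
    linarith
  have hR0 : (0 : ℝ) ≤ (R : ℝ) := Nat.cast_nonneg R
  have hr0 : (0 : ℝ) ≤ (r : ℝ) := Nat.cast_nonneg r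
  have hr' : 4 * (r : ℝ) ≤ n := by exact_mod_cast hr
  have hRr' : 2 * ((R : ℝ) + 1) ≤ r := by exact_mod_cast hRr
  have hcn : 0 < c * n := mul_pos hc hn0
  have hR1 : (0 : ℝ) < (R : ℝ) - 1 := by linarith
  have hpi := Real.pi_pos
  have hrhs : -(Real.log (((r : ℝ) + R) / ((R : ℝ) - 1)) / (2 * Real.pi) + ε + (r : ℝ) / n) ≤ 0 := by
    have h1 : 0 ≤ Real.log (((r : ℝ) + R) / ((R : ℝ) - 1)) := by
      refine Real.log_nonneg ?_
      rw [one_le_div hR1]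
      linarith
    have h2 : 0 ≤ Real.log (((r : ℝ) + R) / ((R : ℝ) - 1)) / (2 * Real.pi) := by positivity
    have h3 : 0 ≤ (r : ℝ) / n := by positivity
    linarith
  by_cases hxB : x ∈ lgBx n
  swap
  · rw [lgU_off_aux n r hxB]
    exact hrhs
  refine lg_min ((lgBx n).filter (fun y => (R : ℝ) ^ 2 ≤ lgSq (y - ((r : ℤ), 0)))) (lgU n r) _ ?_ ?_ x
    (Finset.mem_filter.2 ⟨hxB, hx⟩)
  · intro v hv
    have hvB := (Finset.mem_filter.1 hv).1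
    have hv2 := (Finset.mem_filter.1 hv).2
    have hvy : v ≠ ((r : ℤ), 0) := by
      rintro rfl
      have : lgSq 0 = 0 := by simp [lgSq]
      rw [sub_self, this] at hv2
      nlinarith
    rw [lgU_lap_aux n r hvB, if_neg hvy]
    split_ifs <;> norm_num
  · intro v hv w hvw hw
    have hv2 := (Finset.mem_filter.1 hv).2
    by_cases hwB : w ∈ lgBx n
    swap
    · rw [lgU_off_aux n r hwB]
      exact hrhs
    have hw2 : lgSq (w - ((r : ℤ), 0)) < (R : ℝ) ^ 2 := by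
      by_contra hcon
      exact hw (Finset.mem_filter.2 ⟨hwB, not_lt.1 hcon⟩)
    have hw1 : ((R : ℝ) - 1) ^ 2 ≤ lgSq (w - ((r : ℤ), 0)) := lgAdj_le_lgSq (lgAdj_sub hvw _) R (by linarith) hv2
    have hw2' : lgSq (((r : ℤ), 0) - w) ≤ (R : ℝ) ^ 2 := by
      rw [lgSq_sub_comm]
      exact hw2.le
    have hw3 : ((r : ℝ) - (R : ℝ)) ^ 2 ≤ lgSq w := by
      have := le_lgSq_sub ((r : ℤ), 0) (((r : ℤ), 0) - w) r (R : ℝ) hR0 (by linarith) (lgSq_pole r).ge hw2'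
      rwa [sub_sub_cancel] at this
    have hw4 : lgSq w ≤ ((r : ℝ) + (R : ℝ)) ^ 2 := by
      have := lgSq_sub_le ((r : ℤ), 0) (((r : ℤ), 0) - w) r (R : ℝ) hr0 hR0 (lgSq_pole r).le hw2'
      rwa [sub_sub_cancel] at this
    have hlo := lg_pair_lower hc (by omega) hn r hr w ((r : ℝ) - (R : ℝ)) ((r : ℝ) + (R : ℝ)) ((R : ℝ) - 1)
      (by linarith) (by linarith) (by positivity) (by linarith) hw3 hw4 hw1
    rw [lg_log_div_swap ((r : ℝ) + R) ((R : ℝ) - 1)]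
    have e2 : -(-Real.log (((R : ℝ) - 1) / ((r : ℝ) + R)) / (2 * Real.pi) + ε + (r : ℝ) / n)
        = Real.log (((R : ℝ) - 1) / ((r : ℝ) + R)) / (2 * Real.pi) - ε - (r : ℝ) / n := by ring
    rw [e2]
    exact hlo

theorem lgU_off (n r : ℕ) {x : ℤ × ℤ} (hx : x ∉ lgBx n) : lgU n r x = 0 := by
  unfold lgU
  rw [lgG_off n _ hx, lgG_off n _ hx, sub_zero]

theorem lgU_lap (n r : ℕ) {c : ℤ × ℤ} (hc : c ∈ lgBx n) :
    -lgLap (lgU n r) c = (if c = (0 : ℤ × ℤ) then 1 else 0) - (if c = ((0 : ℤ × ℤ).1 + (r : ℤ), (0 : ℤ × ℤ).2) then 1 else 0) := by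
  have h1 := lgG_lap n 0 hc
  have h2 := lgG_lap n ((r : ℤ), 0) hc
  have h3 : lgLap (lgU n r) c = lgLap (lgG n 0) c - lgLap (lgG n ((r : ℤ), 0)) c := lgLap_sub _ _ c
  have h4 : (((0 : ℤ × ℤ).1 + (r : ℤ), (0 : ℤ × ℤ).2) : ℤ × ℤ) = ((r : ℤ), 0) := by simp
  rw [h3, h4, ← h1, ← h2]
  ring

end

end Claimed.Agent.R285.Pot
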