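import Claimed.Agent.R285.Pot.LogStair
import Claimed.Agent.R285.Pot.LogDual
import Claimed.Agent.R285.Pot.LogLev
import Claimed.Agent.R285.Pot.LogConst

/-!
# ROW 285, POT-LOG: the centre exterior: `F23.PotCenter`      (architect helper281)
GLUE (proved here): `lg_center_sand` (sandwich + level bounds + staircase geometry).
LEAF L-LOG-CENTER `lg_pot_center` (numerical assembly, ~250 l.):   `κ := 4π² κ₀`, `κ₀` from `lgA_tendsto`.   Given `δ`: `ε := δ/(16π²)`... choose `c₂ ≤ 1/8` with `8π² · 2 c₂ ≤ δ/4`, `M₀ ≥ 8` with `2π · 6/M₀ ≤ δ/4`.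
  Given `M ≥ M₀`, `c₁`: apply `lg_center_sand (c₁/4) ε` [`(M-2) s ≥ M s/2 ≥ c₁ n/2 ≥ (c₁/4) n + 1` for large `n`; `4 (M s + 1) ≤ 4 c₂ n + 4 ≤ 3n`], `|lgA n - κ₀| ≤ ε` eventually, `s ≥ 1` because `M s ≥ c₁ n > 0`.   With `ϱ = M s`, `ϱ' = (M-2) s`:
  upper: `En ≤ lgEn v` (`lg_En_le`, `P = ∅`) `≤ 2π log (n/(ϱ'-1)) + 4π² (lgA n + ε + 2ϱ'/n)`, and `log (n/(ϱ'-1)) - log (n/ϱ) = log (ϱ/(ϱ'-1)) ≤ ϱ/(ϱ'-1) - 1 = (2s+1)/(ϱ'-1) ≤ 6/M` (`M ≥ 8`, `s ≥ 1`);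
  lower: `lg_le_En`; `log (n/ϱ) - log (n/(ϱ+1)) = log (1 + 1/ϱ) ≤ 1/ϱ ≤ 1/(c₁ n) → 0`;  `2(ϱ+1)/n ≤ 2c₂ + 2/n`.   `F23.segConn (0,0) n = lgSeg 0 n` (`lg_segConn_eq`; `(0,0) = 0` by `rfl`).
-/

set_option autoImplicit false

namespace Claimed.Agent.R285.Pot

open Filter Topology
open scoped Classical

noncomputable section

/-- the gradient of a truncation vanishes if both endpoints are above the upper level, below the lower level, or at the same height -/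
theorem lgGr_clamp_zero (a b : ℝ) (hab : a ≤ b) (g : ℤ × ℤ → ℝ) (e : Bond)
    (h : (b ≤ g e.1 ∧ b ≤ g e.snd) ∨ (g e.1 ≤ a ∧ g e.snd ≤ a) ∨ g e.1 = g e.snd) : lgGr (lgClamp a b g) e = 0 := by
  unfold lgGr lgClamp
  rcases h with ⟨h1, h2⟩ | ⟨h1, h2⟩ | h
  · rw [min_eq_left h1, min_eq_left h2, sub_self]
  · rw [max_eq_left ((min_le_right _ _).trans h1), max_eq_left ((min_le_right _ _).trans h2), sub_self]
  · rw [h, sub_self]

theorem lgG_lap_center (n : ℕ) {c : ℤ × ℤ} (hc : c ∈ lgBx n) :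
    -lgLap (lgG n 0) c = (if c = (0 : ℤ × ℤ) then 1 else 0) - (if c = ((0 : ℤ × ℤ).1 + (n : ℤ), (0 : ℤ × ℤ).2) then 1 else 0) := by
  have h1 := lgG_lap n 0 hc
  have h2 : c ≠ ((0 : ℤ × ℤ).1 + (n : ℤ), (0 : ℤ × ℤ).2) := by
    rintro rfl
    simp [lgBx] at hc
  rw [h1, if_neg h2, sub_zero]

theorem lg_center_sand (c ε : ℝ) (hc : 0 < c) (hε : 0 < ε) : ∀ᶠ n : ℕ in atTop, ∀ M s : ℕ, 2 ≤ M → 1 ≤ s →
    c * n + 1 ≤ (((M - 2) * s : ℕ) : ℝ) → 4 * (M * s + 1) ≤ 3 * n →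
    (∀ v : ℤ × ℤ → ℝ, 4 * Real.pi ^ 2 * (Real.log ((n : ℝ) / (((M * s : ℕ) : ℝ) + 1)) / (2 * Real.pi) + lgA n - ε
        - 2 * (((M * s : ℕ) : ℝ) + 1) / n) ≤ lgEn (F23.extC M n s) v (lgSeg 0 n)) ∧
    ∃ v : ℤ × ℤ → ℝ, lgEn (F23.extC M n s) v (lgSeg 0 n)
        ≤ 4 * Real.pi ^ 2 * (Real.log ((n : ℝ) / ((((M - 2) * s : ℕ) : ℝ) - 1)) / (2 * Real.pi) + lgA n + ε
          + 2 * (((M - 2) * s : ℕ) : ℝ) / n) := by
  filter_upwards [lg_center_min c ε hc hε, lg_center_max c ε hc hε] with n hmin hmax M s hM hs h1 h2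
  have hle : (M - 2) * s ≤ M * s := Nat.mul_le_mul_right s (Nat.sub_le M 2)
  have hleR : (((M - 2) * s : ℕ) : ℝ) ≤ ((M * s : ℕ) : ℝ) := by exact_mod_cast hle
  have hmin' := hmin (M * s) (by linarith) h2
  have hmax' := hmax ((M - 2) * s) h1 (by omega)
  have hD : F23.extC M n s ⊆ lgFc n := Finset.sdiff_subset
  have hoff : ∀ c, c ∉ lgBx n → lgG n 0 c = 0 := fun c hc => lgG_off n 0 hc
  have hg := fun c (hc : c ∈ lgBx n) => lgG_lap_center n hc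
  constructor
  · intro v
    obtain ⟨a₀, ha₀⟩ : ∃ a₀ : ℝ, a₀ = Real.log ((n : ℝ) / (((M * s : ℕ) : ℝ) + 1)) / (2 * Real.pi) + lgA n - ε
        - 2 * (((M * s : ℕ) : ℝ) + 1) / n := ⟨_, rfl⟩
    rw [← ha₀] at hmin' ⊢
    have hEn : 0 ≤ lgEn (F23.extC M n s) v (lgSeg 0 n) := Finset.sum_nonneg fun e _ => sq_nonneg _
    rcases le_or_gt a₀ 0 with hneg | hpos
    · have : 4 * Real.pi ^ 2 * a₀ ≤ 0 := mul_nonpos_of_nonneg_of_nonpos (by positivity) hneg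
      linarith
    · have := lg_sand_lower n (F23.extC M n s) hD (lgG n 0) 0 n hoff hg 0 a₀ hpos.le
        (hmin' 0 (by simp [lgSq]; positivity)) (le_of_eq (hoff _ (by simp [lgBx]))) ?_ v
      · simpa using this
      · intro e he
        refine lgGr_clamp_zero 0 a₀ hpos.le _ _ ?_
        obtain ⟨⟨k1, k2⟩, k3, k4⟩ := lgCross_corner e
        have key : ∀ z : ℤ × ℤ, z ∉ F23.extC M n s → lgCorner z (lgCross e).1 → lgCorner z (lgCross e).snd →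
            (a₀ ≤ lgG n 0 (lgCross e).1 ∧ a₀ ≤ lgG n 0 (lgCross e).snd) ∨
              (lgG n 0 (lgCross e).1 ≤ 0 ∧ lgG n 0 (lgCross e).snd ≤ 0) ∨
              lgG n 0 (lgCross e).1 = lgG n 0 (lgCross e).snd := by
          intro z hz c1 c2
          by_cases hzs : z ∈ F23.stair M s
          · exact Or.inl ⟨hmin' _ (lg_stair_in M s hzs c1), hmin' _ (lg_stair_in M s hzs c2)⟩
          · have hzn : z ∉ lgFc n := fun hzn => hz (Finset.mem_sdiff.2 ⟨hzn, hzs⟩)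
            refine Or.inr (Or.inr ?_)
            rw [hoff _ (lg_face_out n hzn c1), hoff _ (lg_face_out n hzn c2)]
        rw [lg_mem_domBonds, not_and_or] at he
        rcases he with he | he
        · exact key _ he k1 k2
        · exact key _ he k3 k4
  · obtain ⟨a₀, ha₀⟩ : ∃ a₀ : ℝ, a₀ = Real.log ((n : ℝ) / ((((M - 2) * s : ℕ) : ℝ) - 1)) / (2 * Real.pi) + lgA n + ε
          + 2 * (((M - 2) * s : ℕ) : ℝ) / n := ⟨_, rfl⟩
    rw [← ha₀] at hmax' ⊢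
    have ha0 : 0 ≤ a₀ := (lgG_nonneg n 0 ((((M - 2) * s : ℕ) : ℤ), 0)).trans (hmax' _ (by simp [lgSq]))
    have hw : ∀ e ∈ domBonds (F23.extC M n s) ∅, (0 ≤ lgG n 0 (lgCross e).1 ∧ lgG n 0 (lgCross e).1 ≤ a₀) ∧
        (0 ≤ lgG n 0 (lgCross e).snd ∧ lgG n 0 (lgCross e).snd ≤ a₀) := by
      intro e he
      obtain ⟨⟨k1, k2⟩, -, -⟩ := lgCross_corner e
      have hz : e.1 ∉ F23.stair M s := (Finset.mem_sdiff.1 (lg_mem_domBonds.1 he).1).2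
      exact ⟨⟨lgG_nonneg _ _ _, hmax' _ (lg_stair_out M s hM hs hz k1)⟩,
        ⟨lgG_nonneg _ _ _, hmax' _ (lg_stair_out M s hM hs hz k2)⟩⟩
    obtain ⟨v, -, hv⟩ := lg_sand_upper n (F23.extC M n s) hD (lgG n 0) 0 n hoff hg 0 a₀ ha0 hw
    exact ⟨v, by simpa using hv⟩

/-- the numerical core of `lg_pot_center` (real numbers only) -/
theorem lg_center_num {P δ ε c₁ κ₀ N ρ ρ' m σ E A : ℝ} (hP : 0 < P) (hδ : 0 < δ) (hε8 : 8 * P ^ 2 * ε = δ / 4)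
    (hc₁ : 0 < c₁) (hN : 0 < N) (hm8 : 8 ≤ m) (hσ1 : 1 ≤ σ) (hMδ : 48 * P / δ ≤ m)
    (eρ : ρ = m * σ) (eρ' : ρ' = (m - 2) * σ) (hs1 : c₁ * N ≤ ρ) (hc2ε : ρ ≤ ε * N) (cond3 : c₁ / 4 * N + 1 ≤ ρ')
    (h4 : (2 * P / c₁ + 8 * P ^ 2) * (4 / δ) ≤ N) (h2 : |A - κ₀| ≤ ε)
    (hE1 : 4 * P ^ 2 * (Real.log (N / (ρ + 1)) / (2 * P) + A - ε - 2 * (ρ + 1) / N) ≤ E)
    (hE2 : E ≤ 4 * P ^ 2 * (Real.log (N / (ρ' - 1)) / (2 * P) + A + ε + 2 * ρ' / N)) :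
    |E - 2 * P * Real.log (N / ρ) - 4 * P ^ 2 * κ₀| ≤ δ := by
  have hρpos : 0 < ρ := lt_of_lt_of_le (mul_pos hc₁ hN) hs1
  have hρ'1 : 0 < ρ' - 1 := by nlinarith
  have hT01 : Real.log (N / ρ) - Real.log (N / (ρ + 1)) ≤ 1 / ρ := by
    rw [Real.log_div hN.ne' hρpos.ne', Real.log_div hN.ne' (by positivity)]
    have h := Real.log_le_sub_one_of_pos (show 0 < (ρ + 1) / ρ by positivity)
    rw [Real.log_div (by positivity) hρpos.ne'] at h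
    have e : (ρ + 1) / ρ - 1 = 1 / ρ := by field_simp; ring
    linarith
  have hT20 : Real.log (N / (ρ' - 1)) - Real.log (N / ρ) ≤ 6 / m := by
    rw [Real.log_div hN.ne' hρpos.ne', Real.log_div hN.ne' hρ'1.ne']
    have h := Real.log_le_sub_one_of_pos (show 0 < ρ / (ρ' - 1) by positivity)
    rw [Real.log_div hρpos.ne' hρ'1.ne'] at h
    have e : ρ / (ρ' - 1) - 1 = (2 * σ + 1) / (ρ' - 1) := by
      rw [div_sub_one hρ'1.ne']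
      congr 1
      rw [eρ, eρ']
      ring
    have e2 : (2 * σ + 1) / (ρ' - 1) ≤ 6 / m := by
      rw [div_le_div_iff₀ hρ'1 (by linarith), eρ']
      nlinarith [mul_nonneg (sub_nonneg.2 hm8) (sub_nonneg.2 hσ1)]
    linarith
  obtain ⟨T0, hT0⟩ : ∃ T : ℝ, T = Real.log (N / ρ) := ⟨_, rfl⟩
  obtain ⟨T1, hT1⟩ : ∃ T : ℝ, T = Real.log (N / (ρ + 1)) := ⟨_, rfl⟩
  obtain ⟨T2, hT2⟩ : ∃ T : ℝ, T = Real.log (N / (ρ' - 1)) := ⟨_, rfl⟩
  rw [← hT0, ← hT1] at hT01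
  rw [← hT0, ← hT2] at hT20
  rw [← hT1] at hE1
  rw [← hT2] at hE2
  rw [← hT0]
  have hP2 : 0 < P ^ 2 := by positivity
  have e1 : 4 * P ^ 2 * (T1 / (2 * P) + A - ε - 2 * (ρ + 1) / N) =
      2 * P * T1 + 4 * P ^ 2 * A - 4 * P ^ 2 * ε - 8 * P ^ 2 * (ρ / N) - 8 * P ^ 2 * (1 / N) := by
    have h : 4 * P ^ 2 * (T1 / (2 * P)) = 2 * P * T1 := by field_simp; ring
    have h' : 2 * (ρ + 1) / N = 2 * (ρ / N) + 2 * (1 / N) := by ring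
    rw [h']
    linear_combination h
  have e2 : 4 * P ^ 2 * (T2 / (2 * P) + A + ε + 2 * ρ' / N) =
      2 * P * T2 + 4 * P ^ 2 * A + 4 * P ^ 2 * ε + 8 * P ^ 2 * (ρ' / N) := by
    have h : 4 * P ^ 2 * (T2 / (2 * P)) = 2 * P * T2 := by field_simp; ring
    have h' : 2 * ρ' / N = 2 * (ρ' / N) := by ring
    rw [h']
    linear_combination h
  rw [e1] at hE1
  rw [e2] at hE2
  have b1 : 2 * P * (T0 - T1) ≤ 2 * P * (1 / (c₁ * N)) :=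
    mul_le_mul_of_nonneg_left (hT01.trans (one_div_le_one_div_of_le (by positivity) hs1)) (by positivity)
  have b1' : 2 * P * (T2 - T0) ≤ 2 * P * (6 / m) := mul_le_mul_of_nonneg_left hT20 (by positivity)
  obtain ⟨h2a, h2b⟩ := abs_le.1 h2
  have b2a : 4 * P ^ 2 * (-ε) ≤ 4 * P ^ 2 * (A - κ₀) := mul_le_mul_of_nonneg_left h2a (by positivity)
  have b2b : 4 * P ^ 2 * (A - κ₀) ≤ 4 * P ^ 2 * ε := mul_le_mul_of_nonneg_left h2b (by positivity)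
  have hρN : ρ / N ≤ ε := by rwa [div_le_iff₀ hN]
  have hρ'N : ρ' / N ≤ ε := by
    refine le_trans (div_le_div_of_nonneg_right ?_ hN.le) hρN
    rw [eρ, eρ']
    nlinarith
  have b3 : 8 * P ^ 2 * (ρ / N) ≤ 8 * P ^ 2 * ε := mul_le_mul_of_nonneg_left hρN (by positivity)
  have b3' : 8 * P ^ 2 * (ρ' / N) ≤ 8 * P ^ 2 * ε := mul_le_mul_of_nonneg_left hρ'N (by positivity)
  have b4 : 2 * P * (1 / (c₁ * N)) + 8 * P ^ 2 * (1 / N) ≤ δ / 4 := by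
    have e : 2 * P * (1 / (c₁ * N)) + 8 * P ^ 2 * (1 / N) = (2 * P / c₁ + 8 * P ^ 2) / N := by
      field_simp
    rw [e, div_le_iff₀ hN]
    have h := mul_le_mul_of_nonneg_right h4 (show 0 ≤ δ / 4 by positivity)
    have e' : (2 * P / c₁ + 8 * P ^ 2) * (4 / δ) * (δ / 4) = 2 * P / c₁ + 8 * P ^ 2 := by
      field_simp
    rw [e'] at h
    linarith
  have b7 : 2 * P * (6 / m) ≤ δ / 4 := by
    have hM0 : 0 < m := by linarith
    rw [div_le_iff₀ hδ] at hMδ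
    have e : 2 * P * (6 / m) = 12 * P / m := by ring
    rw [e, div_le_iff₀ hM0]
    linarith
  rw [abs_le]
  constructor <;> linarith

/-- **`F23.PotCenter`** -/
theorem lg_pot_center : F23.PotCenter := by
  obtain ⟨κ₀, hκ⟩ := lgA_tendsto
  refine ⟨4 * Real.pi ^ 2 * κ₀, fun δ hδ => ?_⟩
  have hP : 0 < Real.pi := Real.pi_pos
  obtain ⟨ε, hε, hε8⟩ : ∃ ε : ℝ, 0 < ε ∧ 8 * Real.pi ^ 2 * ε = δ / 4 :=
    ⟨δ / (32 * Real.pi ^ 2), by positivity, by field_simp; ring⟩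
  refine ⟨min (1 / 8) ε, max 8 ⌈48 * Real.pi / δ⌉₊, lt_min (by norm_num) hε, lt_of_le_of_lt (min_le_left _ _) (by norm_num),
    fun M hM c₁ hc₁ => ?_⟩
  have hM8 : 8 ≤ M := le_trans (le_max_left _ _) hM
  have hMδ : 48 * Real.pi / δ ≤ (M : ℝ) := (Nat.le_ceil _).trans (by exact_mod_cast le_trans (le_max_right _ _) hM)
  have ev1 := lg_center_sand (c₁ / 4) ε (by positivity) hε
  have ev2 : ∀ᶠ n : ℕ in atTop, |lgA n - κ₀| ≤ ε := by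
    filter_upwards [hκ.eventually (Metric.closedBall_mem_nhds κ₀ hε)] with n hn
    rwa [Real.dist_eq] at hn
  have ev3 : ∀ᶠ n : ℕ in atTop, 2 / c₁ ≤ (n : ℝ) := tendsto_natCast_atTop_atTop.eventually_ge_atTop _
  have ev4 : ∀ᶠ n : ℕ in atTop, (2 * Real.pi / c₁ + 8 * Real.pi ^ 2) * (4 / δ) ≤ (n : ℝ) :=
    tendsto_natCast_atTop_atTop.eventually_ge_atTop _
  filter_upwards [ev1, ev2, ev3, ev4, eventually_ge_atTop 2] with n h1 h2 h3 h4 h5 s hs1 hs2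
  have hN2 : (2 : ℝ) ≤ (n : ℝ) := by exact_mod_cast h5
  have hN : (0 : ℝ) < (n : ℝ) := by linarith
  have hm8 : (8 : ℝ) ≤ (M : ℝ) := by exact_mod_cast hM8
  have hρpos : (0 : ℝ) < ((M * s : ℕ) : ℝ) := lt_of_lt_of_le (mul_pos hc₁ hN) hs1
  have hs : 1 ≤ s := by
    rcases Nat.eq_zero_or_pos s with rfl | h
    · simp at hρpos
    · exact h
  have hσ1 : (1 : ℝ) ≤ (s : ℝ) := by exact_mod_cast hs
  have eρ : ((M * s : ℕ) : ℝ) = (M : ℝ) * s := by push_cast; ring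
  have eρ' : (((M - 2) * s : ℕ) : ℝ) = ((M : ℝ) - 2) * s := by
    rw [Nat.cast_mul, Nat.cast_sub (by omega)]
    norm_num
  have hc2N : ((M * s : ℕ) : ℝ) ≤ 1 / 8 * n := hs2.trans (mul_le_mul_of_nonneg_right (min_le_left _ _) hN.le)
  have hc2ε : ((M * s : ℕ) : ℝ) ≤ ε * n := hs2.trans (mul_le_mul_of_nonneg_right (min_le_right _ _) hN.le)
  have hc1N : 2 ≤ c₁ * n := by
    rw [div_le_iff₀ hc₁] at h3
    linarith
  have cond3 : c₁ / 4 * n + 1 ≤ (((M - 2) * s : ℕ) : ℝ) := by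
    rw [eρ']
    rw [eρ] at hs1
    nlinarith
  have cond4 : 4 * (M * s + 1) ≤ 3 * n := by
    have : 8 * (M * s) ≤ n := by
      have h : (8 : ℝ) * ((M * s : ℕ) : ℝ) ≤ n := by linarith
      exact_mod_cast h
    omega
  obtain ⟨hlow, v, hv⟩ := h1 M s (by omega) hs cond3 cond4
  have hE1 := lg_le_En (F23.extC M n s) ∅ (lgSeg 0 n) _ hlow
  have hE2 := (lg_En_le (F23.extC M n s) ∅ (lgSeg 0 n) v (by simp)).trans hv
  exact lg_center_num hP hδ hε8 hc₁ hN hm8 hσ1 hMδ eρ eρ' hs1 hc2ε cond3 h4 h2 hE1 hE2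

end

end Claimed.Agent.R285.Pot
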