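import Claimed.Agent.R285.Base.Geom

/-!
# ROW 285, POT-LOG : DEFINITIONS + maximum principle + solvability      (architect helper281)      no sorry in this file.

PAPER-FREE discrete potential theory on the PRIMAL lattice `ℤ²` (functions `ℤ × ℤ → ℝ`), prefix `lg`.   Only `Bond`, `Bond.snd`, `domBonds` of `Base/Geom` are used.
PLAN OF THE WHOLE PACKAGE: header of `Pot/LogOut.lean`.

* `lgLap` discrete Laplacian (sum over the four neighbours minus `4 f x`), `lgAdj` neighbours, `lgBx n = (-n,n)²`, `lgCb n = [-n,n]²`.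
* `lgGr f e` gradient along a bond, `lgBd n` the bonds with first endpoint in `[-n,n)²` (all bonds touching `lgBx n`), `lgDir n f g` Dirichlet form.
* `lgSup`, `lgOne`, `lgSq`: sup norm, `ℓ¹` norm (integers), squared Euclidean norm (real).
* `lgL` the comparison function `-(4π)⁻¹ log |x|²` (`1/4` at the origin), `lgErr = Δ lgL + δ₀` its error charge.
* `lgPot S ρ` the solution of `-Δ g = ρ` in `S`, `g = 0` off `S`;  `lgG n y` the killed Green function of `lgBx n` with pole `y`;  `lgHarm n φ` the harmonic extension of `φ` restricted to the complement of `lgBx n`.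
* planar duality: the dual vertex `(i,j)` is the face `[i,i+1] × [j,j+1]`; `lgCross e` the primal bond crossed by the dual bond `e`; `lgRot ψ` the rotated gradient (a flow on dual bonds); `lgCorner z x`: the primal vertex `x` is a corner of the face `z`.
-/

set_option autoImplicit false

namespace Claimed.Agent.R285.Pot

open scoped Classical

noncomputable section

/-- the discrete Laplacian on `ℤ²` -/
def lgLap (f : ℤ × ℤ → ℝ) (x : ℤ × ℤ) : ℝ :=
  f (x.1 + 1, x.2) + f (x.1 - 1, x.2) + f (x.1, x.2 + 1) + f (x.1, x.2 - 1) - 4 * f x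

/-- nearest neighbours -/
def lgAdj (x y : ℤ × ℤ) : Prop :=
  y = (x.1 + 1, x.2) ∨ y = (x.1 - 1, x.2) ∨ y = (x.1, x.2 + 1) ∨ y = (x.1, x.2 - 1)

/-- the open box `(-n,n)²` -/
def lgBx (n : ℕ) : Finset (ℤ × ℤ) := Finset.Ioo (-(n : ℤ)) n ×ˢ Finset.Ioo (-(n : ℤ)) n

/-- the closed box `[-n,n]²` -/
def lgCb (n : ℕ) : Finset (ℤ × ℤ) := Finset.Icc (-(n : ℤ)) n ×ˢ Finset.Icc (-(n : ℤ)) n

/-- the gradient along a bond -/
def lgGr (f : ℤ × ℤ → ℝ) (e : Bond) : ℝ := f e.snd - f e.1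

/-- the half open box `[-n,n)²` (as a set of dual vertices: the faces of the closed primal box; `= F23.sq n = S46.sq n`) -/
def lgFc (n : ℕ) : Finset (ℤ × ℤ) := Finset.Ico (-(n : ℤ)) n ×ˢ Finset.Ico (-(n : ℤ)) n

/-- the bonds with first endpoint in `[-n,n)²` -/
def lgBd (n : ℕ) : Finset Bond := lgFc n ×ˢ Finset.univ

/-- the Dirichlet form -/
def lgDir (n : ℕ) (f g : ℤ × ℤ → ℝ) : ℝ := ∑ e ∈ lgBd n, lgGr f e * lgGr g e

/-- sup norm -/
def lgSup (x : ℤ × ℤ) : ℤ := max |x.1| |x.2|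

/-- `ℓ¹` norm -/
def lgOne (x : ℤ × ℤ) : ℤ := |x.1| + |x.2|

/-- squared Euclidean norm -/
def lgSq (x : ℤ × ℤ) : ℝ := (x.1 : ℝ) ^ 2 + (x.2 : ℝ) ^ 2

/-- the comparison function `-(2π)⁻¹ log |x|`, with the value `1/4` at the origin (so that `-Δ lgL 0 = 1`) -/
def lgL (x : ℤ × ℤ) : ℝ := if x = 0 then 1 / 4 else -(1 / (4 * Real.pi)) * Real.log (lgSq x)

/-- the error charge: `-Δ lgL = δ₀ - lgErr` -/
def lgErr (x : ℤ × ℤ) : ℝ := lgLap lgL x + if x = 0 then 1 else 0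

/-- truncation between the levels `a ≤ b` -/
def lgClamp (a b : ℝ) (g : ℤ × ℤ → ℝ) : ℤ × ℤ → ℝ := fun x => max a (min b (g x))

/-- the primal bond crossed by a dual bond -/
def lgCross (e : Bond) : Bond :=
  if e.2 then ((e.1.1 + 1, e.1.2), false) else ((e.1.1, e.1.2 + 1), true)

/-- the rotated gradient of a primal function: a flow on the dual bonds -/
def lgRot (ψ : ℤ × ℤ → ℝ) (e : Bond) : ℝ := if e.2 then lgGr ψ (lgCross e) else -lgGr ψ (lgCross e)

/-- the primal vertex `x` is a corner of the face `z` -/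
def lgCorner (z x : ℤ × ℤ) : Prop := (x.1 = z.1 ∨ x.1 = z.1 + 1) ∧ (x.2 = z.2 ∨ x.2 = z.2 + 1)

/-- the connection of the primal path `x, x + e₁, …, x + r e₁` (`= F23.segConn x r`): `1` on the dual bonds `(i, x₂-1) → (i, x₂)`, `x₁ ≤ i < x₁ + r` -/
def lgSeg (x : ℤ × ℤ) (r : ℕ) : Bond → ℤ :=
  fun e => if e.2 = false ∧ e.1.2 + 1 = x.2 ∧ x.1 ≤ e.1.1 ∧ e.1.1 < x.1 + r then 1 else 0

/-- the energy of a field `v` on the dual vertices of `D` with the integral connection `τ` -/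
def lgEn (D : Finset (ℤ × ℤ)) (v : ℤ × ℤ → ℝ) (τ : Bond → ℤ) : ℝ :=
  ∑ e ∈ domBonds D ∅, (v e.snd - v e.1 + 2 * Real.pi * (τ e : ℝ)) ^ 2

/-! ## linearity of the Laplacian -/

theorem lgLap_add (f g : ℤ × ℤ → ℝ) (x : ℤ × ℤ) : lgLap (f + g) x = lgLap f x + lgLap g x := by
  simp only [lgLap, Pi.add_apply]; ring

theorem lgLap_sub (f g : ℤ × ℤ → ℝ) (x : ℤ × ℤ) : lgLap (f - g) x = lgLap f x - lgLap g x := by
  simp only [lgLap, Pi.sub_apply]; ring

theorem lgLap_smul (c : ℝ) (f : ℤ × ℤ → ℝ) (x : ℤ × ℤ) : lgLap (c • f) x = c * lgLap f x := by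
  simp only [lgLap, Pi.smul_apply, smul_eq_mul]; ring

theorem lgLap_neg (f : ℤ × ℤ → ℝ) (x : ℤ × ℤ) : lgLap (-f) x = -lgLap f x := by
  simp only [lgLap, Pi.neg_apply]; ring

theorem lgLap_const (c : ℝ) (x : ℤ × ℤ) : lgLap (fun _ => c) x = 0 := by
  simp only [lgLap]; ring

/-! ## the maximum principle -/

/-- **maximum principle**: a function which is subharmonic on the finite set `S` and `≤ c` on the outer boundary of `S` is `≤ c` on `S`. -/
theorem lg_max (S : Finset (ℤ × ℤ)) (f : ℤ × ℤ → ℝ) (c : ℝ) (hsub : ∀ x ∈ S, 0 ≤ lgLap f x)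
    (hbd : ∀ x ∈ S, ∀ y, lgAdj x y → y ∉ S → f y ≤ c) : ∀ x ∈ S, f x ≤ c := by
  by_contra hcon
  push Not at hcon
  obtain ⟨x0, hx0, hx0c⟩ := hcon
  obtain ⟨xm, hxm, hmax⟩ := S.exists_max_image f ⟨x0, hx0⟩
  have hmc : c < f xm := lt_of_lt_of_le hx0c (hmax x0 hx0)
  obtain ⟨x1, hx1, hx1max⟩ := (S.filter fun x => f x = f xm).exists_max_image (fun x => x.1)
    ⟨xm, by simp [hxm]⟩
  have hx1S : x1 ∈ S := (Finset.mem_filter.1 hx1).1
  have hx1f : f x1 = f xm := (Finset.mem_filter.1 hx1).2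
  have hle : ∀ y, lgAdj x1 y → f y ≤ f xm := fun y hy => by
    by_cases hyS : y ∈ S
    · exact hmax y hyS
    · exact (hbd x1 hx1S y hy hyS).trans hmc.le
  have hlt : f (x1.1 + 1, x1.2) < f xm := by
    by_cases hyS : (x1.1 + 1, x1.2) ∈ S
    · refine lt_of_le_of_ne (hmax _ hyS) fun heq => ?_
      have := hx1max (x1.1 + 1, x1.2) (Finset.mem_filter.2 ⟨hyS, heq⟩)
      simp at this
    · exact lt_of_le_of_lt (hbd x1 hx1S _ (Or.inl rfl) hyS) hmc
  have h2 := hle (x1.1 - 1, x1.2) (Or.inr (Or.inl rfl))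
  have h3 := hle (x1.1, x1.2 + 1) (Or.inr (Or.inr (Or.inl rfl)))
  have h4 := hle (x1.1, x1.2 - 1) (Or.inr (Or.inr (Or.inr rfl)))
  have h5 := hsub x1 hx1S
  unfold lgLap at h5
  linarith

/-- **minimum principle** -/
theorem lg_min (S : Finset (ℤ × ℤ)) (f : ℤ × ℤ → ℝ) (c : ℝ) (hsup : ∀ x ∈ S, lgLap f x ≤ 0)
    (hbd : ∀ x ∈ S, ∀ y, lgAdj x y → y ∉ S → c ≤ f y) : ∀ x ∈ S, c ≤ f x := by
  intro x hx
  have := lg_max S (-f) (-c) (fun x hx => by rw [lgLap_neg]; linarith [hsup x hx])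
    (fun x hx y hy hyS => by simpa using hbd x hx y hy hyS) x hx
  simpa using this

/-! ## solvability of the Dirichlet problem -/

/-- extension by zero -/
def lgExt (S : Finset (ℤ × ℤ)) (u : S → ℝ) : ℤ × ℤ → ℝ := fun x => if h : x ∈ S then u ⟨x, h⟩ else 0

theorem lgExt_add (S : Finset (ℤ × ℤ)) (u v : S → ℝ) : lgExt S (u + v) = lgExt S u + lgExt S v := by
  funext x
  by_cases h : x ∈ S <;> simp [lgExt, h]

theorem lgExt_smul (S : Finset (ℤ × ℤ)) (c : ℝ) (u : S → ℝ) : lgExt S (c • u) = c • lgExt S u := by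
  funext x
  by_cases h : x ∈ S <;> simp [lgExt, h]

/-- the Dirichlet Laplacian of `S` -/
def lgOp (S : Finset (ℤ × ℤ)) : (S → ℝ) →ₗ[ℝ] (S → ℝ) where
  toFun u := fun x => -lgLap (lgExt S u) x.1
  map_add' u v := by
    funext x
    simp only [lgExt_add, lgLap_add, Pi.add_apply]; ring
  map_smul' c u := by
    funext x
    simp only [lgExt_smul, lgLap_smul, Pi.smul_apply, smul_eq_mul, RingHom.id_apply]; ring

theorem lgOp_injective (S : Finset (ℤ × ℤ)) : Function.Injective (lgOp S) := by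
  rw [← LinearMap.ker_eq_bot, LinearMap.ker_eq_bot']
  intro u hu
  have hharm : ∀ x ∈ S, lgLap (lgExt S u) x = 0 := fun x hx => by
    have := congrFun hu ⟨x, hx⟩
    simpa [lgOp] using this
  have hoff : ∀ y, y ∉ S → lgExt S u y = 0 := fun y hy => by simp [lgExt, hy]
  have h1 := lg_max S (lgExt S u) 0 (fun x hx => (hharm x hx).ge) fun x _ y _ hy => (hoff y hy).le
  have h2 := lg_min S (lgExt S u) 0 (fun x hx => (hharm x hx).le) fun x _ y _ hy => (hoff y hy).ge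
  funext x
  have h3 : lgExt S u x.1 = u x := by simp [lgExt]
  have := le_antisymm (h1 x.1 x.2) (h2 x.1 x.2)
  rw [h3] at this
  simpa using this

/-- the Dirichlet problem `-Δ g = ρ` in `S`, `g = 0` off `S`, is solvable -/
theorem lg_solve (S : Finset (ℤ × ℤ)) (ρ : ℤ × ℤ → ℝ) :
    ∃ g : ℤ × ℤ → ℝ, (∀ x, x ∉ S → g x = 0) ∧ ∀ x ∈ S, -lgLap g x = ρ x := by
  obtain ⟨u, hu⟩ := (LinearMap.injective_iff_surjective.1 (lgOp_injective S)) fun x : S => ρ x.1
  refine ⟨lgExt S u, fun x hx => by simp [lgExt, hx], fun x hx => ?_⟩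
  have := congrFun hu ⟨x, hx⟩
  simpa [lgOp] using this

/-- the potential of the charge `ρ` in `S` with zero boundary values -/
def lgPot (S : Finset (ℤ × ℤ)) (ρ : ℤ × ℤ → ℝ) : ℤ × ℤ → ℝ := Classical.choose (lg_solve S ρ)

theorem lgPot_off (S : Finset (ℤ × ℤ)) (ρ : ℤ × ℤ → ℝ) {x : ℤ × ℤ} (hx : x ∉ S) : lgPot S ρ x = 0 :=
  (Classical.choose_spec (lg_solve S ρ)).1 x hx

theorem lgPot_lap (S : Finset (ℤ × ℤ)) (ρ : ℤ × ℤ → ℝ) {x : ℤ × ℤ} (hx : x ∈ S) : -lgLap (lgPot S ρ) x = ρ x :=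
  (Classical.choose_spec (lg_solve S ρ)).2 x hx

/-- uniqueness for the Dirichlet problem -/
theorem lg_unique (S : Finset (ℤ × ℤ)) (f g : ℤ × ℤ → ℝ) (hoff : ∀ x, x ∉ S → f x = g x)
    (hlap : ∀ x ∈ S, lgLap f x = lgLap g x) : f = g := by
  have h1 := lg_max S (f - g) 0 (fun x hx => by rw [lgLap_sub, hlap x hx, sub_self])
    fun x _ y _ hy => by simp [hoff y hy]
  have h2 := lg_min S (f - g) 0 (fun x hx => by rw [lgLap_sub, hlap x hx, sub_self])
    fun x _ y _ hy => by simp [hoff y hy]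
  funext x
  by_cases hx : x ∈ S
  · have := le_antisymm (h1 x hx) (h2 x hx)
    simpa [sub_eq_zero] using this
  · exact hoff x hx

/-- the killed Green function of the box `lgBx n` with pole `y` -/
def lgG (n : ℕ) (y : ℤ × ℤ) : ℤ × ℤ → ℝ := lgPot (lgBx n) fun x => if x = y then 1 else 0

/-- the boundary datum: `φ` off the box, `0` in the box -/
def lgOut (n : ℕ) (φ : ℤ × ℤ → ℝ) : ℤ × ℤ → ℝ := fun x => if x ∈ lgBx n then 0 else φ x

/-- the harmonic extension into `lgBx n` of the values of `φ` off the box -/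
def lgHarm (n : ℕ) (φ : ℤ × ℤ → ℝ) : ℤ × ℤ → ℝ := lgOut n φ + lgPot (lgBx n) (lgLap (lgOut n φ))

end

end Claimed.Agent.R285.Pot
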