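import Claimed.Agent.R285.Pot.LogDefs

/-!
# ROW 285, POT-LOG, leaf L-LOG-ERR: the error charge of the discrete logarithm      (architect helper281)
PAPER-FREE, elementary.  `r² = lgSq x = x₁² + x₂²`.
The four neighbours of `x` have squared norms `r² + 1 ± 2 x₁`, `r² + 1 ± 2 x₂`; their product is `((r²+1)² - 4x₁²)((r²+1)² - 4x₂²) = (r⁴ - 1)² + 16 x₁² x₂²`   (`r⁴ = (r²)²`; `ring`).
If `r² ≥ 2` neither `x` nor a neighbour is the origin, all squared norms are positive, `Real.log_mul`, `Real.log_div`, `Real.log_pow`: `lgErr_formula`.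
`t := ((r⁴-1)² + 16x₁²x₂²)/r⁸ - 1 = (1 - 2r⁴ + 16x₁²x₂²)/r⁸`, `0 ≤ 16x₁²x₂² ≤ 4r⁴`: `-1/2 ≤ -2/r⁴ ≤ t ≤ (1+2r⁴)/r⁸`, `|t| ≤ 9/(4r⁴)`;  `|log (1+t)| ≤ 2|t|` for `t ≥ -1/2`
(`Real.log_le_sub_one_of_pos`, `Real.one_sub_inv_le_log_of_pos`).   `r² ≥ (lgSup x)²`.   So `|lgErr x| ≤ (9/2)/(4π r⁴) ≤ 2/(lgSup x)⁴`.
`r² = 1` (four points): `lgErr x = 1/4 - log 16/(4π)` or just `|lgErr x| ≤ 1/4 + (log 4 + 2 log 2)/(4π) ≤ 2` (`Real.log_le_sub_one_of_pos`, `Real.pi_gt_three`).   `x = 0`: `lgErr 0 = 0` and `2/0⁴ = 0` in Lean.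
-/

set_option autoImplicit false

namespace Claimed.Agent.R285.Pot

open scoped Classical

noncomputable section

theorem lgSq_nonneg (x : ℤ × ℤ) : 0 ≤ lgSq x := by unfold lgSq; positivity

theorem lgL_of_pos {y : ℤ × ℤ} (h : 0 < lgSq y) : lgL y = -(1 / (4 * Real.pi)) * Real.log (lgSq y) := by
  unfold lgL
  rw [if_neg]
  rintro rfl
  simp [lgSq] at h

theorem lgErr_zero : lgErr 0 = 0 := by
  have h1 : lgL (1, 0) = 0 := by rw [lgL_of_pos (by norm_num [lgSq])]; norm_num [lgSq]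
  have h2 : lgL (-1, 0) = 0 := by rw [lgL_of_pos (by norm_num [lgSq])]; norm_num [lgSq]
  have h3 : lgL (0, 1) = 0 := by rw [lgL_of_pos (by norm_num [lgSq])]; norm_num [lgSq]
  have h4 : lgL (0, -1) = 0 := by rw [lgL_of_pos (by norm_num [lgSq])]; norm_num [lgSq]
  have h0 : lgL 0 = 1 / 4 := by simp [lgL]
  simp only [lgErr, lgLap, Prod.fst_zero, Prod.snd_zero, zero_add, zero_sub, if_true, h1, h2, h3, h4, h0]
  norm_num

theorem lg_sq_pos_aux (a b : ℝ) (h : ¬ (a = 0 ∧ b = 0)) : 0 < a ^ 2 + b ^ 2 := by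
  by_contra hc
  push Not at hc
  have ha : a = 0 := by nlinarith [sq_nonneg a, sq_nonneg b]
  have hb : b = 0 := by nlinarith [sq_nonneg a, sq_nonneg b]
  exact h ⟨ha, hb⟩

theorem lgErr_formula (x : ℤ × ℤ) (hx : 2 ≤ lgSq x) :
    lgErr x = -(1 / (4 * Real.pi)) *
      Real.log (((lgSq x ^ 2 - 1) ^ 2 + 16 * (x.1 : ℝ) ^ 2 * (x.2 : ℝ) ^ 2) / lgSq x ^ 4) := by
  obtain ⟨i, j⟩ := x
  set a : ℝ := (i : ℝ) with ha
  set b : ℝ := (j : ℝ) with hb
  have hs : lgSq (i, j) = a ^ 2 + b ^ 2 := rfl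
  rw [hs] at hx ⊢
  have hs0 : 0 < a ^ 2 + b ^ 2 := by linarith
  have e1 : lgSq (i + 1, j) = (a + 1) ^ 2 + b ^ 2 := by simp [lgSq, ha, hb]
  have e2 : lgSq (i - 1, j) = (a - 1) ^ 2 + b ^ 2 := by simp [lgSq, ha, hb]
  have e3 : lgSq (i, j + 1) = a ^ 2 + (b + 1) ^ 2 := by simp [lgSq, ha, hb]
  have e4 : lgSq (i, j - 1) = a ^ 2 + (b - 1) ^ 2 := by simp [lgSq, ha, hb]
  have p1 : 0 < (a + 1) ^ 2 + b ^ 2 := lg_sq_pos_aux _ _ (by rintro ⟨h1, h2⟩; nlinarith)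
  have p2 : 0 < (a - 1) ^ 2 + b ^ 2 := lg_sq_pos_aux _ _ (by rintro ⟨h1, h2⟩; nlinarith)
  have p3 : 0 < a ^ 2 + (b + 1) ^ 2 := lg_sq_pos_aux _ _ (by rintro ⟨h1, h2⟩; nlinarith)
  have p4 : 0 < a ^ 2 + (b - 1) ^ 2 := lg_sq_pos_aux _ _ (by rintro ⟨h1, h2⟩; nlinarith)
  have hne : (i, j) ≠ (0 : ℤ × ℤ) := by
    intro h
    have h1 : i = 0 := congrArg Prod.fst h
    have h2 : j = 0 := congrArg Prod.snd h
    simp [ha, hb, h1, h2] at hs0
  have hprod : ((a ^ 2 + b ^ 2) ^ 2 - 1) ^ 2 + 16 * a ^ 2 * b ^ 2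
      = ((a + 1) ^ 2 + b ^ 2) * ((a - 1) ^ 2 + b ^ 2) * (a ^ 2 + (b + 1) ^ 2) * (a ^ 2 + (b - 1) ^ 2) := by ring
  simp only [lgErr, lgLap, if_neg hne, add_zero]
  rw [lgL_of_pos (by rw [e1]; exact p1), lgL_of_pos (by rw [e2]; exact p2), lgL_of_pos (by rw [e3]; exact p3),
    lgL_of_pos (by rw [e4]; exact p4), lgL_of_pos (by rw [hs]; exact hs0), e1, e2, e3, e4, hs, hprod,
    Real.log_div (by positivity) (by positivity), Real.log_mul (by positivity) (by positivity),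
    Real.log_mul (by positivity) (by positivity), Real.log_mul (by positivity) (by positivity), Real.log_pow]
  push_cast
  ring

theorem lg_abs_log_le {t : ℝ} (ht : -(1 / 2) ≤ t) : |Real.log (1 + t)| ≤ 2 * |t| := by
  have hp : 0 < 1 + t := by linarith
  have h1 : Real.log (1 + t) ≤ t := by have := Real.log_le_sub_one_of_pos hp; linarith
  have h2 : 1 - (1 + t)⁻¹ ≤ Real.log (1 + t) := Real.one_sub_inv_le_log_of_pos hp
  have h3 : -(2 * |t|) ≤ 1 - (1 + t)⁻¹ := by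
    have e : 1 - (1 + t)⁻¹ = t / (1 + t) := by field_simp; ring
    rw [e, le_div_iff₀ hp]
    rcases le_total 0 t with h | h
    · rw [abs_of_nonneg h]; nlinarith
    · rw [abs_of_nonpos h]; nlinarith
  rw [abs_le]
  constructor
  · linarith
  · have := le_abs_self t; have := abs_nonneg t; linarith

theorem lgSup_sq_le (x : ℤ × ℤ) : (lgSup x : ℝ) ^ 2 ≤ lgSq x := by
  unfold lgSup lgSq
  rcases max_choice |x.1| |x.2| with h | h <;> rw [h] <;> push_cast <;> rw [sq_abs] <;> nlinarith [sq_nonneg (x.1 : ℝ), sq_nonneg (x.2 : ℝ)]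

theorem lgErr_bound_big (x : ℤ × ℤ) (hx : 2 ≤ lgSq x) : |lgErr x| ≤ 2 / (lgSup x : ℝ) ^ 4 := by
  rw [lgErr_formula x hx]
  set s := lgSq x with hs
  set a : ℝ := (x.1 : ℝ) with ha
  set b : ℝ := (x.2 : ℝ) with hb
  have hsab : s = a ^ 2 + b ^ 2 := rfl
  have hs0 : 0 < s := by linarith
  have hab : 16 * a ^ 2 * b ^ 2 ≤ 4 * s ^ 2 := by rw [hsab]; nlinarith [sq_nonneg (a ^ 2 - b ^ 2)]
  have hab0 : 0 ≤ 16 * a ^ 2 * b ^ 2 := by positivity
  have hs2 : 4 ≤ s ^ 2 := by nlinarith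
  set t : ℝ := (1 - 2 * s ^ 2 + 16 * a ^ 2 * b ^ 2) / s ^ 4 with ht
  have e : ((s ^ 2 - 1) ^ 2 + 16 * a ^ 2 * b ^ 2) / s ^ 4 = 1 + t := by
    rw [ht]; field_simp; ring
  have hs4 : s ^ 4 = s ^ 2 * s ^ 2 := by ring
  have ht1 : |t| ≤ 9 / 4 / s ^ 2 := by
    rw [ht, abs_le]
    constructor
    · rw [le_div_iff₀ (by positivity), hs4]
      have : -(9 / 4 / s ^ 2) * (s ^ 2 * s ^ 2) = -(9 / 4) * s ^ 2 := by field_simp
      rw [this]; nlinarith
    · rw [div_le_iff₀ (by positivity), hs4]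
      have : 9 / 4 / s ^ 2 * (s ^ 2 * s ^ 2) = 9 / 4 * s ^ 2 := by field_simp
      rw [this]; nlinarith
  have ht2 : -(1 / 2) ≤ t := by
    rw [ht, le_div_iff₀ (by positivity), hs4]
    nlinarith
  rw [e, abs_mul, abs_neg, abs_of_pos (by positivity : (0:ℝ) < 1 / (4 * Real.pi))]
  have hk : (lgSup x : ℝ) ^ 4 ≤ s ^ 2 := by
    have h1 := lgSup_sq_le x
    have h2 : (0:ℝ) ≤ (lgSup x : ℝ) ^ 2 := by positivity
    calc (lgSup x : ℝ) ^ 4 = ((lgSup x : ℝ) ^ 2) ^ 2 := by ring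
      _ ≤ s ^ 2 := by gcongr
  have hk0 : (0:ℝ) < (lgSup x : ℝ) ^ 4 := by
    have : lgSup x ≠ 0 := by
      intro h0
      unfold lgSup at h0
      have h1 : |x.1| ≤ 0 := h0 ▸ le_max_left _ _
      have h2 : |x.2| ≤ 0 := h0 ▸ le_max_right _ _
      have h3 : x.1 = 0 := abs_eq_zero.1 (le_antisymm h1 (abs_nonneg _))
      have h4 : x.2 = 0 := abs_eq_zero.1 (le_antisymm h2 (abs_nonneg _))
      simp [hsab, ha, hb, h3, h4] at hs0
    have : (lgSup x : ℝ) ≠ 0 := by exact_mod_cast this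
    positivity
  have hpi := Real.pi_gt_three
  calc 1 / (4 * Real.pi) * |Real.log (1 + t)| ≤ 1 / (4 * Real.pi) * (2 * (9 / 4 / s ^ 2)) := by
        gcongr
        exact (lg_abs_log_le ht2).trans (by linarith)
    _ ≤ 1 / (4 * 3) * (2 * (9 / 4 / s ^ 2)) := by gcongr
    _ ≤ 2 / s ^ 2 := by
        have : 1 / (4 * 3) * (2 * (9 / 4 / s ^ 2)) = (3 / 8) / s ^ 2 := by ring
        rw [this]
        gcongr
        norm_num
    _ ≤ 2 / (lgSup x : ℝ) ^ 4 := by gcongr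

theorem lgErr_unit (x : ℤ × ℤ) (hx : x = (1, 0) ∨ x = (-1, 0) ∨ x = (0, 1) ∨ x = (0, -1)) : |lgErr x| ≤ 2 := by
  have h0 : lgL (0, 0) = 1 / 4 := by
    have : ((0 : ℤ), (0 : ℤ)) = (0 : ℤ × ℤ) := rfl
    simp [lgL]
  have hpi := Real.pi_gt_three
  have hl2 : 0 ≤ Real.log 2 := Real.log_nonneg (by norm_num)
  have hl2' : Real.log 2 ≤ 1 := by have := Real.log_le_sub_one_of_pos (show (0:ℝ) < 2 by norm_num); linarith
  have hl4 : Real.log 4 = 2 * Real.log 2 := by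
    rw [show (4:ℝ) = 2 ^ 2 by norm_num, Real.log_pow]; norm_num
  have key : |1 / 4 - 1 / (4 * Real.pi) * (4 * Real.log 2)| ≤ 2 := by
    have h1 : 0 ≤ 1 / (4 * Real.pi) * (4 * Real.log 2) := by positivity
    have h2 : 1 / (4 * Real.pi) * (4 * Real.log 2) ≤ 1 := by
      have : 1 / (4 * Real.pi) * (4 * Real.log 2) = Real.log 2 / Real.pi := by field_simp
      rw [this, div_le_one (by positivity)]
      linarith
    rw [abs_le]; constructor <;> linarith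
  rcases hx with rfl | rfl | rfl | rfl
  · have e : lgErr (1, 0) = 1 / 4 - 1 / (4 * Real.pi) * (4 * Real.log 2) := by
      have hne : ((1 : ℤ), (0 : ℤ)) ≠ 0 := by simp [Prod.ext_iff]
      simp only [lgErr, lgLap, if_neg hne, add_zero]
      norm_num only [h0]
      rw [lgL_of_pos (by norm_num [lgSq]), lgL_of_pos (by norm_num [lgSq]), lgL_of_pos (by norm_num [lgSq]),
        lgL_of_pos (by norm_num [lgSq])]
      norm_num [lgSq, hl4]
      ring
    rw [e]; exact key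
  · have e : lgErr (-1, 0) = 1 / 4 - 1 / (4 * Real.pi) * (4 * Real.log 2) := by
      have hne : ((-1 : ℤ), (0 : ℤ)) ≠ 0 := by simp [Prod.ext_iff]
      simp only [lgErr, lgLap, if_neg hne, add_zero]
      norm_num only [h0]
      rw [lgL_of_pos (by norm_num [lgSq]), lgL_of_pos (by norm_num [lgSq]), lgL_of_pos (by norm_num [lgSq]),
        lgL_of_pos (by norm_num [lgSq])]
      norm_num [lgSq, hl4]
      ring
    rw [e]; exact key
  · have e : lgErr (0, 1) = 1 / 4 - 1 / (4 * Real.pi) * (4 * Real.log 2) := by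
      have hne : ((0 : ℤ), (1 : ℤ)) ≠ 0 := by simp [Prod.ext_iff]
      simp only [lgErr, lgLap, if_neg hne, add_zero]
      norm_num only [h0]
      rw [lgL_of_pos (by norm_num [lgSq]), lgL_of_pos (by norm_num [lgSq]), lgL_of_pos (by norm_num [lgSq]),
        lgL_of_pos (by norm_num [lgSq])]
      norm_num [lgSq, hl4]
      ring
    rw [e]; exact key
  · have e : lgErr (0, -1) = 1 / 4 - 1 / (4 * Real.pi) * (4 * Real.log 2) := by
      have hne : ((0 : ℤ), (-1 : ℤ)) ≠ 0 := by simp [Prod.ext_iff]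
      simp only [lgErr, lgLap, if_neg hne, add_zero]
      norm_num only [h0]
      rw [lgL_of_pos (by norm_num [lgSq]), lgL_of_pos (by norm_num [lgSq]), lgL_of_pos (by norm_num [lgSq]),
        lgL_of_pos (by norm_num [lgSq])]
      norm_num [lgSq, hl4]
      ring
    rw [e]; exact key

/-- **the error charge decays like the fourth power** (true at `x = 0` as well: both sides vanish) -/
theorem lgErr_bound (x : ℤ × ℤ) : |lgErr x| ≤ 2 / (lgSup x : ℝ) ^ 4 := by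
  by_cases hbig : 2 ≤ lgSq x
  · exact lgErr_bound_big x hbig
  push Not at hbig
  obtain ⟨i, j⟩ := x
  have h1 : i ^ 2 + j ^ 2 < 2 := by
    have : ((i ^ 2 + j ^ 2 : ℤ) : ℝ) < 2 := by push_cast; exact hbig
    exact_mod_cast this
  have hi : -1 ≤ i ∧ i ≤ 1 := by constructor <;> nlinarith [sq_nonneg j]
  have hj : -1 ≤ j ∧ j ≤ 1 := by constructor <;> nlinarith [sq_nonneg i]
  obtain ⟨hi1, hi2⟩ := hi
  obtain ⟨hj1, hj2⟩ := hj
  interval_cases i <;> interval_cases j <;> simp at h1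
  · have := lgErr_unit (-1, 0) (by simp)
    simpa [lgSup] using this
  · have := lgErr_unit (0, -1) (by simp)
    simpa [lgSup] using this
  · have : lgErr ((0 : ℤ), (0 : ℤ)) = 0 := lgErr_zero
    rw [this]; simp [lgSup]
  · have := lgErr_unit (0, 1) (by simp)
    simpa [lgSup] using this
  · have := lgErr_unit (1, 0) (by simp)
    simpa [lgSup] using this

/-- symmetries of the comparison function -/
theorem lgL_swap (x : ℤ × ℤ) : lgL (x.2, x.1) = lgL x := by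
  obtain ⟨i, j⟩ := x
  unfold lgL lgSq
  simp only [Prod.mk_eq_zero]
  rw [add_comm]
  simp only [and_comm]

theorem lgL_neg_fst (x : ℤ × ℤ) : lgL (-x.1, x.2) = lgL x := by
  obtain ⟨i, j⟩ := x
  unfold lgL lgSq
  simp only [Prod.mk_eq_zero, neg_eq_zero]
  push_cast
  rw [neg_sq]

theorem lgL_neg_snd (x : ℤ × ℤ) : lgL (x.1, -x.2) = lgL x := by
  obtain ⟨i, j⟩ := x
  unfold lgL lgSq
  simp only [Prod.mk_eq_zero, neg_eq_zero]
  push_cast
  rw [neg_sq]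

end

end Claimed.Agent.R285.Pot
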