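import Claimed.Agent.R285.Pot.LogSum

/-!
# ROW 285, POT-LOG, leaf L-LOG-GREEN: the killed Green function of the box and harmonic extensions      (architect helper281)
PAPER-FREE.  Tools: `lgPot_off`, `lgPot_lap`, `lg_unique`, `lg_max`, `lg_min` (LogDefs), `lg_sbp`, `lg_path`, `lgDir_*` (LogSum).
* `lgG_repr`: `lg_sbp` with `g = lgG n y`: `-∑ f Δ G_y = f y` (`Finset.sum_ite_eq`).   `lgG_symm`: `lgDir n G_x G_y = G_x y = G_y x`.   `lgG_energy`: `f = G_y`.
* `lgG_nonneg`: `lg_min` on `lgBx n` (`Δ G ≤ 0`), off the box `G = 0`.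
* `lgG_le_pole`: `lg_max` on `lgBx n \ {y}` with `c = G_y y` (`≥ 0`).
* `lgG_pole_le`: `lg_path` from `y` to `(-n, y.2) ∈ lgFc n` (where `G = 0`): `G_y(y)² ≤ 2 (y.1 + n) G_y(y) ≤ 4 n G_y(y)`.
* `lgG_diff`: `v = G_a - G_b`: `lgDir n v v = v a - v b` (`lgG_repr` twice), `(v a - v b)² ≤ 2 |a-b|₁ lgDir n v v` (`lg_path`; `lgBx n ⊆ lgFc n`), so `v a - v b ≤ 2 |a-b|₁`;
  `v a = G_a a - G_a b ≥ 0 ≥ v b` (symmetry + `lgG_le_pole`);  `Δ v = δ_b - δ_a ≥ 0` on `lgBx n \ {a}`: `v ≤ v a` (`lg_max`), likewise `v ≥ v b`.   (`a = b` trivial.)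
* `lgPot_eq_sum`: both sides vanish off the box and have the same Laplacian (`lg_unique`; the Laplacian of a finite sum: `lgLap` is linear, prove `lgLap (fun x => ∑ z ∈ s, F z x) = ∑ z ∈ s, lgLap (F z)` by unfolding + `Finset.sum_add_distrib`).
* `lgHarm_*`: `lgHarm n φ = lgOut n φ + lgPot (lgBx n) (Δ lgOut n φ)`.
-/

set_option autoImplicit false

namespace Claimed.Agent.R285.Pot

open scoped Classical

noncomputable section

theorem lgBx_subset_lgFc (n : ℕ) : lgBx n ⊆ lgFc n := by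
  intro x hx
  simp only [lgBx, lgFc, Finset.mem_product, Finset.mem_Ioo, Finset.mem_Ico] at hx ⊢
  exact ⟨⟨hx.1.1.le, hx.1.2⟩, ⟨hx.2.1.le, hx.2.2⟩⟩

theorem mem_lgBx {n : ℕ} {x : ℤ × ℤ} : x ∈ lgBx n ↔ lgSup x < n := by
  simp only [lgBx, lgSup, Finset.mem_product, Finset.mem_Ioo, max_lt_iff, abs_lt]

theorem mem_lgCb {n : ℕ} {x : ℤ × ℤ} : x ∈ lgCb n ↔ lgSup x ≤ n := by
  simp only [lgCb, lgSup, Finset.mem_product, Finset.mem_Icc, max_le_iff, abs_le]

theorem lgG_off (n : ℕ) (y : ℤ × ℤ) {x : ℤ × ℤ} (hx : x ∉ lgBx n) : lgG n y x = 0 := lgPot_off _ _ hx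

theorem lgG_lap (n : ℕ) (y : ℤ × ℤ) {x : ℤ × ℤ} (hx : x ∈ lgBx n) : -lgLap (lgG n y) x = if x = y then 1 else 0 :=
  lgPot_lap _ _ hx

theorem lgG_lap' (n : ℕ) (y : ℤ × ℤ) {x : ℤ × ℤ} (hx : x ∈ lgBx n) : lgLap (lgG n y) x = -if x = y then 1 else 0 := by
  rw [← lgG_lap n y hx, neg_neg]

theorem lgG_nonneg (n : ℕ) (y x : ℤ × ℤ) : 0 ≤ lgG n y x := by
  by_cases hx : x ∈ lgBx n
  · refine lg_min (lgBx n) (lgG n y) 0 (fun z hz => ?_) (fun z _ w _ hw => (lgG_off n y hw).ge) x hx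
    rw [lgG_lap' n y hz]
    split_ifs <;> simp
  · exact (lgG_off n y hx).ge

/-- the reproducing property -/
theorem lgG_repr (n : ℕ) (f : ℤ × ℤ → ℝ) (hf : ∀ x, x ∉ lgBx n → f x = 0) {y : ℤ × ℤ} (hy : y ∈ lgBx n) :
    lgDir n f (lgG n y) = f y := by
  rw [lg_sbp n f (lgG n y) hf, ← Finset.sum_neg_distrib]
  have h : ∀ x ∈ lgBx n, -(f x * lgLap (lgG n y) x) = if x = y then f x else 0 := fun x hx => by
    rw [lgG_lap' n y hx]
    split_ifs <;> simp
  rw [Finset.sum_congr rfl h, Finset.sum_ite_eq' (lgBx n) y f, if_pos hy]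

theorem lgG_symm (n : ℕ) {x y : ℤ × ℤ} (hx : x ∈ lgBx n) (hy : y ∈ lgBx n) : lgG n y x = lgG n x y := by
  rw [← lgG_repr n (lgG n y) (fun z hz => lgG_off n y hz) hx, lgDir_comm,
    lgG_repr n (lgG n x) (fun z hz => lgG_off n x hz) hy]

theorem lgG_energy (n : ℕ) {y : ℤ × ℤ} (hy : y ∈ lgBx n) : lgDir n (lgG n y) (lgG n y) = lgG n y y :=
  lgG_repr n (lgG n y) (fun z hz => lgG_off n y hz) hy

theorem lgG_le_pole (n : ℕ) {y : ℤ × ℤ} (hy : y ∈ lgBx n) (x : ℤ × ℤ) : lgG n y x ≤ lgG n y y := by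
  by_cases hxy : x = y
  · rw [hxy]
  by_cases hx : x ∈ lgBx n
  · refine lg_max (lgBx n \ {y}) (lgG n y) (lgG n y y) (fun z hz => ?_) (fun z _ w _ hw => ?_) x
      (Finset.mem_sdiff.2 ⟨hx, by simpa using hxy⟩)
    · obtain ⟨hz1, hz2⟩ := Finset.mem_sdiff.1 hz
      rw [lgG_lap' n y hz1, if_neg (by simpa using hz2), neg_zero]
    · by_cases hw1 : w ∈ lgBx n
      · have : w = y := by
          by_contra hne
          exact hw (Finset.mem_sdiff.2 ⟨hw1, by simpa using hne⟩)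
        rw [this]
      · rw [lgG_off n y hw1]
        exact lgG_nonneg n y y
  · rw [lgG_off n y hx]
    exact lgG_nonneg n y y

/-- the trivial bound -/
theorem lgG_pole_le (n : ℕ) {y : ℤ × ℤ} (hy : y ∈ lgBx n) : lgG n y y ≤ 4 * n := by
  have hy' := hy
  simp only [lgBx, Finset.mem_product, Finset.mem_Ioo] at hy'
  have hb : ((-(n : ℤ), y.2) : ℤ × ℤ) ∈ lgFc n := by
    simp only [lgFc, Finset.mem_product, Finset.mem_Ico]
    omega
  have hb0 : lgG n y (-(n : ℤ), y.2) = 0 := lgG_off n y (by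
    simp only [lgBx, Finset.mem_product, Finset.mem_Ioo]
    omega)
  have h := lg_path n (lgG n y) y (-(n : ℤ), y.2) (lgBx_subset_lgFc n hy) hb
  rw [hb0, sub_zero, lgG_energy n hy] at h
  have h1 : (lgOne (y - (-(n : ℤ), y.2)) : ℝ) ≤ 2 * n := by
    have : lgOne (y - (-(n : ℤ), y.2)) ≤ 2 * n := by
      simp only [lgOne, Prod.fst_sub, Prod.snd_sub, sub_self, abs_zero, add_zero]
      rw [abs_of_nonneg (by omega)]
      omega
    exact_mod_cast this
  have h0 := lgG_nonneg n y y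
  by_contra hcon
  push Not at hcon
  have hn : (0 : ℝ) ≤ n := Nat.cast_nonneg n
  nlinarith

/-- **moving the pole** -/
theorem lgG_diff (n : ℕ) {a b : ℤ × ℤ} (ha : a ∈ lgBx n) (hb : b ∈ lgBx n) (z : ℤ × ℤ) :
    |lgG n a z - lgG n b z| ≤ 2 * (lgOne (a - b) : ℝ) := by
  have hone : (0 : ℝ) ≤ (lgOne (a - b) : ℝ) := by
    have : 0 ≤ lgOne (a - b) := add_nonneg (abs_nonneg _) (abs_nonneg _)
    exact_mod_cast this
  by_cases hab : a = b
  · rw [hab, sub_self, abs_zero]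
    subst hab
    linarith
  set v : ℤ × ℤ → ℝ := lgG n a - lgG n b with hv
  have hvoff : ∀ x, x ∉ lgBx n → v x = 0 := fun x hx => by
    simp only [hv, Pi.sub_apply, lgG_off n a hx, lgG_off n b hx, sub_self]
  have hen : lgDir n v v = v a - v b := by
    conv_lhs => rw [hv]
    rw [lgDir_sub_right, ← hv, lgG_repr n v hvoff ha, lgG_repr n v hvoff hb]
  have hpath := lg_path n v a b (lgBx_subset_lgFc n ha) (lgBx_subset_lgFc n hb)
  rw [hen] at hpath
  have hva : 0 ≤ v a := by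
    simp only [hv, Pi.sub_apply]
    rw [lgG_symm n ha hb]
    linarith [lgG_le_pole n ha b]
  have hvb : v b ≤ 0 := by
    simp only [hv, Pi.sub_apply]
    rw [lgG_symm n hb ha]
    linarith [lgG_le_pole n hb a]
  have hdiff : v a - v b ≤ 2 * (lgOne (a - b) : ℝ) := by
    by_contra hcon
    push Not at hcon
    nlinarith
  have hlap : ∀ x ∈ lgBx n, lgLap v x = (if x = b then 1 else 0) - if x = a then 1 else 0 := fun x hx => by
    rw [hv, lgLap_sub, lgG_lap' n a hx, lgG_lap' n b hx]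
    ring
  have hup : ∀ x, v x ≤ v a := by
    intro x
    by_cases hxa : x = a
    · rw [hxa]
    by_cases hx : x ∈ lgBx n
    · refine lg_max (lgBx n \ {a}) v (v a) (fun z hz => ?_) (fun z _ w _ hw => ?_) x
        (Finset.mem_sdiff.2 ⟨hx, by simpa using hxa⟩)
      · obtain ⟨hz1, hz2⟩ := Finset.mem_sdiff.1 hz
        rw [hlap z hz1, if_neg (show ¬ z = a by simpa using hz2), sub_zero]
        split_ifs <;> simp
      · by_cases hw1 : w ∈ lgBx n
        · have : w = a := by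
            by_contra hne
            exact hw (Finset.mem_sdiff.2 ⟨hw1, by simpa using hne⟩)
          rw [this]
        · rw [hvoff w hw1]
          exact hva
    · rw [hvoff x hx]
      exact hva
  have hlow : ∀ x, v b ≤ v x := by
    intro x
    by_cases hxb : x = b
    · rw [hxb]
    by_cases hx : x ∈ lgBx n
    · refine lg_min (lgBx n \ {b}) v (v b) (fun z hz => ?_) (fun z _ w _ hw => ?_) x
        (Finset.mem_sdiff.2 ⟨hx, by simpa using hxb⟩)
      · obtain ⟨hz1, hz2⟩ := Finset.mem_sdiff.1 hz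
        rw [hlap z hz1, if_neg (show ¬ z = b by simpa using hz2), zero_sub]
        split_ifs <;> simp
      · by_cases hw1 : w ∈ lgBx n
        · have : w = b := by
            by_contra hne
            exact hw (Finset.mem_sdiff.2 ⟨hw1, by simpa using hne⟩)
          rw [this]
        · rw [hvoff w hw1]
          exact hvb
    · rw [hvoff x hx]
      exact hvb
  have h1 := hup z
  have h2 := hlow z
  show |v z| ≤ _
  rw [abs_le]
  constructor <;> linarith

/-- potentials are superpositions of Green functions -/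
theorem lgPot_eq_sum (n : ℕ) (ρ : ℤ × ℤ → ℝ) (x : ℤ × ℤ) :
    lgPot (lgBx n) ρ x = ∑ z ∈ lgBx n, lgG n z x * ρ z := by
  have h : lgPot (lgBx n) ρ = fun x => ∑ z ∈ lgBx n, lgG n z x * ρ z := by
    refine lg_unique (lgBx n) _ _ (fun x hx => ?_) (fun x hx => ?_)
    · rw [lgPot_off _ _ hx]
      exact (Finset.sum_eq_zero fun z _ => by rw [lgG_off n z hx, zero_mul]).symm
    · have h1 : lgLap (fun x => ∑ z ∈ lgBx n, lgG n z x * ρ z) x = ∑ z ∈ lgBx n, lgLap (lgG n z) x * ρ z := by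
        simp only [lgLap, Finset.mul_sum, ← Finset.sum_add_distrib, ← Finset.sum_sub_distrib]
        exact Finset.sum_congr rfl fun z _ => by ring
      have h2 : ∀ z ∈ lgBx n, lgLap (lgG n z) x * ρ z = if x = z then -ρ z else 0 := fun z _ => by
        rw [lgG_lap' n z hx]
        split_ifs <;> simp
      rw [h1, Finset.sum_congr rfl h2, Finset.sum_ite_eq (lgBx n) x fun z => -ρ z, if_pos hx, ← lgPot_lap _ ρ hx, neg_neg]
  rw [h]

theorem lgHarm_off (n : ℕ) (φ : ℤ × ℤ → ℝ) {x : ℤ × ℤ} (hx : x ∉ lgBx n) : lgHarm n φ x = φ x := by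
  simp only [lgHarm, Pi.add_apply, lgPot_off _ _ hx, lgOut, if_neg hx, add_zero]

theorem lgHarm_lap (n : ℕ) (φ : ℤ × ℤ → ℝ) {x : ℤ × ℤ} (hx : x ∈ lgBx n) : lgLap (lgHarm n φ) x = 0 := by
  have h := lgPot_lap (lgBx n) (lgLap (lgOut n φ)) hx
  rw [lgHarm, lgLap_add]
  linarith

/-- a neighbour of a point of the open box which is not in the open box lies on the boundary layer -/
theorem lgSup_of_adj {n : ℕ} {x y : ℤ × ℤ} (hx : x ∈ lgBx n) (hxy : lgAdj x y) (hy : y ∉ lgBx n) : lgSup y = n := by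
  rw [mem_lgBx] at hx hy
  refine le_antisymm ?_ (not_lt.1 hy)
  simp only [lgSup, max_lt_iff, abs_lt, max_le_iff, abs_le] at hx ⊢
  rcases hxy with rfl | rfl | rfl | rfl <;> simp only <;> omega

/-- only the values on the boundary layer `lgSup w = n` matter -/
theorem lgHarm_le (n : ℕ) (φ : ℤ × ℤ → ℝ) (c : ℝ) (h : ∀ w, lgSup w = n → φ w ≤ c) {x : ℤ × ℤ} (hx : x ∈ lgBx n) :
    lgHarm n φ x ≤ c :=
  lg_max (lgBx n) (lgHarm n φ) c (fun z hz => (lgHarm_lap n φ hz).ge)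
    (fun z hz w hzw hw => by rw [lgHarm_off n φ hw]; exact h w (lgSup_of_adj hz hzw hw)) x hx

theorem le_lgHarm (n : ℕ) (φ : ℤ × ℤ → ℝ) (c : ℝ) (h : ∀ w, lgSup w = n → c ≤ φ w) {x : ℤ × ℤ} (hx : x ∈ lgBx n) :
    c ≤ lgHarm n φ x :=
  lg_min (lgBx n) (lgHarm n φ) c (fun z hz => (lgHarm_lap n φ hz).le)
    (fun z hz w hzw hw => by rw [lgHarm_off n φ hw]; exact h w (lgSup_of_adj hz hzw hw)) x hx

theorem lgHarm_sub (n : ℕ) (φ φ' : ℤ × ℤ → ℝ) : lgHarm n (φ - φ') = lgHarm n φ - lgHarm n φ' := by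
  refine lg_unique (lgBx n) _ _ (fun x hx => ?_) (fun x hx => ?_)
  · rw [Pi.sub_apply, lgHarm_off n _ hx, lgHarm_off n _ hx, lgHarm_off n _ hx, Pi.sub_apply]
  · rw [lgLap_sub, lgHarm_lap n _ hx, lgHarm_lap n _ hx, lgHarm_lap n _ hx, sub_zero]

theorem lgHarm_const (n : ℕ) (c : ℝ) : lgHarm n (fun _ => c) = fun _ => c := by
  refine lg_unique (lgBx n) _ _ (fun x hx => ?_) (fun x hx => ?_)
  · rw [lgHarm_off n _ hx]
  · rw [lgHarm_lap n _ hx, lgLap_const]

end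

end Claimed.Agent.R285.Pot
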