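import Claimed.Agent.R285.Pot.LogCen

/-!
# ROW 285, POT-LOG: the pair exterior, free walls: the sandwich      (architect helper281)
GLUE (proved here): `lg_pair_sand`: in the box `lgFc N`, `4 r ≤ N`, with the two staircase holes around `0` and `(r,0)`:   `g = lgU N r` (unit source at `0`, unit sink at `(r,0)`, killed at the boundary of the box),
lower bound for ALL fields, upper bound for the conjugate function `v` of `g` (its defining property is kept: the pinned rim, `LogPin`, cuts it off).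
-/

set_option autoImplicit false

namespace Claimed.Agent.R285.Pot

open Filter Topology
open scoped Classical

noncomputable section

/-- the pair exterior in the box of half side `N` -/
def lgExtP (N M r s : ℕ) : Finset (ℤ × ℤ) := lgFc N \ (F23.stair M s ∪ F23.shift ((r : ℤ), 0) (F23.stair M s))

theorem lg_extP_eq (M q r s : ℕ) : F23.extP M q r s = lgExtP (8 * q * r) M r s := rfl

theorem lg_pair_sand (c ε : ℝ) (hc : 0 < c) (hε : 0 < ε) : ∀ᶠ N : ℕ in atTop, ∀ r M s : ℕ, 2 ≤ M → 1 ≤ s → 4 * r ≤ N →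
    c * N + 1 ≤ (((M - 2) * s : ℕ) : ℝ) → 2 * (M * s + 1) ≤ r →
    (∀ v : ℤ × ℤ → ℝ, 4 * Real.pi ^ 2 * (2 * (Real.log (((r : ℝ) - ((M * s : ℕ) : ℝ) - 1) / (((M * s : ℕ) : ℝ) + 1)) / (2 * Real.pi)
        - ε - (r : ℝ) / N)) ≤ lgEn (lgExtP N M r s) v (lgSeg 0 r)) ∧
    ∃ v : ℤ × ℤ → ℝ, (∀ e ∈ domBonds (lgFc N) ∅,
        v e.snd - v e.1 + 2 * Real.pi * (lgSeg 0 r e : ℝ) = 2 * Real.pi * lgRot (lgU N r) e) ∧
      lgEn (lgExtP N M r s) v (lgSeg 0 r)
        ≤ 4 * Real.pi ^ 2 * (2 * (Real.log (((r : ℝ) + (((M - 2) * s : ℕ) : ℝ)) / ((((M - 2) * s : ℕ) : ℝ) - 1)) / (2 * Real.pi)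
          + ε + (r : ℝ) / N)) := by
  filter_upwards [lg_pair_min0 c ε hc hε, lg_pair_max0 c ε hc hε, lg_pair_max1 c ε hc hε, lg_pair_min1 c ε hc hε]
    with N hmin0 hmax0 hmax1 hmin1 r M s hM hs hrN h1 h2
  have hle : (M - 2) * s ≤ M * s := Nat.mul_le_mul_right s (Nat.sub_le M 2)
  have hleR : (((M - 2) * s : ℕ) : ℝ) ≤ ((M * s : ℕ) : ℝ) := by exact_mod_cast hle
  have hmin0' := hmin0 r (M * s) hrN (by linarith) h2
  have hmax1' := hmax1 r (M * s) hrN (by linarith) h2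
  have hmax0' := hmax0 r ((M - 2) * s) hrN h1 (by omega)
  have hmin1' := hmin1 r ((M - 2) * s) hrN h1 (by omega)
  have hD : lgExtP N M r s ⊆ lgFc N := Finset.sdiff_subset
  have hoff : ∀ c, c ∉ lgBx N → lgU N r c = 0 := fun c hc => lgU_off N r hc
  have hg := fun c (hc : c ∈ lgBx N) => lgU_lap N r hc
  constructor
  · intro v
    obtain ⟨a₀, ha₀⟩ : ∃ a₀ : ℝ, a₀ = Real.log (((r : ℝ) - ((M * s : ℕ) : ℝ) - 1) / (((M * s : ℕ) : ℝ) + 1)) / (2 * Real.pi)
        - ε - (r : ℝ) / N := ⟨_, rfl⟩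
    rw [← ha₀] at hmin0' hmax1' ⊢
    have hEn : 0 ≤ lgEn (lgExtP N M r s) v (lgSeg 0 r) := Finset.sum_nonneg fun e _ => sq_nonneg _
    rcases le_or_gt a₀ 0 with hneg | hpos
    · have : 4 * Real.pi ^ 2 * (2 * a₀) ≤ 0 := mul_nonpos_of_nonneg_of_nonpos (by positivity) (by linarith)
      linarith
    · have hw : ∀ e : Bond, e ∉ domBonds (lgExtP N M r s) ∅ → lgGr (lgClamp (-a₀) a₀ (lgU N r)) (lgCross e) = 0 := by
        intro e he
        refine lgGr_clamp_zero (-a₀) a₀ (by linarith) _ _ ?_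
        obtain ⟨⟨k1, k2⟩, k3, k4⟩ := lgCross_corner e
        have key : ∀ z : ℤ × ℤ, z ∉ lgExtP N M r s → lgCorner z (lgCross e).1 → lgCorner z (lgCross e).snd →
            (a₀ ≤ lgU N r (lgCross e).1 ∧ a₀ ≤ lgU N r (lgCross e).snd) ∨
              (lgU N r (lgCross e).1 ≤ -a₀ ∧ lgU N r (lgCross e).snd ≤ -a₀) ∨
              lgU N r (lgCross e).1 = lgU N r (lgCross e).snd := by
          intro z hz c1 c2
          by_cases hzs : z ∈ F23.stair M s
          · exact Or.inl ⟨hmin0' _ (lg_stair_in M s hzs c1), hmin0' _ (lg_stair_in M s hzs c2)⟩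
          · by_cases hzs' : z ∈ F23.shift ((r : ℤ), 0) (F23.stair M s)
            · rw [lg_shift_mem] at hzs'
              exact Or.inr (Or.inl ⟨hmax1' _ (lg_stair_in M s hzs' (lgCorner_sub c1 _)),
                hmax1' _ (lg_stair_in M s hzs' (lgCorner_sub c2 _))⟩)
            · have hzn : z ∉ lgFc N := fun hzn =>
                hz (Finset.mem_sdiff.2 ⟨hzn, fun h => (Finset.mem_union.1 h).elim hzs hzs'⟩)
              refine Or.inr (Or.inr ?_)
              rw [hoff _ (lg_face_out N hzn c1), hoff _ (lg_face_out N hzn c2)]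
        rw [lg_mem_domBonds, not_and_or] at he
        rcases he with he | he
        · exact key _ he k1 k2
        · exact key _ he k3 k4
      have := lg_sand_lower N (lgExtP N M r s) hD (lgU N r) 0 r hoff hg (-a₀) a₀ (by linarith)
        (hmin0' 0 (by simp [lgSq]; positivity)) (hmax1' _ (by simp [lgSq]; positivity)) hw v
      calc 4 * Real.pi ^ 2 * (2 * a₀) = 4 * Real.pi ^ 2 * (a₀ - -a₀) := by ring
        _ ≤ _ := this
  · obtain ⟨a₀, ha₀⟩ : ∃ a₀ : ℝ, a₀ = Real.log (((r : ℝ) + (((M - 2) * s : ℕ) : ℝ)) / ((((M - 2) * s : ℕ) : ℝ) - 1)) / (2 * Real.pi)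
          + ε + (r : ℝ) / N := ⟨_, rfl⟩
    rw [← ha₀] at hmax0' hmin1' ⊢
    have ha0 : -a₀ ≤ a₀ := by
      have t1 := hmax0' (0, (((M - 2) * s : ℕ) : ℤ)) (by simp [lgSq])
      have t2 := hmin1' (0, (((M - 2) * s : ℕ) : ℤ)) (by simp [lgSq])
      linarith
    have hw : ∀ e ∈ domBonds (lgExtP N M r s) ∅, (-a₀ ≤ lgU N r (lgCross e).1 ∧ lgU N r (lgCross e).1 ≤ a₀) ∧
        (-a₀ ≤ lgU N r (lgCross e).snd ∧ lgU N r (lgCross e).snd ≤ a₀) := by
      intro e he
      obtain ⟨⟨k1, k2⟩, -, -⟩ := lgCross_corner e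
      have hz0 := (Finset.mem_sdiff.1 (lg_mem_domBonds.1 he).1).2
      have hz : e.1 ∉ F23.stair M s := fun h => hz0 (Finset.mem_union_left _ h)
      have hz' : e.1 - ((r : ℤ), 0) ∉ F23.stair M s := fun h => hz0 (Finset.mem_union_right _ ((lg_shift_mem _ _ _).2 h))
      exact ⟨⟨hmin1' _ (lg_stair_out M s hM hs hz' (lgCorner_sub k1 _)), hmax0' _ (lg_stair_out M s hM hs hz k1)⟩,
        ⟨hmin1' _ (lg_stair_out M s hM hs hz' (lgCorner_sub k2 _)), hmax0' _ (lg_stair_out M s hM hs hz k2)⟩⟩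
    obtain ⟨v, hv1, hv⟩ := lg_sand_upper N (lgExtP N M r s) hD (lgU N r) 0 r hoff hg (-a₀) a₀ ha0 hw
    refine ⟨v, hv1, hv.trans (le_of_eq ?_)⟩
    ring

end

end Claimed.Agent.R285.Pot
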