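import Claimed.Agent.R285.Pot.LogPair

/-!
# ROW 285, POT-LOG: the pair exterior with the pinned rim: cut-off of the conjugate function      (architect helper281)
PAPER-FREE.   `m = q r`, box `N = 8 m`, `A = {z : 3m ≤ lgNu z ≤ 6m}` (a square annulus of faces), `lgNu z = max_i max (z_i, -1 - z_i)`, so that `z ∈ lgFc k ↔ lgNu z < k`.
LEAVES:
* L-LOG-PIN-FAR `lgU_far` (~150 l.): `lgG_pair (1/8) ε` with `y = (r,0)`: `4 lgSup y = 4r ≤ N`; `lgIn N x`: `16 (7m+1) ≤ 120 m` for `m ≥ 2` (`N ≥ 16`); `lgSup x ≥ 2m = N/4`, `lgSup (x-y) ≥ 2m - r ≥ m = N/8` (`lgSup_tri`, `r ≤ m/4`);  `lgOne y/N = r/(8 q r) = 1/(8q)`.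
  `lgSq (x-y)/lgSq x = 1 + t`, `t = (r² - 2 r x.1)/lgSq x`, `|t| ≤ (r² + 2 r |x.1|)/lgSq x ≤ r²/(2m)² + 2r/(2m) ≤ 1/(4q²) + 1/q ≤ 5/(4q) ≤ 1/2`  (`lgSq x ≥ lgSup x ² ≥ (2m)²`, `|x.1| lgSup x ≤ lgSq x`);  `lg_abs_log_le` (`LogErr`): `|log (1+t)| ≤ 2|t| ≤ 5/(2q)`;  `/(4π)`: `≤ 5/(24 q)`.   Sum `ε + 1/(8q) + 5/(24q) ≤ ε + 1/q`.
* L-LOG-PIN-OSC `lg_osc` (~200 l.): straight legs: if `|v(t+1,y) - v(t,y)| ≤ γ` for `a ≤ t < b` then `|v(b,y) - v(a,y)| ≤ (b-a) γ` (induction, `Int.le_induction`), the same vertically.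
  If `max z.1 (-1-z.1) ≥ 3m`: vertical leg from `z` to `(z.1,4m)`, then horizontal leg to `(4m,4m)`; otherwise `max z.2 (-1-z.2) ≥ 3m`: horizontal leg to `(4m,z.2)`, then vertical.  All faces of the legs lie in `A` (`omega` after `simp only [lgNu]`).  Each leg has at most `10m+1` bonds, `20m+2 ≤ 22m`.   (`γ ≥ 0` follows from `hv` at any bond of `A`.)
* L-LOG-PIN-CUT `lg_cut` (~300 l.): `w = v - v(4m,4m)`, `v' = lgChi m · w`.   `lgChi = 0` for `lgNu ≥ 6m`, `= 1` for `lgNu ≤ 3m`, `0 ≤ lgChi ≤ 1`, `|lgChi e.snd - lgChi e.1| ≤ 1/(3m)` (`lgNu_bond`; `max 0 (min 1 ·)` is 1-Lipschitz).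
  Bondwise: `(∇v' + 2πτ)² ≤ (∇v + 2πτ)² + [e.1 ∈ lgFc (6m+1)] 81 γ²`:   both ends `lgNu ≤ 3m`: equality;   otherwise both ends `≥ 3m`, `τ e = 0`;  both ends `≥ 6m`: `∇v' = 0`;  otherwise both ends in `A`:
  `∇v' = lgChi(e.snd) ∇w + w(e.1) ∇lgChi`, `|∇v'| ≤ γ + 22 m γ/(3m) ≤ 9γ` (`lg_osc`).   Sum: `domBonds D ∅` filtered by `e.1 ∈ lgFc (6m+1)` injects in `lgBd (6m+1)`, of cardinality `2 (12m+2)² ≤ 392 m²`;  `392 · 81 ≤ 32000`.
GLUE (proved here): `lgNu` facts, `lgU_far_grad` (Brandt), `lg_pair_pin`.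
-/

set_option autoImplicit false

namespace Claimed.Agent.R285.Pot

open Filter Topology
open scoped Classical

noncomputable section

/-- the sup norm of the face `z` (of its centre, rounded down) -/
def lgNu (z : ℤ × ℤ) : ℤ := max (max z.1 (-1 - z.1)) (max z.2 (-1 - z.2))

theorem mem_lgFc_iff {k : ℕ} {z : ℤ × ℤ} : z ∈ lgFc k ↔ lgNu z < k := by
  simp only [lgFc, lgNu, Finset.mem_product, Finset.mem_Ico]
  omega

theorem lgNu_nonneg (z : ℤ × ℤ) : 0 ≤ lgNu z := by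
  simp only [lgNu]
  omega

theorem lgNu_bond (e : Bond) : lgNu e.snd ≤ lgNu e.1 + 1 ∧ lgNu e.1 ≤ lgNu e.snd + 1 := by
  obtain ⟨⟨i, j⟩, b⟩ := e
  cases b <;> simp only [lgNu, Bond.snd] <;> simp <;> omega

theorem lgNu_cross (e : Bond) : lgNu e.1 ≤ lgSup (lgCross e).1 ∧ lgSup (lgCross e).1 ≤ lgNu e.1 + 1 := by
  obtain ⟨⟨i, j⟩, b⟩ := e
  cases b <;> simp only [lgNu, lgCross, lgSup, abs_eq_max_neg] <;> simp only [if_true, if_false, Bool.false_eq_true] <;> omega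

theorem lgSeg_far (r : ℕ) (e : Bond) (h : (r : ℤ) ≤ lgNu e.1) : lgSeg 0 r e = 0 := by
  unfold lgSeg
  rw [if_neg]
  rintro ⟨-, h1, h2, h3⟩
  simp only [lgNu] at h
  simp at h1 h2 h3
  omega

theorem lgSup_tri (x y : ℤ × ℤ) : lgSup x ≤ lgSup (x - y) + lgSup y ∧ lgSup y ≤ lgSup (x - y) + lgSup x := by
  simp only [lgSup, abs_eq_max_neg, Prod.fst_sub, Prod.snd_sub]
  omega

/-- **the dipole potential is small far from the dipole** -/
theorem lgU_far (ε : ℝ) (hε : 0 < ε) : ∀ᶠ N : ℕ in atTop, ∀ q r : ℕ, N = 8 * (q * r) → 4 ≤ q →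
    ∀ x : ℤ × ℤ, 2 * ((q * r : ℕ) : ℤ) ≤ lgSup x → lgSup x ≤ 7 * ((q * r : ℕ) : ℤ) + 1 → |lgU N r x| ≤ ε + 1 / (q : ℝ) := by
  filter_upwards [lgG_pair (1 / 8) ε (by norm_num) hε, eventually_ge_atTop 16] with N hN h16 q r hNq hq x hx1 hx2
  obtain ⟨m, hm⟩ : ∃ m : ℕ, m = q * r := ⟨_, rfl⟩
  rw [← hm] at hNq hx1 hx2
  have hm2 : 2 ≤ m := by omega
  have hrm : 4 * r ≤ m := by rw [hm]; exact Nat.mul_le_mul_right r hq
  have hr1 : 1 ≤ r := by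
    rcases Nat.eq_zero_or_pos r with h | h
    · rw [h, mul_zero] at hm; omega
    · exact h
  have hy : lgSup ((r : ℤ), (0 : ℤ)) = r := by simp [lgSup]
  have hy1 : lgOne ((r : ℤ), (0 : ℤ)) = r := by simp [lgOne]
  obtain ⟨t1, t2⟩ := lgSup_tri x ((r : ℤ), (0 : ℤ))
  have hNR : (N : ℝ) = 8 * (m : ℝ) := by rw [hNq]; push_cast; ring
  have c1 : (1 / 8 : ℝ) * N ≤ (lgSup x : ℝ) := by
    have : ((m : ℤ) : ℝ) ≤ (lgSup x : ℝ) := by exact_mod_cast (by omega : (m : ℤ) ≤ lgSup x)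
    rw [hNR]
    simp only [Int.cast_natCast] at this
    linarith
  have c2 : (1 / 8 : ℝ) * N ≤ (lgSup (x - ((r : ℤ), (0 : ℤ))) : ℝ) := by
    have : ((m : ℤ) : ℝ) ≤ (lgSup (x - ((r : ℤ), (0 : ℤ))) : ℝ) := by
      exact_mod_cast (by omega : (m : ℤ) ≤ lgSup (x - ((r : ℤ), (0 : ℤ))))
    rw [hNR]
    simp only [Int.cast_natCast] at this
    linarith
  have main := hN ((r : ℤ), (0 : ℤ)) x (by rw [hy]; omega) (by unfold lgIn; omega) c1 c2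
  rw [hy1] at main
  -- real variables
  have hQ : (4 : ℝ) ≤ q := by exact_mod_cast hq
  have hR : (1 : ℝ) ≤ r := by exact_mod_cast hr1
  have hmR : (m : ℝ) = q * r := by rw [hm]; push_cast; ring
  have hS : 2 * ((q : ℝ) * r) ≤ (lgSup x : ℝ) := by
    have : ((2 * (m : ℤ) : ℤ) : ℝ) ≤ (lgSup x : ℝ) := by exact_mod_cast hx1
    push_cast at this
    rw [hmR] at this
    exact this
  have hSe : (lgSup x : ℝ) = max |(x.1 : ℝ)| |(x.2 : ℝ)| := by simp [lgSup]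
  have hX1 : |(x.1 : ℝ)| ≤ (lgSup x : ℝ) := by rw [hSe]; exact le_max_left _ _
  have hS0 : (0 : ℝ) ≤ (lgSup x : ℝ) := (abs_nonneg _).trans hX1
  have hS2 : (lgSup x : ℝ) ^ 2 ≤ lgSq x := by
    unfold lgSq
    rw [hSe]
    rcases max_cases |(x.1 : ℝ)| |(x.2 : ℝ)| with ⟨h, -⟩ | ⟨h, -⟩
    · rw [h, sq_abs]; nlinarith [sq_nonneg (x.2 : ℝ)]
    · rw [h, sq_abs]; nlinarith [sq_nonneg (x.1 : ℝ)]
  set S : ℝ := (lgSup x : ℝ) with hSdef
  set Q : ℝ := (q : ℝ) with hQdef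
  set R : ℝ := (r : ℝ) with hRdef
  have hSpos : 0 < S := by nlinarith
  have hsq : 0 < lgSq x := lt_of_lt_of_le (by positivity) hS2
  have key : 4 * Q * (R ^ 2 + 2 * R * S) ≤ 5 * S ^ 2 := by
    have a1 : 2 * (Q * R) * S ≤ S * S := mul_le_mul_of_nonneg_right hS hS0
    have a2 : (2 * (Q * R)) * (2 * (Q * R)) ≤ S * S := mul_self_le_mul_self (by positivity) hS
    have a3 : 0 ≤ (Q - 1) * (Q * R ^ 2) := mul_nonneg (by linarith) (by positivity)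
    nlinarith
  have e1 : lgSq (x - ((r : ℤ), (0 : ℤ))) = lgSq x + (R ^ 2 - 2 * R * (x.1 : ℝ)) := by
    simp only [lgSq, Prod.fst_sub, Prod.snd_sub, Int.cast_sub, Int.cast_natCast, sub_zero]
    ring
  have e2 : lgSq (x - ((r : ℤ), (0 : ℤ))) / lgSq x = 1 + (R ^ 2 - 2 * R * (x.1 : ℝ)) / lgSq x := by
    rw [e1]
    field_simp
  have ht : |(R ^ 2 - 2 * R * (x.1 : ℝ)) / lgSq x| ≤ 5 / (4 * Q) := by
    rw [abs_div, abs_of_pos hsq, div_le_div_iff₀ hsq (by positivity)]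
    have b1 : |R ^ 2 - 2 * R * (x.1 : ℝ)| ≤ R ^ 2 + 2 * R * S := by
      refine (abs_sub _ _).trans ?_
      rw [abs_of_nonneg (by positivity : 0 ≤ R ^ 2), abs_mul, abs_of_nonneg (by positivity : 0 ≤ 2 * R)]
      nlinarith
    nlinarith
  have hq5 : 5 / (4 * Q) ≤ 1 / 2 := by
    rw [div_le_div_iff₀ (by positivity) (by norm_num)]
    linarith
  have hlog := lg_abs_log_le (t := (R ^ 2 - 2 * R * (x.1 : ℝ)) / lgSq x) (by
    have := (abs_le.1 (ht.trans hq5)).1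
    linarith)
  rw [← e2] at hlog
  have hpi : (3 : ℝ) < Real.pi := Real.pi_gt_three
  have hlog2 : |Real.log (lgSq (x - ((r : ℤ), (0 : ℤ))) / lgSq x) / (4 * Real.pi)| ≤ 5 / (24 * Q) := by
    rw [abs_div, abs_of_pos (by positivity : (0 : ℝ) < 4 * Real.pi), div_le_div_iff₀ (by positivity) (by positivity)]
    have b2 : |Real.log (lgSq (x - ((r : ℤ), (0 : ℤ))) / lgSq x)| ≤ 5 / (2 * Q) := by
      refine hlog.trans ?_
      have : 2 * (5 / (4 * Q)) = 5 / (2 * Q) := by field_simp; ring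
      linarith
    have b3 : |Real.log (lgSq (x - ((r : ℤ), (0 : ℤ))) / lgSq x)| * (2 * Q) ≤ 5 := by
      rwa [le_div_iff₀ (by positivity)] at b2
    nlinarith [abs_nonneg (Real.log (lgSq (x - ((r : ℤ), (0 : ℤ))) / lgSq x))]
  have hrN : ((r : ℤ) : ℝ) / N = 1 / (8 * Q) := by
    have hc : ((r : ℤ) : ℝ) = R := Int.cast_natCast r
    rw [hNR, hmR, hc]
    field_simp
  rw [hrN] at main
  have e3 : lgU N r x = (lgG N 0 x - lgG N ((r : ℤ), 0) x - Real.log (lgSq (x - ((r : ℤ), (0 : ℤ))) / lgSq x) / (4 * Real.pi))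
      + Real.log (lgSq (x - ((r : ℤ), (0 : ℤ))) / lgSq x) / (4 * Real.pi) := by
    unfold lgU
    ring
  rw [e3]
  refine (abs_add_le _ _).trans ((add_le_add main hlog2).trans ?_)
  have : 1 / (8 * Q) + 5 / (24 * Q) ≤ 1 / Q := by
    have : 1 / (8 * Q) + 5 / (24 * Q) = 1 / (3 * Q) := by field_simp; ring
    rw [this]
    exact one_div_le_one_div_of_le (by positivity) (by linarith)
  linarith

/-- its gradient, by Brandt's estimate -/
theorem lgU_far_grad (ε : ℝ) (hε : 0 < ε) : ∀ᶠ N : ℕ in atTop, ∀ q r : ℕ, N = 8 * (q * r) → 4 ≤ q →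
    ∀ b : Bond, 3 * ((q * r : ℕ) : ℤ) ≤ lgSup b.1 → lgSup b.1 ≤ 6 * ((q * r : ℕ) : ℤ) + 1 →
      |lgGr (lgU N r) b| ≤ 2 * (ε + 1 / (q : ℝ)) / ((q * r : ℕ) : ℝ) := by
  filter_upwards [lgU_far ε hε, eventually_ge_atTop 16] with N hN h16 q r hNq hq b hb1 hb2
  obtain ⟨m, hm⟩ : ∃ m : ℕ, m = q * r := ⟨_, rfl⟩
  rw [← hm] at hNq hb1 hb2 ⊢
  have hN' := hN q r (by rw [← hm]; exact hNq) hq
  rw [← hm] at hN'
  have hm2 : 2 ≤ m := by omega
  have hrm : 4 * r ≤ m := by rw [hm]; exact Nat.mul_le_mul_right r hq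
  have hh : ∀ x, lgSup (x - b.1) < m → lgLap (lgU N r) x = 0 := by
    intro x hx
    obtain ⟨t1, t2⟩ := lgSup_tri x b.1
    have hxN : x ∈ lgBx N := by rw [mem_lgBx]; omega
    have h0 : x ≠ 0 := by
      rintro rfl
      have : lgSup (0 : ℤ × ℤ) = 0 := by simp [lgSup]
      omega
    have h1 : x ≠ ((0 : ℤ × ℤ).1 + (r : ℤ), (0 : ℤ × ℤ).2) := by
      rintro rfl
      have : lgSup ((0 : ℤ × ℤ).1 + (r : ℤ), (0 : ℤ × ℤ).2) = r := by simp [lgSup]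
      omega
    have := lgU_lap N r hxN
    rw [if_neg h0, if_neg h1] at this
    linarith
  have hM : ∀ x, lgSup (x - b.1) ≤ m → |lgU N r x| ≤ ε + 1 / (q : ℝ) := by
    intro x hx
    obtain ⟨t1, t2⟩ := lgSup_tri x b.1
    exact hN' x (by omega) (by omega)
  obtain ⟨x0, d⟩ := b
  cases d
  · exact lg_brandt (lgU N r) x0 m (by omega) _ hh hM
  · exact lg_brandt' (lgU N r) x0 m (by omega) _ hh hM

theorem lg_walk (f : ℤ → ℝ) (γ : ℝ) (a : ℤ) (k : ℕ) (h : ∀ t, a ≤ t → t < a + k → |f (t + 1) - f t| ≤ γ) :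
    |f (a + k) - f a| ≤ k * γ := by
  induction k with
  | zero => simp
  | succ k ih =>
    have h1 := ih fun t h1 h2 => h t h1 (by push_cast; omega)
    have h2 := h (a + k) (by omega) (by push_cast; omega)
    have e : f (a + ((k + 1 : ℕ) : ℤ)) - f a = (f (a + k + 1) - f (a + k)) + (f (a + k) - f a) := by
      push_cast
      rw [← add_assoc]
      ring
    rw [e]
    refine (abs_add_le _ _).trans ?_
    push_cast
    linarith

theorem lg_walk' (f : ℤ → ℝ) (γ : ℝ) (hγ : 0 ≤ γ) (a b : ℤ) (L : ℕ) (h1 : a - b ≤ L) (h2 : b - a ≤ L)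
    (h : ∀ t, min a b ≤ t → t < max a b → |f (t + 1) - f t| ≤ γ) : |f b - f a| ≤ L * γ := by
  rcases le_total a b with hab | hab
  · obtain ⟨k, hk⟩ : ∃ k : ℕ, b = a + k := ⟨(b - a).toNat, by omega⟩
    have := lg_walk f γ a k fun t t1 t2 => h t (by omega) (by omega)
    rw [hk]
    refine this.trans (mul_le_mul_of_nonneg_right ?_ hγ)
    exact_mod_cast (by omega : k ≤ L)
  · obtain ⟨k, hk⟩ : ∃ k : ℕ, a = b + k := ⟨(a - b).toNat, by omega⟩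
    have := lg_walk f γ b k fun t t1 t2 => h t (by omega) (by omega)
    rw [abs_sub_comm, hk]
    refine this.trans (mul_le_mul_of_nonneg_right ?_ hγ)
    exact_mod_cast (by omega : k ≤ L)

/-- **oscillation over the square annulus** `A`: two straight legs to the face `(4m,4m)` -/
theorem lg_osc (m : ℕ) (hm : 1 ≤ m) (v : ℤ × ℤ → ℝ) (γ : ℝ)
    (hv : ∀ e : Bond, 3 * (m : ℤ) ≤ lgNu e.1 → lgNu e.1 ≤ 6 * (m : ℤ) → 3 * (m : ℤ) ≤ lgNu e.snd → lgNu e.snd ≤ 6 * (m : ℤ) →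
      |v e.snd - v e.1| ≤ γ)
    (z : ℤ × ℤ) (h1 : 3 * (m : ℤ) ≤ lgNu z) (h2 : lgNu z ≤ 6 * (m : ℤ)) :
    |v z - v (4 * (m : ℤ), 4 * (m : ℤ))| ≤ 22 * (m : ℝ) * γ := by
  have hH : ∀ x y : ℤ, 3 * (m : ℤ) ≤ lgNu (x, y) → lgNu (x, y) ≤ 6 * (m : ℤ) → 3 * (m : ℤ) ≤ lgNu (x + 1, y) →
      lgNu (x + 1, y) ≤ 6 * (m : ℤ) → |v (x + 1, y) - v (x, y)| ≤ γ := fun x y a1 a2 a3 a4 =>
    hv ((x, y), true) a1 a2 a3 a4
  have hV : ∀ x y : ℤ, 3 * (m : ℤ) ≤ lgNu (x, y) → lgNu (x, y) ≤ 6 * (m : ℤ) → 3 * (m : ℤ) ≤ lgNu (x, y + 1) →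
      lgNu (x, y + 1) ≤ 6 * (m : ℤ) → |v (x, y + 1) - v (x, y)| ≤ γ := fun x y a1 a2 a3 a4 =>
    hv ((x, y), false) a1 a2 a3 a4
  have hγ : 0 ≤ γ := (abs_nonneg _).trans
    (hH (4 * m) (4 * m) (by simp only [lgNu]; omega) (by simp only [lgNu]; omega) (by simp only [lgNu]; omega)
      (by simp only [lgNu]; omega))
  obtain ⟨x, y⟩ := z
  simp only [lgNu] at h1 h2 hH hV
  have hfin : (((10 * m + 1 : ℕ) : ℝ)) * γ + (((10 * m + 1 : ℕ) : ℝ)) * γ ≤ 22 * (m : ℝ) * γ := by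
    have : (1 : ℝ) ≤ m := by exact_mod_cast hm
    push_cast
    nlinarith
  by_cases hx : 3 * (m : ℤ) ≤ max x (-1 - x)
  · have l1 := lg_walk' (fun t => v (x, t)) γ hγ (4 * m) y (10 * m + 1) (by push_cast; omega) (by push_cast; omega)
      fun t t1 t2 => hV x t (by omega) (by omega) (by omega) (by omega)
    have l2 := lg_walk' (fun t => v (t, 4 * (m : ℤ))) γ hγ (4 * m) x (10 * m + 1) (by push_cast; omega) (by push_cast; omega)
      fun t t1 t2 => hH t (4 * m) (by omega) (by omega) (by omega) (by omega)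
    have e : v (x, y) - v (4 * (m : ℤ), 4 * (m : ℤ)) = (v (x, y) - v (x, 4 * (m : ℤ))) + (v (x, 4 * (m : ℤ)) - v (4 * (m : ℤ), 4 * (m : ℤ))) := by ring
    rw [e]
    exact ((abs_add_le _ _).trans (add_le_add l1 l2)).trans hfin
  · have l1 := lg_walk' (fun t => v (t, y)) γ hγ (4 * m) x (10 * m + 1) (by push_cast; omega) (by push_cast; omega)
      fun t t1 t2 => hH t y (by omega) (by omega) (by omega) (by omega)
    have l2 := lg_walk' (fun t => v (4 * (m : ℤ), t)) γ hγ (4 * m) y (10 * m + 1) (by push_cast; omega) (by push_cast; omega)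
      fun t t1 t2 => hV (4 * m) t (by omega) (by omega) (by omega) (by omega)
    have e : v (x, y) - v (4 * (m : ℤ), 4 * (m : ℤ)) = (v (x, y) - v (4 * (m : ℤ), y)) + (v (4 * (m : ℤ), y) - v (4 * (m : ℤ), 4 * (m : ℤ))) := by ring
    rw [e]
    exact ((abs_add_le _ _).trans (add_le_add l1 l2)).trans hfin

/-- the cut-off: `1` for `lgNu ≤ 3m`, `0` for `lgNu ≥ 6m` -/
def lgChi (m : ℕ) (z : ℤ × ℤ) : ℝ := max 0 (min 1 ((6 * (m : ℝ) - (lgNu z : ℝ)) / (3 * (m : ℝ))))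

theorem lgChi_zero (m : ℕ) (hm : 1 ≤ m) {z : ℤ × ℤ} (h : 6 * (m : ℤ) ≤ lgNu z) : lgChi m z = 0 := by
  have hmR : (0 : ℝ) < m := by exact_mod_cast (by omega : 0 < m)
  have h' : 6 * (m : ℝ) ≤ (lgNu z : ℝ) := by exact_mod_cast h
  unfold lgChi
  refine max_eq_left ((min_le_right _ _).trans ?_)
  exact div_nonpos_of_nonpos_of_nonneg (by linarith) (by positivity)

theorem lgChi_one (m : ℕ) (hm : 1 ≤ m) {z : ℤ × ℤ} (h : lgNu z ≤ 3 * (m : ℤ)) : lgChi m z = 1 := by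
  have hmR : (0 : ℝ) < m := by exact_mod_cast (by omega : 0 < m)
  have h' : (lgNu z : ℝ) ≤ 3 * (m : ℝ) := by exact_mod_cast h
  unfold lgChi
  have : 1 ≤ (6 * (m : ℝ) - (lgNu z : ℝ)) / (3 * (m : ℝ)) := by
    rw [le_div_iff₀ (by positivity)]
    linarith
  rw [min_eq_left this]
  exact max_eq_right zero_le_one

theorem lgChi_mem (m : ℕ) (z : ℤ × ℤ) : 0 ≤ lgChi m z ∧ lgChi m z ≤ 1 :=
  ⟨le_max_left _ _, max_le zero_le_one (min_le_left _ _)⟩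

theorem lgChi_lip (m : ℕ) (hm : 1 ≤ m) (e : Bond) : |lgChi m e.snd - lgChi m e.1| ≤ 1 / (3 * (m : ℝ)) := by
  have hmR : (0 : ℝ) < m := by exact_mod_cast (by omega : 0 < m)
  obtain ⟨b1, b2⟩ := lgNu_bond e
  have b1' : (lgNu e.snd : ℝ) ≤ (lgNu e.1 : ℝ) + 1 := by exact_mod_cast b1
  have b2' : (lgNu e.1 : ℝ) ≤ (lgNu e.snd : ℝ) + 1 := by exact_mod_cast b2
  unfold lgChi
  refine (abs_max_sub_max_le_max _ _ _ _).trans ?_
  rw [sub_self, abs_zero]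
  refine max_le (by positivity) ?_
  refine (abs_min_sub_min_le_max _ _ _ _).trans ?_
  rw [sub_self, abs_zero]
  refine max_le (by positivity) ?_
  rw [← sub_div, abs_div, abs_of_pos (by positivity : (0 : ℝ) < 3 * (m : ℝ))]
  refine div_le_div_of_nonneg_right ?_ (by positivity)
  rw [abs_le]
  constructor <;> linarith

theorem lg_card_lgBd (k : ℕ) : ((lgBd k).card : ℝ) = 2 * (2 * (k : ℝ)) ^ 2 := by
  unfold lgBd lgFc
  rw [Finset.card_product, Finset.card_product, Int.card_Ico]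
  have : ((k : ℤ) - -(k : ℤ)).toNat = 2 * k := by omega
  rw [this]
  simp
  ring

/-- **the cut-off costs** `O(m² γ²)` -/
theorem lg_cut (m : ℕ) (hm : 1 ≤ m) (D : Finset (ℤ × ℤ)) (τ : Bond → ℤ) (v : ℤ × ℤ → ℝ) (γ : ℝ)
    (hτ : ∀ e : Bond, 3 * (m : ℤ) ≤ lgNu e.1 → τ e = 0)
    (hv : ∀ e : Bond, 3 * (m : ℤ) ≤ lgNu e.1 → lgNu e.1 ≤ 6 * (m : ℤ) → 3 * (m : ℤ) ≤ lgNu e.snd → lgNu e.snd ≤ 6 * (m : ℤ) →
      |v e.snd - v e.1| ≤ γ) :
    ∃ v' : ℤ × ℤ → ℝ, (∀ z, 6 * (m : ℤ) ≤ lgNu z → v' z = 0) ∧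
      lgEn D v' τ ≤ lgEn D v τ + 32000 * (m : ℝ) ^ 2 * γ ^ 2 := by
  have hmR : (1 : ℝ) ≤ m := by exact_mod_cast hm
  have hγ : 0 ≤ γ := (abs_nonneg _).trans
    (hv ((4 * (m : ℤ), 4 * (m : ℤ)), true) (by simp only [lgNu]; omega) (by simp only [lgNu]; omega)
      (by simp only [lgNu, Bond.snd, if_true]; omega) (by simp only [lgNu, Bond.snd, if_true]; omega))
  obtain ⟨c0, hc0⟩ : ∃ c0 : ℝ, c0 = v (4 * (m : ℤ), 4 * (m : ℤ)) := ⟨_, rfl⟩
  refine ⟨fun z => lgChi m z * (v z - c0), fun z hz => by simp only [lgChi_zero m hm hz, zero_mul], ?_⟩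
  have key : ∀ e : Bond, (lgChi m e.snd * (v e.snd - c0) - lgChi m e.1 * (v e.1 - c0) + 2 * Real.pi * (τ e : ℝ)) ^ 2
      ≤ (v e.snd - v e.1 + 2 * Real.pi * (τ e : ℝ)) ^ 2 + if e ∈ lgBd (6 * m + 1) then 81 * γ ^ 2 else 0 := by
    intro e
    obtain ⟨b1, b2⟩ := lgNu_bond e
    have hite : (0 : ℝ) ≤ if e ∈ lgBd (6 * m + 1) then 81 * γ ^ 2 else 0 := by
      split_ifs <;> positivity
    by_cases hin : lgNu e.1 ≤ 3 * (m : ℤ) ∧ lgNu e.snd ≤ 3 * (m : ℤ)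
    · rw [lgChi_one m hm hin.1, lgChi_one m hm hin.2]
      have : 1 * (v e.snd - c0) - 1 * (v e.1 - c0) = v e.snd - v e.1 := by ring
      rw [this]
      linarith
    · have a1 : 3 * (m : ℤ) ≤ lgNu e.1 := by omega
      have a2 : 3 * (m : ℤ) ≤ lgNu e.snd := by omega
      rw [hτ e a1]
      by_cases hout : 6 * (m : ℤ) ≤ lgNu e.1 ∧ 6 * (m : ℤ) ≤ lgNu e.snd
      · rw [lgChi_zero m hm hout.1, lgChi_zero m hm hout.2]
        have : (0 * (v e.snd - c0) - 0 * (v e.1 - c0) + 2 * Real.pi * ((0 : ℤ) : ℝ)) ^ 2 = 0 := by simp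
        rw [this]
        positivity
      · have a3 : lgNu e.1 ≤ 6 * (m : ℤ) := by omega
        have a4 : lgNu e.snd ≤ 6 * (m : ℤ) := by omega
        have hmem : e ∈ lgBd (6 * m + 1) := by
          unfold lgBd
          rw [Finset.mem_product]
          exact ⟨mem_lgFc_iff.2 (by push_cast; omega), Finset.mem_univ _⟩
        rw [if_pos hmem]
        have g1 := hv e a1 a3 a2 a4
        have g2 := lg_osc m hm v γ hv e.1 a1 a3
        rw [← hc0] at g2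
        have g3 := lgChi_lip m hm e
        obtain ⟨g4, g5⟩ := lgChi_mem m e.snd
        have e1 : lgChi m e.snd * (v e.snd - c0) - lgChi m e.1 * (v e.1 - c0) + 2 * Real.pi * ((0 : ℤ) : ℝ)
            = lgChi m e.snd * (v e.snd - v e.1) + (v e.1 - c0) * (lgChi m e.snd - lgChi m e.1) := by
          push_cast; ring
        have e2 : |lgChi m e.snd * (v e.snd - v e.1) + (v e.1 - c0) * (lgChi m e.snd - lgChi m e.1)| ≤ 9 * γ := by
          refine (abs_add_le _ _).trans ?_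
          rw [abs_mul, abs_mul, abs_of_nonneg g4]
          have t1 : lgChi m e.snd * |v e.snd - v e.1| ≤ 1 * γ := mul_le_mul g5 g1 (abs_nonneg _) zero_le_one
          have t2 : |v e.1 - c0| * |lgChi m e.snd - lgChi m e.1| ≤ (22 * (m : ℝ) * γ) * (1 / (3 * (m : ℝ))) :=
            mul_le_mul g2 g3 (abs_nonneg _) (by positivity)
          have t3 : (22 * (m : ℝ) * γ) * (1 / (3 * (m : ℝ))) = 22 / 3 * γ := by
            field_simp
          linarith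
        rw [e1]
        have e3 : (lgChi m e.snd * (v e.snd - v e.1) + (v e.1 - c0) * (lgChi m e.snd - lgChi m e.1)) ^ 2 ≤ (9 * γ) ^ 2 :=
          sq_le_sq' (by linarith [(abs_le.1 e2).1]) (abs_le.1 e2).2
        have e4 : (9 * γ) ^ 2 = 81 * γ ^ 2 := by ring
        have : 0 ≤ (v e.snd - v e.1 + 2 * Real.pi * ((0 : ℤ) : ℝ)) ^ 2 := sq_nonneg _
        linarith
  unfold lgEn
  refine (Finset.sum_le_sum fun e _ => key e).trans ?_
  rw [Finset.sum_add_distrib]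
  refine add_le_add le_rfl ?_
  rw [← Finset.sum_filter]
  have hsub : (domBonds D ∅).filter (fun e => e ∈ lgBd (6 * m + 1)) ⊆ lgBd (6 * m + 1) := fun e he =>
    (Finset.mem_filter.1 he).2
  rw [Finset.sum_const, nsmul_eq_mul]
  have hcard : (((domBonds D ∅).filter (fun e => e ∈ lgBd (6 * m + 1))).card : ℝ) ≤ 2 * (2 * ((6 * m + 1 : ℕ) : ℝ)) ^ 2 := by
    rw [← lg_card_lgBd]
    exact_mod_cast Finset.card_le_card hsub
  have h81 : 0 ≤ 81 * γ ^ 2 := by positivity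
  refine (mul_le_mul_of_nonneg_right hcard h81).trans ?_
  push_cast
  have h1 : (2 * (6 * (m : ℝ) + 1)) ^ 2 ≤ 196 * (m : ℝ) ^ 2 := by nlinarith
  have h2 : 0 ≤ γ ^ 2 := sq_nonneg _
  nlinarith [mul_le_mul_of_nonneg_right h1 h2, mul_nonneg (sq_nonneg (m : ℝ)) h2]

/-- **the pinned trial field** -/
theorem lg_pair_pin (c ε : ℝ) (hc : 0 < c) (hε : 0 < ε) : ∀ᶠ N : ℕ in atTop, ∀ q r M s : ℕ, N = 8 * (q * r) → 4 ≤ q →
    2 ≤ M → 1 ≤ s → c * N + 1 ≤ (((M - 2) * s : ℕ) : ℝ) → 2 * (M * s + 1) ≤ r →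
    ∃ v : ℤ × ℤ → ℝ, (∀ z, 6 * ((q * r : ℕ) : ℤ) ≤ lgNu z → v z = 0) ∧
      lgEn (lgExtP N M r s) v (lgSeg 0 r)
        ≤ 4 * Real.pi ^ 2 * (2 * (Real.log (((r : ℝ) + (((M - 2) * s : ℕ) : ℝ)) / ((((M - 2) * s : ℕ) : ℝ) - 1)) / (2 * Real.pi)
          + ε + (r : ℝ) / N)) + 512000 * Real.pi ^ 2 * (ε + 1 / (q : ℝ)) ^ 2 := by
  filter_upwards [lg_pair_sand c ε hc hε, lgU_far_grad ε hε, eventually_ge_atTop 16] with N hsand hgrad h16 q r M s hNq hq hM hs h1 h2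
  obtain ⟨m, hm⟩ : ∃ m : ℕ, m = q * r := ⟨_, rfl⟩
  have hgrad' := hgrad q r hNq hq
  rw [← hm] at hNq hgrad' ⊢
  have hm2 : 2 ≤ m := by omega
  have hrm : 4 * r ≤ m := by rw [hm]; exact Nat.mul_le_mul_right r hq
  obtain ⟨-, v, hv1, hv2⟩ := hsand r M s hM hs (by omega) h1 h2
  have hmR : (0 : ℝ) < m := by exact_mod_cast (by omega : 0 < m)
  obtain ⟨γ, hγ⟩ : ∃ γ : ℝ, γ = 2 * Real.pi * (2 * (ε + 1 / (q : ℝ)) / (m : ℝ)) := ⟨_, rfl⟩
  have hτ : ∀ e : Bond, 3 * (m : ℤ) ≤ lgNu e.1 → lgSeg 0 r e = 0 := fun e he => lgSeg_far r e (by omega)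
  have hv : ∀ e : Bond, 3 * (m : ℤ) ≤ lgNu e.1 → lgNu e.1 ≤ 6 * (m : ℤ) → 3 * (m : ℤ) ≤ lgNu e.snd →
      lgNu e.snd ≤ 6 * (m : ℤ) → |v e.snd - v e.1| ≤ γ := by
    intro e e1 e2 e3 e4
    have he : e ∈ domBonds (lgFc N) ∅ :=
      lg_mem_domBonds.2 ⟨mem_lgFc_iff.2 (by omega), mem_lgFc_iff.2 (by omega)⟩
    have h3 := hv1 e he
    rw [hτ e e1] at h3
    obtain ⟨c1, c2⟩ := lgNu_cross e
    have h4 := hgrad' (lgCross e) (by omega) (by omega)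
    have h5 : |lgRot (lgU N r) e| = |lgGr (lgU N r) (lgCross e)| := by
      unfold lgRot
      split_ifs
      · rfl
      · exact abs_neg _
    have h6 : v e.snd - v e.1 = 2 * Real.pi * lgRot (lgU N r) e := by
      rw [← h3]; simp
    rw [h6, abs_mul, abs_of_pos (by positivity : (0 : ℝ) < 2 * Real.pi), h5, hγ]
    exact mul_le_mul_of_nonneg_left h4 (by positivity)
  obtain ⟨v', hv'1, hv'2⟩ := lg_cut m (by omega) (lgExtP N M r s) (lgSeg 0 r) v γ hτ hv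
  refine ⟨v', hv'1, hv'2.trans ?_⟩
  have h7 : 32000 * (m : ℝ) ^ 2 * γ ^ 2 = 512000 * Real.pi ^ 2 * (ε + 1 / (q : ℝ)) ^ 2 := by
    rw [hγ]
    field_simp
    ring
  rw [h7]
  linarith

end

end Claimed.Agent.R285.Pot
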