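import Claimed.Agent.R285.Pot.LogErr

/-!
# ROW 285, POT-LOG, leaf L-LOG-SHELL: sums over square shells, moments of the error charge      (architect helper281)
PAPER-FREE.  `lg_tail4`, `lg_tail3`: induction on `R'` (trivial if `R' ≤ R`: the set is empty).  Step: `lgCb (R'+1) \ lgCb R = (lgCb (R'+1) \ lgCb R') ∪ (lgCb R' \ lgCb R)` (disjoint), on the shell `lgSup x = R'+1`,
the shell has `(2R'+3)² - (2R'+1)² = 8 (R'+1)` points (`Finset.card_sdiff`, `Finset.card_product`, `Int.card_Icc`).  Prove the sharper telescoping statements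
`∑ ≤ 4 (1/R² - 1/R'²)` (from `8k/k⁴ ≤ 4 (1/(k-1)² - 1/k²)`) and `∑ ≤ 8 (1/R - 1/R')` (from `8k/k³ ≤ 8 (1/(k-1) - 1/k)`), for `R ≤ R'`.
The statements on `lgErr`: a finite `F` lies in some `lgCb R'`; `lgErr_bound`; `lgOne x ≤ 2 lgSup x`; the `8` points with `lgSup x = 1`.
-/

set_option autoImplicit false

namespace Claimed.Agent.R285.Pot

open scoped Classical

noncomputable section

theorem lgSh_mem_Cb (n : ℕ) (x : ℤ × ℤ) : x ∈ lgCb n ↔ lgSup x ≤ n := by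
  unfold lgCb lgSup
  rw [Finset.mem_product, Finset.mem_Icc, Finset.mem_Icc, max_le_iff, abs_le, abs_le]

theorem lgSh_card_Cb (n : ℕ) : (lgCb n).card = (2 * n + 1) ^ 2 := by
  unfold lgCb
  rw [Finset.card_product, Int.card_Icc]
  have : ((n : ℤ) + 1 - -(n : ℤ)).toNat = 2 * n + 1 := by omega
  rw [this]; ring

theorem lgSh_Cb_mono {m n : ℕ} (h : m ≤ n) : lgCb m ⊆ lgCb n := by
  intro x hx
  rw [lgSh_mem_Cb] at hx ⊢
  exact hx.trans (by exact_mod_cast h)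

theorem lgSh_shell_sup (k : ℕ) {x : ℤ × ℤ} (hx : x ∈ lgCb (k + 1) \ lgCb k) : lgSup x = k + 1 := by
  rw [Finset.mem_sdiff, lgSh_mem_Cb, lgSh_mem_Cb] at hx
  push_cast at hx
  omega

theorem lgSh_shell_card (k : ℕ) : (lgCb (k + 1) \ lgCb k).card = 8 * (k + 1) := by
  rw [Finset.card_sdiff_of_subset (lgSh_Cb_mono (Nat.le_succ k)), lgSh_card_Cb, lgSh_card_Cb]
  have : (2 * (k + 1) + 1) ^ 2 = (2 * k + 1) ^ 2 + 8 * (k + 1) := by ring
  show (2 * (k + 1) + 1) ^ 2 - (2 * k + 1) ^ 2 = 8 * (k + 1)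
  rw [this]
  omega

theorem lgSh_shell_sum (k : ℕ) (F : ℤ → ℝ) : ∑ x ∈ lgCb (k + 1) \ lgCb k, F (lgSup x) = 8 * ((k : ℝ) + 1) * F (k + 1) := by
  rw [Finset.sum_congr rfl fun x hx => by rw [lgSh_shell_sup k hx], Finset.sum_const, lgSh_shell_card, nsmul_eq_mul]
  push_cast; ring

theorem lgSh_split (R R' : ℕ) (h : R ≤ R') (f : ℤ × ℤ → ℝ) :
    ∑ x ∈ lgCb (R' + 1) \ lgCb R, f x = ∑ x ∈ lgCb (R' + 1) \ lgCb R', f x + ∑ x ∈ lgCb R' \ lgCb R, f x := by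
  rw [← Finset.sdiff_union_sdiff_cancel (lgSh_Cb_mono (Nat.le_succ R')) (lgSh_Cb_mono h), Finset.sum_union]
  exact Finset.disjoint_left.2 fun x h1 h2 => (Finset.mem_sdiff.1 h1).2 (Finset.mem_sdiff.1 h2).1

theorem lgSh_tail4_aux (R R' : ℕ) (hR : 1 ≤ R) (h : R ≤ R') :
    ∑ x ∈ lgCb R' \ lgCb R, 1 / (lgSup x : ℝ) ^ 4 ≤ 4 * (1 / (R : ℝ) ^ 2 - 1 / (R' : ℝ) ^ 2) := by
  induction R', h using Nat.le_induction with
  | base => simp
  | succ k hk ih =>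
    rw [lgSh_split R k hk, lgSh_shell_sum k (fun t => 1 / (t : ℝ) ^ 4)]
    have hk0 : (0 : ℝ) < k := by exact_mod_cast (lt_of_lt_of_le hR hk)
    have key : 8 * ((k : ℝ) + 1) * (1 / (((k : ℤ) + 1 : ℤ) : ℝ) ^ 4) ≤ 4 * (1 / (k : ℝ) ^ 2 - 1 / ((k : ℝ) + 1) ^ 2) := by
      push_cast
      rw [div_sub_div _ _ (by positivity) (by positivity), ← mul_div_assoc, ← mul_div_assoc,
        div_le_div_iff₀ (by positivity) (by positivity)]
      have : 0 < (k : ℝ) + 1 := by positivity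
      nlinarith [mul_pos hk0 hk0, mul_pos this this, mul_pos (mul_pos this this) (mul_pos this this),
        mul_pos (mul_pos this this) this, mul_pos (mul_pos (mul_pos this this) this) hk0]
    push_cast at key ih ⊢
    linarith

theorem lgSh_tail3_aux (R R' : ℕ) (hR : 1 ≤ R) (h : R ≤ R') :
    ∑ x ∈ lgCb R' \ lgCb R, 1 / (lgSup x : ℝ) ^ 3 ≤ 8 * (1 / (R : ℝ) - 1 / (R' : ℝ)) := by
  induction R', h using Nat.le_induction with
  | base => simp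
  | succ k hk ih =>
    rw [lgSh_split R k hk, lgSh_shell_sum k (fun t => 1 / (t : ℝ) ^ 3)]
    have hk0 : (0 : ℝ) < k := by exact_mod_cast (lt_of_lt_of_le hR hk)
    have key : 8 * ((k : ℝ) + 1) * (1 / (((k : ℤ) + 1 : ℤ) : ℝ) ^ 3) ≤ 8 * (1 / (k : ℝ) - 1 / ((k : ℝ) + 1)) := by
      push_cast
      rw [div_sub_div _ _ (by positivity) (by positivity), ← mul_div_assoc, ← mul_div_assoc,
        div_le_div_iff₀ (by positivity) (by positivity)]
      have : 0 < (k : ℝ) + 1 := by positivity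
      nlinarith [mul_pos hk0 hk0, mul_pos this this, mul_pos (mul_pos this this) this]
    push_cast at key ih ⊢
    linarith

theorem lg_tail4 (R R' : ℕ) (hR : 1 ≤ R) : ∑ x ∈ lgCb R' \ lgCb R, 1 / (lgSup x : ℝ) ^ 4 ≤ 4 / (R : ℝ) ^ 2 := by
  rcases le_total R R' with h | h
  · refine (lgSh_tail4_aux R R' hR h).trans ?_
    have : 0 ≤ 1 / (R' : ℝ) ^ 2 := by positivity
    have e : 4 / (R : ℝ) ^ 2 = 4 * (1 / (R : ℝ) ^ 2) := by ring
    rw [e]; linarith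
  · rw [Finset.sdiff_eq_empty_iff_subset.2 (lgSh_Cb_mono h), Finset.sum_empty]
    positivity

theorem lg_tail3 (R R' : ℕ) (hR : 1 ≤ R) : ∑ x ∈ lgCb R' \ lgCb R, 1 / (lgSup x : ℝ) ^ 3 ≤ 8 / (R : ℝ) := by
  rcases le_total R R' with h | h
  · refine (lgSh_tail3_aux R R' hR h).trans ?_
    have : 0 ≤ 1 / (R' : ℝ) := by positivity
    have e : 8 / (R : ℝ) = 8 * (1 / (R : ℝ)) := by ring
    rw [e]; linarith
  · rw [Finset.sdiff_eq_empty_iff_subset.2 (lgSh_Cb_mono h), Finset.sum_empty]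
    positivity

theorem lgSh_far_subset (F : Finset (ℤ × ℤ)) (R : ℕ) (hF : ∀ x ∈ F, (R : ℤ) < lgSup x) :
    ∃ R' : ℕ, F ⊆ lgCb R' \ lgCb R := by
  refine ⟨F.sup fun x => (lgSup x).toNat, fun x hx => ?_⟩
  rw [Finset.mem_sdiff, lgSh_mem_Cb, lgSh_mem_Cb]
  refine ⟨?_, not_le.2 (hF x hx)⟩
  have h1 : (lgSup x).toNat ≤ F.sup fun x => (lgSup x).toNat := Finset.le_sup (f := fun x => (lgSup x).toNat) hx
  have h2 : lgSup x ≤ ((lgSup x).toNat : ℤ) := Int.self_le_toNat _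
  exact h2.trans (by exact_mod_cast h1)

theorem lgErr_sum_far (F : Finset (ℤ × ℤ)) (R : ℕ) (hR : 1 ≤ R) (hF : ∀ x ∈ F, (R : ℤ) < lgSup x) :
    ∑ x ∈ F, |lgErr x| ≤ 8 / (R : ℝ) ^ 2 := by
  obtain ⟨R', hR'⟩ := lgSh_far_subset F R hF
  calc ∑ x ∈ F, |lgErr x| ≤ ∑ x ∈ F, 2 * (1 / (lgSup x : ℝ) ^ 4) := Finset.sum_le_sum fun x _ => by
        have := lgErr_bound x
        rwa [← mul_one_div] at this
    _ ≤ ∑ x ∈ lgCb R' \ lgCb R, 2 * (1 / (lgSup x : ℝ) ^ 4) :=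
        Finset.sum_le_sum_of_subset_of_nonneg hR' fun x _ _ => by positivity
    _ = 2 * ∑ x ∈ lgCb R' \ lgCb R, 1 / (lgSup x : ℝ) ^ 4 := by rw [Finset.mul_sum]
    _ ≤ 2 * (4 / (R : ℝ) ^ 2) := by gcongr; exact lg_tail4 R R' hR
    _ = _ := by ring

theorem lgSh_One_le (x : ℤ × ℤ) : lgOne x ≤ 2 * lgSup x := by
  unfold lgOne lgSup
  have h1 := le_max_left |x.1| |x.2|
  have h2 := le_max_right |x.1| |x.2|
  omega

theorem lgSh_One_nonneg (x : ℤ × ℤ) : 0 ≤ lgOne x := by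
  unfold lgOne; positivity

theorem lgSh_mom_term (x : ℤ × ℤ) (hx : 0 < lgSup x) : (lgOne x : ℝ) * |lgErr x| ≤ 4 * (1 / (lgSup x : ℝ) ^ 3) := by
  have h1 : (lgOne x : ℝ) ≤ 2 * (lgSup x : ℝ) := by exact_mod_cast lgSh_One_le x
  have h2 := lgErr_bound x
  have h3 : (0 : ℝ) < lgSup x := by exact_mod_cast hx
  calc (lgOne x : ℝ) * |lgErr x| ≤ (2 * (lgSup x : ℝ)) * (2 / (lgSup x : ℝ) ^ 4) := by
        gcongr
    _ = _ := by field_simp; ring

theorem lgErr_mom_far (F : Finset (ℤ × ℤ)) (R : ℕ) (hR : 1 ≤ R) (hF : ∀ x ∈ F, (R : ℤ) < lgSup x) :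
    ∑ x ∈ F, (lgOne x : ℝ) * |lgErr x| ≤ 32 / (R : ℝ) := by
  obtain ⟨R', hR'⟩ := lgSh_far_subset F R hF
  calc ∑ x ∈ F, (lgOne x : ℝ) * |lgErr x| ≤ ∑ x ∈ F, 4 * (1 / (lgSup x : ℝ) ^ 3) := Finset.sum_le_sum fun x hx =>
        lgSh_mom_term x (lt_of_le_of_lt (by positivity) (hF x hx))
    _ ≤ ∑ x ∈ lgCb R' \ lgCb R, 4 * (1 / (lgSup x : ℝ) ^ 3) :=
        Finset.sum_le_sum_of_subset_of_nonneg hR' fun x hx _ => by
          have : (0 : ℝ) ≤ lgSup x := by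
            have : 0 ≤ lgSup x := le_max_of_le_left (abs_nonneg _)
            exact_mod_cast this
          positivity
    _ = 4 * ∑ x ∈ lgCb R' \ lgCb R, 1 / (lgSup x : ℝ) ^ 3 := by rw [Finset.mul_sum]
    _ ≤ 4 * (8 / (R : ℝ)) := by gcongr; exact lg_tail3 R R' hR
    _ = _ := by ring

theorem lgSh_Sup_eq_zero {x : ℤ × ℤ} (h : lgSup x ≤ 0) : x = 0 := by
  unfold lgSup at h
  have h1 : |x.1| ≤ 0 := (le_max_left _ _).trans h
  have h2 : |x.2| ≤ 0 := (le_max_right _ _).trans h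
  exact Prod.ext (abs_eq_zero.1 (le_antisymm h1 (abs_nonneg _))) (abs_eq_zero.1 (le_antisymm h2 (abs_nonneg _)))

theorem lgSh_sum_near_far (F : Finset (ℤ × ℤ)) (g : ℤ × ℤ → ℝ) (hg0 : g 0 = 0) (hg : ∀ x, 0 ≤ g x) (c far : ℝ)
    (h1 : ∀ x, lgSup x = 1 → g x ≤ c)
    (hfar : ∀ F' : Finset (ℤ × ℤ), (∀ x ∈ F', ((1 : ℕ) : ℤ) < lgSup x) → ∑ x ∈ F', g x ≤ far) :
    ∑ x ∈ F, g x ≤ 8 * c + far := by
  rw [← Finset.sum_filter_add_sum_filter_not F (fun x => lgSup x ≤ 1)]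
  refine add_le_add ?_ (hfar _ fun x hx => by
    have := (Finset.mem_filter.1 hx).2
    push_cast; omega)
  rw [← Finset.sum_filter_of_ne (p := fun x => x ≠ 0) (fun x _ hx h0 => hx (h0 ▸ hg0))]
  have hsub : (F.filter fun x => lgSup x ≤ 1).filter (fun x => x ≠ 0) ⊆ lgCb (0 + 1) \ lgCb 0 := by
    intro x hx
    rw [Finset.mem_filter, Finset.mem_filter] at hx
    rw [Finset.mem_sdiff, lgSh_mem_Cb, lgSh_mem_Cb]
    refine ⟨by simpa using hx.1.2, fun h => hx.2 (lgSh_Sup_eq_zero (by simpa using h))⟩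
  calc _ ≤ ∑ x ∈ lgCb (0 + 1) \ lgCb 0, g x := Finset.sum_le_sum_of_subset_of_nonneg hsub fun x _ _ => hg x
    _ ≤ ∑ x ∈ lgCb (0 + 1) \ lgCb 0, c := Finset.sum_le_sum fun x hx => h1 x (by simpa using lgSh_shell_sup 0 hx)
    _ = 8 * c := by rw [Finset.sum_const, lgSh_shell_card, nsmul_eq_mul]; norm_num

theorem lgErr_mom (F : Finset (ℤ × ℤ)) : ∑ x ∈ F, (lgOne x : ℝ) * |lgErr x| ≤ 64 := by
  have := lgSh_sum_near_far F (fun x => (lgOne x : ℝ) * |lgErr x|) (by simp [lgOne])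
    (fun x => mul_nonneg (by exact_mod_cast lgSh_One_nonneg x) (abs_nonneg _)) 4 32
    (fun x hx => by
      have := lgSh_mom_term x (by omega)
      rw [hx] at this
      simpa using this)
    (fun F' hF' => by simpa using lgErr_mom_far F' 1 le_rfl hF')
  linarith

theorem lgErr_abs (F : Finset (ℤ × ℤ)) : ∑ x ∈ F, |lgErr x| ≤ 24 := by
  have := lgSh_sum_near_far F (fun x => |lgErr x|) (by simp [lgErr_zero]) (fun x => abs_nonneg _) 2 8
    (fun x hx => by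
      have := lgErr_bound x
      rw [hx] at this
      simpa using this)
    (fun F' hF' => by simpa using lgErr_sum_far F' 1 le_rfl hF')
  linarith

end

end Claimed.Agent.R285.Pot
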