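import Claimed.Agent.R285.F3.Defs
import Claimed.Agent.R285.S46.Geom
import Claimed.Agent.R285.Pot.LogDefs

/-!
# ROW 285, POT-LOG: staircase geometry and the bridge to `F23.En`      (architect helper281)
PAPER-FREE.   Dual vertex `z` = face `[z.1,z.1+1] × [z.2,z.2+1]`, `lgCorner z x`: `x` is one of its four corners.
LEAVES:
* L-LOG-GEO `lgCross_corner`, `lg_stair_in`, `lg_stair_out`, `lg_face_out`, `lg_shift_mem`, `lgCorner_sub`.
  `lg_stair_in`: `k = z.1 / s` (floor division, `s > 0` because `stair M 0 = ∅`): `k s ≤ z.1 < (k+1) s` (`Int.ediv_mul_le`, `Int.lt_ediv_add_one_mul_self`), so `k s ≤ x.1 ≤ (k+1) s` and `x.1² ≤ max (k²) ((k+1)²) s²`; the same for the second coordinate; sum `≤ M² s²`.   Do it in `ℤ`, cast at the end.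
  `lg_stair_out`: if `z ∉ sq (M s)`: one coordinate of every corner has modulus `≥ M s`.   Otherwise `K² + L² > M²`, `K = max |k| |k+1| ≥ 1`, `L` likewise, and `|x.1| ≥ (K - 1) s`, `|x.2| ≥ (L-1) s`;
     with `a = K - 1`, `b = L - 1 ≥ 0`: `(a+1)² + (b+1)² > M²` implies `a² + b² ≥ (M-2)²`  [if not: `(a+b)² ≤ 2(a²+b²) < 2(M-2)²`, so `2(a+b) < 3(M-2)`, `a²+b² > M² - 3(M-2) - 2 ≥ (M-2)²`].
* L-LOG-EN `lg_En_le`, `lg_le_En`: `F23.En D P τ = S46.Men D ∅ P τ` (copy the 10 lines `pinL_eq`, `En_eq_Men` of `F3/Bridge46.lean`; do NOT import that file), `S46.Men_le`, `S46.le_Men` (`S46/Geom.lean`); `S46.enG D ∅ v (2π τ) = lgEn D v τ` by `rfl`.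
-/

set_option autoImplicit false

namespace Claimed.Agent.R285.Pot

open scoped Classical

noncomputable section

theorem lg_sq_eq (n : ℕ) : F23.sq n = lgFc n := rfl

theorem lg_segConn_eq (x : ℤ × ℤ) (r : ℕ) : F23.segConn x r = lgSeg x r := rfl

/-- both endpoints of the crossed primal bond are corners of both faces -/
theorem lgCross_corner (e : Bond) :
    (lgCorner e.1 (lgCross e).1 ∧ lgCorner e.1 (lgCross e).snd) ∧
      (lgCorner e.snd (lgCross e).1 ∧ lgCorner e.snd (lgCross e).snd) := by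
  obtain ⟨⟨a, b⟩, c⟩ := e
  cases c <;> simp [lgCross, lgCorner, Bond.snd]

/-- a corner coordinate of the cell `z / s` -/
theorem lg_cell_bd {s : ℤ} (hs : 0 < s) {z x : ℤ} (hx : x = z ∨ x = z + 1) : z / s * s ≤ x ∧ x ≤ (z / s + 1) * s := by
  have h1 := Int.ediv_mul_le z hs.ne'
  have h2 := Int.lt_ediv_add_one_mul_self z hs
  rcases hx with rfl | rfl <;> constructor <;> omega

theorem lg_cell_sq {s : ℤ} (hs : 0 < s) {z x : ℤ} (hx : x = z ∨ x = z + 1) :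
    x ^ 2 ≤ max ((z / s) ^ 2) ((z / s + 1) ^ 2) * s ^ 2 := by
  obtain ⟨h1, h2⟩ := lg_cell_bd hs hx
  have hs2 : 0 ≤ s ^ 2 := sq_nonneg s
  rcases le_or_gt 0 x with h0 | h0
  · calc x ^ 2 ≤ ((z / s + 1) * s) ^ 2 := by nlinarith
      _ = (z / s + 1) ^ 2 * s ^ 2 := by ring
      _ ≤ _ := mul_le_mul_of_nonneg_right (le_max_right _ _) hs2
  · calc x ^ 2 ≤ (z / s * s) ^ 2 := by nlinarith
      _ = (z / s) ^ 2 * s ^ 2 := by ring
      _ ≤ _ := mul_le_mul_of_nonneg_right (le_max_left _ _) hs2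

theorem lg_cell_sq_ge {s : ℤ} (hs : 0 < s) {z x : ℤ} (hx : x = z ∨ x = z + 1) :
    ∃ a : ℤ, 0 ≤ a ∧ max ((z / s) ^ 2) ((z / s + 1) ^ 2) = (a + 1) ^ 2 ∧ a ^ 2 * s ^ 2 ≤ x ^ 2 := by
  obtain ⟨h1, h2⟩ := lg_cell_bd hs hx
  rcases le_or_gt 0 (z / s) with h0 | h0
  · refine ⟨z / s, h0, max_eq_right (by nlinarith), ?_⟩
    have : 0 ≤ z / s * s := mul_nonneg h0 hs.le
    nlinarith
  · refine ⟨-(z / s) - 1, by omega, ?_, ?_⟩
    · rw [max_eq_left (by nlinarith)]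
      ring
    · have : (z / s + 1) * s ≤ 0 := mul_nonpos_of_nonpos_of_nonneg (by omega) hs.le
      nlinarith

/-- the arithmetic of `lg_stair_out` -/
theorem lg_stair_arith {a b m : ℤ} (ha : 0 ≤ a) (hb : 0 ≤ b) (hm : 0 ≤ m) (h : (m + 2) ^ 2 < (a + 1) ^ 2 + (b + 1) ^ 2) :
    m ^ 2 ≤ a ^ 2 + b ^ 2 := by
  by_contra hcon
  push Not at hcon
  have h1 : 2 * (a + b) ≤ 3 * m := by
    by_contra h2
    push Not at h2
    nlinarith [sq_nonneg (a - b)]
  nlinarith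

/-- the corners of the faces of the staircase disc lie in the closed disc of radius `M s` -/
theorem lg_stair_in (M s : ℕ) {z x : ℤ × ℤ} (hz : z ∈ F23.stair M s) (hx : lgCorner z x) :
    lgSq x ≤ ((M * s : ℕ) : ℝ) ^ 2 := by
  obtain ⟨hz1, hz2⟩ := Finset.mem_filter.1 hz
  have hs : 0 < (s : ℤ) := by
    rcases Nat.eq_zero_or_pos s with rfl | h
    · simp [F23.sq] at hz1
    · exact_mod_cast h
  have h1 := lg_cell_sq hs hx.1
  have h2 := lg_cell_sq hs hx.2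
  have h3 : x.1 ^ 2 + x.2 ^ 2 ≤ ((M * s : ℕ) : ℤ) ^ 2 := by
    have hs2 : 0 ≤ (s : ℤ) ^ 2 := sq_nonneg _
    have := mul_le_mul_of_nonneg_right hz2 hs2
    push_cast
    nlinarith
  unfold lgSq
  exact_mod_cast h3

/-- the corners of the faces off the staircase disc lie off the open disc of radius `(M-2) s` -/
theorem lg_stair_out (M s : ℕ) (hM : 2 ≤ M) (hs : 1 ≤ s) {z x : ℤ × ℤ} (hz : z ∉ F23.stair M s) (hx : lgCorner z x) :
    (((M - 2) * s : ℕ) : ℝ) ^ 2 ≤ lgSq x := by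
  have hs' : 0 < (s : ℤ) := by exact_mod_cast hs
  obtain ⟨m, rfl⟩ : ∃ m, M = m + 2 := ⟨M - 2, by omega⟩
  have h3 : (((m + 2 - 2) * s : ℕ) : ℤ) ^ 2 ≤ x.1 ^ 2 + x.2 ^ 2 := by
    rw [Nat.add_sub_cancel]
    push_cast
    have hm : 0 ≤ (m : ℤ) := Int.natCast_nonneg m
    have hms : 0 ≤ (m : ℤ) * s := mul_nonneg hm hs'.le
    by_cases hzq : z ∈ F23.sq ((m + 2) * s)
    · have hz2 : ¬ (max ((z.1 / (s : ℤ)) ^ 2) ((z.1 / (s : ℤ) + 1) ^ 2) + max ((z.2 / (s : ℤ)) ^ 2) ((z.2 / (s : ℤ) + 1) ^ 2)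
          ≤ ((m + 2 : ℕ) : ℤ) ^ 2) := fun h => hz (Finset.mem_filter.2 ⟨hzq, h⟩)
      obtain ⟨a, ha, ea, ha2⟩ := lg_cell_sq_ge hs' hx.1
      obtain ⟨b, hb, eb, hb2⟩ := lg_cell_sq_ge hs' hx.2
      rw [ea, eb, not_le] at hz2
      push_cast at hz2
      have h4 := lg_stair_arith ha hb hm hz2
      have hs2 : 0 ≤ (s : ℤ) ^ 2 := sq_nonneg _
      have := mul_le_mul_of_nonneg_right h4 hs2
      nlinarith
    · simp only [F23.sq, Finset.mem_product, Finset.mem_Ico, not_and_or, not_le, not_lt] at hzq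
      push_cast at hzq
      have hx1 := hx.1
      have hx2 := hx.2
      have hbig : (m : ℤ) * s ≤ ((m : ℤ) + 2) * s := by nlinarith
      rcases hzq with (h | h) | (h | h)
      · have : x.1 ≤ -(((m : ℤ) + 2) * s) := by rcases hx1 with e | e <;> omega
        nlinarith [sq_nonneg x.2]
      · have : ((m : ℤ) + 2) * s ≤ x.1 := by rcases hx1 with e | e <;> omega
        nlinarith [sq_nonneg x.2]
      · have : x.2 ≤ -(((m : ℤ) + 2) * s) := by rcases hx2 with e | e <;> omega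
        nlinarith [sq_nonneg x.1]
      · have : ((m : ℤ) + 2) * s ≤ x.2 := by rcases hx2 with e | e <;> omega
        nlinarith [sq_nonneg x.1]
  unfold lgSq
  exact_mod_cast h3

/-- the corners of the faces off the square lie off the open primal box -/
theorem lg_face_out (n : ℕ) {z x : ℤ × ℤ} (hz : z ∉ lgFc n) (hx : lgCorner z x) : x ∉ lgBx n := by
  intro hxn
  apply hz
  obtain ⟨h1, h2⟩ := hx
  simp only [lgBx, lgFc, Finset.mem_product, Finset.mem_Ioo, Finset.mem_Ico] at hxn ⊢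
  omega

theorem lg_shift_mem (y : ℤ × ℤ) (A : Finset (ℤ × ℤ)) (z : ℤ × ℤ) : z ∈ F23.shift y A ↔ z - y ∈ A := by
  unfold F23.shift
  rw [Finset.mem_image]
  constructor
  · rintro ⟨a, ha, rfl⟩
    rwa [add_sub_cancel_right]
  · intro h
    exact ⟨z - y, h, sub_add_cancel z y⟩

theorem lgCorner_sub {z x : ℤ × ℤ} (h : lgCorner z x) (y : ℤ × ℤ) : lgCorner (z - y) (x - y) := by
  obtain ⟨h1, h2⟩ := h
  simp only [lgCorner, Prod.fst_sub, Prod.snd_sub]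
  omega

theorem lg_stair_subset (M s : ℕ) : F23.stair M s ⊆ lgFc (M * s) := Finset.filter_subset _ _

/-- a bond is a bond of `domG D ∅` iff both endpoints lie in `D` -/
theorem lg_mem_domBonds {D : Finset (ℤ × ℤ)} {e : Bond} : e ∈ domBonds D ∅ ↔ e.1 ∈ D ∧ e.snd ∈ D := by
  simp [domBonds]

theorem lg_pinL_eq (D : Finset (ℤ × ℤ)) (P : Set (ℤ × ℤ)) :
    F23.pinL D P = S46.flatL (domG D ∅) (domSet P) (domSet '' ∅) := by
  ext h
  constructor
  · intro hh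
    exact ⟨hh, by simp⟩
  · intro hh
    exact hh.1

theorem lg_En_eq_Men (D : Finset (ℤ × ℤ)) (P : Set (ℤ × ℤ)) (τ : Bond → ℤ) : F23.En D P τ = S46.Men D ∅ P τ := by
  have : ∀ Λ : AddSubgroup ((domG D ∅).V → ℤ), Λ = S46.flatL (domG D ∅) (domSet P) (domSet '' ∅) →
      (F23.lawOf D Λ).gEn 1 (fun e => 2 * Real.pi * ((domFnE τ e : ℤ) : ℝ)) (fun o => Empty.elim o) = S46.Men D ∅ P τ := by
    intro Λ hΛ
    subst hΛ
    rfl
  exact this _ (lg_pinL_eq D P)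

/-- trial fields -/
theorem lg_En_le (D : Finset (ℤ × ℤ)) (P : Set (ℤ × ℤ)) (τ : Bond → ℤ) (v : ℤ × ℤ → ℝ) (hv : ∀ x ∈ P, x ∈ D → v x = 0) :
    F23.En D P τ ≤ lgEn D v τ := by
  rw [lg_En_eq_Men]
  exact S46.Men_le D ∅ P τ v hv

theorem lg_le_En (D : Finset (ℤ × ℤ)) (P : Set (ℤ × ℤ)) (τ : Bond → ℤ) (c : ℝ) (h : ∀ v : ℤ × ℤ → ℝ, c ≤ lgEn D v τ) :
    c ≤ F23.En D P τ := by
  rw [lg_En_eq_Men]
  exact S46.le_Men D ∅ P τ c fun v _ => h v

end

end Claimed.Agent.R285.Pot
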