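import Claimed.Agent.R285.Pot.LogDefs

/-!
# ROW 285, POT-LOG, leaf L-LOG-SUM: summation by parts, Cauchy-Schwarz, truncation, path bounds for the Dirichlet form `lgDir`      (architect helper281)
PAPER-FREE, finite sums only.
* `lg_sbp`: row by row.  For fixed `j`: `∑_{i ∈ [-n,n)} (f(i+1,j) - f(i,j)) (g(i+1,j) - g(i,j)) = ∑_{i ∈ (-n,n)} f(i,j) (2 g(i,j) - g(i-1,j) - g(i+1,j))` because `f(±n,j) = 0`
  (`Finset.sum_Ico_add'`-type shift of the index, or induction); the row `j = -n` vanishes.  The same for the columns.  (`lgBd n = lgFc n ×ˢ univ`: `Finset.sum_product`, `Fintype.sum_bool`.)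
* `lgGr_clamp`: `t ↦ max a (min b t)` is monotone and 1-Lipschitz: case analysis (`max_def`, `min_def`, `nlinarith`).
* `lg_path`: the L-shaped path `a → (b.1, a.2) → b`; Cauchy-Schwarz on each leg (`Finset.sum_range`/`Finset.sum_Ico_consecutive` telescoping, `inner_mul_le_norm_mul_norm` or `Finset.sum_mul_sq_le_sq_mul_sq`), the bonds of a leg are distinct elements of `lgBd n`.
-/

set_option autoImplicit false

namespace Claimed.Agent.R285.Pot

open scoped Classical

noncomputable section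

theorem lgSm_shift (n : ℕ) (f : ℤ × ℤ → ℝ) (hf : ∀ x, x ∉ lgBx n → f x = 0) (T : ℤ × ℤ → ℤ × ℤ)
    (hinj : Function.Injective T) (hT : ∀ y ∈ lgBx n, ∃ x ∈ lgFc n, T x = y) (h : ℤ × ℤ → ℝ) :
    ∑ x ∈ lgFc n, f (T x) * h (T x) = ∑ y ∈ lgBx n, f y * h y := by
  rw [← Finset.sum_image (s := lgFc n) (g := T) (f := fun y => f y * h y) (fun x _ y _ e => hinj e)]
  symm
  refine Finset.sum_subset (fun y hy => ?_) (fun y _ hy => by rw [hf y hy, zero_mul])
  obtain ⟨x, hx, rfl⟩ := hT y hy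
  exact Finset.mem_image_of_mem T hx

theorem lgSm_mem_Bx (n : ℕ) (x : ℤ × ℤ) : x ∈ lgBx n ↔ (-(n : ℤ) < x.1 ∧ x.1 < n) ∧ (-(n : ℤ) < x.2 ∧ x.2 < n) := by
  unfold lgBx
  rw [Finset.mem_product, Finset.mem_Ioo, Finset.mem_Ioo]

theorem lgSm_mem_Fc (n : ℕ) (x : ℤ × ℤ) : x ∈ lgFc n ↔ (-(n : ℤ) ≤ x.1 ∧ x.1 < n) ∧ (-(n : ℤ) ≤ x.2 ∧ x.2 < n) := by
  unfold lgFc
  rw [Finset.mem_product, Finset.mem_Ico, Finset.mem_Ico]

/-- **summation by parts** -/
theorem lg_sbp (n : ℕ) (f g : ℤ × ℤ → ℝ) (hf : ∀ x, x ∉ lgBx n → f x = 0) :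
    lgDir n f g = -∑ x ∈ lgBx n, f x * lgLap g x := by
  have e0 := lgSm_shift n f hf (fun x => x) (fun x y h => h) (fun y hy => ⟨y, by
    rw [lgSm_mem_Bx] at hy; rw [lgSm_mem_Fc]; omega, rfl⟩) (fun x => g (x.1 + 1, x.2) + g (x.1, x.2 + 1) - 2 * g x)
  have e1 := lgSm_shift n f hf (fun x => (x.1 + 1, x.2)) (fun x y h => by
      have h1 := congrArg Prod.fst h
      have h2 := congrArg Prod.snd h
      simp only at h1 h2
      exact Prod.ext (by omega) h2) (fun y hy => ⟨(y.1 - 1, y.2), by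
    rw [lgSm_mem_Bx] at hy; rw [lgSm_mem_Fc]; simp only; omega, by simp⟩) (fun x => g x - g (x.1 - 1, x.2))
  have e2 := lgSm_shift n f hf (fun x => (x.1, x.2 + 1)) (fun x y h => by
      have h1 := congrArg Prod.fst h
      have h2 := congrArg Prod.snd h
      simp only at h1 h2
      exact Prod.ext h1 (by omega)) (fun y hy => ⟨(y.1, y.2 - 1), by
    rw [lgSm_mem_Bx] at hy; rw [lgSm_mem_Fc]; simp only; omega, by simp⟩) (fun x => g x - g (x.1, x.2 - 1))
  simp only [add_sub_cancel_right] at e1 e2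
  unfold lgDir lgBd
  rw [Finset.sum_product]
  simp only [Fintype.sum_bool]
  have key : ∀ x : ℤ × ℤ, lgGr f (x, true) * lgGr g (x, true) + lgGr f (x, false) * lgGr g (x, false)
      = f (x.1 + 1, x.2) * (g (x.1 + 1, x.2) - g (x.1, x.2))
        + f (x.1, x.2 + 1) * (g (x.1, x.2 + 1) - g (x.1, x.2))
        - f x * (g (x.1 + 1, x.2) + g (x.1, x.2 + 1) - 2 * g x) := by
    intro x
    simp only [lgGr, Bond.snd, if_true, Bool.false_eq_true, if_false, Prod.mk.eta]
    ring
  rw [Finset.sum_congr rfl fun x _ => key x, Finset.sum_sub_distrib, Finset.sum_add_distrib, e1, e2,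
    e0, ← Finset.sum_add_distrib, ← Finset.sum_sub_distrib, ← Finset.sum_neg_distrib]
  refine Finset.sum_congr rfl fun x _ => ?_
  unfold lgLap
  ring

theorem lgDir_comm (n : ℕ) (f g : ℤ × ℤ → ℝ) : lgDir n f g = lgDir n g f := by
  unfold lgDir
  exact Finset.sum_congr rfl fun e _ => mul_comm _ _

theorem lgDir_self_nonneg (n : ℕ) (f : ℤ × ℤ → ℝ) : 0 ≤ lgDir n f f :=
  Finset.sum_nonneg fun e _ => mul_self_nonneg _

theorem lgDir_cs (n : ℕ) (f g : ℤ × ℤ → ℝ) : lgDir n f g ^ 2 ≤ lgDir n f f * lgDir n g g := by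
  unfold lgDir
  have := Finset.sum_mul_sq_le_sq_mul_sq (lgBd n) (lgGr f) (lgGr g)
  simpa [sq] using this

theorem lgDir_sub_left (n : ℕ) (f f' g : ℤ × ℤ → ℝ) : lgDir n (f - f') g = lgDir n f g - lgDir n f' g := by
  unfold lgDir
  rw [← Finset.sum_sub_distrib]
  refine Finset.sum_congr rfl fun e _ => ?_
  simp only [lgGr, Pi.sub_apply]; ring

theorem lgDir_sub_right (n : ℕ) (f g g' : ℤ × ℤ → ℝ) : lgDir n f (g - g') = lgDir n f g - lgDir n f g' := by
  rw [lgDir_comm, lgDir_sub_left, lgDir_comm n g, lgDir_comm n g']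

/-- constants do not matter -/
theorem lgDir_add_const (n : ℕ) (f g : ℤ × ℤ → ℝ) (c : ℝ) : lgDir n (fun x => f x + c) g = lgDir n f g := by
  unfold lgDir
  refine Finset.sum_congr rfl fun e _ => ?_
  simp only [lgGr]; ring

theorem lgSm_clamp_sub (a b : ℝ) (hab : a ≤ b) {p q : ℝ} (h : q ≤ p) :
    0 ≤ max a (min b p) - max a (min b q) ∧ max a (min b p) - max a (min b q) ≤ p - q := by
  constructor
  · have : max a (min b q) ≤ max a (min b p) := max_le_max le_rfl (min_le_min le_rfl h)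
    linarith
  · simp only [max_def, min_def]
    split_ifs <;> linarith

/-- truncation, bond by bond -/
theorem lgGr_clamp (a b : ℝ) (hab : a ≤ b) (g : ℤ × ℤ → ℝ) (e : Bond) :
    lgGr (lgClamp a b g) e * lgGr (lgClamp a b g) e ≤ lgGr (lgClamp a b g) e * lgGr g e := by
  simp only [lgGr, lgClamp]
  rcases le_total (g e.1) (g e.snd) with h | h
  · obtain ⟨h1, h2⟩ := lgSm_clamp_sub a b hab h
    exact mul_le_mul_of_nonneg_left h2 h1
  · obtain ⟨h1, h2⟩ := lgSm_clamp_sub a b hab h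
    nlinarith

/-- truncation decreases the energy, in the sharp polarised form -/
theorem lgDir_clamp (n : ℕ) (a b : ℝ) (hab : a ≤ b) (g : ℤ × ℤ → ℝ) :
    lgDir n (lgClamp a b g) (lgClamp a b g) ≤ lgDir n (lgClamp a b g) g :=
  Finset.sum_le_sum fun e _ => lgGr_clamp a b hab g e

/-- where `g` takes values in `[a,b]` at both endpoints the truncation has the same gradient -/
theorem lgGr_clamp_eq (a b : ℝ) (g : ℤ × ℤ → ℝ) (e : Bond) (h1 : a ≤ g e.1) (h1' : g e.1 ≤ b) (h2 : a ≤ g e.snd)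
    (h2' : g e.snd ≤ b) : lgGr (lgClamp a b g) e = lgGr g e := by
  simp only [lgGr, lgClamp, min_eq_right h1', min_eq_right h2', max_eq_right h1, max_eq_right h2]

theorem lgSm_tele (u : ℤ → ℝ) (s t : ℤ) (h : s ≤ t) : ∑ i ∈ Finset.Ico s t, (u (i + 1) - u i) = u t - u s := by
  induction t, h using Int.leInduction with
  | base => simp
  | succ k hk ih =>
    have : Finset.Ico s (k + 1) = insert k (Finset.Ico s k) := by
      ext i; simp only [Finset.mem_Ico, Finset.mem_insert]; omega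
    rw [this, Finset.sum_insert (by simp), ih]
    ring

theorem lgSm_line (u : ℤ → ℝ) (p q : ℤ) :
    (u p - u q) ^ 2 ≤ (|p - q| : ℤ) * ∑ i ∈ Finset.Ico (min p q) (max p q), (u (i + 1) - u i) ^ 2 := by
  have h1 := lgSm_tele u (min p q) (max p q) (min_le_max)
  have h2 := sq_sum_le_card_mul_sum_sq (s := Finset.Ico (min p q) (max p q)) (f := fun i => u (i + 1) - u i)
  have h3 : ((Finset.Ico (min p q) (max p q)).card : ℝ) = ((|p - q| : ℤ) : ℝ) := by
    rw [Int.card_Ico]
    have : ((max p q - min p q).toNat : ℤ) = |p - q| := by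
      rw [Int.toNat_of_nonneg (by have := min_le_max (a := p) (b := q); omega)]
      rcases le_total p q with h | h
      · rw [max_eq_right h, min_eq_left h, abs_of_nonpos (by omega)]; ring
      · rw [max_eq_left h, min_eq_right h, abs_of_nonneg (by omega)]
    exact_mod_cast this
  rw [h1, h3] at h2
  refine le_trans (le_of_eq ?_) h2
  rcases le_total p q with h | h
  · rw [max_eq_right h, min_eq_left h]; ring
  · rw [max_eq_left h, min_eq_right h]

theorem lgSm_leg (n : ℕ) (f : ℤ × ℤ → ℝ) (s : Finset ℤ) (T : ℤ → Bond) (hinj : Function.Injective T)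
    (hT : ∀ i ∈ s, T i ∈ lgBd n) : ∑ i ∈ s, lgGr f (T i) ^ 2 ≤ lgDir n f f := by
  rw [← Finset.sum_image (s := s) (g := T) (f := fun e => lgGr f e ^ 2) (fun x _ y _ e => hinj e)]
  unfold lgDir
  calc _ ≤ ∑ e ∈ lgBd n, lgGr f e ^ 2 := by
        refine Finset.sum_le_sum_of_subset_of_nonneg (fun e he => ?_) fun e _ _ => sq_nonneg _
        obtain ⟨i, hi, rfl⟩ := Finset.mem_image.1 he
        exact hT i hi
    _ = _ := Finset.sum_congr rfl fun e _ => sq _

/-- **path bound** -/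
theorem lg_path (n : ℕ) (f : ℤ × ℤ → ℝ) (a b : ℤ × ℤ) (ha : a ∈ lgFc n) (hb : b ∈ lgFc n) :
    (f a - f b) ^ 2 ≤ 2 * (lgOne (a - b) : ℝ) * lgDir n f f := by
  rw [lgSm_mem_Fc] at ha hb
  have hE := lgDir_self_nonneg n f
  -- horizontal leg
  have h1 : (f a - f (b.1, a.2)) ^ 2 ≤ ((|a.1 - b.1| : ℤ) : ℝ) * lgDir n f f := by
    have := lgSm_line (fun i => f (i, a.2)) a.1 b.1
    refine this.trans (mul_le_mul_of_nonneg_left ?_ (by positivity))
    have hl := lgSm_leg n f (Finset.Ico (min a.1 b.1) (max a.1 b.1))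
      (fun i => ((i, a.2), true)) (fun i j h => by simpa using h) (fun i hi => by
        rw [Finset.mem_Ico] at hi
        simp only [lgBd, Finset.mem_product, Finset.mem_univ, and_true]
        rw [lgSm_mem_Fc]
        simp only
        rcases le_total a.1 b.1 with h | h
        · rw [min_eq_left h, max_eq_right h] at hi; omega
        · rw [min_eq_right h, max_eq_left h] at hi; omega)
    simpa [lgGr, Bond.snd] using hl
  have h2 : (f (b.1, a.2) - f b) ^ 2 ≤ ((|a.2 - b.2| : ℤ) : ℝ) * lgDir n f f := by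
    have := lgSm_line (fun j => f (b.1, j)) a.2 b.2
    refine this.trans (mul_le_mul_of_nonneg_left ?_ (by positivity))
    have hl := lgSm_leg n f (Finset.Ico (min a.2 b.2) (max a.2 b.2))
      (fun j => ((b.1, j), false)) (fun i j h => by simpa using h) (fun i hi => by
        rw [Finset.mem_Ico] at hi
        simp only [lgBd, Finset.mem_product, Finset.mem_univ, and_true]
        rw [lgSm_mem_Fc]
        simp only
        rcases le_total a.2 b.2 with h | h
        · rw [min_eq_left h, max_eq_right h] at hi; omega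
        · rw [min_eq_right h, max_eq_left h] at hi; omega)
    simpa [lgGr, Bond.snd] using hl
  have h3 : (lgOne (a - b) : ℝ) = ((|a.1 - b.1| : ℤ) : ℝ) + ((|a.2 - b.2| : ℤ) : ℝ) := by
    unfold lgOne; push_cast; simp
  rw [h3]
  nlinarith [sq_nonneg ((f a - f (b.1, a.2)) - (f (b.1, a.2) - f b))]

end

end Claimed.Agent.R285.Pot
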