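import Claimed.Agent.R285.Pot.RoDefs

/-!
# ROW 285, POT-REGOPT (architect helper170): calculus on the plain n.n. graph of a finite set `D ⊂ ℤ²`.   GRID-FREE.   No sorry.

* C1 neighbour form: `ro_mem_bonds`, `ro_sum_bonds`, `ro_bonds_nb`, `ro_lap_nb` (`A_D v x = ∑_{y ~ x, y ∈ D} (v x - v y)`), `ro_lap_off`, `ro_dir_nb`.
* C2 `ro_parts`, `ro_dir_eq_parts`, `ro_lap_sum_zero`, `ro_gap`.
* C3 congruence (`ro_*_congr`: only the values on `D` matter), linearity, monotonicity, `ro_dir_disj`, `ro_sq_disj`.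
* C4 `ro_leibniz_nb`; cut-offs `RoCut q D χ` with zone `RoZone D S χ`: `ro_mul_dir_le`, `ro_mul_L_le`; the modification `roMod χ k u = k + χ (u - k)`: `ro_modify_E`, `ro_modify_L`, `ro_modify_l1`;
  `ro_cut_T`: `roT q D (χ u) ≤ 53 roT q D u`.
* C5 locality `ro_lap_local`, `ro_dir_local`, `ro_T_local`.      * C6 `ro_T_sum_le`.
-/

set_option autoImplicit false

namespace Claimed.Agent.R285.Pot

open scoped Classical
open Finset

noncomputable section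

/-! ## C1. Bonds and neighbours -/

theorem ro_mem_bonds {D : Finset (ℤ × ℤ)} {e : Bond} : e ∈ domBonds D ∅ ↔ e.1 ∈ D ∧ e.snd ∈ D := by
  simp [domBonds]

theorem ro_mem_nb {x y : ℤ × ℤ} :
    y ∈ roNb x ↔ y = (x.1 + 1, x.2) ∨ y = (x.1 - 1, x.2) ∨ y = (x.1, x.2 + 1) ∨ y = (x.1, x.2 - 1) := by
  simp [roNb]

theorem ro_nb_symm {x y : ℤ × ℤ} : y ∈ roNb x ↔ x ∈ roNb y := by
  obtain ⟨x1, x2⟩ := x
  obtain ⟨y1, y2⟩ := y
  simp only [ro_mem_nb, Prod.mk.injEq]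
  constructor <;> intro h <;> omega

theorem ro_sum_nb (x : ℤ × ℤ) (F : ℤ × ℤ → ℝ) :
    ∑ y ∈ roNb x, F y = F (x.1 + 1, x.2) + F (x.1 - 1, x.2) + F (x.1, x.2 + 1) + F (x.1, x.2 - 1) := by
  unfold roNb
  rw [sum_insert, sum_insert, sum_insert, sum_singleton]
  · ring
  · simp only [mem_singleton, Prod.mk.injEq]
    intro h; omega
  · simp only [mem_insert, mem_singleton, Prod.mk.injEq, not_or]
    constructor <;> intro h <;> omega
  · simp only [mem_insert, mem_singleton, Prod.mk.injEq, not_or]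
    refine ⟨?_, ?_, ?_⟩ <;> intro h <;> omega

theorem ro_nb_card_le (x : ℤ × ℤ) (D : Finset (ℤ × ℤ)) : (((roNb x).filter (· ∈ D)).card : ℝ) ≤ 4 := by
  have h1 : ((roNb x).filter (· ∈ D)).card ≤ (roNb x).card := card_filter_le _ _
  have h2 : (roNb x).card ≤ 4 := by
    unfold roNb
    exact (card_insert_le _ _).trans (Nat.succ_le_succ ((card_insert_le _ _).trans (Nat.succ_le_succ
      ((card_insert_le _ _).trans (Nat.succ_le_succ (by simp))))))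
  exact_mod_cast h1.trans h2

theorem ro_sum_nbD (D : Finset (ℤ × ℤ)) (x : ℤ × ℤ) (F : ℤ × ℤ → ℝ) :
    ∑ y ∈ (roNb x).filter (· ∈ D), F y = (if (x.1 + 1, x.2) ∈ D then F (x.1 + 1, x.2) else 0)
      + (if (x.1 - 1, x.2) ∈ D then F (x.1 - 1, x.2) else 0) + (if (x.1, x.2 + 1) ∈ D then F (x.1, x.2 + 1) else 0)
      + (if (x.1, x.2 - 1) ∈ D then F (x.1, x.2 - 1) else 0) := by
  rw [sum_filter, ro_sum_nb]

theorem ro_sum_bonds (D : Finset (ℤ × ℤ)) (F : Bond → ℝ) :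
    ∑ e ∈ domBonds D ∅, F e
      = ∑ x ∈ D, ((if (x.1 + 1, x.2) ∈ D then F (x, true) else 0) + (if (x.1, x.2 + 1) ∈ D then F (x, false) else 0)) := by
  unfold domBonds
  rw [sum_filter, sum_product]
  refine sum_congr rfl fun x _ => ?_
  rw [Fintype.sum_bool]
  simp [Bond.snd]

theorem ro_shift_sum₁ (D : Finset (ℤ × ℤ)) (G : ℤ × ℤ → ℝ) :
    ∑ x ∈ D, (if (x.1 - 1, x.2) ∈ D then G x else 0) = ∑ x ∈ D, (if (x.1 + 1, x.2) ∈ D then G (x.1 + 1, x.2) else 0) := by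
  rw [← sum_filter, ← sum_filter]
  refine sum_nbij' (fun x => (x.1 - 1, x.2)) (fun x => (x.1 + 1, x.2)) ?_ ?_ ?_ ?_ ?_
  · intro x hx
    rw [mem_filter] at hx ⊢
    refine ⟨hx.2, ?_⟩
    simpa using hx.1
  · intro x hx
    rw [mem_filter] at hx ⊢
    refine ⟨hx.2, ?_⟩
    simpa using hx.1
  · intro x _; simp
  · intro x _; simp
  · intro x _; simp

theorem ro_shift_sum₂ (D : Finset (ℤ × ℤ)) (G : ℤ × ℤ → ℝ) :
    ∑ x ∈ D, (if (x.1, x.2 - 1) ∈ D then G x else 0) = ∑ x ∈ D, (if (x.1, x.2 + 1) ∈ D then G (x.1, x.2 + 1) else 0) := by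
  rw [← sum_filter, ← sum_filter]
  refine sum_nbij' (fun x => (x.1, x.2 - 1)) (fun x => (x.1, x.2 + 1)) ?_ ?_ ?_ ?_ ?_
  · intro x hx
    rw [mem_filter] at hx ⊢
    refine ⟨hx.2, ?_⟩
    simpa using hx.1
  · intro x hx
    rw [mem_filter] at hx ⊢
    refine ⟨hx.2, ?_⟩
    simpa using hx.1
  · intro x _; simp
  · intro x _; simp
  · intro x _; simp

/-- a symmetric bond sum in neighbour form -/
theorem ro_bonds_nb (D : Finset (ℤ × ℤ)) (F : ℤ × ℤ → ℤ × ℤ → ℝ) (hF : ∀ x y, F x y = F y x) :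
    2 * ∑ e ∈ domBonds D ∅, F e.1 e.snd = ∑ x ∈ D, ∑ y ∈ (roNb x).filter (· ∈ D), F x y := by
  rw [ro_sum_bonds]
  simp only [ro_sum_nbD, Bond.snd, if_true, Bool.false_eq_true, if_false]
  rw [sum_add_distrib, sum_add_distrib, sum_add_distrib, sum_add_distrib,
    ro_shift_sum₁ D (fun x => F x (x.1 - 1, x.2)), ro_shift_sum₂ D (fun x => F x (x.1, x.2 - 1))]
  simp only [add_sub_cancel_right]
  have e2 : ∀ x : ℤ × ℤ, F (x.1 + 1, x.2) (x.1, x.2) = F x (x.1 + 1, x.2) := fun x => hF _ _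
  have e3 : ∀ x : ℤ × ℤ, F (x.1, x.2 + 1) (x.1, x.2) = F x (x.1, x.2 + 1) := fun x => hF _ _
  simp only [e2, e3]
  ring

/-- the free Laplacian in neighbour form -/
theorem ro_lap_nb (D : Finset (ℤ × ℤ)) (v : ℤ × ℤ → ℝ) {x : ℤ × ℤ} (hx : x ∈ D) :
    roLap D v x = ∑ y ∈ (roNb x).filter (· ∈ D), (v x - v y) := by
  unfold roLap
  rw [ro_sum_bonds, ro_sum_nbD]
  simp only [C2.gd, Bond.snd, if_true, Bool.false_eq_true, if_false]
  -- split the four families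
  have h1 : ∀ y : ℤ × ℤ, (if (y.1 + 1, y.2) ∈ D then (v (y.1 + 1, y.2) - v y) * ((if (y.1 + 1, y.2) = x then (1 : ℝ) else 0) - if y = x then 1 else 0) else 0)
      = (if (y.1 + 1, y.2) ∈ D then (if (y.1 + 1, y.2) = x then v (y.1 + 1, y.2) - v y else 0) else 0)
        - (if y = x then (if (y.1 + 1, y.2) ∈ D then v (y.1 + 1, y.2) - v y else 0) else 0) := by
    intro y
    split_ifs <;> ring
  have h2 : ∀ y : ℤ × ℤ, (if (y.1, y.2 + 1) ∈ D then (v (y.1, y.2 + 1) - v y) * ((if (y.1, y.2 + 1) = x then (1 : ℝ) else 0) - if y = x then 1 else 0) else 0)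
      = (if (y.1, y.2 + 1) ∈ D then (if (y.1, y.2 + 1) = x then v (y.1, y.2 + 1) - v y else 0) else 0)
        - (if y = x then (if (y.1, y.2 + 1) ∈ D then v (y.1, y.2 + 1) - v y else 0) else 0) := by
    intro y
    split_ifs <;> ring
  simp only [h1, h2]
  have s1 : ∑ y ∈ D, (if (y.1 + 1, y.2) ∈ D then (if (y.1 + 1, y.2) = x then v (y.1 + 1, y.2) - v y else 0) else 0)
      = ∑ y ∈ D, (if (y.1 - 1, y.2) ∈ D then (if y = x then v y - v (y.1 - 1, y.2) else 0) else 0) := by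
    rw [ro_shift_sum₁ D (fun y => if y = x then v y - v (y.1 - 1, y.2) else 0)]
    simp
  have s2 : ∑ y ∈ D, (if (y.1, y.2 + 1) ∈ D then (if (y.1, y.2 + 1) = x then v (y.1, y.2 + 1) - v y else 0) else 0)
      = ∑ y ∈ D, (if (y.1, y.2 - 1) ∈ D then (if y = x then v y - v (y.1, y.2 - 1) else 0) else 0) := by
    rw [ro_shift_sum₂ D (fun y => if y = x then v y - v (y.1, y.2 - 1) else 0)]
    simp
  rw [sum_add_distrib, sum_sub_distrib, sum_sub_distrib, sum_ite_eq' D x, sum_ite_eq' D x, if_pos hx, if_pos hx, s1, s2]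
  have h3 : ∀ y : ℤ × ℤ, (if (y.1 - 1, y.2) ∈ D then (if y = x then v y - v (y.1 - 1, y.2) else 0) else 0)
      = if y = x then (if (y.1 - 1, y.2) ∈ D then v y - v (y.1 - 1, y.2) else 0) else 0 := by
    intro y; split_ifs <;> rfl
  have h4 : ∀ y : ℤ × ℤ, (if (y.1, y.2 - 1) ∈ D then (if y = x then v y - v (y.1, y.2 - 1) else 0) else 0)
      = if y = x then (if (y.1, y.2 - 1) ∈ D then v y - v (y.1, y.2 - 1) else 0) else 0 := by
    intro y; split_ifs <;> rfl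
  simp only [h3, h4]
  rw [sum_ite_eq' D x, sum_ite_eq' D x, if_pos hx, if_pos hx]
  split_ifs <;> ring

theorem ro_lap_off (D : Finset (ℤ × ℤ)) (v : ℤ × ℤ → ℝ) {x : ℤ × ℤ} (hx : x ∉ D) : roLap D v x = 0 := by
  unfold roLap
  refine sum_eq_zero fun e he => ?_
  have h := ro_mem_bonds.1 he
  rw [if_neg (by rintro rfl; exact hx h.2), if_neg (by rintro rfl; exact hx h.1)]
  ring

theorem ro_dir_nb (D : Finset (ℤ × ℤ)) (v : ℤ × ℤ → ℝ) :
    2 * roDir D v = ∑ x ∈ D, ∑ y ∈ (roNb x).filter (· ∈ D), (v x - v y) ^ 2 := by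
  rw [← ro_bonds_nb D (fun x y => (v x - v y) ^ 2) (fun x y => by ring)]
  unfold roDir C2.gd
  congr 1
  refine sum_congr rfl fun e _ => ?_
  ring

/-! ## C2. Summation by parts -/

/-- summation by parts -/
theorem ro_parts (D : Finset (ℤ × ℤ)) (v u : ℤ × ℤ → ℝ) :
    ∑ e ∈ domBonds D ∅, C2.gd v e * C2.gd u e = ∑ x ∈ D, roLap D v x * u x := by
  unfold roLap
  simp only [sum_mul]
  rw [sum_comm]
  refine sum_congr rfl fun e he => ?_
  have h := ro_mem_bonds.1 he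
  have : ∀ x : ℤ × ℤ, C2.gd v e * ((if e.snd = x then (1 : ℝ) else 0) - if e.1 = x then 1 else 0) * u x
      = (if e.snd = x then C2.gd v e * u x else 0) - (if e.1 = x then C2.gd v e * u x else 0) := by
    intro x; split_ifs <;> ring
  simp only [this]
  rw [sum_sub_distrib, sum_ite_eq D, sum_ite_eq D, if_pos h.1, if_pos h.2]
  unfold C2.gd
  ring

theorem ro_dir_eq_parts (D : Finset (ℤ × ℤ)) (v : ℤ × ℤ → ℝ) : roDir D v = ∑ x ∈ D, roLap D v x * v x := by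
  rw [← ro_parts]
  unfold roDir
  exact sum_congr rfl fun e _ => by ring

theorem ro_lap_sum_zero (D : Finset (ℤ × ℤ)) (v : ℤ × ℤ → ℝ) : ∑ x ∈ D, roLap D v x = 0 := by
  have h := ro_parts D v fun _ => 1
  simp only [C2.gd, sub_self, mul_zero, sum_const_zero, mul_one] at h
  exact h.symm

/-- (G) the gap identity -/
theorem ro_gap (D P : Finset (ℤ × ℤ)) (v u : ℤ × ℤ → ℝ) (hv : ∀ y ∈ P, v y = 0) (hu : ∀ y ∈ P, u y = 0) :
    roDir D (fun x => v x - u x) = roDir D u - roDir D v - 2 * ∑ x ∈ D \ P, roLap D v x * (u x - v x) := by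
  have h1 : ∑ x ∈ D \ P, roLap D v x * (u x - v x) = ∑ x ∈ D, roLap D v x * (u x - v x) := by
    refine sum_subset sdiff_subset fun x hx hx' => ?_
    have : x ∈ P := by
      by_contra hP
      exact hx' (mem_sdiff.2 ⟨hx, hP⟩)
    rw [hv x this, hu x this]
    ring
  rw [h1, ← ro_parts D v fun x => u x - v x]
  unfold roDir C2.gd
  rw [mul_sum, ← sum_sub_distrib, ← sum_sub_distrib]
  exact sum_congr rfl fun e _ => by ring

/-! ## C3. Linearity, congruence, monotonicity -/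

theorem ro_gd_congr {D : Finset (ℤ × ℤ)} {u v : ℤ × ℤ → ℝ} (h : ∀ x ∈ D, u x = v x) {e : Bond} (he : e ∈ domBonds D ∅) :
    C2.gd u e = C2.gd v e := by
  have h' := ro_mem_bonds.1 he
  unfold C2.gd
  rw [h _ h'.1, h _ h'.2]

theorem ro_lap_congr {D : Finset (ℤ × ℤ)} {u v : ℤ × ℤ → ℝ} (h : ∀ x ∈ D, u x = v x) (x : ℤ × ℤ) : roLap D u x = roLap D v x := by
  unfold roLap
  exact sum_congr rfl fun e he => by rw [ro_gd_congr h he]

theorem ro_dir_congr {D : Finset (ℤ × ℤ)} {u v : ℤ × ℤ → ℝ} (h : ∀ x ∈ D, u x = v x) : roDir D u = roDir D v := by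
  unfold roDir
  exact sum_congr rfl fun e he => by rw [ro_gd_congr h he]

theorem ro_L_congr {D : Finset (ℤ × ℤ)} {u v : ℤ × ℤ → ℝ} (h : ∀ x ∈ D, u x = v x) (W : Finset (ℤ × ℤ)) : roL D W u = roL D W v := by
  unfold roL
  exact sum_congr rfl fun x _ => by rw [ro_lap_congr h x]

theorem ro_sq_congr {S : Finset (ℤ × ℤ)} {u v : ℤ × ℤ → ℝ} (h : ∀ x ∈ S, u x = v x) : roSq S u = roSq S v := by
  unfold roSq
  exact sum_congr rfl fun x hx => by rw [h x hx]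

theorem ro_T_congr {D : Finset (ℤ × ℤ)} {u v : ℤ × ℤ → ℝ} (h : ∀ x ∈ D, u x = v x) (q : ℕ) : roT q D u = roT q D v := by
  unfold roT
  rw [ro_L_congr h, ro_dir_congr h, ro_sq_congr h]

theorem ro_lap_add (D : Finset (ℤ × ℤ)) (u v : ℤ × ℤ → ℝ) (x : ℤ × ℤ) :
    roLap D (fun y => u y + v y) x = roLap D u x + roLap D v x := by
  unfold roLap C2.gd
  rw [← sum_add_distrib]
  exact sum_congr rfl fun e _ => by ring

theorem ro_lap_smul (D : Finset (ℤ × ℤ)) (c : ℝ) (u : ℤ × ℤ → ℝ) (x : ℤ × ℤ) : roLap D (fun y => c * u y) x = c * roLap D u x := by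
  unfold roLap C2.gd
  rw [mul_sum]
  exact sum_congr rfl fun e _ => by ring

theorem ro_lap_const (D : Finset (ℤ × ℤ)) (c : ℝ) (x : ℤ × ℤ) : roLap D (fun _ => c) x = 0 := by
  unfold roLap C2.gd
  simp

theorem ro_lap_const_add (D : Finset (ℤ × ℤ)) (c : ℝ) (u : ℤ × ℤ → ℝ) (x : ℤ × ℤ) : roLap D (fun y => c + u y) x = roLap D u x := by
  rw [ro_lap_add D (fun _ => c) u, ro_lap_const, zero_add]

theorem ro_lap_sub_const (D : Finset (ℤ × ℤ)) (c : ℝ) (u : ℤ × ℤ → ℝ) (x : ℤ × ℤ) : roLap D (fun y => u y - c) x = roLap D u x := by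
  have : (fun y => u y - c) = fun y => -c + u y := by funext y; ring
  rw [this, ro_lap_const_add]

theorem ro_lap_finsum {ι : Type} (D : Finset (ℤ × ℤ)) (s : Finset ι) (f : ι → ℤ × ℤ → ℝ) (x : ℤ × ℤ) :
    roLap D (fun y => ∑ i ∈ s, f i y) x = ∑ i ∈ s, roLap D (f i) x := by
  induction s using Finset.induction_on with
  | empty => simpa using ro_lap_const D 0 x
  | insert a s ha ih =>
    simp only [sum_insert ha]
    rw [ro_lap_add D (f a) (fun y => ∑ i ∈ s, f i y), ih]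

theorem ro_dir_nonneg (D : Finset (ℤ × ℤ)) (u : ℤ × ℤ → ℝ) : 0 ≤ roDir D u := sum_nonneg fun _ _ => sq_nonneg _

theorem ro_L_nonneg (D W : Finset (ℤ × ℤ)) (u : ℤ × ℤ → ℝ) : 0 ≤ roL D W u := sum_nonneg fun _ _ => sq_nonneg _

theorem ro_sq_nonneg (S : Finset (ℤ × ℤ)) (u : ℤ × ℤ → ℝ) : 0 ≤ roSq S u := sum_nonneg fun _ _ => sq_nonneg _

theorem ro_T_nonneg (q : ℕ) (D : Finset (ℤ × ℤ)) (u : ℤ × ℤ → ℝ) : 0 ≤ roT q D u := by
  unfold roT
  have := ro_L_nonneg D D u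
  have := ro_dir_nonneg D u
  have := ro_sq_nonneg D u
  positivity

theorem ro_bonds_mono {D D' : Finset (ℤ × ℤ)} (h : D ⊆ D') : domBonds D ∅ ⊆ domBonds D' ∅ := by
  intro e he
  have := ro_mem_bonds.1 he
  exact ro_mem_bonds.2 ⟨h this.1, h this.2⟩

theorem ro_dir_mono {D D' : Finset (ℤ × ℤ)} (h : D ⊆ D') (u : ℤ × ℤ → ℝ) : roDir D u ≤ roDir D' u :=
  sum_le_sum_of_subset_of_nonneg (ro_bonds_mono h) fun _ _ _ => sq_nonneg _

theorem ro_sq_mono {S S' : Finset (ℤ × ℤ)} (h : S ⊆ S') (u : ℤ × ℤ → ℝ) : roSq S u ≤ roSq S' u :=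
  sum_le_sum_of_subset_of_nonneg h fun _ _ _ => sq_nonneg _

theorem ro_L_mono (D : Finset (ℤ × ℤ)) {W W' : Finset (ℤ × ℤ)} (h : W ⊆ W') (u : ℤ × ℤ → ℝ) : roL D W u ≤ roL D W' u :=
  sum_le_sum_of_subset_of_nonneg h fun _ _ _ => sq_nonneg _

theorem ro_dir_const_add (D : Finset (ℤ × ℤ)) (c : ℝ) (u : ℤ × ℤ → ℝ) : roDir D (fun y => c + u y) = roDir D u := by
  unfold roDir C2.gd
  exact sum_congr rfl fun e _ => by ring

theorem ro_dir_sub_const (D : Finset (ℤ × ℤ)) (c : ℝ) (u : ℤ × ℤ → ℝ) : roDir D (fun y => u y - c) = roDir D u := by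
  unfold roDir C2.gd
  exact sum_congr rfl fun e _ => by ring

/-- energies of pairwise disjoint subsets add up to at most the energy -/
theorem ro_dir_disj {ι : Type} (D : Finset (ℤ × ℤ)) (s : Finset ι) (S : ι → Finset (ℤ × ℤ)) (hS : ∀ i ∈ s, S i ⊆ D)
    (hd : ∀ i ∈ s, ∀ j ∈ s, i ≠ j → Disjoint (S i) (S j)) (u : ℤ × ℤ → ℝ) : ∑ i ∈ s, roDir (S i) u ≤ roDir D u := by
  unfold roDir
  rw [← sum_biUnion]
  · refine sum_le_sum_of_subset_of_nonneg ?_ fun _ _ _ => sq_nonneg _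
    intro e he
    obtain ⟨i, hi, hei⟩ := mem_biUnion.1 he
    exact ro_bonds_mono (hS i hi) hei
  · intro i hi j hj hij
    rw [Function.onFun, disjoint_left]
    intro e he he'
    exact disjoint_left.1 (hd i hi j hj hij) (ro_mem_bonds.1 he).1 (ro_mem_bonds.1 he').1

theorem ro_sq_disj {ι : Type} (D : Finset (ℤ × ℤ)) (s : Finset ι) (S : ι → Finset (ℤ × ℤ)) (hS : ∀ i ∈ s, S i ⊆ D)
    (hd : ∀ i ∈ s, ∀ j ∈ s, i ≠ j → Disjoint (S i) (S j)) (F : ℤ × ℤ → ℝ) (hF : ∀ x, 0 ≤ F x) :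
    ∑ i ∈ s, ∑ x ∈ S i, F x ≤ ∑ x ∈ D, F x := by
  rw [← sum_biUnion]
  · refine sum_le_sum_of_subset_of_nonneg ?_ fun x _ _ => hF x
    intro e he
    obtain ⟨i, hi, hei⟩ := mem_biUnion.1 he
    exact hS i hi hei
  · intro i hi j hj hij
    exact hd i hi j hj hij

/-- every site is the first endpoint of at most two bonds -/
theorem ro_sum_bonds_fst_le (D : Finset (ℤ × ℤ)) (F : ℤ × ℤ → ℝ) (hF : ∀ x, 0 ≤ F x) :
    ∑ e ∈ domBonds D ∅, F e.1 ≤ 2 * ∑ x ∈ D, F x := by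
  rw [ro_sum_bonds, mul_sum]
  refine sum_le_sum fun x _ => ?_
  have := hF x
  split_ifs <;> simp <;> linarith

/-! ## C4. Leibniz rule and cut-offs -/

theorem ro_leibniz_nb (D : Finset (ℤ × ℤ)) (χ u : ℤ × ℤ → ℝ) {x : ℤ × ℤ} (hx : x ∈ D) :
    roLap D (fun y => χ y * u y) x = χ x * roLap D u x + u x * roLap D χ x
      - ∑ y ∈ (roNb x).filter (· ∈ D), (χ x - χ y) * (u x - u y) := by
  rw [ro_lap_nb D _ hx, ro_lap_nb D u hx, ro_lap_nb D χ hx, mul_sum, mul_sum, ← sum_add_distrib, ← sum_sub_distrib]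
  exact sum_congr rfl fun y _ => by ring

theorem ro_nb_bond {x y : ℤ × ℤ} (h : y ∈ roNb x) : ∃ e : Bond, (e.1 = x ∧ e.snd = y) ∨ (e.1 = y ∧ e.snd = x) := by
  rcases ro_mem_nb.1 h with rfl | rfl | rfl | rfl
  · exact ⟨(x, true), Or.inl ⟨rfl, by simp [Bond.snd]⟩⟩
  · exact ⟨((x.1 - 1, x.2), true), Or.inr ⟨rfl, by simp [Bond.snd]⟩⟩
  · exact ⟨(x, false), Or.inl ⟨rfl, by simp [Bond.snd]⟩⟩
  · exact ⟨((x.1, x.2 - 1), false), Or.inr ⟨rfl, by simp [Bond.snd]⟩⟩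

theorem ro_snd_mem_nb (e : Bond) : e.snd ∈ roNb e.1 := by
  rw [ro_mem_nb]
  unfold Bond.snd
  split_ifs
  · exact Or.inl rfl
  · exact Or.inr (Or.inr (Or.inl rfl))

theorem ro_cut_nb {q : ℕ} {D : Finset (ℤ × ℤ)} {χ : ℤ × ℤ → ℝ} (hc : RoCut q D χ) {x y : ℤ × ℤ} (h : y ∈ roNb x) :
    |χ x - χ y| ≤ 1 / (q : ℝ) := by
  obtain ⟨e, ⟨h1, h2⟩ | ⟨h1, h2⟩⟩ := ro_nb_bond h
  · have := hc.d1 e
    unfold C2.gd at this
    rwa [h1, h2, abs_sub_comm] at this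
  · have := hc.d1 e
    unfold C2.gd at this
    rwa [h1, h2] at this

theorem ro_zone_nb {D S : Finset (ℤ × ℤ)} {χ : ℤ × ℤ → ℝ} (hz : RoZone D S χ) {x y : ℤ × ℤ} (hx : x ∈ D) (hy : y ∈ D)
    (h : y ∈ roNb x) (hne : χ x ≠ χ y) : x ∈ S ∧ y ∈ S := by
  obtain ⟨e, ⟨h1, h2⟩ | ⟨h1, h2⟩⟩ := ro_nb_bond h
  · have := hz e (ro_mem_bonds.2 ⟨h1 ▸ hx, h2 ▸ hy⟩) (by
      unfold C2.gd
      rw [h1, h2]
      exact sub_ne_zero.2 hne.symm)
    rwa [h1, h2] at this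
  · have := hz e (ro_mem_bonds.2 ⟨h1 ▸ hy, h2 ▸ hx⟩) (by
      unfold C2.gd
      rw [h1, h2]
      exact sub_ne_zero.2 hne)
    rw [h1, h2] at this
    exact this.symm

theorem ro_zone_lap {D S : Finset (ℤ × ℤ)} {χ : ℤ × ℤ → ℝ} (hz : RoZone D S χ) {x : ℤ × ℤ} (hx : x ∈ D) (hne : roLap D χ x ≠ 0) :
    x ∈ S := by
  rw [ro_lap_nb D χ hx] at hne
  obtain ⟨y, hy, hy'⟩ := exists_ne_zero_of_sum_ne_zero hne
  rw [mem_filter] at hy
  exact (ro_zone_nb hz hx hy.2 hy.1 (sub_ne_zero.1 hy')).1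

theorem ro_zone_self (D : Finset (ℤ × ℤ)) (χ : ℤ × ℤ → ℝ) : RoZone D D χ := fun _ he _ => ro_mem_bonds.1 he

/-- energy of a product with a cut-off -/
theorem ro_mul_dir_le {q : ℕ} {D S : Finset (ℤ × ℤ)} {χ : ℤ × ℤ → ℝ} (hc : RoCut q D χ) (hz : RoZone D S χ) (u : ℤ × ℤ → ℝ) :
    roDir D (fun x => χ x * u x) ≤ roDir D u + roDir (D ∩ S) u + 4 / (q : ℝ) ^ 2 * roSq (D ∩ S) u := by
  have key : ∀ e ∈ domBonds D ∅, C2.gd (fun x => χ x * u x) e ^ 2 ≤ C2.gd u e ^ 2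
      + (if e ∈ domBonds (D ∩ S) ∅ then C2.gd u e ^ 2 + 2 / (q : ℝ) ^ 2 * u e.1 ^ 2 else 0) := by
    intro e he
    have hD := ro_mem_bonds.1 he
    by_cases h0 : C2.gd χ e = 0
    · have e1 : C2.gd (fun x => χ x * u x) e = χ e.1 * C2.gd u e := by
        unfold C2.gd at h0 ⊢
        have : χ e.snd = χ e.1 := by linarith
        show χ e.snd * u e.snd - χ e.1 * u e.1 = _
        rw [this]; ring
      have h1 : (χ e.1 * C2.gd u e) ^ 2 ≤ C2.gd u e ^ 2 := by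
        rw [mul_pow]
        have h2 : χ e.1 ^ 2 ≤ 1 := by
          have := hc.mem e.1
          nlinarith
        nlinarith [sq_nonneg (C2.gd u e)]
      rw [e1]
      have h3 : (0 : ℝ) ≤ (if e ∈ domBonds (D ∩ S) ∅ then C2.gd u e ^ 2 + 2 / (q : ℝ) ^ 2 * u e.1 ^ 2 else 0) := by
        split_ifs
        · positivity
        · exact le_rfl
      linarith
    · have hS := hz e he h0
      rw [if_pos (ro_mem_bonds.2 ⟨mem_inter.2 ⟨hD.1, hS.1⟩, mem_inter.2 ⟨hD.2, hS.2⟩⟩)]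
      have e1 : C2.gd (fun x => χ x * u x) e = χ e.snd * C2.gd u e + u e.1 * C2.gd χ e := by
        unfold C2.gd; ring
      rw [e1]
      have h1 : (χ e.snd * C2.gd u e) ^ 2 ≤ C2.gd u e ^ 2 := by
        rw [mul_pow]
        have h2 : χ e.snd ^ 2 ≤ 1 := by
          have := hc.mem e.snd
          nlinarith
        nlinarith [sq_nonneg (C2.gd u e)]
      have h2 : (u e.1 * C2.gd χ e) ^ 2 ≤ 1 / (q : ℝ) ^ 2 * u e.1 ^ 2 := by
        rw [mul_pow, mul_comm]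
        refine mul_le_mul_of_nonneg_right ?_ (sq_nonneg _)
        have := hc.d1 e
        rw [← sq_abs, ← one_div_pow]
        exact pow_le_pow_left₀ (abs_nonneg _) this 2
      have h3 : ∀ a b : ℝ, (a + b) ^ 2 ≤ 2 * a ^ 2 + 2 * b ^ 2 := fun a b => by nlinarith [sq_nonneg (a - b)]
      have h4 := h3 (χ e.snd * C2.gd u e) (u e.1 * C2.gd χ e)
      have e2 : 2 / (q : ℝ) ^ 2 * u e.1 ^ 2 = 2 * (1 / (q : ℝ) ^ 2 * u e.1 ^ 2) := by ring
      rw [e2]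
      linarith
  calc roDir D (fun x => χ x * u x) ≤ ∑ e ∈ domBonds D ∅, (C2.gd u e ^ 2
        + (if e ∈ domBonds (D ∩ S) ∅ then C2.gd u e ^ 2 + 2 / (q : ℝ) ^ 2 * u e.1 ^ 2 else 0)) := sum_le_sum key
    _ = roDir D u + ∑ e ∈ domBonds (D ∩ S) ∅, (C2.gd u e ^ 2 + 2 / (q : ℝ) ^ 2 * u e.1 ^ 2) := by
        rw [sum_add_distrib, sum_ite_mem, inter_eq_right.2 (ro_bonds_mono inter_subset_left)]
        rfl
    _ = roDir D u + roDir (D ∩ S) u + 2 / (q : ℝ) ^ 2 * ∑ e ∈ domBonds (D ∩ S) ∅, u e.1 ^ 2 := by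
        rw [sum_add_distrib, ← mul_sum, add_assoc]
        rfl
    _ ≤ roDir D u + roDir (D ∩ S) u + 4 / (q : ℝ) ^ 2 * roSq (D ∩ S) u := by
        have h1 := ro_sum_bonds_fst_le (D ∩ S) (fun x => u x ^ 2) fun _ => sq_nonneg _
        have h2 : 2 / (q : ℝ) ^ 2 * ∑ e ∈ domBonds (D ∩ S) ∅, u e.1 ^ 2 ≤ 2 / (q : ℝ) ^ 2 * (2 * ∑ x ∈ D ∩ S, u x ^ 2) :=
          mul_le_mul_of_nonneg_left h1 (by positivity)
        have e3 : 2 / (q : ℝ) ^ 2 * (2 * ∑ x ∈ D ∩ S, u x ^ 2) = 4 / (q : ℝ) ^ 2 * roSq (D ∩ S) u := by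
          unfold roSq; ring
        linarith

/-- `ℓ²` norm of the Laplacian of a product with a cut-off -/
theorem ro_mul_L_le {q : ℕ} {D S W : Finset (ℤ × ℤ)} {χ : ℤ × ℤ → ℝ} (hc : RoCut q D χ) (hz : RoZone D S χ) (hW : W ⊆ D)
    (u : ℤ × ℤ → ℝ) :
    roL D W (fun x => χ x * u x) ≤ 3 * roL D W u + 48 / (q : ℝ) ^ 4 * roSq (D ∩ S) u + 24 / (q : ℝ) ^ 2 * roDir (D ∩ S) u := by
  -- pointwise
  have key : ∀ x ∈ D, roLap D (fun y => χ y * u y) x ^ 2 ≤ 3 * roLap D u x ^ 2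
      + (if x ∈ D ∩ S then 48 / (q : ℝ) ^ 4 * u x ^ 2
          + 12 / (q : ℝ) ^ 2 * ∑ y ∈ (roNb x).filter (· ∈ D ∩ S), (u x - u y) ^ 2 else 0) := by
    intro x hx
    rw [ro_leibniz_nb D χ u hx]
    set a := χ x * roLap D u x with ha
    set b := u x * roLap D χ x with hb
    set c := ∑ y ∈ (roNb x).filter (· ∈ D), (χ x - χ y) * (u x - u y) with hc'
    have h3 : (a + b - c) ^ 2 ≤ 3 * a ^ 2 + 3 * b ^ 2 + 3 * c ^ 2 := by
      nlinarith [sq_nonneg (a - b), sq_nonneg (a + c), sq_nonneg (b + c)]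
    have ha2 : a ^ 2 ≤ roLap D u x ^ 2 := by
      rw [ha, mul_pow]
      have h2 : χ x ^ 2 ≤ 1 := by
        have := hc.mem x
        nlinarith
      nlinarith [sq_nonneg (roLap D u x)]
    by_cases hxS : x ∈ D ∩ S
    · rw [if_pos hxS]
      have hb2 : b ^ 2 ≤ 16 / (q : ℝ) ^ 4 * u x ^ 2 := by
        rw [hb, mul_pow, mul_comm]
        refine mul_le_mul_of_nonneg_right ?_ (sq_nonneg _)
        have := hc.d2 x hx
        have h5 : |roLap D χ x| ^ 2 ≤ (4 / (q : ℝ) ^ 2) ^ 2 := pow_le_pow_left₀ (abs_nonneg _) this 2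
        rw [sq_abs] at h5
        have e5 : (4 / (q : ℝ) ^ 2) ^ 2 = 16 / (q : ℝ) ^ 4 := by
          rw [div_pow]; norm_num
          ring
        rwa [e5] at h5
      have hc2 : c ^ 2 ≤ 4 / (q : ℝ) ^ 2 * ∑ y ∈ (roNb x).filter (· ∈ D ∩ S), (u x - u y) ^ 2 := by
        have h6 := sq_sum_le_card_mul_sum_sq (s := (roNb x).filter (· ∈ D)) (f := fun y => (χ x - χ y) * (u x - u y))
        have h7 : ∑ y ∈ (roNb x).filter (· ∈ D), ((χ x - χ y) * (u x - u y)) ^ 2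
            ≤ ∑ y ∈ (roNb x).filter (· ∈ D), (if y ∈ D ∩ S then 1 / (q : ℝ) ^ 2 * (u x - u y) ^ 2 else 0) := by
          refine sum_le_sum fun y hy => ?_
          rw [mem_filter] at hy
          by_cases hne : χ x = χ y
          · rw [hne, sub_self, zero_mul]
            split_ifs
            · have : (0 : ℝ) ≤ 1 / (q : ℝ) ^ 2 * (u x - u y) ^ 2 := by positivity
              simpa using this
            · norm_num
          · have hS := ro_zone_nb hz hx hy.2 hy.1 hne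
            rw [if_pos (mem_inter.2 ⟨hy.2, hS.2⟩), mul_pow]
            refine mul_le_mul_of_nonneg_right ?_ (sq_nonneg _)
            have := ro_cut_nb hc hy.1
            rw [← sq_abs, ← one_div_pow]
            exact pow_le_pow_left₀ (abs_nonneg _) this 2
        have h8 : ∑ y ∈ (roNb x).filter (· ∈ D), (if y ∈ D ∩ S then 1 / (q : ℝ) ^ 2 * (u x - u y) ^ 2 else 0)
            = 1 / (q : ℝ) ^ 2 * ∑ y ∈ (roNb x).filter (· ∈ D ∩ S), (u x - u y) ^ 2 := by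
          rw [← sum_filter, filter_filter, mul_sum]
          refine sum_congr ?_ fun _ _ => rfl
          ext y
          simp only [mem_filter, mem_inter]
          tauto
        have h9 := ro_nb_card_le x D
        have h10 : 0 ≤ ∑ y ∈ (roNb x).filter (· ∈ D), ((χ x - χ y) * (u x - u y)) ^ 2 := sum_nonneg fun _ _ => sq_nonneg _
        calc c ^ 2 ≤ (((roNb x).filter (· ∈ D)).card : ℝ) * ∑ y ∈ (roNb x).filter (· ∈ D), ((χ x - χ y) * (u x - u y)) ^ 2 := h6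
          _ ≤ 4 * ∑ y ∈ (roNb x).filter (· ∈ D), ((χ x - χ y) * (u x - u y)) ^ 2 := mul_le_mul_of_nonneg_right h9 h10
          _ ≤ 4 * (1 / (q : ℝ) ^ 2 * ∑ y ∈ (roNb x).filter (· ∈ D ∩ S), (u x - u y) ^ 2) := by
              rw [← h8]; linarith
          _ = _ := by ring
      have e6 : 48 / (q : ℝ) ^ 4 * u x ^ 2 = 3 * (16 / (q : ℝ) ^ 4 * u x ^ 2) := by ring
      have e7 : 12 / (q : ℝ) ^ 2 * ∑ y ∈ (roNb x).filter (· ∈ D ∩ S), (u x - u y) ^ 2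
          = 3 * (4 / (q : ℝ) ^ 2 * ∑ y ∈ (roNb x).filter (· ∈ D ∩ S), (u x - u y) ^ 2) := by ring
      rw [e6, e7]
      linarith
    · rw [if_neg hxS]
      have hxS' : x ∉ S := fun h => hxS (mem_inter.2 ⟨hx, h⟩)
      have hb0 : b = 0 := by
        rw [hb]
        by_contra hne
        exact hxS' (ro_zone_lap hz hx (right_ne_zero_of_mul hne))
      have hc0 : c = 0 := by
        rw [hc']
        refine sum_eq_zero fun y hy => ?_
        rw [mem_filter] at hy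
        by_cases hne : χ x = χ y
        · rw [hne, sub_self, zero_mul]
        · exact absurd (ro_zone_nb hz hx hy.2 hy.1 hne).1 hxS'
      rw [hb0, hc0]
      nlinarith [sq_nonneg a]
  have hsum : ∑ x ∈ W, (if x ∈ D ∩ S then 48 / (q : ℝ) ^ 4 * u x ^ 2
          + 12 / (q : ℝ) ^ 2 * ∑ y ∈ (roNb x).filter (· ∈ D ∩ S), (u x - u y) ^ 2 else 0)
      ≤ 48 / (q : ℝ) ^ 4 * roSq (D ∩ S) u + 24 / (q : ℝ) ^ 2 * roDir (D ∩ S) u := by
    rw [sum_ite_mem]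
    have h1 : ∑ x ∈ W ∩ (D ∩ S), (48 / (q : ℝ) ^ 4 * u x ^ 2
          + 12 / (q : ℝ) ^ 2 * ∑ y ∈ (roNb x).filter (· ∈ D ∩ S), (u x - u y) ^ 2)
        ≤ ∑ x ∈ D ∩ S, (48 / (q : ℝ) ^ 4 * u x ^ 2
          + 12 / (q : ℝ) ^ 2 * ∑ y ∈ (roNb x).filter (· ∈ D ∩ S), (u x - u y) ^ 2) := by
      refine sum_le_sum_of_subset_of_nonneg inter_subset_right fun x _ _ => ?_
      have : 0 ≤ ∑ y ∈ (roNb x).filter (· ∈ D ∩ S), (u x - u y) ^ 2 := sum_nonneg fun _ _ => sq_nonneg _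
      positivity
    refine h1.trans (le_of_eq ?_)
    rw [sum_add_distrib, ← mul_sum, ← mul_sum, ← ro_dir_nb]
    unfold roSq
    ring
  calc roL D W (fun x => χ x * u x) ≤ ∑ x ∈ W, (3 * roLap D u x ^ 2
      + (if x ∈ D ∩ S then 48 / (q : ℝ) ^ 4 * u x ^ 2
          + 12 / (q : ℝ) ^ 2 * ∑ y ∈ (roNb x).filter (· ∈ D ∩ S), (u x - u y) ^ 2 else 0)) :=
        sum_le_sum fun x hx => key x (hW hx)
    _ = 3 * roL D W u + ∑ x ∈ W, (if x ∈ D ∩ S then 48 / (q : ℝ) ^ 4 * u x ^ 2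
          + 12 / (q : ℝ) ^ 2 * ∑ y ∈ (roNb x).filter (· ∈ D ∩ S), (u x - u y) ^ 2 else 0) := by
        rw [sum_add_distrib, ← mul_sum]
        rfl
    _ ≤ _ := by linarith

/-! ### the modification `k + χ (u - k)` -/

theorem ro_modify_E {q : ℕ} {D S : Finset (ℤ × ℤ)} {χ : ℤ × ℤ → ℝ} (hc : RoCut q D χ) (hz : RoZone D S χ) (k : ℝ) (u : ℤ × ℤ → ℝ) :
    roDir D (roMod χ k u) ≤ roDir D u + roDir (D ∩ S) u + 4 / (q : ℝ) ^ 2 * ∑ x ∈ D ∩ S, (u x - k) ^ 2 := by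
  have h := ro_mul_dir_le hc hz fun x => u x - k
  rw [ro_dir_sub_const, ro_dir_sub_const] at h
  have e : roDir D (roMod χ k u) = roDir D fun x => χ x * (u x - k) := ro_dir_const_add D k _
  rw [e]
  exact h

theorem ro_modify_L {q : ℕ} {D S W : Finset (ℤ × ℤ)} {χ : ℤ × ℤ → ℝ} (hc : RoCut q D χ) (hz : RoZone D S χ) (hW : W ⊆ D) (k : ℝ)
    (u : ℤ × ℤ → ℝ) :
    roL D W (roMod χ k u) ≤ 3 * roL D W u + 48 / (q : ℝ) ^ 4 * ∑ x ∈ D ∩ S, (u x - k) ^ 2 + 24 / (q : ℝ) ^ 2 * roDir (D ∩ S) u := by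
  have h := ro_mul_L_le hc hz hW fun x => u x - k
  rw [ro_dir_sub_const] at h
  have e1 : roL D W (roMod χ k u) = roL D W fun x => χ x * (u x - k) := by
    unfold roL
    refine sum_congr rfl fun x _ => ?_
    have : roLap D (roMod χ k u) x = roLap D (fun x => χ x * (u x - k)) x := ro_lap_const_add D k _ x
    rw [this]
  have e2 : roL D W (fun x => u x - k) = roL D W u := by
    unfold roL
    exact sum_congr rfl fun x _ => by rw [ro_lap_sub_const]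
  rw [e1]
  rw [e2] at h
  exact h

theorem ro_modify_l1 {D B : Finset (ℤ × ℤ)} {χ : ℤ × ℤ → ℝ} (hm : ∀ x, 0 ≤ χ x ∧ χ x ≤ 1) (hB : ∀ x, x ∉ B → χ x = 1) (k : ℝ)
    (u : ℤ × ℤ → ℝ) : ∑ x ∈ D, |roMod χ k u x - u x| ≤ ∑ x ∈ D ∩ B, |u x - k| := by
  have h1 : ∀ x ∈ D, |roMod χ k u x - u x| ≤ if x ∈ B then |u x - k| else 0 := by
    intro x _
    have e : roMod χ k u x - u x = (χ x - 1) * (u x - k) := by unfold roMod; ring
    rw [e]
    split_ifs with hx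
    · rw [abs_mul]
      have h2 : |χ x - 1| ≤ 1 := by
        have := hm x
        rw [abs_le]; constructor <;> linarith
      nlinarith [abs_nonneg (u x - k)]
    · rw [hB x hx]; simp
  refine (sum_le_sum h1).trans (le_of_eq ?_)
  rw [sum_ite_mem]

theorem ro_modify_eq_of_one {χ : ℤ × ℤ → ℝ} {x : ℤ × ℤ} (h : χ x = 1) (k : ℝ) (u : ℤ × ℤ → ℝ) : roMod χ k u x = u x := by
  unfold roMod; rw [h]; ring

theorem ro_modify_eq_of_zero {χ : ℤ × ℤ → ℝ} {x : ℤ × ℤ} (h : χ x = 0) (k : ℝ) (u : ℤ × ℤ → ℝ) : roMod χ k u x = k := by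
  unfold roMod; rw [h]; ring

/-- every cut-off at scale `q` maps the scale-free triple with a universal constant -/
theorem ro_cut_T {q : ℕ} (hq : 0 < q) {D : Finset (ℤ × ℤ)} {χ : ℤ × ℤ → ℝ} (hc : RoCut q D χ) (u : ℤ × ℤ → ℝ) :
    roT q D (fun x => χ x * u x) ≤ 53 * roT q D u := by
  have hq' : (0 : ℝ) < q := by exact_mod_cast hq
  have h1 := ro_mul_dir_le hc (ro_zone_self D χ) u
  have h2 := ro_mul_L_le hc (ro_zone_self D χ) (Subset.refl D) u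
  rw [inter_self] at h1 h2
  have h3 : roSq D (fun x => χ x * u x) ≤ roSq D u := by
    unfold roSq
    refine sum_le_sum fun x _ => ?_
    rw [mul_pow]
    have h2 : χ x ^ 2 ≤ 1 := by
      have := hc.mem x
      nlinarith
    nlinarith [sq_nonneg (u x)]
  unfold roT
  have hL := ro_L_nonneg D D u
  have hE := ro_dir_nonneg D u
  have hS := ro_sq_nonneg D u
  have h4 : (q : ℝ) ^ 2 * roL D D (fun x => χ x * u x)
      ≤ (q : ℝ) ^ 2 * (3 * roL D D u + 48 / (q : ℝ) ^ 4 * roSq D u + 24 / (q : ℝ) ^ 2 * roDir D u) :=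
    mul_le_mul_of_nonneg_left h2 (by positivity)
  have e4 : (q : ℝ) ^ 2 * (3 * roL D D u + 48 / (q : ℝ) ^ 4 * roSq D u + 24 / (q : ℝ) ^ 2 * roDir D u)
      = 3 * ((q : ℝ) ^ 2 * roL D D u) + 48 * (roSq D u / (q : ℝ) ^ 2) + 24 * roDir D u := by
    field_simp
  have h5 : roSq D (fun x => χ x * u x) / (q : ℝ) ^ 2 ≤ roSq D u / (q : ℝ) ^ 2 :=
    div_le_div_of_nonneg_right h3 (by positivity)
  have e6 : 4 / (q : ℝ) ^ 2 * roSq D u = 4 * (roSq D u / (q : ℝ) ^ 2) := by ring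
  have h7 : 0 ≤ (q : ℝ) ^ 2 * roL D D u := by positivity
  have h8 : 0 ≤ roSq D u / (q : ℝ) ^ 2 := by positivity
  rw [e4] at h4
  rw [e6] at h1
  linarith

/-! ## C5. Locality -/

/-- **locality**: a function which vanishes on `B \ A` and whose support has all its `B`-neighbours in `A` does not see `B \ A` -/
theorem ro_lap_local {A B : Finset (ℤ × ℤ)} (hAB : A ⊆ B) {p : ℤ × ℤ → ℝ} (h0 : ∀ x ∈ B, x ∉ A → p x = 0)
    (h1 : ∀ x ∈ A, p x ≠ 0 → ∀ y ∈ roNb x, y ∈ B → y ∈ A) (x : ℤ × ℤ) : roLap B p x = roLap A p x := by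
  by_cases hxB : x ∈ B
  · by_cases hxA : x ∈ A
    · rw [ro_lap_nb B p hxB, ro_lap_nb A p hxA]
      symm
      refine sum_subset ?_ ?_
      · intro y hy
        rw [mem_filter] at hy ⊢
        exact ⟨hy.1, hAB hy.2⟩
      · intro y hy hy'
        rw [mem_filter] at hy hy'
        have hyA : y ∉ A := fun h => hy' ⟨hy.1, h⟩
        rw [h0 y hy.2 hyA, sub_zero]
        by_contra hne
        exact hyA (h1 x hxA hne y hy.1 hy.2)
    · rw [ro_lap_off A p hxA, ro_lap_nb B p hxB]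
      refine sum_eq_zero fun y hy => ?_
      rw [mem_filter] at hy
      rw [h0 x hxB hxA, zero_sub, neg_eq_zero]
      by_contra hne
      have hyA : y ∈ A := by
        by_contra h
        exact hne (h0 y hy.2 h)
      exact hxA (h1 y hyA hne x (ro_nb_symm.1 hy.1) hxB)
  · rw [ro_lap_off B p hxB, ro_lap_off A p fun h => hxB (hAB h)]

theorem ro_dir_local {A B : Finset (ℤ × ℤ)} (hAB : A ⊆ B) {p : ℤ × ℤ → ℝ} (h0 : ∀ x ∈ B, x ∉ A → p x = 0)
    (h1 : ∀ x ∈ A, p x ≠ 0 → ∀ y ∈ roNb x, y ∈ B → y ∈ A) : roDir B p = roDir A p := by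
  rw [ro_dir_eq_parts, ro_dir_eq_parts]
  symm
  refine sum_subset_zero_on_sdiff hAB ?_ ?_
  · intro x hx
    rw [mem_sdiff] at hx
    rw [h0 x hx.1 hx.2, mul_zero]
  · intro x _
    rw [ro_lap_local hAB h0 h1]

theorem ro_T_local {A B : Finset (ℤ × ℤ)} (hAB : A ⊆ B) {p : ℤ × ℤ → ℝ} (h0 : ∀ x ∈ B, x ∉ A → p x = 0)
    (h1 : ∀ x ∈ A, p x ≠ 0 → ∀ y ∈ roNb x, y ∈ B → y ∈ A) (q : ℕ) : roT q B p = roT q A p := by
  unfold roT
  rw [ro_dir_local hAB h0 h1]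
  have e1 : roL B B p = roL A A p := by
    unfold roL
    symm
    refine sum_subset_zero_on_sdiff hAB ?_ ?_
    · intro x hx
      rw [mem_sdiff] at hx
      rw [ro_lap_local hAB h0 h1, ro_lap_off A p hx.2]
      norm_num
    · intro x _
      rw [ro_lap_local hAB h0 h1]
  have e2 : roSq B p = roSq A p := by
    unfold roSq
    symm
    refine sum_subset_zero_on_sdiff hAB ?_ fun _ _ => rfl
    intro x hx
    rw [mem_sdiff] at hx
    rw [h0 x hx.1 hx.2]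
    norm_num
  rw [e1, e2]

/-! ## C6. Sums -/

theorem ro_T_sum_le {ι : Type} (q : ℕ) (D : Finset (ℤ × ℤ)) (s : Finset ι) (f : ι → ℤ × ℤ → ℝ) :
    roT q D (fun x => ∑ i ∈ s, f i x) ≤ (s.card : ℝ) * ∑ i ∈ s, roT q D (f i) := by
  have h1 : roL D D (fun x => ∑ i ∈ s, f i x) ≤ (s.card : ℝ) * ∑ i ∈ s, roL D D (f i) := by
    unfold roL
    rw [sum_comm, mul_sum]
    refine sum_le_sum fun x _ => ?_
    rw [ro_lap_finsum]
    exact sq_sum_le_card_mul_sum_sq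
  have h2 : roDir D (fun x => ∑ i ∈ s, f i x) ≤ (s.card : ℝ) * ∑ i ∈ s, roDir D (f i) := by
    unfold roDir
    rw [sum_comm, mul_sum]
    refine sum_le_sum fun e _ => ?_
    have : C2.gd (fun x => ∑ i ∈ s, f i x) e = ∑ i ∈ s, C2.gd (f i) e := by
      unfold C2.gd
      rw [sum_sub_distrib]
    rw [this]
    exact sq_sum_le_card_mul_sum_sq
  have h3 : roSq D (fun x => ∑ i ∈ s, f i x) ≤ (s.card : ℝ) * ∑ i ∈ s, roSq D (f i) := by
    unfold roSq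
    rw [sum_comm, mul_sum]
    exact sum_le_sum fun x _ => sq_sum_le_card_mul_sum_sq
  unfold roT
  rw [sum_add_distrib, sum_add_distrib, ← mul_sum, ← sum_div]
  have h4 : (q : ℝ) ^ 2 * roL D D (fun x => ∑ i ∈ s, f i x) ≤ (q : ℝ) ^ 2 * ((s.card : ℝ) * ∑ i ∈ s, roL D D (f i)) :=
    mul_le_mul_of_nonneg_left h1 (by positivity)
  have h5 : roSq D (fun x => ∑ i ∈ s, f i x) / (q : ℝ) ^ 2 ≤ ((s.card : ℝ) * ∑ i ∈ s, roSq D (f i)) / (q : ℝ) ^ 2 :=
    div_le_div_of_nonneg_right h3 (by positivity)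
  have e : (s.card : ℝ) * ((q : ℝ) ^ 2 * ∑ i ∈ s, roL D D (f i) + ∑ i ∈ s, roDir D (f i) + (∑ i ∈ s, roSq D (f i)) / (q : ℝ) ^ 2)
      = (q : ℝ) ^ 2 * ((s.card : ℝ) * ∑ i ∈ s, roL D D (f i)) + (s.card : ℝ) * ∑ i ∈ s, roDir D (f i)
        + ((s.card : ℝ) * ∑ i ∈ s, roSq D (f i)) / (q : ℝ) ^ 2 := by ring
  rw [e]
  linarith

end

end Claimed.Agent.R285.Pot
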