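import Claimed.Agent.R285.Pot.RoGeo

/-!
# ROW 285, POT-REGOPT (architect helper170): stage (D) DECOMPOSE THEN EXTEND.

`D = g.region U ⊆ R = (roRc g).set`, `u` constant on `D ∩ fat_z (4q)` for every grid vertex `z`, `16 q ≤ ν`.
1D partition of unity on `[X 0, X last)`: line bumps `roLineB X q i = roBump (X i) (X i) q` (`1` within `2q` of the line, `0` beyond `4q`) and interior bumps `roIntB X q i` (they telescope: `ro_bump_add`).
`u = ∑_{a,b} (roPB a ⊗ roPB b) u` on `D`; every piece `p` has `roT q D p ≤ 53 roT q D u` (`ro_cut_T`, `ro_pb_cut`) and is extended separately: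
* (int,int): supported well inside ONE cell: keep it if the cell is in `U` (`ro_ext_plain`), else `0`;
* (line,int), (int,line): supported in a thin strip along ONE face, away from its end vertices.  The two half strips are each contained in `D` or disjoint from `D` (`ro_same_region`): both in `D`: `ro_ext_plain`; one: even reflection `ro_ext_mirror`; none: `0`;
* (line,line): `p = k (λ ⊗ λ)` on `D`: extend by the same formula.
LEAVES `L-RO-D*`: every `sorry`; the leaf name is in the docstring.  Edit only your own theorems (private helpers directly above them, prefix `ro_`), splice on a fresh pull.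
-/

set_option autoImplicit false

namespace Claimed.Agent.R285.Pot

open scoped Classical
open Finset

noncomputable section

variable {m₁ m₂ : ℕ}

/-! ## the 1D partition of unity -/

/-- the bump of the line `X i` -/
def roLineB {m : ℕ} (X : Fin (m + 1) → ℤ) (q : ℕ) (i : Fin (m + 1)) : ℤ → ℝ := roBump (X i) (X i) q

/-- the bump of the interior of the column `i` -/
def roIntB {m : ℕ} (X : Fin (m + 1) → ℤ) (q : ℕ) (i : Fin m) : ℤ → ℝ := roBump (X i.castSucc + 6 * q) (X i.succ - 6 * q) q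

/-- all the bumps -/
def roPB {m : ℕ} (X : Fin (m + 1) → ℤ) (q : ℕ) : Fin (m + 1) ⊕ Fin m → ℤ → ℝ := Sum.elim (roLineB X q) (roIntB X q)

private theorem ro_pou1_tel {m : ℕ} (F : Fin (m + 1) → ℝ) : ∑ i : Fin m, (F i.castSucc - F i.succ) = F 0 - F (Fin.last m) := by
  have h1 := Fin.sum_univ_castSucc F
  have h2 := Fin.sum_univ_succ F
  rw [sum_sub_distrib]
  linarith

/-- L-RO-D1.  `Fintype.sum_sum_type`, `Fin.sum_univ_castSucc`, `ro_bump_add` (with `a = b = X i.castSucc`, `c = X i.succ`), telescoping `∑_{i : Fin m} (f i.castSucc - f i.succ) = f 0 - f (Fin.last m)` (induction on `m` or `Fin.sum_univ_succ`),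
then `ro_step_eq_one`, `ro_step_eq_zero`. -/
theorem ro_pou1 {m : ℕ} (X : Fin (m + 1) → ℤ) {q : ℕ} (hq : 0 < q) {t : ℤ} (h1 : X 0 - 2 * q ≤ t + 1) (h2 : t ≤ X (Fin.last m) + 2 * q) :
    ∑ a, roPB X q a t = 1 := by
  rw [Fintype.sum_sum_type]
  simp only [roPB, Sum.elim_inl, Sum.elim_inr]
  rw [Fin.sum_univ_castSucc, add_right_comm, ← sum_add_distrib]
  have e : ∀ i : Fin m, roLineB X q i.castSucc t + roIntB X q i t
      = (fun j : Fin (m + 1) => roStep (X j - 4 * q + 1) q t) i.castSucc - (fun j : Fin (m + 1) => roStep (X j - 4 * q + 1) q t) i.succ := by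
    intro i
    unfold roLineB roIntB
    exact ro_bump_add _ _ _ _ _
  rw [sum_congr rfl fun i _ => e i, ro_pou1_tel (fun j : Fin (m + 1) => roStep (X j - 4 * q + 1) q t)]
  unfold roLineB roBump
  rw [ro_step_eq_one _ hq (by omega), ro_step_eq_zero (X (Fin.last m) + 2 * q + 1) hq (by omega)]
  ring

private theorem ro_pb_prof {m : ℕ} (X : Fin (m + 1) → ℤ) {ν : ℕ} (hX : ∀ i i' : Fin (m + 1), i < i' → X i + ν ≤ X i') {q : ℕ} (hq : 0 < q)
    (hν : 12 * q ≤ ν) (a : Fin (m + 1) ⊕ Fin m) : RoProf q (roPB X q a) ∧ roFlat1 X (roPB X q a) := by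
  rcases a with i | i
  · exact ⟨ro_bump_prof le_rfl hq, ro_flat1_bump X hX le_rfl hq (by omega)⟩
  · have hgap := hX i.castSucc i.succ Fin.castSucc_lt_succ
    exact ⟨ro_bump_prof (by omega) hq, ro_flat1_bump_int X hX i hq hν⟩

/-- L-RO-D1.  Cases on `a`, `b`; `ro_ten_cut`, `ro_bump_prof`, `ro_flat1_bump`, `ro_flat1_bump_int`, `ro_line_gap₁/₂`. -/
theorem ro_pb_cut (g : DGrid m₁ m₂) (U : Finset (Fin m₁ × Fin m₂)) {ν : ℕ} (h : g.SideGe ν) {q : ℕ} (hq : 0 < q) (hν : 12 * q ≤ ν)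
    (a : Fin (m₁ + 1) ⊕ Fin m₁) (b : Fin (m₂ + 1) ⊕ Fin m₂) : RoCut q (g.region U) (roTen (roPB g.x₁ q a) (roPB g.x₂ q b)) := by
  obtain ⟨p1, f1⟩ := ro_pb_prof g.x₁ (fun _ _ => ro_line_gap₁ g h) hq hν a
  obtain ⟨p2, f2⟩ := ro_pb_prof g.x₂ (fun _ _ => ro_line_gap₂ g h) hq hν b
  exact ro_ten_cut g U p1 p2 f1 f2

/-! ## abstract extension lemmas (grid-free) -/

private theorem ro_dbl_sum (σ : ℤ × ℤ → ℤ × ℤ) (hσ : ∀ x, σ (σ x) = x) (A : Finset (ℤ × ℤ)) (hdis : ∀ x ∈ A, σ x ∉ A)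
    (F : ℤ × ℤ → ℝ) : ∑ x ∈ A ∪ A.image σ, F x = ∑ x ∈ A, F x + ∑ x ∈ A, F (σ x) := by
  have hd : Disjoint A (A.image σ) := by
    rw [disjoint_left]
    intro x hx hx'
    obtain ⟨y, hy, rfl⟩ := mem_image.1 hx'
    exact hdis y hy hx
  rw [sum_union hd, sum_image]
  intro x _ y _ h
  rw [← hσ x, h, hσ]

private theorem ro_dbl_lap_A (σ : ℤ × ℤ → ℤ × ℤ) (hσ : ∀ x, σ (σ x) = x) (A : Finset (ℤ × ℤ))
    (hwall : ∀ x ∈ A, ∀ y ∈ A, σ y ∈ roNb x → y = x) (p : ℤ × ℤ → ℝ) {x : ℤ × ℤ} (hx : x ∈ A) :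
    roLap (A ∪ A.image σ) (fun x => if x ∈ A then p x else p (σ x)) x = roLap A p x := by
  rw [ro_lap_nb _ _ (mem_union_left _ hx), ro_lap_nb _ _ hx]
  symm
  refine sum_subset_zero_on_sdiff ?_ ?_ ?_
  · intro y hy
    rw [mem_filter] at hy ⊢
    exact ⟨hy.1, mem_union_left _ hy.2⟩
  · intro y hy
    rw [mem_sdiff, mem_filter, mem_filter] at hy
    have hyA : y ∉ A := fun h => hy.2 ⟨hy.1.1, h⟩
    have hy' : y ∈ A.image σ := (mem_union.1 hy.1.2).resolve_left hyA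
    obtain ⟨z, hz, rfl⟩ := mem_image.1 hy'
    have := hwall x hx z hz hy.1.1
    subst this
    simp only [if_pos hx, if_neg hyA, hσ, sub_self]
  · intro y hy
    rw [mem_filter] at hy
    simp only [if_pos hx, if_pos hy.2]

private theorem ro_dbl_lap_σ (σ : ℤ × ℤ → ℤ × ℤ) (hσ : ∀ x, σ (σ x) = x) (hnb : ∀ x y, y ∈ roNb x → σ y ∈ roNb (σ x)) (B : Finset (ℤ × ℤ))
    (hB : ∀ x, x ∈ B → σ x ∈ B) (v : ℤ × ℤ → ℝ) (hv : ∀ x ∈ B, v (σ x) = v x) {x : ℤ × ℤ} (hx : x ∈ B) :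
    roLap B v (σ x) = roLap B v x := by
  rw [ro_lap_nb _ _ (hB x hx), ro_lap_nb _ _ hx]
  refine sum_nbij' σ σ ?_ ?_ ?_ ?_ ?_
  · intro y hy
    rw [mem_filter] at hy ⊢
    have := hnb _ _ hy.1
    rw [hσ] at this
    exact ⟨this, hB _ hy.2⟩
  · intro y hy
    rw [mem_filter] at hy ⊢
    exact ⟨hnb _ _ hy.1, hB _ hy.2⟩
  · intro y _
    exact hσ y
  · intro y _
    exact hσ y
  · intro y hy
    rw [mem_filter] at hy
    rw [hv x hx, hv y hy.2]

/-- L-RO-D2.  **Doubling.**  `σ` an involution of `ℤ²` which preserves adjacency, `A` disjoint from its mirror image, the only bonds between `A` and `σ A` are the mirror bonds `x ~ σ x`.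
In neighbour form (`ro_lap_nb`): for `x ∈ A`: `roLap (A ∪ σA) p̃ x = roLap A p x` (a neighbour in `σA` is `σ x`, where `p̃ = p x`); for `x = σ x'`: `roLap (A ∪ σA) p̃ x = roLap A p x'` (reindex the neighbours by `σ`).
Energy: `ro_dir_eq_parts`.  Sums over `A ∪ σA`: `Finset.sum_union`, `Finset.sum_image`. -/
theorem ro_double (σ : ℤ × ℤ → ℤ × ℤ) (hσ : ∀ x, σ (σ x) = x) (hnb : ∀ x y, y ∈ roNb x → σ y ∈ roNb (σ x)) (A : Finset (ℤ × ℤ))
    (hdis : ∀ x ∈ A, σ x ∉ A) (hwall : ∀ x ∈ A, ∀ y ∈ A, σ y ∈ roNb x → y = x) (p : ℤ × ℤ → ℝ) (q : ℕ) :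
    roT q (A ∪ A.image σ) (fun x => if x ∈ A then p x else p (σ x)) = 2 * roT q A p := by
  set B := A ∪ A.image σ with hBdef
  set v : ℤ × ℤ → ℝ := fun x => if x ∈ A then p x else p (σ x) with hvdef
  have hB : ∀ x, x ∈ B → σ x ∈ B := by
    intro x hx
    rcases mem_union.1 hx with h | h
    · exact mem_union_right _ (mem_image_of_mem σ h)
    · obtain ⟨y, hy, rfl⟩ := mem_image.1 h
      rw [hσ]
      exact mem_union_left _ hy
  have hvA : ∀ x ∈ A, v x = p x := fun x hx => if_pos hx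
  have hvσ : ∀ x ∈ A, v (σ x) = p x := fun x hx => by
    show (if σ x ∈ A then p (σ x) else p (σ (σ x))) = p x
    rw [if_neg (hdis x hx), hσ]
  have hv : ∀ x ∈ B, v (σ x) = v x := by
    intro x hx
    rcases mem_union.1 hx with h | h
    · rw [hvσ x h, hvA x h]
    · obtain ⟨y, hy, rfl⟩ := mem_image.1 h
      rw [hσ, hvσ y hy, hvA y hy]
  have hl1 : ∀ x ∈ A, roLap B v x = roLap A p x := fun x hx => ro_dbl_lap_A σ hσ A hwall p hx
  have hl2 : ∀ x ∈ A, roLap B v (σ x) = roLap A p x := fun x hx => by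
    rw [ro_dbl_lap_σ σ hσ hnb B hB v hv (mem_union_left _ hx), hl1 x hx]
  have e1 : roL B B v = 2 * roL A A p := by
    unfold roL
    rw [hBdef, ro_dbl_sum σ hσ A hdis, ← hBdef, two_mul]
    congr 1
    · exact sum_congr rfl fun x hx => by rw [hl1 x hx]
    · exact sum_congr rfl fun x hx => by rw [hl2 x hx]
  have e2 : roDir B v = 2 * roDir A p := by
    rw [ro_dir_eq_parts, ro_dir_eq_parts, hBdef, ro_dbl_sum σ hσ A hdis, ← hBdef, two_mul]
    congr 1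
    · exact sum_congr rfl fun x hx => by rw [hl1 x hx, hvA x hx]
    · exact sum_congr rfl fun x hx => by rw [hl2 x hx, hvσ x hx]
  have e3 : roSq B v = 2 * roSq A p := by
    unfold roSq
    rw [hBdef, ro_dbl_sum σ hσ A hdis, two_mul]
    congr 1
    · exact sum_congr rfl fun x hx => by rw [hvA x hx]
    · exact sum_congr rfl fun x hx => by rw [hvσ x hx]
  unfold roT
  rw [e1, e2, e3]
  ring

/-- extension by zero of a function supported well inside `D` -/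
theorem ro_ext_plain {A D R : Finset (ℤ × ℤ)} (hAD : A ⊆ D) (hDR : D ⊆ R) {p : ℤ × ℤ → ℝ} (h0 : ∀ x, p x ≠ 0 → x ∈ A)
    (h1 : ∀ x ∈ A, p x ≠ 0 → ∀ y ∈ roNb x, y ∈ A) (q : ℕ) : roT q R p = roT q D p := by
  have h0' : ∀ (B : Finset (ℤ × ℤ)), ∀ x ∈ B, x ∉ A → p x = 0 := fun B x _ hx => by
    by_contra hne
    exact hx (h0 x hne)
  rw [ro_T_local (hAD.trans hDR) (h0' R) (fun x hx hne y hy _ => h1 x hx hne y hy),
    ro_T_local hAD (h0' D) (fun x hx hne y hy _ => h1 x hx hne y hy)]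

/-- L-RO-D3.  **Even reflection of a function supported next to a wall.**   `p̃ = p + p ∘ σ`.
`p̃ = p` on `D`: `p (σ x) ≠ 0 → σ x ∈ A → x = σ (σ x) ∉ D`.
Case `σ A ⊆ R`: `roT q R p̃ = roT q (A ∪ σA) p̃` (`ro_T_local`: a neighbour `y` of `σ x'`, `p x' ≠ 0`: `σ y ∈ roNb x'`, so `σ y ∈ A` or `σ y = σ x'`) `= 2 roT q A p` (`ro_double`, `ro_T_congr`) `= 2 roT q D p` (`ro_T_local`: a neighbour in `D` is not `σ x`).
Case `σ A ∩ R = ∅`: `roT q R p̃ = roT q A p̃ = roT q A p = roT q D p`. -/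
theorem ro_ext_mirror (σ : ℤ × ℤ → ℤ × ℤ) (hσ : ∀ x, σ (σ x) = x) (hnb : ∀ x y, y ∈ roNb x → σ y ∈ roNb (σ x)) {A D R : Finset (ℤ × ℤ)}
    (hAD : A ⊆ D) (hDR : D ⊆ R) {p : ℤ × ℤ → ℝ} (h0 : ∀ x, p x ≠ 0 → x ∈ A) (h1 : ∀ x ∈ A, p x ≠ 0 → ∀ y ∈ roNb x, y ∈ A ∨ y = σ x)
    (hmir : ∀ x ∈ A, σ x ∉ D) (hwall : ∀ x ∈ A, ∀ y ∈ A, σ y ∈ roNb x → y = x) (hR : (∀ x ∈ A, σ x ∈ R) ∨ (∀ x ∈ A, σ x ∉ R)) (q : ℕ) :
    (∀ x ∈ D, p x + p (σ x) = p x) ∧ roT q R (fun x => p x + p (σ x)) ≤ 2 * roT q D p := by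
  have hz : ∀ x, x ∉ A → p x = 0 := fun x hx => by
    by_contra hne
    exact hx (h0 x hne)
  have hdis : ∀ x ∈ A, σ x ∉ A := fun x hx h => hmir x hx (hAD h)
  have hpA : ∀ x ∈ A, p x + p (σ x) = p x := fun x hx => by rw [hz _ (hdis x hx), add_zero]
  have hD : roT q D p = roT q A p :=
    ro_T_local hAD (fun x _ hx => hz x hx) (fun x hx hne y hy hyD => by
      rcases h1 x hx hne y hy with h | h
      · exact h
      · exact absurd (h ▸ hyD) (hmir x hx)) q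
  refine ⟨fun x hx => ?_, ?_⟩
  · have : p (σ x) = 0 := by
      by_contra hne
      have := hmir _ (h0 _ hne)
      rw [hσ] at this
      exact this hx
    rw [this, add_zero]
  rcases hR with hR | hR
  · have hBR : A ∪ A.image σ ⊆ R := by
      intro x hx
      rcases mem_union.1 hx with h | h
      · exact hDR (hAD h)
      · obtain ⟨y, hy, rfl⟩ := mem_image.1 h
        exact hR y hy
    have e1 : roT q R (fun x => p x + p (σ x)) = roT q (A ∪ A.image σ) (fun x => p x + p (σ x)) := by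
      refine ro_T_local hBR ?_ ?_ q
      · intro x _ hx
        have hxA : x ∉ A := fun h => hx (mem_union_left _ h)
        have hxs : σ x ∉ A := fun h => hx (mem_union_right _ (mem_image.2 ⟨σ x, h, hσ x⟩))
        show p x + p (σ x) = 0
        rw [hz x hxA, hz _ hxs, add_zero]
      · intro x hx hne y hy _
        rcases mem_union.1 hx with h | h
        · have hne' : p x ≠ 0 := by
            have : p x + p (σ x) ≠ 0 := hne
            rwa [hpA x h] at this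
          rcases h1 x h hne' y hy with h2 | h2
          · exact mem_union_left _ h2
          · exact mem_union_right _ (mem_image.2 ⟨x, h, h2.symm⟩)
        · obtain ⟨x', hx', rfl⟩ := mem_image.1 h
          have hne' : p x' ≠ 0 := by
            have : p (σ x') + p (σ (σ x')) ≠ 0 := hne
            rwa [hσ, hz _ (hdis x' hx'), zero_add] at this
          have hy' : σ y ∈ roNb x' := by
            have := hnb _ _ hy
            rwa [hσ] at this
          rcases h1 x' hx' hne' _ hy' with h2 | h2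
          · exact mem_union_right _ (mem_image.2 ⟨σ y, h2, hσ y⟩)
          · have : y = x' := by rw [← hσ y, h2, hσ]
            exact mem_union_left _ (this ▸ hx')
    have e2 : (fun x => p x + p (σ x)) = fun x => if x ∈ A then p x else p (σ x) := by
      funext x
      by_cases hx : x ∈ A
      · rw [if_pos hx, hpA x hx]
      · rw [if_neg hx, hz x hx, zero_add]
    rw [e1, e2, ro_double σ hσ hnb A hdis hwall p q, hD]
  · have e1 : roT q R (fun x => p x + p (σ x)) = roT q A (fun x => p x + p (σ x)) := by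
      refine ro_T_local (hAD.trans hDR) ?_ ?_ q
      · intro x hxR hx
        have hxs : σ x ∉ A := fun h => by
          have := hR _ h
          rw [hσ] at this
          exact this hxR
        show p x + p (σ x) = 0
        rw [hz x hx, hz _ hxs, add_zero]
      · intro x hx hne y hy hyR
        have hne' : p x ≠ 0 := by
          have : p x + p (σ x) ≠ 0 := hne
          rwa [hpA x hx] at this
        rcases h1 x hx hne' y hy with h2 | h2
        · exact h2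
        · exact absurd (h2 ▸ hyR) (hR x hx)
    rw [e1, ro_T_congr hpA q, hD]
    linarith [ro_T_nonneg q A p]

/-! ## the pieces -/

theorem ro_d4_T_zero (q : ℕ) (D : Finset (ℤ × ℤ)) : roT q D (fun _ => 0) = 0 := by
  have h1 : roL D D (fun _ => (0 : ℝ)) = 0 := by
    unfold roL
    refine sum_eq_zero fun x _ => ?_
    rw [ro_lap_const]
    norm_num
  have h2 : roDir D (fun _ => (0 : ℝ)) = 0 := by
    rw [ro_dir_eq_parts]
    refine sum_eq_zero fun x _ => ?_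
    rw [mul_zero]
  have h3 : roSq D (fun _ => (0 : ℝ)) = 0 := by
    unfold roSq
    refine sum_eq_zero fun x _ => ?_
    norm_num
  unfold roT
  rw [h1, h2, h3]
  simp

theorem ro_d4_int_supp {m : ℕ} (X : Fin (m + 1) → ℤ) {q : ℕ} (hq : 0 < q) (i : Fin m) (hgap : X i.castSucc + 12 * q ≤ X i.succ) {t : ℤ}
    (h : roIntB X q i t ≠ 0) : X i.castSucc + 2 * q < t ∧ t + 1 < X i.succ - 2 * q := by
  unfold roIntB at h
  constructor
  · by_contra hc
    exact h (ro_bump_eq_zero_left (by omega) hq (by omega))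
  · by_contra hc
    exact h (ro_bump_eq_zero_right (by omega) hq (by omega))

theorem ro_d4_le {q : ℕ} {D : Finset (ℤ × ℤ)} {u : ℤ × ℤ → ℝ} {c t : ℝ} (hc : c ≤ 2000) (h : t ≤ c * roT q D u) : t ≤ 2000 * roT q D u :=
  h.trans (mul_le_mul_of_nonneg_right hc (ro_T_nonneg q D u))

/-- L-RO-D4.  Piece (int,int).  The support of `μ_i ⊗ μ_j` is `⊆ (X_i + 2q, X_{i+1} - 2q - 1) × (…)` (`ro_bump_eq_zero_left/right`), inside the cell `(i,j)` with margin.  `(i,j) ∈ U`: `p̃ = (μ ⊗ μ) u`, `ro_ext_plain` with `A = cell`, `ro_cut_T`, `ro_pb_cut`;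
`(i,j) ∉ U`: `p̃ = 0` (`ro_cell_unique`). -/
theorem ro_piece_cc (g : DGrid m₁ m₂) (U : Finset (Fin m₁ × Fin m₂)) {ν : ℕ} (h : g.SideGe ν) {q : ℕ} (hq : 0 < q) (hν : 16 * q ≤ ν)
    (i : Fin m₁) (j : Fin m₂) (u : ℤ × ℤ → ℝ) :
    ∃ p : ℤ × ℤ → ℝ, (∀ x ∈ g.region U, p x = roIntB g.x₁ q i x.1 * roIntB g.x₂ q j x.2 * u x) ∧
      roT q (roRc g).set p ≤ 2000 * roT q (g.region U) u := by
  have g1 : g.x₁ i.castSucc + 12 * q ≤ g.x₁ i.succ := by
    have := h.1 i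
    omega
  have g2 : g.x₂ j.castSucc + 12 * q ≤ g.x₂ j.succ := by
    have := h.2 j
    omega
  have hsupp : ∀ x : ℤ × ℤ, roIntB g.x₁ q i x.1 * roIntB g.x₂ q j x.2 * u x ≠ 0 →
      (g.x₁ i.castSucc + 2 * q < x.1 ∧ x.1 + 1 < g.x₁ i.succ - 2 * q) ∧ (g.x₂ j.castSucc + 2 * q < x.2 ∧ x.2 + 1 < g.x₂ j.succ - 2 * q) := by
    intro x hx
    have h1 := left_ne_zero_of_mul hx
    exact ⟨ro_d4_int_supp g.x₁ hq i g1 (left_ne_zero_of_mul h1), ro_d4_int_supp g.x₂ hq j g2 (right_ne_zero_of_mul h1)⟩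
  by_cases hU : (i, j) ∈ U
  · refine ⟨fun x => roIntB g.x₁ q i x.1 * roIntB g.x₂ q j x.2 * u x, fun x _ => rfl, ?_⟩
    rw [ro_ext_plain (A := g.cell (i, j)) (ro_cell_subset_region g hU) (ro_region_subset_rc g U) ?_ ?_ q]
    · exact ro_d4_le (by norm_num) (ro_cut_T hq (ro_pb_cut g U h hq (by omega) (Sum.inr i) (Sum.inr j)) u)
    · intro x hx
      have := hsupp x hx
      rw [ro_mem_cell]
      simp only
      omega
    · intro x _ hx y hy
      have := hsupp x hx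
      rw [ro_mem_cell]
      simp only
      rw [ro_mem_nb] at hy
      rcases hy with rfl | rfl | rfl | rfl <;> simp only <;> omega
  · refine ⟨fun _ => 0, fun x hx => ?_, ?_⟩
    · by_contra hne
      have := hsupp x (Ne.symm hne)
      obtain ⟨κ, hκ, hxκ⟩ := (ro_mem_region g U x).1 hx
      have hx' : x ∈ g.cell (i, j) := by
        rw [ro_mem_cell]
        simp only
        omega
      rw [ro_cell_unique g hxκ hx'] at hκ
      exact hU hκ
    · rw [ro_d4_T_zero]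
      exact mul_nonneg (by norm_num) (ro_T_nonneg _ _ _)

theorem ro_d5_line_supp {m : ℕ} (X : Fin (m + 1) → ℤ) {q : ℕ} (hq : 0 < q) (i : Fin (m + 1)) {t : ℤ}
    (h : roLineB X q i t ≠ 0) : X i - 4 * q < t ∧ t + 1 < X i + 4 * q := by
  unfold roLineB at h
  constructor
  · by_contra hc
    exact h (ro_bump_eq_zero_left le_rfl hq (by omega))
  · by_contra hc
    exact h (ro_bump_eq_zero_right le_rfl hq (by omega))

/-- 1D: two points within `r ≤ ν` of the line `X i`, on the same side of it, are not separated by a line -/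
theorem ro_d5_same_line {m : ℕ} {X : Fin (m + 1) → ℤ} {ν : ℕ} (hX : ∀ i i' : Fin (m + 1), i < i' → X i + ν ≤ X i')
    (i : Fin (m + 1)) {r : ℤ} (hr : r ≤ ν) {s t : ℤ} (hs : X i - r ≤ s ∧ s < X i + r) (ht : X i - r ≤ t ∧ t < X i + r)
    (h : X i ≤ s ↔ X i ≤ t) (k : Fin (m + 1)) : X k ≤ s ↔ X k ≤ t := by
  rcases lt_trichotomy k i with hk | hk | hk
  · have := hX k i hk
    constructor <;> intro _ <;> omega
  · rw [hk]; exact h
  · have := hX i k hk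
    constructor <;> intro _ <;> omega

/-- 1D: two points of the same column are not separated by a line -/
theorem ro_d5_same_col {m : ℕ} {X : Fin (m + 1) → ℤ} (hX : StrictMono X) (j : Fin m) {s t : ℤ}
    (hs : X j.castSucc ≤ s ∧ s < X j.succ) (ht : X j.castSucc ≤ t ∧ t < X j.succ) (k : Fin (m + 1)) : X k ≤ s ↔ X k ≤ t := by
  have hk : k ≤ j.castSucc ∨ j.succ ≤ k := by
    rw [Fin.le_def, Fin.le_def, Fin.val_castSucc, Fin.val_succ]
    omega
  rcases hk with hk | hk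
  · have := hX.monotone hk
    constructor <;> intro _ <;> omega
  · have := hX.monotone hk
    constructor <;> intro _ <;> omega

/-- **one half in `D`** (grid-free, serves the four cases of `ro_piece_lc`, `ro_piece_cl`): `f` is supported in `A ∪ A'`, `A ⊆ D`, `A' ∩ D = ∅`, `σ A ⊆ A'`. -/
theorem ro_d5_half (σ : ℤ × ℤ → ℤ × ℤ) (hσ : ∀ x, σ (σ x) = x) (hnb : ∀ x y, y ∈ roNb x → σ y ∈ roNb (σ x)) {A A' D R : Finset (ℤ × ℤ)}
    (hAD : A ⊆ D) (hDR : D ⊆ R) (hA' : ∀ x ∈ A', x ∉ D) (hσA : ∀ x ∈ A, σ x ∈ A') (f : ℤ × ℤ → ℝ) (h0 : ∀ x, f x ≠ 0 → x ∈ A ∨ x ∈ A')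
    (h1 : ∀ x ∈ A, f x ≠ 0 → ∀ y ∈ roNb x, y ∈ A ∨ y = σ x) (hwall : ∀ x ∈ A, ∀ y ∈ A, σ y ∈ roNb x → y = x)
    (hR : (∀ x ∈ A', x ∈ R) ∨ (∀ x ∈ A', x ∉ R)) (q : ℕ) :
    ∃ p : ℤ × ℤ → ℝ, (∀ x ∈ D, p x = f x) ∧ roT q R p ≤ 2 * roT q D f := by
  obtain ⟨p0, hp0def⟩ : ∃ p0 : ℤ × ℤ → ℝ, ∀ x, p0 x = if x ∈ A then f x else 0 := ⟨_, fun _ => rfl⟩
  have hp0 : ∀ x ∈ D, p0 x = f x := by
    intro x hx
    rw [hp0def]
    by_cases hxA : x ∈ A
    · rw [if_pos hxA]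
    · rw [if_neg hxA]
      by_contra hne
      rcases h0 x (Ne.symm hne) with h | h
      · exact hxA h
      · exact hA' x h hx
  obtain ⟨e1, e2⟩ := ro_ext_mirror σ hσ hnb hAD hDR (p := p0)
    (fun x hx => by
      by_contra hxA
      rw [hp0def, if_neg hxA] at hx
      exact hx rfl)
    (fun x hxA hx y hy => h1 x hxA (by rwa [hp0def, if_pos hxA] at hx) y hy)
    (fun x hx => hA' _ (hσA x hx)) hwall
    (hR.imp (fun h x hx => h _ (hσA x hx)) (fun h x hx => h _ (hσA x hx))) q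
  refine ⟨fun x => p0 x + p0 (σ x), fun x hx => ?_, ?_⟩
  · show p0 x + p0 (σ x) = f x
    rw [e1 x hx, hp0 x hx]
  · rw [ro_T_congr hp0 q] at e2
    exact e2

/-- the reflection across the vertical line `X` (between the sites `X - 1` and `X`) -/
theorem ro_d5_refl (X : ℤ) : (∀ x : ℤ × ℤ, ((2 * X - 1 - (2 * X - 1 - x.1, x.2).1, (2 * X - 1 - x.1, x.2).2) : ℤ × ℤ) = x) ∧
    ∀ x y : ℤ × ℤ, y ∈ roNb x → ((2 * X - 1 - y.1, y.2) : ℤ × ℤ) ∈ roNb (2 * X - 1 - x.1, x.2) := by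
  constructor
  · rintro ⟨x1, x2⟩
    simp only [Prod.mk.injEq, and_true]
    omega
  · rintro ⟨x1, x2⟩ ⟨y1, y2⟩ hy
    simp only [ro_mem_nb, Prod.mk.injEq] at hy ⊢
    omega

/-- L-RO-D5.  Piece (line,int): vertical face.  `Σ⁺ = [X_i, X_i + 5q) × [Y_j, Y_{j+1})`, `Σ⁻ = [X_i - 5q, X_i) × [Y_j, Y_{j+1})`: the points of each are pairwise `roSame`, so each is `⊆ D` or disjoint from `D`, and `⊆ R` or disjoint from `R = g.region univ` (`ro_region_univ`).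
Both in `D`: `p̃ = φ u`, `ro_ext_plain` with `A = Σ⁻ ∪ Σ⁺`.   Only `Σ⁺`: `p x = if X_i ≤ x.1 then φ x * u x else 0` (`= φ u` on `D`), `σ x = (2 X_i - 1 - x.1, x.2)`, `ro_ext_mirror` with `A = Σ⁺`.   Only `Σ⁻`: mirror image.   None: `0`.   `roT q D (φ u) ≤ 53 roT q D u`. -/
theorem ro_piece_lc (g : DGrid m₁ m₂) (U : Finset (Fin m₁ × Fin m₂)) {ν : ℕ} (h : g.SideGe ν) {q : ℕ} (hq : 0 < q) (hν : 16 * q ≤ ν)
    (i : Fin (m₁ + 1)) (j : Fin m₂) (u : ℤ × ℤ → ℝ) :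
    ∃ p : ℤ × ℤ → ℝ, (∀ x ∈ g.region U, p x = roLineB g.x₁ q i x.1 * roIntB g.x₂ q j x.2 * u x) ∧
      roT q (roRc g).set p ≤ 2000 * roT q (g.region U) u := by
  have g2 : g.x₂ j.castSucc + 12 * q ≤ g.x₂ j.succ := by
    have := h.2 j
    omega
  have hsupp : ∀ x : ℤ × ℤ, roLineB g.x₁ q i x.1 * roIntB g.x₂ q j x.2 * u x ≠ 0 →
      (g.x₁ i - 4 * q < x.1 ∧ x.1 + 1 < g.x₁ i + 4 * q) ∧ (g.x₂ j.castSucc + 2 * q < x.2 ∧ x.2 + 1 < g.x₂ j.succ - 2 * q) := by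
    intro x hx
    have h1 := left_ne_zero_of_mul hx
    exact ⟨ro_d5_line_supp g.x₁ hq i (left_ne_zero_of_mul h1), ro_d4_int_supp g.x₂ hq j g2 (right_ne_zero_of_mul h1)⟩
  have hcut : roT q (g.region U) (fun x => roLineB g.x₁ q i x.1 * roIntB g.x₂ q j x.2 * u x) ≤ 53 * roT q (g.region U) u :=
    ro_cut_T hq (ro_pb_cut g U h hq (by omega) (Sum.inl i) (Sum.inr j)) u
  -- the two half strips
  obtain ⟨Sp, hSp⟩ : ∃ S : Finset (ℤ × ℤ), ∀ x, x ∈ S ↔ (g.x₁ i ≤ x.1 ∧ x.1 < g.x₁ i + 5 * q) ∧ (g.x₂ j.castSucc ≤ x.2 ∧ x.2 < g.x₂ j.succ) :=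
    ⟨Ico (g.x₁ i) (g.x₁ i + 5 * q) ×ˢ Ico (g.x₂ j.castSucc) (g.x₂ j.succ), fun x => by rw [mem_product, mem_Ico, mem_Ico]⟩
  obtain ⟨Sm, hSm⟩ : ∃ S : Finset (ℤ × ℤ), ∀ x, x ∈ S ↔ (g.x₁ i - 5 * q ≤ x.1 ∧ x.1 < g.x₁ i) ∧ (g.x₂ j.castSucc ≤ x.2 ∧ x.2 < g.x₂ j.succ) :=
    ⟨Ico (g.x₁ i - 5 * q) (g.x₁ i) ×ˢ Ico (g.x₂ j.castSucc) (g.x₂ j.succ), fun x => by rw [mem_product, mem_Ico, mem_Ico]⟩
  have hsameP : ∀ (V : Finset (Fin m₁ × Fin m₂)) (x y : ℤ × ℤ), x ∈ Sp → y ∈ Sp → (x ∈ g.region V ↔ y ∈ g.region V) := by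
    intro V x y hx hy
    rw [hSp] at hx hy
    exact ro_same_region g V ⟨ro_d5_same_line (fun _ _ => ro_line_gap₁ g h) i (r := 5 * q) (by omega) (by omega) (by omega)
      (by constructor <;> intro _ <;> omega), ro_d5_same_col g.mono₂ j hx.2 hy.2⟩
  have hsameM : ∀ (V : Finset (Fin m₁ × Fin m₂)) (x y : ℤ × ℤ), x ∈ Sm → y ∈ Sm → (x ∈ g.region V ↔ y ∈ g.region V) := by
    intro V x y hx hy
    rw [hSm] at hx hy
    exact ro_same_region g V ⟨ro_d5_same_line (fun _ _ => ro_line_gap₁ g h) i (r := 5 * q) (by omega) (by omega) (by omega)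
      (by constructor <;> intro _ <;> omega), ro_d5_same_col g.mono₂ j hx.2 hy.2⟩
  have hrefP : ((g.x₁ i, g.x₂ j.castSucc) : ℤ × ℤ) ∈ Sp := by
    rw [hSp]
    simp only
    omega
  have hrefM : ((g.x₁ i - 1, g.x₂ j.castSucc) : ℤ × ℤ) ∈ Sm := by
    rw [hSm]
    simp only
    omega
  have hdichP : ∀ V : Finset (Fin m₁ × Fin m₂), (∀ x ∈ Sp, x ∈ g.region V) ∨ (∀ x ∈ Sp, x ∉ g.region V) := by
    intro V
    by_cases hc : ((g.x₁ i, g.x₂ j.castSucc) : ℤ × ℤ) ∈ g.region V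
    · exact Or.inl fun x hx => (hsameP V _ _ hx hrefP).2 hc
    · exact Or.inr fun x hx hxV => hc ((hsameP V _ _ hx hrefP).1 hxV)
  have hdichM : ∀ V : Finset (Fin m₁ × Fin m₂), (∀ x ∈ Sm, x ∈ g.region V) ∨ (∀ x ∈ Sm, x ∉ g.region V) := by
    intro V
    by_cases hc : ((g.x₁ i - 1, g.x₂ j.castSucc) : ℤ × ℤ) ∈ g.region V
    · exact Or.inl fun x hx => (hsameM V _ _ hx hrefM).2 hc
    · exact Or.inr fun x hx hxV => hc ((hsameM V _ _ hx hrefM).1 hxV)
  have hRP := hdichP Finset.univ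
  have hRM := hdichM Finset.univ
  rw [ro_region_univ] at hRP hRM
  have h0 : ∀ x : ℤ × ℤ, roLineB g.x₁ q i x.1 * roIntB g.x₂ q j x.2 * u x ≠ 0 → x ∈ Sp ∨ x ∈ Sm := by
    intro x hx
    have := hsupp x hx
    rw [hSp, hSm]
    omega
  obtain ⟨hσ, hnb⟩ := ro_d5_refl (g.x₁ i)
  rcases hdichP U with hP | hP <;> rcases hdichM U with hM | hM
  · -- both half strips in `D`
    refine ⟨fun x => roLineB g.x₁ q i x.1 * roIntB g.x₂ q j x.2 * u x, fun x _ => rfl, ?_⟩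
    rw [ro_ext_plain (A := Sp ∪ Sm) (fun x hx => (mem_union.1 hx).elim (hP x) (hM x)) (ro_region_subset_rc g U)
      (fun x hx => mem_union.2 (h0 x hx)) ?_ q]
    · exact ro_d4_le (by norm_num) hcut
    · intro x _ hx y hy
      have := hsupp x hx
      rw [mem_union, hSp, hSm]
      rw [ro_mem_nb] at hy
      rcases hy with rfl | rfl | rfl | rfl <;> simp only <;> omega
  · -- only `Σ⁺`
    obtain ⟨p, hp1, hp2⟩ := ro_d5_half (fun x => (2 * g.x₁ i - 1 - x.1, x.2)) hσ hnb (A := Sp) (A' := Sm) hP (ro_region_subset_rc g U) hM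
      (fun x hx => by
        rw [hSp] at hx
        rw [hSm]
        simp only
        omega)
      (fun x => roLineB g.x₁ q i x.1 * roIntB g.x₂ q j x.2 * u x) h0
      (fun x hxA hx y hy => by
        have := hsupp x hx
        rw [hSp] at hxA ⊢
        obtain ⟨x1, x2⟩ := x
        obtain ⟨y1, y2⟩ := y
        simp only [ro_mem_nb, Prod.mk.injEq] at hy this hxA ⊢
        omega)
      (fun x hx y hy hyx => by
        rw [hSp] at hx hy
        obtain ⟨x1, x2⟩ := x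
        obtain ⟨y1, y2⟩ := y
        simp only [ro_mem_nb, Prod.mk.injEq] at hyx hx hy ⊢
        omega)
      hRM q
    exact ⟨p, hp1, ro_d4_le (c := 106) (by norm_num) (hp2.trans (by linarith))⟩
  · -- only `Σ⁻`
    obtain ⟨p, hp1, hp2⟩ := ro_d5_half (fun x => (2 * g.x₁ i - 1 - x.1, x.2)) hσ hnb (A := Sm) (A' := Sp) hM (ro_region_subset_rc g U) hP
      (fun x hx => by
        rw [hSm] at hx
        rw [hSp]
        simp only
        omega)
      (fun x => roLineB g.x₁ q i x.1 * roIntB g.x₂ q j x.2 * u x) (fun x hx => (h0 x hx).symm)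
      (fun x hxA hx y hy => by
        have := hsupp x hx
        rw [hSm] at hxA ⊢
        obtain ⟨x1, x2⟩ := x
        obtain ⟨y1, y2⟩ := y
        simp only [ro_mem_nb, Prod.mk.injEq] at hy this hxA ⊢
        omega)
      (fun x hx y hy hyx => by
        rw [hSm] at hx hy
        obtain ⟨x1, x2⟩ := x
        obtain ⟨y1, y2⟩ := y
        simp only [ro_mem_nb, Prod.mk.injEq] at hyx hx hy ⊢
        omega)
      hRP q
    exact ⟨p, hp1, ro_d4_le (c := 106) (by norm_num) (hp2.trans (by linarith))⟩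
  · -- none
    refine ⟨fun _ => 0, fun x hx => ?_, ?_⟩
    · by_contra hne
      rcases h0 x (Ne.symm hne) with hc | hc
      · exact hP x hc hx
      · exact hM x hc hx
    · rw [ro_d4_T_zero]
      exact mul_nonneg (by norm_num) (ro_T_nonneg _ _ _)

/-- 1D: no line separates two points of one column -/
private theorem ro_cl_same_int {m : ℕ} {X : Fin (m + 1) → ℤ} (hX : StrictMono X) (i : Fin m) {s t : ℤ}
    (hs : X i.castSucc ≤ s ∧ s < X i.succ) (ht : X i.castSucc ≤ t ∧ t < X i.succ) (k : Fin (m + 1)) : X k ≤ s ↔ X k ≤ t := by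
  rcases le_or_gt k i.castSucc with hk | hk
  · have := hX.monotone hk
    constructor <;> intro _ <;> omega
  · have h1 : i.succ ≤ k := Fin.castSucc_lt_iff_succ_le.1 hk
    have := hX.monotone h1
    constructor <;> intro _ <;> omega

/-- 1D: no line separates two points on the same side of a line and close to it -/
private theorem ro_cl_same_line {m : ℕ} (X : Fin (m + 1) → ℤ) {ν : ℕ} (hX : ∀ i i' : Fin (m + 1), i < i' → X i + ν ≤ X i')
    (i : Fin (m + 1)) {r : ℤ} (hr : r ≤ ν) {s t : ℤ} (hs : X i - r ≤ s ∧ s < X i + r) (ht : X i - r ≤ t ∧ t < X i + r)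
    (h : X i ≤ s ↔ X i ≤ t) (k : Fin (m + 1)) : X k ≤ s ↔ X k ≤ t := by
  rcases lt_trichotomy k i with hk | hk | hk
  · have := hX k i hk
    constructor <;> intro _ <;> omega
  · rw [hk]; exact h
  · have := hX i k hk
    constructor <;> intro _ <;> omega

private theorem ro_cl_dich (g : DGrid m₁ m₂) (V : Finset (Fin m₁ × Fin m₂)) (S : Finset (ℤ × ℤ)) (hS : ∀ x ∈ S, ∀ y ∈ S, roSame g x y) :
    (∀ x ∈ S, x ∈ g.region V) ∨ ∀ x ∈ S, x ∉ g.region V := by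
  by_cases h : ∃ y ∈ S, y ∈ g.region V
  · obtain ⟨y, hy, hy'⟩ := h
    exact Or.inl fun x hx => (ro_same_region g V (hS y hy x hx)).1 hy'
  · exact Or.inr fun x hx hx' => h ⟨x, hx, hx'⟩

/-- grid-free: one half strip in `D`, the other one disjoint from `D` (horizontal face at height `Y`) -/
private theorem ro_cl_mir {D R : Finset (ℤ × ℤ)} (hDR : D ⊆ R) (a b Y lo hi lo' hi' : ℤ) (q : ℕ)
    (hs : (lo = Y ∧ hi = Y + 5 * q ∧ lo' = Y - 5 * q ∧ hi' = Y) ∨ (lo = Y - 5 * q ∧ hi = Y ∧ lo' = Y ∧ hi' = Y + 5 * q))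
    (f : ℤ × ℤ → ℝ) (hf : ∀ x, f x ≠ 0 → a < x.1 ∧ x.1 + 1 < b ∧ Y - 4 * q < x.2 ∧ x.2 + 1 < Y + 4 * q)
    (hAD : ∀ x ∈ Ico a b ×ˢ Ico lo hi, x ∈ D) (hA'D : ∀ x ∈ Ico a b ×ˢ Ico lo' hi', x ∉ D)
    (hA'R : (∀ x ∈ Ico a b ×ˢ Ico lo' hi', x ∈ R) ∨ ∀ x ∈ Ico a b ×ˢ Ico lo' hi', x ∉ R) :
    ∃ p : ℤ × ℤ → ℝ, (∀ x ∈ D, p x = f x) ∧ roT q R p ≤ 2 * roT q D f := by
  set A := Ico a b ×ˢ Ico lo hi with hA
  set A' := Ico a b ×ˢ Ico lo' hi' with hA'
  have mA : ∀ x : ℤ × ℤ, x ∈ A ↔ a ≤ x.1 ∧ x.1 < b ∧ lo ≤ x.2 ∧ x.2 < hi := by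
    intro x; rw [hA, mem_product, mem_Ico, mem_Ico]; tauto
  have mA' : ∀ x : ℤ × ℤ, x ∈ A' ↔ a ≤ x.1 ∧ x.1 < b ∧ lo' ≤ x.2 ∧ x.2 < hi' := by
    intro x; rw [hA', mem_product, mem_Ico, mem_Ico]; tauto
  set σ : ℤ × ℤ → ℤ × ℤ := fun x => (x.1, 2 * Y - 1 - x.2) with hσd
  have hσ : ∀ x, σ (σ x) = x := by
    intro x
    simp only [hσd]
    ext <;> simp
  have hnb : ∀ x y, y ∈ roNb x → σ y ∈ roNb (σ x) := by
    rintro ⟨x1, x2⟩ ⟨y1, y2⟩ hy
    simp only [hσd, ro_mem_nb, Prod.mk.injEq] at hy ⊢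
    omega
  have hσA : ∀ x ∈ A, σ x ∈ A' := by
    intro x hx
    rw [mA] at hx
    rw [mA']
    simp only [hσd]
    omega
  set p : ℤ × ℤ → ℝ := fun x => if x ∈ A then f x else 0 with hp
  have hpD : ∀ x ∈ D, p x = f x := by
    intro x hx
    simp only [hp]
    split_ifs with h1
    · rfl
    · by_contra hne
      have h2 := hf x (Ne.symm hne)
      have h3 : x ∈ A' := by
        rw [mA] at h1
        rw [mA']
        omega
      exact hA'D x h3 hx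
  have hp0 : ∀ x, p x ≠ 0 → x ∈ A ∧ f x ≠ 0 := by
    intro x hx
    simp only [hp] at hx
    split_ifs at hx with h1
    · exact ⟨h1, hx⟩
    · exact absurd rfl hx
  have key := ro_ext_mirror σ hσ hnb (A := A) (D := D) (R := R) hAD hDR (p := p) (fun x hx => (hp0 x hx).1)
    (fun x hx hne y hy => by
      have h2 := hf x (hp0 x hne).2
      rw [mA] at hx
      rw [mA]
      obtain ⟨x1, x2⟩ := x
      obtain ⟨y1, y2⟩ := y
      simp only [hσd, ro_mem_nb, Prod.mk.injEq] at hy h2 hx ⊢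
      omega)
    (fun x hx => hA'D _ (hσA x hx))
    (fun x hx y hy hn => by
      rw [mA] at hx hy
      obtain ⟨x1, x2⟩ := x
      obtain ⟨y1, y2⟩ := y
      simp only [hσd, ro_mem_nb, Prod.mk.injEq] at hn hx hy ⊢
      omega)
    (hA'R.imp (fun h x hx => h _ (hσA x hx)) (fun h x hx => h _ (hσA x hx))) q
  refine ⟨fun x => p x + p (σ x), fun x hx => (key.1 x hx).trans (hpD x hx), ?_⟩
  rw [← ro_T_congr hpD q]
  exact key.2

/-- grid-free: the four cases (horizontal face at height `Y`) -/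
private theorem ro_cl_abs {D R : Finset (ℤ × ℤ)} (hDR : D ⊆ R) (a b Y : ℤ) (q : ℕ) (f : ℤ × ℤ → ℝ)
    (hf : ∀ x, f x ≠ 0 → a < x.1 ∧ x.1 + 1 < b ∧ Y - 4 * q < x.2 ∧ x.2 + 1 < Y + 4 * q)
    (hDp : (∀ x ∈ Ico a b ×ˢ Ico Y (Y + 5 * q), x ∈ D) ∨ ∀ x ∈ Ico a b ×ˢ Ico Y (Y + 5 * q), x ∉ D)
    (hDm : (∀ x ∈ Ico a b ×ˢ Ico (Y - 5 * q) Y, x ∈ D) ∨ ∀ x ∈ Ico a b ×ˢ Ico (Y - 5 * q) Y, x ∉ D)
    (hRp : (∀ x ∈ Ico a b ×ˢ Ico Y (Y + 5 * q), x ∈ R) ∨ ∀ x ∈ Ico a b ×ˢ Ico Y (Y + 5 * q), x ∉ R)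
    (hRm : (∀ x ∈ Ico a b ×ˢ Ico (Y - 5 * q) Y, x ∈ R) ∨ ∀ x ∈ Ico a b ×ˢ Ico (Y - 5 * q) Y, x ∉ R) :
    ∃ p : ℤ × ℤ → ℝ, (∀ x ∈ D, p x = f x) ∧ roT q R p ≤ 2 * roT q D f := by
  have hT0 := ro_T_nonneg q D f
  rcases hDp with hDp | hDp <;> rcases hDm with hDm | hDm
  · refine ⟨f, fun _ _ => rfl, ?_⟩
    have mU : ∀ x : ℤ × ℤ, x ∈ Ico a b ×ˢ Ico (Y - 5 * q) Y ∪ Ico a b ×ˢ Ico Y (Y + 5 * q)
        ↔ a ≤ x.1 ∧ x.1 < b ∧ Y - 5 * q ≤ x.2 ∧ x.2 < Y + 5 * q := by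
      intro x
      rw [mem_union, mem_product, mem_product, mem_Ico, mem_Ico, mem_Ico]
      omega
    have h1 := ro_ext_plain (A := Ico a b ×ˢ Ico (Y - 5 * q) Y ∪ Ico a b ×ˢ Ico Y (Y + 5 * q)) (D := D) (R := R)
      (fun x hx => (mem_union.1 hx).elim (hDm x) (hDp x)) hDR (p := f)
      (fun x hx => by
        have h2 := hf x hx
        rw [mU]
        omega)
      (fun x _ hne y hy => by
        have h2 := hf x hne
        rw [mU]
        obtain ⟨x1, x2⟩ := x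
        obtain ⟨y1, y2⟩ := y
        simp only [ro_mem_nb, Prod.mk.injEq] at hy h2 ⊢
        omega) q
    rw [h1]
    linarith
  · exact ro_cl_mir hDR a b Y Y (Y + 5 * q) (Y - 5 * q) Y q (Or.inl ⟨rfl, rfl, rfl, rfl⟩) f hf hDp hDm hRm
  · exact ro_cl_mir hDR a b Y (Y - 5 * q) Y Y (Y + 5 * q) q (Or.inr ⟨rfl, rfl, rfl, rfl⟩) f hf hDm hDp hRp
  · refine ⟨fun _ => 0, fun x hx => ?_, ?_⟩
    · by_contra hne
      have h2 := hf x (Ne.symm hne)
      by_cases h3 : Y ≤ x.2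
      · exact hDp x (by rw [mem_product, mem_Ico, mem_Ico]; omega) hx
      · exact hDm x (by rw [mem_product, mem_Ico, mem_Ico]; omega) hx
    · have h0 : roT q R (fun _ => (0 : ℝ)) = 0 := by
        unfold roT roL roDir roSq C2.gd
        simp [ro_lap_const]
      rw [h0]
      linarith

/-- L-RO-D6.  Piece (int,line): horizontal face; as `ro_piece_lc` with the coordinates exchanged, `σ x = (x.1, 2 Y_j - 1 - x.2)`. -/
theorem ro_piece_cl (g : DGrid m₁ m₂) (U : Finset (Fin m₁ × Fin m₂)) {ν : ℕ} (h : g.SideGe ν) {q : ℕ} (hq : 0 < q) (hν : 16 * q ≤ ν)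
    (i : Fin m₁) (j : Fin (m₂ + 1)) (u : ℤ × ℤ → ℝ) :
    ∃ p : ℤ × ℤ → ℝ, (∀ x ∈ g.region U, p x = roIntB g.x₁ q i x.1 * roLineB g.x₂ q j x.2 * u x) ∧
      roT q (roRc g).set p ≤ 2000 * roT q (g.region U) u := by
  have hside : (ν : ℤ) ≤ g.x₁ i.succ - g.x₁ i.castSucc := h.1 i
  have hcut : RoCut q (g.region U) (roTen (roPB g.x₁ q (Sum.inr i)) (roPB g.x₂ q (Sum.inl j))) :=
    ro_pb_cut g U h hq (by omega) (Sum.inr i) (Sum.inl j)
  have hT := ro_cut_T hq hcut u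
  have hsame : ∀ lo hi : ℤ, ((lo = g.x₂ j ∧ hi = g.x₂ j + 5 * q) ∨ (lo = g.x₂ j - 5 * q ∧ hi = g.x₂ j)) →
      ∀ x ∈ Ico (g.x₁ i.castSucc) (g.x₁ i.succ) ×ˢ Ico lo hi, ∀ y ∈ Ico (g.x₁ i.castSucc) (g.x₁ i.succ) ×ˢ Ico lo hi, roSame g x y := by
    intro lo hi hlh x hx y hy
    rw [mem_product, mem_Ico, mem_Ico] at hx hy
    refine ⟨ro_cl_same_int g.mono₁ i hx.1 hy.1, ?_⟩
    refine ro_cl_same_line g.x₂ (fun _ _ => ro_line_gap₂ g h) j (r := 5 * q) (by omega) (by omega) (by omega) ?_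
    constructor <;> intro _ <;> omega
  have hp := hsame _ _ (Or.inl ⟨rfl, rfl⟩)
  have hm := hsame _ _ (Or.inr ⟨rfl, rfl⟩)
  obtain ⟨p, hp1, hp2⟩ := ro_cl_abs (ro_region_subset_rc g U) (g.x₁ i.castSucc) (g.x₁ i.succ) (g.x₂ j) q
    (fun x => roTen (roPB g.x₁ q (Sum.inr i)) (roPB g.x₂ q (Sum.inl j)) x * u x)
    (fun x hx => by
      have h1 : roBump (g.x₁ i.castSucc + 6 * q) (g.x₁ i.succ - 6 * q) q x.1 ≠ 0 := left_ne_zero_of_mul (left_ne_zero_of_mul hx)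
      have h2 : roBump (g.x₂ j) (g.x₂ j) q x.2 ≠ 0 := right_ne_zero_of_mul (left_ne_zero_of_mul hx)
      have a1 : g.x₁ i.castSucc + 6 * q - 4 * q < x.1 := by
        by_contra hc
        exact h1 (ro_bump_eq_zero_left (by omega) hq (by omega))
      have a2 : x.1 + 1 < g.x₁ i.succ - 6 * q + 4 * q := by
        by_contra hc
        exact h1 (ro_bump_eq_zero_right (by omega) hq (by omega))
      have a3 : g.x₂ j - 4 * q < x.2 := by
        by_contra hc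
        exact h2 (ro_bump_eq_zero_left le_rfl hq (by omega))
      have a4 : x.2 + 1 < g.x₂ j + 4 * q := by
        by_contra hc
        exact h2 (ro_bump_eq_zero_right le_rfl hq (by omega))
      omega)
    (ro_cl_dich g U _ hp) (ro_cl_dich g U _ hm)
    (by rw [← ro_region_univ]; exact ro_cl_dich g Finset.univ _ hp)
    (by rw [← ro_region_univ]; exact ro_cl_dich g Finset.univ _ hm)
  refine ⟨p, fun x hx => hp1 x hx, ?_⟩
  have hT0 := ro_T_nonneg q (g.region U) u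
  linarith

/-- the quadrant box: `4 q² k² ≤ ∑_D u²` -/
private theorem ro_ll_quadrant (g : DGrid m₁ m₂) (U : Finset (Fin m₁ × Fin m₂)) {ν : ℕ} (h : g.SideGe ν) {q : ℕ} (hν : 16 * q ≤ ν)
    (z : Fin (m₁ + 1) × Fin (m₂ + 1)) (u : ℤ × ℤ → ℝ) (k : ℝ) (hk : ∀ x ∈ g.region U, x ∈ (roVtx g z).fat (4 * q) → u x = k)
    {y : ℤ × ℤ} (hy : y ∈ g.region U) (hy' : y ∈ (roVtx g z).fat (4 * q)) : 4 * (q : ℝ) ^ 2 * k ^ 2 ≤ roSq (g.region U) u := by
  set a₁ : ℤ := if g.x₁ z.1 ≤ y.1 then g.x₁ z.1 else g.x₁ z.1 - 2 * q with ha₁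
  set a₂ : ℤ := if g.x₂ z.2 ≤ y.2 then g.x₂ z.2 else g.x₂ z.2 - 2 * q with ha₂
  set Q : Finset (ℤ × ℤ) := Ico a₁ (a₁ + 2 * q) ×ˢ Ico a₂ (a₂ + 2 * q) with hQ
  have hmem : ∀ x ∈ Q, x ∈ g.region U ∧ x ∈ (roVtx g z).fat (4 * q) := by
    intro x hx
    rw [hQ, mem_product, mem_Ico, mem_Ico] at hx
    have hx4 : x ∈ (roVtx g z).fat (4 * q) := by
      rw [ro_mem_fat]
      simp only [roVtx]
      rw [ha₁, ha₂] at hx
      split_ifs at hx <;> omega
    refine ⟨?_, hx4⟩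
    have hs : roSame g y x := by
      refine ro_same_quadrant g h z (r := 4 * q) (by omega) hy' hx4 ?_ ?_
      · rw [ha₁] at hx
        split_ifs at hx with h3
        · constructor <;> intro _ <;> omega
        · constructor <;> intro _ <;> omega
      · rw [ha₂] at hx
        split_ifs at hx with h3
        · constructor <;> intro _ <;> omega
        · constructor <;> intro _ <;> omega
    exact (ro_same_region g U hs).1 hy
  have hsub : Q ⊆ g.region U := fun x hx => (hmem x hx).1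
  have hcard : (Q.card : ℝ) = 4 * (q : ℝ) ^ 2 := by
    rw [hQ, card_product, Int.card_Ico, Int.card_Ico]
    have e1 : (a₁ + 2 * (q : ℤ) - a₁).toNat = 2 * q := by omega
    have e2 : (a₂ + 2 * (q : ℤ) - a₂).toNat = 2 * q := by omega
    rw [e1, e2]
    push_cast
    ring
  calc 4 * (q : ℝ) ^ 2 * k ^ 2 = ∑ _x ∈ Q, k ^ 2 := by rw [sum_const, nsmul_eq_mul, hcard]
    _ = roSq Q u := by
      unfold roSq
      exact sum_congr rfl fun x hx => by rw [hk x (hmem x hx).1 (hmem x hx).2]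
    _ ≤ roSq (g.region U) u := ro_sq_mono hsub u

/-- L-RO-D7.  Piece (line,line): vertex.  If `D ∩ fat_z (4q) = ∅`: `p̃ = 0`.  Otherwise `p̃ = k (λ ⊗ λ)`.  With `φ = λ_i ⊗ λ_j` (`RoCut q R φ` by `ro_pb_cut g univ`, `ro_region_univ`; `φ = 0` off `fat_z (4q)`, `|fat_z (4q)| = 64 q²`):
`q² ∑_R (A_R p̃)² ≤ q² k² 64 q² (4/q²)²`, `E_R p̃ ≤ k² · 2 · 64 q² / q²` (`ro_sum_bonds_fst_le`; a bond with nonzero gradient starts in `fat_z (4q)`, or use `ro_core_zone`), `q⁻² ∑ p̃² ≤ 64 k²`: total `≤ 1216 k²`;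
`4 q² k² ≤ roSq D u`: `D` contains a whole quadrant `(2q × 2q` sites) of `fat_z (2q)` (`ro_touch`, `ro_same_quadrant`, `ro_same_region`), where `u = k`. -/
theorem ro_piece_ll (g : DGrid m₁ m₂) (U : Finset (Fin m₁ × Fin m₂)) {ν : ℕ} (h : g.SideGe ν) {q : ℕ} (hq : 0 < q) (hν : 16 * q ≤ ν)
    (i : Fin (m₁ + 1)) (j : Fin (m₂ + 1)) (u : ℤ × ℤ → ℝ) (hfl : ∃ k : ℝ, ∀ x ∈ g.region U, x ∈ (roVtx g (i, j)).fat (4 * q) → u x = k) :
    ∃ p : ℤ × ℤ → ℝ, (∀ x ∈ g.region U, p x = roLineB g.x₁ q i x.1 * roLineB g.x₂ q j x.2 * u x) ∧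
      roT q (roRc g).set p ≤ 2000 * roT q (g.region U) u := by
  have hq' : (0 : ℝ) < q := by exact_mod_cast hq
  set c := roVtx g (i, j) with hc
  set R := (roRc g).set with hR
  -- the constant, `0` if the ball does not meet `D`
  obtain ⟨k, hk, hk2⟩ : ∃ k : ℝ, (∀ x ∈ g.region U, x ∈ c.fat (4 * q) → u x = k) ∧ 4 * (q : ℝ) ^ 2 * k ^ 2 ≤ roSq (g.region U) u := by
    by_cases hne : ∃ y ∈ g.region U, y ∈ c.fat (4 * q)
    · obtain ⟨k, hk⟩ := hfl
      obtain ⟨y, hy, hy'⟩ := hne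
      exact ⟨k, hk, ro_ll_quadrant g U h hν (i, j) u k hk hy hy'⟩
    · refine ⟨0, fun x hx hx' => absurd ⟨x, hx, hx'⟩ hne, ?_⟩
      have := ro_sq_nonneg (g.region U) u
      simpa using this
  have hle := ro_onGrid_le g (ro_vtx_onGrid g (i, j))
  have hcut : RoCut q R (c.chi q) := by
    rw [hR, ← ro_region_univ]
    exact ro_core_cut g Finset.univ h (ro_vtx_onGrid g (i, j)) hq (by omega)
  have hzone : RoZone R (c.zone q) (c.chi q) := ro_core_zone c hle.1 hle.2 hq R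
  have hbump : ∀ x, c.bump q x = roLineB g.x₁ q i x.1 * roLineB g.x₂ q j x.2 := fun x => rfl
  have hp : ∀ x, roMod (c.chi q) k (fun _ => 0) x = k * c.bump q x := by
    intro x
    unfold roMod RoCore.chi
    ring
  have hfc : ((c.fat (4 * q)).card : ℝ) = 64 * (q : ℝ) ^ 2 := by
    have := ro_vtx_fat_card g (i, j) (4 * q)
    push_cast at this
    rw [hc, this]
    ring
  have hzc : (((R ∩ c.zone q).card : ℕ) : ℝ) ≤ 64 * (q : ℝ) ^ 2 := by
    rw [← hfc]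
    have : R ∩ c.zone q ⊆ c.fat (4 * q) := fun x hx => (mem_sdiff.1 (mem_inter.1 hx).2).1
    exact_mod_cast card_le_card this
  have hzs : ∑ x ∈ R ∩ c.zone q, ((fun _ => (0 : ℝ)) x - k) ^ 2 ≤ 64 * (q : ℝ) ^ 2 * k ^ 2 := by
    simp only [zero_sub, neg_sq, sum_const, nsmul_eq_mul]
    exact mul_le_mul_of_nonneg_right hzc (sq_nonneg k)
  have hd0 : ∀ A : Finset (ℤ × ℤ), roDir A (fun _ => (0 : ℝ)) = 0 := by
    intro A
    unfold roDir C2.gd
    simp
  have hl0 : roL R R (fun _ => (0 : ℝ)) = 0 := by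
    unfold roL
    simp [ro_lap_const]
  have hE := ro_modify_E hcut hzone k (fun _ => 0)
  have hL := ro_modify_L hcut hzone (Subset.refl R) k (fun _ => 0)
  rw [hd0, hd0] at hE
  rw [hd0, hl0] at hL
  have hS : roSq R (roMod (c.chi q) k (fun _ => 0)) ≤ 64 * (q : ℝ) ^ 2 * k ^ 2 := by
    have h1 : ∀ x ∈ R, roMod (c.chi q) k (fun _ => 0) x ^ 2 ≤ if x ∈ c.fat (4 * q) then k ^ 2 else 0 := by
      intro x _
      split_ifs with hx
      · rw [hp, mul_pow]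
        have h2 := hcut.mem x
        have h3 : c.bump q x = 1 - c.chi q x := by unfold RoCore.chi; ring
        have h4 : c.bump q x ^ 2 ≤ 1 := by rw [h3]; nlinarith
        nlinarith [sq_nonneg k]
      · rw [ro_modify_eq_of_one (ro_core_chi_one c hle.1 hle.2 hq hx)]
        norm_num
    unfold roSq
    refine (sum_le_sum h1).trans ?_
    rw [← sum_filter, sum_const, nsmul_eq_mul, ← hfc]
    refine mul_le_mul_of_nonneg_right ?_ (sq_nonneg k)
    have : R.filter (fun x => x ∈ c.fat (4 * q)) ⊆ c.fat (4 * q) := fun x hx => (mem_filter.1 hx).2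
    exact_mod_cast card_le_card this
  refine ⟨roMod (c.chi q) k (fun _ => 0), fun x hx => ?_, ?_⟩
  · rw [hp, ← hbump]
    by_cases hx4 : x ∈ c.fat (4 * q)
    · rw [hk x hx hx4]; ring
    · have h1 := ro_core_chi_one c hle.1 hle.2 hq hx4
      have h3 : c.bump q x = 0 := by
        unfold RoCore.chi at h1
        linarith
      rw [h3]; ring
  · have hk0 := sq_nonneg k
    have hq2 : (0 : ℝ) < (q : ℝ) ^ 2 := by positivity
    have b1 : (q : ℝ) ^ 2 * roL R R (roMod (c.chi q) k (fun _ => 0)) ≤ 3072 * k ^ 2 := by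
      have h1 : roL R R (roMod (c.chi q) k (fun _ => 0)) ≤ 48 / (q : ℝ) ^ 4 * (64 * (q : ℝ) ^ 2 * k ^ 2) := by
        have : 48 / (q : ℝ) ^ 4 * ∑ x ∈ R ∩ c.zone q, ((fun _ => (0 : ℝ)) x - k) ^ 2 ≤ 48 / (q : ℝ) ^ 4 * (64 * (q : ℝ) ^ 2 * k ^ 2) :=
          mul_le_mul_of_nonneg_left hzs (by positivity)
        linarith
      calc (q : ℝ) ^ 2 * roL R R (roMod (c.chi q) k (fun _ => 0))
          ≤ (q : ℝ) ^ 2 * (48 / (q : ℝ) ^ 4 * (64 * (q : ℝ) ^ 2 * k ^ 2)) := mul_le_mul_of_nonneg_left h1 hq2.le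
        _ = 3072 * k ^ 2 := by field_simp; ring
    have b2 : roDir R (roMod (c.chi q) k (fun _ => 0)) ≤ 256 * k ^ 2 := by
      have : 4 / (q : ℝ) ^ 2 * ∑ x ∈ R ∩ c.zone q, ((fun _ => (0 : ℝ)) x - k) ^ 2 ≤ 4 / (q : ℝ) ^ 2 * (64 * (q : ℝ) ^ 2 * k ^ 2) :=
        mul_le_mul_of_nonneg_left hzs (by positivity)
      have e : 4 / (q : ℝ) ^ 2 * (64 * (q : ℝ) ^ 2 * k ^ 2) = 256 * k ^ 2 := by field_simp; ring
      linarith
    have b3 : roSq R (roMod (c.chi q) k (fun _ => 0)) / (q : ℝ) ^ 2 ≤ 64 * k ^ 2 := by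
      rw [div_le_iff₀ hq2]
      linarith
    have b4 : 4 * k ^ 2 ≤ roT q (g.region U) u := by
      have h1 : 4 * k ^ 2 ≤ roSq (g.region U) u / (q : ℝ) ^ 2 := by
        rw [le_div_iff₀ hq2]
        linarith
      have h2 := ro_L_nonneg (g.region U) (g.region U) u
      have h3 := ro_dir_nonneg (g.region U) u
      have h4 : 0 ≤ (q : ℝ) ^ 2 * roL (g.region U) (g.region U) u := by positivity
      unfold roT
      linarith
    have : roT q R (roMod (c.chi q) k (fun _ => 0)) ≤ 3392 * k ^ 2 := by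
      unfold roT
      linarith
    linarith

/-- all the pieces -/
theorem ro_piece (g : DGrid m₁ m₂) (U : Finset (Fin m₁ × Fin m₂)) {ν : ℕ} (h : g.SideGe ν) {q : ℕ} (hq : 0 < q) (hν : 16 * q ≤ ν)
    (u : ℤ × ℤ → ℝ) (hfl : ∀ z, ∃ k : ℝ, ∀ x ∈ g.region U, x ∈ (roVtx g z).fat (4 * q) → u x = k)
    (ab : (Fin (m₁ + 1) ⊕ Fin m₁) × (Fin (m₂ + 1) ⊕ Fin m₂)) :
    ∃ p : ℤ × ℤ → ℝ, (∀ x ∈ g.region U, p x = roPB g.x₁ q ab.1 x.1 * roPB g.x₂ q ab.2 x.2 * u x) ∧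
      roT q (roRc g).set p ≤ 2000 * roT q (g.region U) u := by
  obtain ⟨a, b⟩ := ab
  rcases a with i | i <;> rcases b with j | j
  · exact ro_piece_ll g U h hq hν i j u (hfl (i, j))
  · exact ro_piece_lc g U h hq hν i j u
  · exact ro_piece_cl g U h hq hν i j u
  · exact ro_piece_cc g U h hq hν i j u

/-- **(D) extension to the enclosing rectangle** -/
theorem ro_extend (g : DGrid m₁ m₂) (U : Finset (Fin m₁ × Fin m₂)) {ν : ℕ} (h : g.SideGe ν) {q : ℕ} (hq : 0 < q) (hν : 16 * q ≤ ν)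
    (u : ℤ × ℤ → ℝ) (hfl : ∀ z, ∃ k : ℝ, ∀ x ∈ g.region U, x ∈ (roVtx g z).fat (4 * q) → u x = k) :
    ∃ w : ℤ × ℤ → ℝ, (∀ x ∈ g.region U, w x = u x) ∧
      roT q (roRc g).set w ≤ 2000 * (((2 * m₁ + 1) * (2 * m₂ + 1) : ℕ) : ℝ) ^ 2 * roT q (g.region U) u := by
  choose p hp1 hp2 using ro_piece g U h hq hν u hfl
  refine ⟨fun x => ∑ ab, p ab x, ?_, ?_⟩
  · intro x hx
    have hxR := ro_region_subset_rc g U hx
    have hx' : g.x₁ 0 ≤ x.1 ∧ x.1 < g.x₁ (Fin.last m₁) ∧ g.x₂ 0 ≤ x.2 ∧ x.2 < g.x₂ (Fin.last m₂) := by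
      unfold C2.Rc.set roRc at hxR
      rw [mem_product, mem_Ico, mem_Ico] at hxR
      simp only at hxR
      omega
    have e1 : ∀ ab, p ab x = roPB g.x₁ q ab.1 x.1 * roPB g.x₂ q ab.2 x.2 * u x := fun ab => hp1 ab x hx
    simp only [e1]
    rw [← sum_mul, Fintype.sum_prod_type]
    simp only [← mul_sum, ← sum_mul]
    rw [ro_pou1 g.x₁ hq (by omega) (by omega), ro_pou1 g.x₂ hq (by omega) (by omega)]
    ring
  · have h1 := ro_T_sum_le q (roRc g).set Finset.univ p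
    have hc : ((Finset.univ : Finset ((Fin (m₁ + 1) ⊕ Fin m₁) × (Fin (m₂ + 1) ⊕ Fin m₂))).card : ℝ)
        = (((2 * m₁ + 1) * (2 * m₂ + 1) : ℕ) : ℝ) := by
      rw [card_univ, Fintype.card_prod, Fintype.card_sum, Fintype.card_sum, Fintype.card_fin, Fintype.card_fin, Fintype.card_fin,
        Fintype.card_fin]
      congr 1
      ring
    have h2 : ∑ ab, roT q (roRc g).set (p ab) ≤ ∑ _ab : (Fin (m₁ + 1) ⊕ Fin m₁) × (Fin (m₂ + 1) ⊕ Fin m₂), 2000 * roT q (g.region U) u :=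
      sum_le_sum fun ab _ => hp2 ab
    rw [sum_const, nsmul_eq_mul, hc] at h2
    rw [hc] at h1
    refine h1.trans ?_
    have h3 : (0 : ℝ) ≤ (((2 * m₁ + 1) * (2 * m₂ + 1) : ℕ) : ℝ) := Nat.cast_nonneg _
    calc (((2 * m₁ + 1) * (2 * m₂ + 1) : ℕ) : ℝ) * ∑ ab, roT q (roRc g).set (p ab)
        ≤ (((2 * m₁ + 1) * (2 * m₂ + 1) : ℕ) : ℝ) * ((((2 * m₁ + 1) * (2 * m₂ + 1) : ℕ) : ℝ) * (2000 * roT q (g.region U) u)) :=
          mul_le_mul_of_nonneg_left h2 h3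
      _ = _ := by ring

/-! ## the final cut-off on the rectangle -/

/-- **the final cut-off**: kills `w` near the cells of `Q`, everywhere in `ℤ²` -/
theorem ro_final_cut (g : DGrid m₁ m₂) {ν : ℕ} (h : g.SideGe ν) {q : ℕ} (hq : 0 < q) (hν : 4 * q ≤ ν) (Q : Finset (Fin m₁ × Fin m₂))
    (w : ℤ × ℤ → ℝ) :
    ∃ χ : ℤ × ℤ → ℝ, (∀ κ ∈ Q, ∀ x ∈ (roCel g κ).fat (2 * q), χ x = 0) ∧ (∀ x, (∀ κ ∈ Q, x ∉ (roCel g κ).fat (4 * q)) → χ x = 1) ∧
      roT q (roRc g).set (fun x => χ x * w x) ≤ 53 ^ Q.card * roT q (roRc g).set w := by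
  induction Q using Finset.induction_on with
  | empty => exact ⟨fun _ => 1, fun κ hκ => absurd hκ (notMem_empty κ), fun _ _ => rfl, by simp⟩
  | insert κ Q hκ ih =>
    obtain ⟨χ, h1, h2, h3⟩ := ih
    have hcle := ro_onGrid_le g (ro_cel_onGrid g κ)
    have hcut : RoCut q (roRc g).set ((roCel g κ).chi q) := by
      rw [← ro_region_univ]
      exact ro_core_cut g Finset.univ h (ro_cel_onGrid g κ) hq hν
    refine ⟨fun x => (roCel g κ).chi q x * χ x, ?_, ?_, ?_⟩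
    · intro κ' hκ' x hx
      show (roCel g κ).chi q x * χ x = 0
      rcases mem_insert.1 hκ' with rfl | hκ'
      · rw [ro_core_chi_zero _ hq hx, zero_mul]
      · rw [h1 κ' hκ' x hx, mul_zero]
    · intro x hx
      show (roCel g κ).chi q x * χ x = 1
      rw [ro_core_chi_one _ hcle.1 hcle.2 hq (hx κ (mem_insert_self κ Q)), h2 x fun κ' hκ' => hx κ' (mem_insert_of_mem hκ'), one_mul]
    · have h4 := ro_cut_T hq hcut fun x => χ x * w x
      have e : (fun x => (roCel g κ).chi q x * χ x * w x) = fun x => (roCel g κ).chi q x * (χ x * w x) := by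
        funext x; ring
      rw [e, card_insert_of_notMem hκ, pow_succ]
      nlinarith

end

end Claimed.Agent.R285.Pot
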