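import Claimed.Agent.R285.Pot.RoStage
import Claimed.Agent.R285.Pot.RoExt

/-!
# ROW 285, POT-REGOPT (architect helper170): a priori bound, the chain (B) → (C) → (D) → final cut-off, choice of the parameters.
-/

set_option autoImplicit false

namespace Claimed.Agent.R285.Pot

open scoped Classical
open Finset

noncomputable section

/-- **the chain**: all scales are multiples of `q`: flattening at `q_B = 4·2^{J_C} q`, collars at `q_C = 2q`, extension and final cut-off at `q`. -/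
theorem ro_chain (m₁ m₂ K : ℕ) : ∃ CB CC CF : ℝ, 0 ≤ CB ∧ 0 ≤ CC ∧ 0 ≤ CF ∧ ∀ (U Pn : Finset (Fin m₁ × Fin m₂)), Poly U →
    ∀ (g : DGrid m₁ m₂) (ν : ℕ), g.SideGe ν → g.SideLe (K * ν) → ∀ (JB JC q : ℕ), 0 < JB → 0 < JC → 0 < q →
    8 * (2 ^ JB * (4 * 2 ^ JC * q)) ≤ ν → ∀ E₁ : ℝ, 0 ≤ E₁ → ∀ v : ℤ × ℤ → ℝ, (∀ y ∈ g.region (U ∩ Pn), v y = 0) →
    roDir (g.region U) v + (((m₁ + 1) * (m₂ + 1) : ℕ) : ℝ) * (CB * E₁ / JB) + ((U ∩ Pn).card : ℝ) * (CC * E₁ / JC) ≤ E₁ →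
    ∃ (w u₂ : ℤ × ℤ → ℝ) (k : ℝ), (∀ y ∈ g.region (U ∩ Pn), u₂ y = 0) ∧ (∀ x ∈ g.region U, w x = u₂ x - k) ∧
      (∀ κ ∈ U ∩ Pn, ∀ x ∈ (roCel g κ).fat (2 * q), w x = 0) ∧
      roDir (g.region U) u₂ ≤ roDir (g.region U) v + (((m₁ + 1) * (m₂ + 1) : ℕ) : ℝ) * (CB * E₁ / JB) + ((U ∩ Pn).card : ℝ) * (CC * E₁ / JC) ∧
      ∑ x ∈ g.region U, |u₂ x - v x| ≤ (((m₁ + 1) * (m₂ + 1) : ℕ) : ℝ) * (CB * ((2 ^ JB * (4 * 2 ^ JC * q) : ℕ) : ℝ) ^ 2 * Real.sqrt E₁)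
        + ((U ∩ Pn).card : ℝ) * (CC * ((K : ℝ) + 2) * ν * ((2 ^ JC * (2 * q) : ℕ) : ℝ) * Real.sqrt E₁) ∧
      roT q (roRc g).set w ≤ 53 ^ (U ∩ Pn).card * (2000 * (((2 * m₁ + 1) * (2 * m₂ + 1) : ℕ) : ℝ) ^ 2 *
        ((q : ℝ) ^ 2 * (3 ^ (U ∩ Pn).card * (3 ^ ((m₁ + 1) * (m₂ + 1)) * (roL (g.region U) (g.region U \ g.region (U ∩ Pn)) v
              + (((m₁ + 1) * (m₂ + 1) : ℕ) : ℝ) * (CB * E₁ / ((4 * 2 ^ JC * q : ℕ) : ℝ) ^ 2))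
            + ((U ∩ Pn).card : ℝ) * (CC * E₁ / ((2 * q : ℕ) : ℝ) ^ 2)))
          + E₁ + CF * (ν : ℝ) ^ 2 * E₁ / (q : ℝ) ^ 2)) := by
  obtain ⟨CB, hCB, hB⟩ := ro_flatten
  obtain ⟨CC, hCC, hC⟩ := ro_collar_ind
  obtain ⟨CF, hCF, hF⟩ := ro_friedrichs_cells m₁ m₂ K
  refine ⟨CB, CC, CF, hCB, hCC, hCF, ?_⟩
  intro U Pn hU g ν hν hK JB JC q hJB hJC hq hs E₁ hE0 v hv hE
  set D := g.region U with hD
  set P := g.region (U ∩ Pn) with hP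
  set nv : ℕ := (m₁ + 1) * (m₂ + 1) with hnv
  set np : ℕ := (U ∩ Pn).card with hnp
  set qB : ℕ := 4 * 2 ^ JC * q with hqB
  set qC : ℕ := 2 * q with hqC
  have hJB' : (0 : ℝ) < JB := by exact_mod_cast hJB
  have hJC' : (0 : ℝ) < JC := by exact_mod_cast hJC
  have hq' : (0 : ℝ) < q := by exact_mod_cast hq
  have hqB0 : 0 < qB := by positivity
  have hqC0 : 0 < qC := by positivity
  have hηB : 0 ≤ (nv : ℝ) * (CB * E₁ / JB) := by positivity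
  have hηC : 0 ≤ (np : ℝ) * (CC * E₁ / JC) := by positivity
  have hcardv : (Finset.univ : Finset (Fin (m₁ + 1) × Fin (m₂ + 1))).card = nv := by
    rw [card_univ, Fintype.card_prod, Fintype.card_fin, Fintype.card_fin]
  have h2JB : 1 ≤ 2 ^ JB := Nat.one_le_two_pow
  have h2JC : 1 ≤ 2 ^ JC := Nat.one_le_two_pow
  have hqBν : 8 * qB ≤ ν := by
    have : qB ≤ 2 ^ JB * qB := Nat.le_mul_of_pos_left _ (by positivity)
    omega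
  have hqqB : 4 * q ≤ qB := by
    have : q ≤ 2 ^ JC * q := Nat.le_mul_of_pos_left _ (by positivity)
    have e : qB = 4 * (2 ^ JC * q) := by rw [hqB]; ring
    omega
  have hν0 : 0 < ν := by omega
  -- (B)
  obtain ⟨u₁, hu₁, hfl₁, hE₁, hl₁, hL₁⟩ := hB m₁ m₂ U Pn hU g ν hν JB qB hJB hqB0 hs E₁ hE0 Finset.univ v hv (by
    rw [hcardv]; linarith)
  rw [hcardv] at hE₁ hl₁ hL₁
  -- (C)
  have hρ : ((2 * qB : ℕ) : ℤ) = 2 * (qB : ℤ) := by push_cast; ring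
  obtain ⟨u₂, hz₂, hcol₂, hfl₂, hE₂, hl₂, hL₂⟩ := hC m₁ m₂ U Pn g ν K hν hK JC qC (2 * qB) hJC hqC0 (by
      have e : 4 * (2 ^ JC * qC) = 2 * qB := by rw [hqC, hqB]; ring
      omega) (by omega) E₁ hE0 (U ∩ Pn) (Subset.refl _) u₁ hu₁ (by rw [hρ]; exact hfl₁) (by linarith)
  have hu₂ : ∀ y ∈ P, u₂ y = 0 := fun y hy => hz₂ y (hu₁ y hy)
  have hEu₂ : roDir D u₂ ≤ E₁ := by linarith
  -- Friedrichs
  obtain ⟨k, hk0, hk⟩ := hF U Pn hU.conn g ν hν0 hν hK u₂ hu₂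
  -- (D)
  obtain ⟨w₀, hw₀, hT₀⟩ := ro_extend g U hν hq (by omega) (fun x => u₂ x - k) (by
    intro z
    obtain ⟨k', hk', _⟩ := hfl₂ z (mem_univ z)
    refine ⟨k' - k, fun x hx hx' => ?_⟩
    rw [hk' x hx (ro_fat_mono _ (by
      have : 4 * q ≤ 2 * qB := by omega
      exact_mod_cast this) hx')])
  -- final cut-off
  obtain ⟨χ, hχ0, hχ1, hTχ⟩ := ro_final_cut g hν hq (by omega) (U ∩ Pn) w₀
  refine ⟨fun x => χ x * w₀ x, u₂, k, hu₂, ?_, ?_, by linarith, ?_, ?_⟩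
  · intro x hx
    show χ x * w₀ x = u₂ x - k
    by_cases hfar : ∀ κ ∈ U ∩ Pn, x ∉ (roCel g κ).fat (4 * q)
    · rw [hχ1 x hfar, one_mul, hw₀ x hx]
    · push Not at hfar
      obtain ⟨κ, hκ, hxκ⟩ := hfar
      have h1 : u₂ x = 0 := hcol₂ κ hκ x (by
        have e : (2 : ℤ) * ((qC : ℕ) : ℤ) = 4 * (q : ℤ) := by rw [hqC]; push_cast; ring
        rw [e]; exact hxκ)
      rw [hw₀ x hx, h1, hk0 ⟨κ, hκ⟩]
      ring
  · intro κ hκ x hx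
    show χ x * w₀ x = 0
    rw [hχ0 κ hκ x hx, zero_mul]
  · have h1 : ∑ x ∈ D, |u₂ x - v x| ≤ ∑ x ∈ D, (|u₂ x - u₁ x| + |u₁ x - v x|) := by
      refine sum_le_sum fun x _ => ?_
      have : u₂ x - v x = (u₂ x - u₁ x) + (u₁ x - v x) := by ring
      rw [this]
      exact abs_add_le _ _
    rw [sum_add_distrib] at h1
    linarith
  · refine hTχ.trans (mul_le_mul_of_nonneg_left ?_ (by positivity))
    refine hT₀.trans (mul_le_mul_of_nonneg_left ?_ (by positivity))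
    unfold roT
    have e1 : roL D D (fun x => u₂ x - k) = roL D (D \ P) u₂ := by
      rw [← ro_L_collar g U (U ∩ Pn) hqC0 u₂ hcol₂]
      unfold roL
      exact sum_congr rfl fun x _ => by rw [ro_lap_sub_const]
    have h2 := hL₂ (D \ P) sdiff_subset
    have h3 := hL₁ (D \ P) sdiff_subset
    have h4 : roL D (D \ P) u₂ ≤ 3 ^ np * (3 ^ nv * (roL D (D \ P) v + (nv : ℝ) * (CB * E₁ / (qB : ℝ) ^ 2))
        + (np : ℝ) * (CC * E₁ / (qC : ℝ) ^ 2)) := by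
      refine h2.trans (mul_le_mul_of_nonneg_left ?_ (by positivity))
      linarith
    have h5 : roSq D (fun x => u₂ x - k) ≤ CF * (ν : ℝ) ^ 2 * E₁ :=
      hk.trans (mul_le_mul_of_nonneg_left hEu₂ (by positivity))
    rw [e1, ro_dir_sub_const]
    have h6 : (q : ℝ) ^ 2 * roL D (D \ P) u₂ ≤ (q : ℝ) ^ 2 * (3 ^ np * (3 ^ nv * (roL D (D \ P) v + (nv : ℝ) * (CB * E₁ / (qB : ℝ) ^ 2))
        + (np : ℝ) * (CC * E₁ / (qC : ℝ) ^ 2))) := mul_le_mul_of_nonneg_left h4 (by positivity)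
    have h7 : roSq D (fun x => u₂ x - k) / (q : ℝ) ^ 2 ≤ CF * (ν : ℝ) ^ 2 * E₁ / (q : ℝ) ^ 2 :=
      div_le_div_of_nonneg_right h5 (by positivity)
    linarith

/-- **a priori energy bound** -/
theorem ro_apriori (m₁ m₂ K : ℕ) : ∃ C : ℝ, 0 ≤ C ∧ ∀ (U Pn : Finset (Fin m₁ × Fin m₂)), roConn U →
    ∀ (g : DGrid m₁ m₂) (ν : ℕ), 0 < ν → g.SideGe ν → g.SideLe (K * ν) → ∀ T : ℝ, 0 ≤ T → ∀ v : ℤ × ℤ → ℝ,
    (∀ y ∈ g.region (U ∩ Pn), v y = 0) →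
    (∀ x ∈ g.region U, x ∉ g.region (U ∩ Pn) → |roLap (g.region U) v x| ≤ T / (ν : ℝ) ^ 2) →
    roDir (g.region U) v ≤ C * T ^ 2 := by
  obtain ⟨CF, hCF, hF⟩ := ro_friedrichs_cells m₁ m₂ K
  refine ⟨(m₁ : ℝ) * m₂ * (K : ℝ) ^ 2 * CF, by positivity, ?_⟩
  intro U Pn hU g ν hν0 hν hK T hT v hv hlap
  set D := g.region U with hD
  set P := g.region (U ∩ Pn) with hP
  have hν' : (0 : ℝ) < ν := by exact_mod_cast hν0
  obtain ⟨k, hk0, hk⟩ := hF U Pn hU g ν hν0 hν hK v hv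
  have hE0 : 0 ≤ roDir D v := ro_dir_nonneg D v
  have h1 : roDir D v = ∑ x ∈ D, roLap D v x * (v x - k) := by
    rw [ro_dir_eq_parts]
    have : ∑ x ∈ D, roLap D v x * (v x - k) = ∑ x ∈ D, roLap D v x * v x - (∑ x ∈ D, roLap D v x) * k := by
      rw [sum_mul, ← sum_sub_distrib]
      exact sum_congr rfl fun x _ => by ring
    rw [this, ro_lap_sum_zero]
    ring
  have h2 : ∀ x ∈ D, roLap D v x * (v x - k) ≤ T / (ν : ℝ) ^ 2 * |v x - k| := by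
    intro x hx
    by_cases hxP : x ∈ P
    · obtain ⟨κ, hκ, _⟩ := (ro_mem_region g (U ∩ Pn) x).1 hxP
      rw [hv x hxP, hk0 ⟨κ, hκ⟩]
      simp
    · calc roLap D v x * (v x - k) ≤ |roLap D v x * (v x - k)| := le_abs_self _
        _ = |roLap D v x| * |v x - k| := abs_mul _ _
        _ ≤ _ := mul_le_mul_of_nonneg_right (hlap x hx hxP) (abs_nonneg _)
  have h3 : roDir D v ≤ T / (ν : ℝ) ^ 2 * ∑ x ∈ D, |v x - k| := by
    rw [h1, mul_sum]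
    exact sum_le_sum h2
  have hcard : ((D.card : ℕ) : ℝ) ≤ (m₁ : ℝ) * m₂ * ((K * ν : ℕ) : ℝ) ^ 2 := ro_region_card_le g hK U
  have h4 := ro_l1_le D (fun x => v x - k) _ _ hcard hk
  have h5 : roDir D v ≤ T / (ν : ℝ) ^ 2 * Real.sqrt ((m₁ : ℝ) * m₂ * ((K * ν : ℕ) : ℝ) ^ 2 * (CF * (ν : ℝ) ^ 2 * roDir D v)) :=
    h3.trans (mul_le_mul_of_nonneg_left h4 (by positivity))
  have h6 : roDir D v ^ 2 ≤ (T / (ν : ℝ) ^ 2) ^ 2 * ((m₁ : ℝ) * m₂ * ((K * ν : ℕ) : ℝ) ^ 2 * (CF * (ν : ℝ) ^ 2 * roDir D v)) := by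
    calc roDir D v ^ 2 ≤ (T / (ν : ℝ) ^ 2 * Real.sqrt ((m₁ : ℝ) * m₂ * ((K * ν : ℕ) : ℝ) ^ 2 * (CF * (ν : ℝ) ^ 2 * roDir D v))) ^ 2 :=
          pow_le_pow_left₀ hE0 h5 2
      _ = _ := by rw [mul_pow, Real.sq_sqrt (by positivity)]
  have h7 : (T / (ν : ℝ) ^ 2) ^ 2 * ((m₁ : ℝ) * m₂ * ((K * ν : ℕ) : ℝ) ^ 2 * (CF * (ν : ℝ) ^ 2 * roDir D v))
      = ((m₁ : ℝ) * m₂ * (K : ℝ) ^ 2 * CF * T ^ 2) * roDir D v := by
    push_cast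
    field_simp
  rw [h7] at h6
  by_contra hcon
  push Not at hcon
  have hpos : 0 < roDir D v := lt_of_le_of_lt (by positivity) hcon
  nlinarith

/-- the `ℓ²` norm of the Laplacian of the optimiser -/
theorem ro_L_apriori {m₁ m₂ : ℕ} (U Pn : Finset (Fin m₁ × Fin m₂)) (g : DGrid m₁ m₂) {ν K : ℕ} (hν0 : 0 < ν) (hK : g.SideLe (K * ν))
    {T : ℝ} (v : ℤ × ℤ → ℝ)
    (hlap : ∀ x ∈ g.region U, x ∉ g.region (U ∩ Pn) → |roLap (g.region U) v x| ≤ T / (ν : ℝ) ^ 2) :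
    roL (g.region U) (g.region U \ g.region (U ∩ Pn)) v ≤ (m₁ : ℝ) * m₂ * (K : ℝ) ^ 2 * T ^ 2 / (ν : ℝ) ^ 2 := by
  have hν' : (0 : ℝ) < ν := by exact_mod_cast hν0
  have hcard : (((g.region U).card : ℕ) : ℝ) ≤ (m₁ : ℝ) * m₂ * ((K * ν : ℕ) : ℝ) ^ 2 := ro_region_card_le g hK U
  have h1 : roL (g.region U) (g.region U \ g.region (U ∩ Pn)) v ≤ ∑ _x ∈ g.region U \ g.region (U ∩ Pn), (T / (ν : ℝ) ^ 2) ^ 2 := by
    unfold roL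
    refine sum_le_sum fun x hx => ?_
    have := hlap x (mem_sdiff.1 hx).1 (mem_sdiff.1 hx).2
    rw [← sq_abs]
    exact pow_le_pow_left₀ (abs_nonneg _) this 2
  rw [sum_const, nsmul_eq_mul] at h1
  have h2 : (((g.region U \ g.region (U ∩ Pn)).card : ℕ) : ℝ) ≤ ((g.region U).card : ℝ) := by
    exact_mod_cast card_le_card sdiff_subset
  calc _ ≤ _ := h1
    _ ≤ ((m₁ : ℝ) * m₂ * ((K * ν : ℕ) : ℝ) ^ 2) * (T / (ν : ℝ) ^ 2) ^ 2 := mul_le_mul_of_nonneg_right (h2.trans hcard) (by positivity)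
    _ = _ := by
      push_cast
      field_simp

/-- points near `P` lie in the fattened pinned cells -/
theorem ro_near_fat {m₁ m₂ : ℕ} (V : Finset (Fin m₁ × Fin m₂)) (g : DGrid m₁ m₂) {ν N : ℕ} (hN : 0 < N) {x : ℤ × ℤ}
    (h : roNear (g.region V) (1 / (N : ℝ) * ν) x) : ∃ κ ∈ V, x ∈ (roCel g κ).fat (2 * ((ν / N : ℕ) : ℤ)) := by
  obtain ⟨y, hy, h1, h2⟩ := h
  obtain ⟨κ, hκ, hyκ⟩ := (ro_mem_region g V y).1 hy
  refine ⟨κ, hκ, ?_⟩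
  have hN' : (0 : ℝ) < N := by exact_mod_cast hN
  have key : ∀ d : ℤ, |((d : ℤ) : ℝ)| ≤ 1 / (N : ℝ) * ν → |d| ≤ ((ν / N : ℕ) : ℤ) := by
    intro d hd
    have h3 : (|d| : ℤ) * N ≤ ν := by
      have : ((|d| : ℤ) : ℝ) * N ≤ ν := by
        rw [Int.cast_abs]
        calc |(d : ℝ)| * N ≤ 1 / (N : ℝ) * ν * N := mul_le_mul_of_nonneg_right hd hN'.le
          _ = ν := by field_simp
      exact_mod_cast this
    have h4 : d.natAbs * N ≤ ν := by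
      have : ((d.natAbs : ℕ) : ℤ) * N ≤ ν := by rw [Int.natCast_natAbs]; exact h3
      exact_mod_cast this
    have h5 : d.natAbs ≤ ν / N := (Nat.le_div_iff_mul_le hN).2 h4
    rw [← Int.natCast_natAbs]
    exact_mod_cast h5
  have k1 := key _ h1
  have k2 := key _ h2
  rw [abs_le] at k1 k2
  have hc := (ro_mem_cell g κ y).1 hyκ
  rw [ro_mem_fat]
  simp only [roCel]
  have hq : (0 : ℤ) ≤ ((ν / N : ℕ) : ℤ) := Int.natCast_nonneg _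
  omega

theorem ro_exists_nat (a : ℝ) {η : ℝ} (hη : 0 < η) : ∃ J : ℕ, 0 < J ∧ a / J ≤ η := by
  refine ⟨⌈a / η⌉₊ + 1, Nat.succ_pos _, ?_⟩
  have h1 : a / η ≤ ((⌈a / η⌉₊ + 1 : ℕ) : ℝ) := by
    push_cast
    have := Nat.le_ceil (a / η)
    linarith
  have h2 : (0 : ℝ) < ((⌈a / η⌉₊ + 1 : ℕ) : ℝ) := by positivity
  rw [div_le_iff₀ h2]
  rw [div_le_iff₀ hη] at h1
  linarith

theorem ro_num {q qB ν Nn L₀ A B Cc E₁ CF a b : ℝ} (hq : 0 < q) (hqB : q ≤ qB) (hqν : q ≤ ν) (hν : ν ≤ 2 * Nn * q)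
    (hA : 0 ≤ A) (hB : 0 ≤ B) (hC : 0 ≤ Cc) (hE : 0 ≤ E₁) (hCF : 0 ≤ CF) (ha : 0 ≤ a) (hb : 0 ≤ b) (hL : L₀ ≤ A / ν ^ 2) :
    q ^ 2 * (a * (b * (L₀ + B / qB ^ 2) + Cc / (2 * q) ^ 2)) + E₁ + CF * ν ^ 2 * E₁ / q ^ 2
      ≤ a * (b * (A + B) + Cc) + E₁ + CF * (2 * Nn) ^ 2 * E₁ := by
  have hν0 : 0 < ν := lt_of_lt_of_le hq hqν
  have hqB0 : 0 < qB := lt_of_lt_of_le hq hqB
  have t1 : q ^ 2 * L₀ ≤ A := by
    calc q ^ 2 * L₀ ≤ q ^ 2 * (A / ν ^ 2) := mul_le_mul_of_nonneg_left hL (by positivity)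
      _ = A * (q ^ 2 / ν ^ 2) := by ring
      _ ≤ A * 1 := mul_le_mul_of_nonneg_left ((div_le_one (by positivity)).2 (pow_le_pow_left₀ hq.le hqν 2)) hA
      _ = A := mul_one A
  have t2 : q ^ 2 * (B / qB ^ 2) ≤ B := by
    calc q ^ 2 * (B / qB ^ 2) = B * (q ^ 2 / qB ^ 2) := by ring
      _ ≤ B * 1 := mul_le_mul_of_nonneg_left ((div_le_one (by positivity)).2 (pow_le_pow_left₀ hq.le hqB 2)) hB
      _ = B := mul_one B
  have t3 : q ^ 2 * (Cc / (2 * q) ^ 2) ≤ Cc := by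
    have : q ^ 2 * (Cc / (2 * q) ^ 2) = Cc / 4 := by field_simp; ring
    rw [this]
    linarith
  have t4 : CF * ν ^ 2 * E₁ / q ^ 2 ≤ CF * (2 * Nn) ^ 2 * E₁ := by
    rw [div_le_iff₀ (by positivity)]
    have h1 : ν ^ 2 ≤ (2 * Nn * q) ^ 2 := pow_le_pow_left₀ hν0.le hν 2
    calc CF * ν ^ 2 * E₁ = (CF * E₁) * ν ^ 2 := by ring
      _ ≤ (CF * E₁) * (2 * Nn * q) ^ 2 := mul_le_mul_of_nonneg_left h1 (by positivity)
      _ = _ := by ring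
  have e : q ^ 2 * (a * (b * (L₀ + B / qB ^ 2) + Cc / (2 * q) ^ 2))
      = a * (b * (q ^ 2 * L₀ + q ^ 2 * (B / qB ^ 2)) + q ^ 2 * (Cc / (2 * q) ^ 2)) := by ring
  rw [e]
  have t5 : a * (b * (q ^ 2 * L₀ + q ^ 2 * (B / qB ^ 2)) + q ^ 2 * (Cc / (2 * q) ^ 2)) ≤ a * (b * (A + B) + Cc) := by
    refine mul_le_mul_of_nonneg_left ?_ ha
    have : b * (q ^ 2 * L₀ + q ^ 2 * (B / qB ^ 2)) ≤ b * (A + B) := mul_le_mul_of_nonneg_left (by linarith) hb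
    linarith
  linarith

/-- **regular ambient approximation of reference optimisers, uniform in the mesh** (same statement as `pot_regopt`) -/
theorem pot_regopt' {m₁ m₂ : ℕ} (U Pn : Finset (Fin m₁ × Fin m₂)) (hU : Poly U) (K : ℕ) (Tb ε : ℝ) (hε : 0 < ε) :
    ∃ (C δ : ℝ) (ν₀ : ℕ), 0 < δ ∧ ∀ (g : DGrid m₁ m₂) (ν : ℕ), ν₀ ≤ ν → g.SideGe ν → g.SideLe (K * ν) →
      ∀ v : ℤ × ℤ → ℝ, (∀ y ∈ g.region (U ∩ Pn), v y = 0) →
        (∀ x ∈ g.region U, x ∉ g.region (U ∩ Pn) → |roLap (g.region U) v x| ≤ Tb / (ν : ℝ) ^ 2) →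
        ∃ w : ℤ × ℤ → ℝ,
          (∀ x, roNear (g.region (U ∩ Pn)) (δ * ν) x → w x = 0) ∧
          roDir (g.region U) (fun x => v x - w x) ≤ ε ∧
          (ν : ℝ) ^ 2 * ∑ x ∈ (roRc g).set, (roRc g).lap w x ^ 2 ≤ C := by
  obtain ⟨CA, hCA, hA⟩ := ro_apriori m₁ m₂ K
  obtain ⟨CB, CC, CF, hCB, hCC, hCF, hch⟩ := ro_chain m₁ m₂ K
  obtain ⟨T, hT⟩ : ∃ T : ℝ, T = |Tb| + 1 := ⟨_, rfl⟩
  have hT0 : 0 < T := by rw [hT]; positivity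
  have hTb : Tb ≤ T := by rw [hT]; linarith [le_abs_self Tb]
  obtain ⟨E₁, hE₁⟩ : ∃ E : ℝ, E = CA * T ^ 2 + 1 := ⟨_, rfl⟩
  have hE₁0 : 0 < E₁ := by rw [hE₁]; positivity
  obtain ⟨nv, hnv⟩ : ∃ n : ℕ, n = (m₁ + 1) * (m₂ + 1) := ⟨_, rfl⟩
  obtain ⟨np, hnp⟩ : ∃ n : ℕ, n = (U ∩ Pn).card := ⟨_, rfl⟩
  obtain ⟨η, hη⟩ : ∃ η : ℝ, η = min (ε / 4) (1 / 2) := ⟨_, rfl⟩
  have hη0 : 0 < η := by rw [hη]; exact lt_min (by positivity) (by norm_num)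
  have hη1 : η ≤ ε / 4 := by rw [hη]; exact min_le_left _ _
  have hη2 : η ≤ 1 / 2 := by rw [hη]; exact min_le_right _ _
  obtain ⟨JB, hJB0, hJB⟩ := ro_exists_nat ((nv : ℝ) * (CB * E₁)) hη0
  obtain ⟨JC, hJC0, hJC⟩ := ro_exists_nat ((np : ℝ) * (CC * E₁)) hη0
  obtain ⟨A, hAdef⟩ : ∃ A : ℝ, A = (nv : ℝ) * (CB * ((2 : ℝ) ^ JB * (4 * 2 ^ JC)) ^ 2 * Real.sqrt E₁)
      + (np : ℝ) * (CC * ((K : ℝ) + 2) * (2 ^ JC * 2) * Real.sqrt E₁) := ⟨_, rfl⟩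
  have hA0 : 0 ≤ A := by rw [hAdef]; positivity
  obtain ⟨Lq, hLq0, hLq⟩ := ro_exists_nat (4 * T * A / ε) one_pos
  obtain ⟨N, hN⟩ : ∃ N : ℕ, N = 8 * (2 ^ JB * (4 * 2 ^ JC)) * Lq := ⟨_, rfl⟩
  have hN0 : 0 < N := by rw [hN]; positivity
  have hLqN : Lq ≤ N := by rw [hN]; exact Nat.le_mul_of_pos_left _ (by positivity)
  have hMN : 8 * (2 ^ JB * (4 * 2 ^ JC)) ≤ N := by rw [hN]; exact Nat.le_mul_of_pos_right _ hLq0
  have hN' : (0 : ℝ) < N := by exact_mod_cast hN0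
  have hAN : 4 * T * A / ε ≤ N := by
    have h1 : (0 : ℝ) < Lq := by exact_mod_cast hLq0
    rw [div_le_iff₀ h1, one_mul] at hLq
    have h2 : (Lq : ℝ) ≤ N := by exact_mod_cast hLqN
    linarith
  refine ⟨(2 * (N : ℝ)) ^ 2 * (53 ^ np * (2000 * (((2 * m₁ + 1) * (2 * m₂ + 1) : ℕ) : ℝ) ^ 2 *
      (3 ^ np * (3 ^ nv * ((m₁ : ℝ) * m₂ * (K : ℝ) ^ 2 * T ^ 2 + (nv : ℝ) * (CB * E₁)) + (np : ℝ) * (CC * E₁)) + E₁
        + CF * (2 * (N : ℝ)) ^ 2 * E₁))), 1 / (N : ℝ), N, by positivity, ?_⟩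
  intro g ν hνN hν hK v hv hlap
  obtain ⟨q, hqdef⟩ : ∃ q : ℕ, q = ν / N := ⟨_, rfl⟩
  have hq : 0 < q := by rw [hqdef]; exact Nat.div_pos hνN hN0
  have hNq : N * q ≤ ν := by rw [hqdef]; exact Nat.mul_div_le ν N
  have hνlt : ν < N * (q + 1) := by rw [hqdef]; exact Nat.lt_mul_div_succ ν hN0
  have hν2 : ν ≤ 2 * N * q := by nlinarith
  have hν0 : 0 < ν := lt_of_lt_of_le hN0 hνN
  have hν' : (0 : ℝ) < ν := by exact_mod_cast hν0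
  have hq' : (0 : ℝ) < q := by exact_mod_cast hq
  have hNq' : (N : ℝ) * q ≤ ν := by exact_mod_cast hNq
  have hν2' : (ν : ℝ) ≤ 2 * N * q := by exact_mod_cast hν2
  have hqν : (q : ℝ) ≤ ν := by
    have : (1 : ℝ) ≤ N := by exact_mod_cast hN0
    nlinarith
  have hlap' : ∀ x ∈ g.region U, x ∉ g.region (U ∩ Pn) → |roLap (g.region U) v x| ≤ T / (ν : ℝ) ^ 2 := fun x hx hx' =>
    (hlap x hx hx').trans (div_le_div_of_nonneg_right hTb (by positivity))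
  have hEv : roDir (g.region U) v ≤ CA * T ^ 2 := hA U Pn hU.conn g ν hν0 hν hK T hT0.le v hv hlap'
  have hLv := ro_L_apriori U Pn g hν0 hK v hlap'
  have hs : 8 * (2 ^ JB * (4 * 2 ^ JC * q)) ≤ ν := by
    calc 8 * (2 ^ JB * (4 * 2 ^ JC * q)) = 8 * (2 ^ JB * (4 * 2 ^ JC)) * q := by ring
      _ ≤ N * q := Nat.mul_le_mul_right _ hMN
      _ ≤ ν := hNq
  have hJB' : (nv : ℝ) * (CB * E₁ / JB) ≤ η := by rw [← mul_div_assoc]; exact hJB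
  have hJC' : (np : ℝ) * (CC * E₁ / JC) ≤ η := by rw [← mul_div_assoc]; exact hJC
  obtain ⟨w, u₂, k, hu₂, hw, hw0, hEu, hl1, hTw⟩ := hch U Pn hU g ν hν hK JB JC q hJB0 hJC0 hq hs E₁ hE₁0.le v hv (by
    rw [← hnv, ← hnp]; linarith)
  rw [← hnv, ← hnp] at hEu hl1 hTw
  refine ⟨w, ?_, ?_, ?_⟩
  · intro x hx
    obtain ⟨κ, hκ, hxκ⟩ := ro_near_fat (U ∩ Pn) g hN0 hx
    rw [← hqdef] at hxκ
    exact hw0 κ hκ x hxκ
  · have e1 : roDir (g.region U) (fun x => v x - w x) = roDir (g.region U) (fun x => v x - u₂ x) := by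
      rw [ro_dir_congr (u := fun x => v x - w x) (v := fun x => k + (v x - u₂ x)) (fun x hx => by
        show v x - w x = k + (v x - u₂ x)
        rw [hw x hx]; ring), ro_dir_const_add]
    rw [e1, ro_gap (g.region U) (g.region (U ∩ Pn)) v u₂ hv hu₂]
    have h1 : -(∑ x ∈ g.region U \ g.region (U ∩ Pn), roLap (g.region U) v x * (u₂ x - v x))
        ≤ T / (ν : ℝ) ^ 2 * ∑ x ∈ g.region U, |u₂ x - v x| := by
      rw [← sum_neg_distrib, mul_sum]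
      refine (sum_le_sum fun x hx => ?_).trans
        (sum_le_sum_of_subset_of_nonneg sdiff_subset fun x _ _ => by positivity)
      calc -(roLap (g.region U) v x * (u₂ x - v x)) ≤ |roLap (g.region U) v x * (u₂ x - v x)| := neg_le_abs _
        _ = |roLap (g.region U) v x| * |u₂ x - v x| := abs_mul _ _
        _ ≤ _ := mul_le_mul_of_nonneg_right (hlap' x (mem_sdiff.1 hx).1 (mem_sdiff.1 hx).2) (abs_nonneg _)
    have hs1 : (q : ℝ) ≤ ν / N := by rw [le_div_iff₀ hN']; linarith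
    have hN1 : (1 : ℝ) ≤ N := by exact_mod_cast hN0
    have hs2 : (ν : ℝ) * q ≤ (ν : ℝ) ^ 2 / N := by
      calc (ν : ℝ) * q ≤ ν * (ν / N) := mul_le_mul_of_nonneg_left hs1 hν'.le
        _ = _ := by ring
    have hs3 : (q : ℝ) ^ 2 ≤ (ν : ℝ) ^ 2 / N := by
      calc (q : ℝ) ^ 2 = q * q := by ring
        _ ≤ ν * q := mul_le_mul_of_nonneg_right hqν hq'.le
        _ ≤ _ := hs2
    have h2 : ∑ x ∈ g.region U, |u₂ x - v x| ≤ A * ((ν : ℝ) ^ 2 / N) := by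
      refine hl1.trans ?_
      have c1 : (((2 ^ JB * (4 * 2 ^ JC * q) : ℕ) : ℝ)) ^ 2 = ((2 : ℝ) ^ JB * (4 * 2 ^ JC)) ^ 2 * (q : ℝ) ^ 2 := by
        push_cast; ring
      have c2 : (ν : ℝ) * (((2 ^ JC * (2 * q) : ℕ) : ℝ)) = ((2 : ℝ) ^ JC * 2) * ((ν : ℝ) * q) := by
        push_cast; ring
      have d1 : CB * (((2 ^ JB * (4 * 2 ^ JC * q) : ℕ) : ℝ)) ^ 2 * Real.sqrt E₁
          ≤ CB * ((2 : ℝ) ^ JB * (4 * 2 ^ JC)) ^ 2 * Real.sqrt E₁ * ((ν : ℝ) ^ 2 / N) := by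
        rw [c1]
        calc CB * (((2 : ℝ) ^ JB * (4 * 2 ^ JC)) ^ 2 * (q : ℝ) ^ 2) * Real.sqrt E₁
            = CB * ((2 : ℝ) ^ JB * (4 * 2 ^ JC)) ^ 2 * Real.sqrt E₁ * (q : ℝ) ^ 2 := by ring
          _ ≤ _ := mul_le_mul_of_nonneg_left hs3 (by positivity)
      have d2 : CC * ((K : ℝ) + 2) * ν * (((2 ^ JC * (2 * q) : ℕ) : ℝ)) * Real.sqrt E₁
          ≤ CC * ((K : ℝ) + 2) * (2 ^ JC * 2) * Real.sqrt E₁ * ((ν : ℝ) ^ 2 / N) := by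
        calc CC * ((K : ℝ) + 2) * ν * (((2 ^ JC * (2 * q) : ℕ) : ℝ)) * Real.sqrt E₁
            = CC * ((K : ℝ) + 2) * ((ν : ℝ) * (((2 ^ JC * (2 * q) : ℕ) : ℝ))) * Real.sqrt E₁ := by ring
          _ = CC * ((K : ℝ) + 2) * (2 ^ JC * 2) * Real.sqrt E₁ * ((ν : ℝ) * q) := by rw [c2]; ring
          _ ≤ _ := mul_le_mul_of_nonneg_left hs2 (by positivity)
      have d1' := mul_le_mul_of_nonneg_left d1 (Nat.cast_nonneg nv : (0 : ℝ) ≤ nv)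
      have d2' := mul_le_mul_of_nonneg_left d2 (Nat.cast_nonneg np : (0 : ℝ) ≤ np)
      rw [hAdef]
      calc _ ≤ _ := add_le_add d1' d2'
        _ = _ := by ring
    have h3 : T / (ν : ℝ) ^ 2 * (A * ((ν : ℝ) ^ 2 / N)) ≤ ε / 4 := by
      have : T / (ν : ℝ) ^ 2 * (A * ((ν : ℝ) ^ 2 / N)) = T * A / N := by field_simp
      rw [this, div_le_iff₀ hN']
      rw [div_le_iff₀ hε] at hAN
      linarith
    have h4 : T / (ν : ℝ) ^ 2 * ∑ x ∈ g.region U, |u₂ x - v x| ≤ ε / 4 :=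
      (mul_le_mul_of_nonneg_left h2 (by positivity)).trans h3
    linarith
  · have e0 : ∑ x ∈ (roRc g).set, (roRc g).lap w x ^ 2 = roL (roRc g).set (roRc g).set w := rfl
    rw [e0]
    have h1 : (q : ℝ) ^ 2 * roL (roRc g).set (roRc g).set w ≤ roT q (roRc g).set w := by
      unfold roT
      have := ro_dir_nonneg (roRc g).set w
      have : 0 ≤ roSq (roRc g).set w / (q : ℝ) ^ 2 := div_nonneg (ro_sq_nonneg _ _) (by positivity)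
      linarith
    have h2 : (ν : ℝ) ^ 2 * roL (roRc g).set (roRc g).set w ≤ (2 * (N : ℝ)) ^ 2 * ((q : ℝ) ^ 2 * roL (roRc g).set (roRc g).set w) := by
      have : (ν : ℝ) ^ 2 ≤ (2 * N * q) ^ 2 := pow_le_pow_left₀ hν'.le hν2' 2
      calc _ ≤ (2 * (N : ℝ) * q) ^ 2 * roL (roRc g).set (roRc g).set w := mul_le_mul_of_nonneg_right this (ro_L_nonneg _ _ _)
        _ = _ := by ring
    refine h2.trans (mul_le_mul_of_nonneg_left (h1.trans (hTw.trans ?_)) (by positivity))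
    refine mul_le_mul_of_nonneg_left (mul_le_mul_of_nonneg_left ?_ (by positivity)) (by positivity)
    have hqB : (q : ℝ) ≤ ((4 * 2 ^ JC * q : ℕ) : ℝ) := by
      have : q ≤ 4 * 2 ^ JC * q := Nat.le_mul_of_pos_left _ (by positivity)
      exact_mod_cast this
    have c3 : ((2 * q : ℕ) : ℝ) = 2 * (q : ℝ) := by push_cast; ring
    rw [c3, ← mul_div_assoc (nv : ℝ), ← mul_div_assoc (np : ℝ)]
    exact ro_num hq' hqB hqν hν2' (by positivity) (by positivity) (by positivity) hE₁0.le hCF (by positivity) (by positivity) hLv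

end

end Claimed.Agent.R285.Pot
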