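import Claimed.Agent.R285.Pot.RoGeo

/-!
# ROW 285, POT-REGOPT (architect helper170): Poincare inequalities on unions of cells, sectors and balls at a grid vertex, Hardy at a pinned cell.

LEAVES `L-RO-P*`: every `sorry`; the leaf name is in the docstring.  Edit only your own theorems (private helpers directly above them, prefix `ro_`), splice on a fresh pull.
Tools without sorry: `Pot/RoBasic.lean` (`ro_poincare_box`, `ro_var_le`, `ro_var_eq_pairs`, `ro_glue`, `ro_hardy`), `Pot/RoCalc.lean` (`ro_sum_bonds`, `ro_dir_mono`, `ro_dir_disj`), `Pot/RoGeo.lean`.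
-/

set_option autoImplicit false

namespace Claimed.Agent.R285.Pot

open scoped Classical
open Finset

noncomputable section

variable {m₁ m₂ : ℕ}

/-- L-RO-P1.  `ro_sum_bonds`, `Finset.sum_product`; `(x+1, y) ∈ box ↔ x + 1 < b`: `∑_{x ∈ Ico a b} if x + 1 < b then F x else 0 = ∑_{x ∈ Ico a (b-1)} F x` (`Finset.sum_filter`, the filtered set is `Ico a (b-1)`). -/
theorem ro_dir_box (a b c d : ℤ) (v : ℤ × ℤ → ℝ) :
    roDir (Ico a b ×ˢ Ico c d) v = ∑ p ∈ Ico a (b - 1) ×ˢ Ico c d, (v (p.1 + 1, p.2) - v p) ^ 2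
      + ∑ p ∈ Ico a b ×ˢ Ico c (d - 1), (v (p.1, p.2 + 1) - v p) ^ 2 := by
  unfold roDir
  rw [ro_sum_bonds, sum_add_distrib, ← sum_filter, ← sum_filter]
  have e1 : (Ico a b ×ˢ Ico c d).filter (fun x => (x.1 + 1, x.2) ∈ Ico a b ×ˢ Ico c d) = Ico a (b - 1) ×ˢ Ico c d := by
    ext x
    simp only [mem_filter, mem_product, mem_Ico]
    omega
  have e2 : (Ico a b ×ˢ Ico c d).filter (fun x => (x.1, x.2 + 1) ∈ Ico a b ×ˢ Ico c d) = Ico a b ×ˢ Ico c (d - 1) := by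
    ext x
    simp only [mem_filter, mem_product, mem_Ico]
    omega
  rw [e1, e2]
  simp [C2.gd, Bond.snd]

/-- L-RO-P1.  Poincare on a box: `ro_poincare_box` + `ro_dir_box` (`card = w h`). -/
theorem ro_poinc_box (x y : ℤ) (w h : ℕ) (v : ℤ × ℤ → ℝ) :
    roVar (Ico x (x + w) ×ˢ Ico y (y + h)) v ≤ ((w : ℝ) ^ 2 + (h : ℝ) ^ 2) * roDir (Ico x (x + w) ×ˢ Ico y (y + h)) v := by
  have h1 := ro_poincare_box x y w h v
  have hcw : (Ico x (x + w)).card = w := by rw [Int.card_Ico]; omega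
  have hch : (Ico y (y + h)).card = h := by rw [Int.card_Ico]; omega
  have hcard : ((Ico x (x + w) ×ˢ Ico y (y + h)).card : ℝ) = (w : ℝ) * h := by
    rw [card_product, hcw, hch]
    push_cast
    ring
  unfold roVar
  rw [hcard, ro_dir_box]
  refine h1.trans ?_
  have a1 : 0 ≤ ∑ p ∈ Ico x (x + w - 1) ×ˢ Ico y (y + h), (v (p.1 + 1, p.2) - v p) ^ 2 :=
    sum_nonneg fun _ _ => sq_nonneg _
  have a2 : 0 ≤ ∑ p ∈ Ico x (x + w) ×ˢ Ico y (y + h - 1), (v (p.1, p.2 + 1) - v p) ^ 2 :=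
    sum_nonneg fun _ _ => sq_nonneg _
  nlinarith [sq_nonneg (w : ℝ), sq_nonneg (h : ℝ)]

/-- L-RO-P2 (Mathlib only).  The mean over a subset: with `a = mean_S`, `a₀ = mean_{S₀}`: `(v - a₀)² ≤ 2 (v - a)² + 2 (a - a₀)²`, `|S₀| (a - a₀)² ≤ ∑_{S₀} (v - a)²` (Cauchy-Schwarz / `ro_var_le` on `S₀`:
`∑_{S₀} (v - a)² = ∑_{S₀} (v - a₀)² + |S₀| (a - a₀)²`). -/
theorem ro_var_sub {S₀ S : Finset (ℤ × ℤ)} (h : S₀ ⊆ S) (hne : S₀.Nonempty) (v : ℤ × ℤ → ℝ) :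
    ∑ x ∈ S, (v x - (∑ y ∈ S₀, v y) / S₀.card) ^ 2 ≤ 2 * (1 + (S.card : ℝ) / S₀.card) * roVar S v := by
  have hN₀ : (0 : ℝ) < S₀.card := by exact_mod_cast hne.card_pos
  obtain ⟨a, ha⟩ : ∃ a : ℝ, a = (∑ y ∈ S, v y) / S.card := ⟨_, rfl⟩
  obtain ⟨a₀, ha₀⟩ : ∃ a₀ : ℝ, a₀ = (∑ y ∈ S₀, v y) / S₀.card := ⟨_, rfl⟩
  unfold roVar
  rw [← ha, ← ha₀]
  have hV0 : 0 ≤ ∑ x ∈ S, (v x - a) ^ 2 := sum_nonneg fun _ _ => sq_nonneg _
  -- the two means are close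
  have h1 : (S₀.card : ℝ) * (a - a₀) ^ 2 ≤ ∑ x ∈ S, (v x - a) ^ 2 := by
    have h2 : ∑ x ∈ S₀, (v x - a) ^ 2 ≤ ∑ x ∈ S, (v x - a) ^ 2 :=
      sum_le_sum_of_subset_of_nonneg h fun _ _ _ => sq_nonneg _
    refine le_trans ?_ h2
    have h3 : ∑ x ∈ S₀, (v x - a) = (S₀.card : ℝ) * (a₀ - a) := by
      rw [sum_sub_distrib, sum_const, nsmul_eq_mul, ha₀]
      field_simp
    have h4 := sq_sum_le_card_mul_sum_sq (s := S₀) (f := fun x => v x - a)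
    rw [h3] at h4
    have h5 : (S₀.card : ℝ) * ((S₀.card : ℝ) * (a - a₀) ^ 2) ≤ (S₀.card : ℝ) * ∑ x ∈ S₀, (v x - a) ^ 2 := by
      nlinarith
    exact le_of_mul_le_mul_left h5 hN₀
  have h6 : (a - a₀) ^ 2 ≤ (∑ x ∈ S, (v x - a) ^ 2) / S₀.card := by
    rw [le_div_iff₀ hN₀]
    linarith
  have h7 : ∑ x ∈ S, (v x - a₀) ^ 2 ≤ ∑ x ∈ S, (2 * (v x - a) ^ 2 + 2 * (a - a₀) ^ 2) := by
    refine sum_le_sum fun x _ => ?_
    nlinarith [sq_nonneg ((v x - a) - (a - a₀))]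
  rw [sum_add_distrib, ← mul_sum, sum_const, nsmul_eq_mul] at h7
  refine h7.trans ?_
  have h8 : (S.card : ℝ) * (2 * (a - a₀) ^ 2) ≤ (S.card : ℝ) * (2 * ((∑ x ∈ S, (v x - a) ^ 2) / S₀.card)) :=
    mul_le_mul_of_nonneg_left (by linarith) (Nat.cast_nonneg _)
  have e9 : 2 * (1 + (S.card : ℝ) / S₀.card) * ∑ x ∈ S, (v x - a) ^ 2
      = 2 * ∑ x ∈ S, (v x - a) ^ 2 + (S.card : ℝ) * (2 * ((∑ x ∈ S, (v x - a) ^ 2) / S₀.card)) := by
    field_simp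
  rw [e9]
  linarith

private theorem ro_pc_box (g : DGrid m₁ m₂) {n : ℕ} (hle : g.SideLe n) {κ κ' : Fin m₁ × Fin m₂} (h : κ = κ' ∨ roAdj κ κ') :
    ∃ (x y : ℤ) (w h : ℕ), g.cell κ ∪ g.cell κ' = Ico x (x + w) ×ˢ Ico y (y + h) ∧
      ((w ≤ 2 * n ∧ h ≤ n) ∨ (w ≤ n ∧ h ≤ 2 * n)) := by
  obtain ⟨i, j⟩ := κ
  obtain ⟨i', j'⟩ := κ'
  have a1 := hle.1 i
  have a2 := hle.1 i'
  have a3 := hle.2 j
  have a4 := hle.2 j'
  have b1 : g.x₁ i.castSucc < g.x₁ i.succ := g.mono₁ Fin.castSucc_lt_succ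
  have b2 : g.x₁ i'.castSucc < g.x₁ i'.succ := g.mono₁ Fin.castSucc_lt_succ
  have b3 : g.x₂ j.castSucc < g.x₂ j.succ := g.mono₂ Fin.castSucc_lt_succ
  have b4 : g.x₂ j'.castSucc < g.x₂ j'.succ := g.mono₂ Fin.castSucc_lt_succ
  unfold DGrid.cell
  rcases h with h | h | h | h | h
  · obtain ⟨rfl, rfl⟩ := Prod.mk.inj h
    refine ⟨g.x₁ i.castSucc, g.x₂ j.castSucc, (g.x₁ i.succ - g.x₁ i.castSucc).toNat, (g.x₂ j.succ - g.x₂ j.castSucc).toNat, ?_, ?_⟩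
    · ext ⟨p, q⟩
      simp only [mem_union, mem_product, mem_Ico]
      omega
    · omega
  · obtain ⟨h1, h2⟩ := h
    simp only at h1 h2
    subst h2
    have e : i.succ = i'.castSucc := Fin.ext (by simp [h1])
    rw [e] at a1 b1 ⊢
    refine ⟨g.x₁ i.castSucc, g.x₂ j.castSucc, (g.x₁ i'.succ - g.x₁ i.castSucc).toNat, (g.x₂ j.succ - g.x₂ j.castSucc).toNat, ?_, ?_⟩
    · ext ⟨p, q⟩
      simp only [mem_union, mem_product, mem_Ico]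
      omega
    · omega
  · obtain ⟨h1, h2⟩ := h
    simp only at h1 h2
    subst h2
    have e : i'.succ = i.castSucc := Fin.ext (by simp [h1])
    rw [e] at a2 b2 ⊢
    refine ⟨g.x₁ i'.castSucc, g.x₂ j.castSucc, (g.x₁ i.succ - g.x₁ i'.castSucc).toNat, (g.x₂ j.succ - g.x₂ j.castSucc).toNat, ?_, ?_⟩
    · ext ⟨p, q⟩
      simp only [mem_union, mem_product, mem_Ico]
      omega
    · omega
  · obtain ⟨h1, h2⟩ := h
    simp only at h1 h2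
    subst h1
    have e : j.succ = j'.castSucc := Fin.ext (by simp [h2])
    rw [e] at a3 b3 ⊢
    refine ⟨g.x₁ i.castSucc, g.x₂ j.castSucc, (g.x₁ i.succ - g.x₁ i.castSucc).toNat, (g.x₂ j'.succ - g.x₂ j.castSucc).toNat, ?_, ?_⟩
    · ext ⟨p, q⟩
      simp only [mem_union, mem_product, mem_Ico]
      omega
    · omega
  · obtain ⟨h1, h2⟩ := h
    simp only at h1 h2
    subst h1
    have e : j'.succ = j.castSucc := Fin.ext (by simp [h2])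
    rw [e] at a4 b4 ⊢
    refine ⟨g.x₁ i.castSucc, g.x₂ j'.castSucc, (g.x₁ i.succ - g.x₁ i.castSucc).toNat, (g.x₂ j.succ - g.x₂ j'.castSucc).toNat, ?_, ?_⟩
    · ext ⟨p, q⟩
      simp only [mem_union, mem_product, mem_Ico]
      omega
    · omega

/-- L-RO-P3.  **Poincare on every face-connected union of cells.**  `ro_glue` with `ι = U ⊕ {(κ,κ') ∈ U × U, roAdj κ κ'}` (subtypes), `S (inl κ) = cell κ`, `S (inr (κ,κ')) = cell κ ∪ cell κ'` (a box: the two cells share a face),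
`m i` = mean over `S i`, `Q = 5 K² ν² roDir D v` (`ro_poinc_box`, `ro_dir_mono`), `s = ν²`, `M = 2 K²`, `adj a b := s ≤ |S a ∩ S b|`; connected: `inl κ ~ inr (κ,κ') ~ inl κ'` along the path of `roConn`; then `ro_var_le`.
`C` may depend on `m₁ m₂ K` (`card ι ≤ m₁ m₂ + (m₁ m₂)²`).  The case `U = ∅` is trivial. -/
theorem ro_poinc_cells (m₁ m₂ K : ℕ) : ∃ C : ℝ, 0 ≤ C ∧ ∀ U : Finset (Fin m₁ × Fin m₂), roConn U → ∀ (g : DGrid m₁ m₂) (ν : ℕ),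
    g.SideGe ν → g.SideLe (K * ν) → ∀ v : ℤ × ℤ → ℝ, roVar (g.region U) v ≤ C * (ν : ℝ) ^ 2 * roDir (g.region U) v := by
  set N0 : ℝ := ((m₁ * m₂ : ℕ) : ℝ) ^ 2 with hN0
  refine ⟨N0 * (2 + 8 * N0 ^ 2 * (2 * (K : ℝ) ^ 2)) * (5 * (K : ℝ) ^ 2), by positivity, ?_⟩
  intro U hU g ν hge hle v
  rcases U.eq_empty_or_nonempty with rfl | ⟨κ₀, hκ₀⟩
  · have e : g.region ∅ = ∅ := by simp [DGrid.region]
    rw [e]
    have h1 : roVar ∅ v = 0 := by simp [roVar]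
    rw [h1]
    exact mul_nonneg (by positivity) (ro_dir_nonneg _ _)
  have hν : 0 < ν := by
    by_contra hcon
    have h0 : ν = 0 := by omega
    subst h0
    have a1 := hle.1 κ₀.1
    have b1 : g.x₁ κ₀.1.castSucc < g.x₁ κ₀.1.succ := g.mono₁ Fin.castSucc_lt_succ
    simp at a1
    omega
  have hνR : (0 : ℝ) < (ν : ℝ) ^ 2 := by positivity
  let ι := {p : (Fin m₁ × Fin m₂) × (Fin m₁ × Fin m₂) // p.1 ∈ U ∧ p.2 ∈ U ∧ (p.1 = p.2 ∨ roAdj p.1 p.2)}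
  let S : ι → Finset (ℤ × ℤ) := fun p => g.cell p.1.1 ∪ g.cell p.1.2
  let m : ι → ℝ := fun p => (∑ y ∈ S p, v y) / (S p).card
  set D := g.region U with hD
  have hSD : ∀ p, S p ⊆ D := fun p =>
    union_subset (ro_cell_subset_region g p.2.1) (ro_cell_subset_region g p.2.2.1)
  have hQ : ∀ p, ∑ x ∈ S p, (v x - m p) ^ 2 ≤ 5 * (K : ℝ) ^ 2 * (ν : ℝ) ^ 2 * roDir D v := by
    intro p
    obtain ⟨x, y, w, h, e, hb⟩ := ro_pc_box g hle p.2.2.2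
    have h1 := ro_poinc_box x y w h v
    rw [← e] at h1
    have h2 := ro_dir_mono (hSD p) v
    have h3 : (w : ℝ) ^ 2 + (h : ℝ) ^ 2 ≤ 5 * (K : ℝ) ^ 2 * (ν : ℝ) ^ 2 := by
      have hw0 : (0 : ℝ) ≤ w := Nat.cast_nonneg _
      have hh0 : (0 : ℝ) ≤ h := Nat.cast_nonneg _
      rcases hb with ⟨c1, c2⟩ | ⟨c1, c2⟩
      · have d1 : (w : ℝ) ≤ 2 * ((K : ℝ) * ν) := by exact_mod_cast c1
        have d2 : (h : ℝ) ≤ (K : ℝ) * ν := by exact_mod_cast c2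
        have e1 := pow_le_pow_left₀ hw0 d1 2
        have e2 := pow_le_pow_left₀ hh0 d2 2
        nlinarith
      · have d1 : (w : ℝ) ≤ (K : ℝ) * ν := by exact_mod_cast c1
        have d2 : (h : ℝ) ≤ 2 * ((K : ℝ) * ν) := by exact_mod_cast c2
        have e1 := pow_le_pow_left₀ hw0 d1 2
        have e2 := pow_le_pow_left₀ hh0 d2 2
        nlinarith
    calc ∑ x ∈ S p, (v x - m p) ^ 2 = roVar (S p) v := rfl
      _ ≤ _ := h1
      _ ≤ _ := mul_le_mul h3 h2 (ro_dir_nonneg _ _) (by positivity)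
  have hM : ∀ p, ((S p).card : ℝ) ≤ (2 * (K : ℝ) ^ 2) * (ν : ℝ) ^ 2 := by
    intro p
    have h1 := card_union_le (g.cell p.1.1) (g.cell p.1.2)
    have h2 := ro_cell_card_le g hle p.1.1
    have h3 := ro_cell_card_le g hle p.1.2
    push_cast at h2 h3
    have h4 : ((S p).card : ℝ) ≤ (g.cell p.1.1).card + (g.cell p.1.2).card := by exact_mod_cast h1
    nlinarith
  let adj : ι → ι → Prop := fun a b => (ν : ℝ) ^ 2 ≤ ((S a ∩ S b).card : ℝ)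
  have hadj : ∀ (a b : ι) (κ : Fin m₁ × Fin m₂), (κ = a.1.1 ∨ κ = a.1.2) → (κ = b.1.1 ∨ κ = b.1.2) → adj a b := by
    intro a b κ ha hb
    have h1 : g.cell κ ⊆ S a ∩ S b := by
      refine subset_inter ?_ ?_
      · rcases ha with rfl | rfl
        · exact subset_union_left
        · exact subset_union_right
      · rcases hb with rfl | rfl
        · exact subset_union_left
        · exact subset_union_right
    have h2 := card_le_card h1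
    have h3 : ((g.cell κ).card : ℝ) ≤ ((S a ∩ S b).card : ℝ) := by exact_mod_cast h2
    exact (ro_cell_card_ge g hge κ).trans h3
  let dg : ∀ κ, κ ∈ U → ι := fun κ h => ⟨(κ, κ), h, h, Or.inl rfl⟩
  have hpath : ∀ κ κ', Relation.ReflTransGen (fun a b => a ∈ U ∧ b ∈ U ∧ roAdj a b) κ κ' →
      ∀ (h : κ ∈ U) (h' : κ' ∈ U), Relation.ReflTransGen adj (dg κ h) (dg κ' h') := by
    intro κ κ' hr
    induction hr with
    | refl => intro h h'; exact Relation.ReflTransGen.refl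
    | @tail b c _ hbc ih =>
      intro h h'
      have s1 : adj (dg b hbc.1) ⟨(b, c), hbc.1, hbc.2.1, Or.inr hbc.2.2⟩ := hadj _ _ b (Or.inl rfl) (Or.inl rfl)
      have s2 : adj ⟨(b, c), hbc.1, hbc.2.1, Or.inr hbc.2.2⟩ (dg c h') := hadj _ _ c (Or.inr rfl) (Or.inl rfl)
      exact ((ih h hbc.1).tail s1).tail s2
  have hconn : ∀ a b : ι, Relation.ReflTransGen adj a b := by
    intro a b
    have s1 : adj a (dg a.1.1 a.2.1) := hadj _ _ a.1.1 (Or.inl rfl) (Or.inl rfl)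
    have s2 : adj (dg b.1.1 b.2.1) b := hadj _ _ b.1.1 (Or.inl rfl) (Or.inl rfl)
    exact (Relation.ReflTransGen.head s1 (hpath _ _ (hU _ a.2.1 _ b.2.1) a.2.1 b.2.1)).tail s2
  have hun : (univ : Finset ι).biUnion S = D := by
    ext x
    constructor
    · intro hx
      obtain ⟨p, _, hp⟩ := mem_biUnion.1 hx
      exact hSD p hp
    · intro hx
      obtain ⟨κ, hκ, hxκ⟩ := (ro_mem_region g U x).1 hx
      exact mem_biUnion.2 ⟨dg κ hκ, mem_univ _, mem_union_left _ hxκ⟩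
  have hglue := ro_glue S v m (5 * (K : ℝ) ^ 2 * (ν : ℝ) ^ 2 * roDir D v) ((ν : ℝ) ^ 2) (2 * (K : ℝ) ^ 2) hνR hQ hM adj
    (fun _ _ h => h) hconn (dg κ₀ hκ₀)
  rw [hun] at hglue
  have hcard : (Fintype.card ι : ℝ) ≤ N0 := by
    have h1 : Fintype.card ι ≤ Fintype.card ((Fin m₁ × Fin m₂) × (Fin m₁ × Fin m₂)) := Fintype.card_subtype_le _
    have h2 : Fintype.card ((Fin m₁ × Fin m₂) × (Fin m₁ × Fin m₂)) = (m₁ * m₂) ^ 2 := by
      simp [Fintype.card_prod, sq]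
    rw [h2] at h1
    rw [hN0]
    exact_mod_cast h1
  have hc0 : (0 : ℝ) ≤ (Fintype.card ι : ℝ) := Nat.cast_nonneg _
  have hdir := ro_dir_nonneg D v
  have hvar : roVar D v ≤ ∑ x ∈ D, (v x - m (dg κ₀ hκ₀)) ^ 2 := ro_var_le D v _
  have hmono : (Fintype.card ι : ℝ) * (2 + 8 * (Fintype.card ι : ℝ) ^ 2 * (2 * (K : ℝ) ^ 2))
      ≤ N0 * (2 + 8 * N0 ^ 2 * (2 * (K : ℝ) ^ 2)) := by
    have h1 := pow_le_pow_left₀ hc0 hcard 2
    have h2 : 8 * (Fintype.card ι : ℝ) ^ 2 * (2 * (K : ℝ) ^ 2) ≤ 8 * N0 ^ 2 * (2 * (K : ℝ) ^ 2) := by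
      have : (0 : ℝ) ≤ 2 * (K : ℝ) ^ 2 := by positivity
      nlinarith
    exact mul_le_mul hcard (by linarith) (by positivity) (by positivity)
  calc roVar D v ≤ _ := hvar
    _ ≤ _ := hglue
    _ ≤ N0 * (2 + 8 * N0 ^ 2 * (2 * (K : ℝ) ^ 2)) * (5 * (K : ℝ) ^ 2 * (ν : ℝ) ^ 2 * roDir D v) :=
        mul_le_mul_of_nonneg_right hmono (by positivity)
    _ = _ := by ring

/-- **Friedrichs / Poincare with a distinguished cell**: the constant is the mean over a cell of `V` if `U ∩ V ≠ ∅` (so it is `0` if `u` vanishes on the cells of `V`).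
L-RO-P4.  From `ro_poinc_cells`, `ro_var_sub` (`S₀ = cell κ₀`, `|S|/|S₀| ≤ m₁ m₂ K²`: `ro_cell_card_ge`, `ro_region_card_le`). -/
theorem ro_friedrichs_cells (m₁ m₂ K : ℕ) : ∃ C : ℝ, 0 ≤ C ∧ ∀ U V : Finset (Fin m₁ × Fin m₂), roConn U → ∀ (g : DGrid m₁ m₂) (ν : ℕ),
    0 < ν → g.SideGe ν → g.SideLe (K * ν) → ∀ u : ℤ × ℤ → ℝ, (∀ y ∈ g.region (U ∩ V), u y = 0) →
      ∃ k : ℝ, ((U ∩ V).Nonempty → k = 0) ∧ ∑ x ∈ g.region U, (u x - k) ^ 2 ≤ C * (ν : ℝ) ^ 2 * roDir (g.region U) u := by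
  obtain ⟨C₀, hC₀, hP⟩ := ro_poinc_cells m₁ m₂ K
  refine ⟨2 * (1 + (m₁ : ℝ) * m₂ * (K : ℝ) ^ 2) * C₀, by positivity, ?_⟩
  intro U V hU g ν hν hge hle u hu
  have hνR : (0 : ℝ) < ν := by exact_mod_cast hν
  have hD0 : 0 ≤ roDir (g.region U) u := sum_nonneg fun _ _ => sq_nonneg _
  have hvar := hP U hU g ν hge hle u
  have hfac : (1 : ℝ) ≤ 2 * (1 + (m₁ : ℝ) * m₂ * (K : ℝ) ^ 2) := by
    have : (0 : ℝ) ≤ (m₁ : ℝ) * m₂ * (K : ℝ) ^ 2 := by positivity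
    linarith
  have hQ0 : 0 ≤ C₀ * (ν : ℝ) ^ 2 * roDir (g.region U) u := by positivity
  by_cases hne : (U ∩ V).Nonempty
  · obtain ⟨κ₀, hκ₀⟩ := hne
    have hκU : κ₀ ∈ U := (mem_inter.1 hκ₀).1
    have hsub : g.cell κ₀ ⊆ g.region U := ro_cell_subset_region g hκU
    have hc1 := ro_cell_card_ge g hge κ₀
    have hcpos : (0 : ℝ) < ((g.cell κ₀).card : ℝ) := lt_of_lt_of_le (by positivity) hc1
    have hcne : (g.cell κ₀).Nonempty := by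
      rw [← card_pos]
      exact_mod_cast hcpos
    have hmean : (∑ y ∈ g.cell κ₀, u y) / ((g.cell κ₀).card : ℝ) = 0 := by
      rw [sum_eq_zero fun y hy => hu y (ro_cell_subset_region g hκ₀ hy), zero_div]
    have h1 := ro_var_sub hsub hcne u
    rw [hmean] at h1
    refine ⟨0, fun _ => rfl, h1.trans ?_⟩
    have hc2 := ro_region_card_le g hle U
    have hratio : ((g.region U).card : ℝ) / ((g.cell κ₀).card : ℝ) ≤ (m₁ : ℝ) * m₂ * (K : ℝ) ^ 2 := by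
      rw [div_le_iff₀ hcpos]
      calc ((g.region U).card : ℝ) ≤ (m₁ : ℝ) * m₂ * ((K * ν : ℕ) : ℝ) ^ 2 := hc2
        _ = (m₁ : ℝ) * m₂ * (K : ℝ) ^ 2 * (ν : ℝ) ^ 2 := by push_cast; ring
        _ ≤ (m₁ : ℝ) * m₂ * (K : ℝ) ^ 2 * ((g.cell κ₀).card : ℝ) := mul_le_mul_of_nonneg_left hc1 (by positivity)
    have hv0 : 0 ≤ roVar (g.region U) u := sum_nonneg fun _ _ => sq_nonneg _
    calc 2 * (1 + ((g.region U).card : ℝ) / ((g.cell κ₀).card : ℝ)) * roVar (g.region U) u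
        ≤ 2 * (1 + (m₁ : ℝ) * m₂ * (K : ℝ) ^ 2) * roVar (g.region U) u :=
          mul_le_mul_of_nonneg_right (by linarith) hv0
      _ ≤ 2 * (1 + (m₁ : ℝ) * m₂ * (K : ℝ) ^ 2) * (C₀ * (ν : ℝ) ^ 2 * roDir (g.region U) u) :=
          mul_le_mul_of_nonneg_left hvar (by linarith)
      _ = 2 * (1 + (m₁ : ℝ) * m₂ * (K : ℝ) ^ 2) * C₀ * (ν : ℝ) ^ 2 * roDir (g.region U) u := by ring
  · refine ⟨(∑ y ∈ g.region U, u y) / ((g.region U).card : ℝ), fun h => absurd h hne, ?_⟩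
    have h2 : ∑ x ∈ g.region U, (u x - (∑ y ∈ g.region U, u y) / ((g.region U).card : ℝ)) ^ 2
        ≤ C₀ * (ν : ℝ) ^ 2 * roDir (g.region U) u := hvar
    refine h2.trans ?_
    calc C₀ * (ν : ℝ) ^ 2 * roDir (g.region U) u = 1 * (C₀ * (ν : ℝ) ^ 2 * roDir (g.region U) u) := (one_mul _).symm
      _ ≤ 2 * (1 + (m₁ : ℝ) * m₂ * (K : ℝ) ^ 2) * (C₀ * (ν : ℝ) ^ 2 * roDir (g.region U) u) :=
          mul_le_mul_of_nonneg_right hfac hQ0
      _ = 2 * (1 + (m₁ : ℝ) * m₂ * (K : ℝ) ^ 2) * C₀ * (ν : ℝ) ^ 2 * roDir (g.region U) u := by ring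

/-! ## the local `4 × 4` grid at a vertex -/

/-- the grid with lines `X + 2q(k-2)`, `Y + 2q(k-2)`, `k = 0..4` -/
def roLoc (X Y : ℤ) (q : ℕ) (hq : 0 < q) : DGrid 4 4 where
  x₁ k := X + 2 * (q : ℤ) * ((k.1 : ℤ) - 2)
  x₂ k := Y + 2 * (q : ℤ) * ((k.1 : ℤ) - 2)
  mono₁ := by
    intro i j hij
    have h1 : ((i.1 : ℕ) : ℤ) < (j.1 : ℤ) := by exact_mod_cast hij
    have h2 : (0 : ℤ) < q := by exact_mod_cast hq
    nlinarith
  mono₂ := by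
    intro i j hij
    have h1 : ((i.1 : ℕ) : ℤ) < (j.1 : ℤ) := by exact_mod_cast hij
    have h2 : (0 : ℤ) < q := by exact_mod_cast hq
    nlinarith

/-- the local cells of the quadrants which are present in `D` (a quadrant is tested at its corner site), all of them (`ring = false`) or the outer ones (`ring = true`) -/
def roLocU (D : Finset (ℤ × ℤ)) (X Y : ℤ) (ring : Bool) : Finset (Fin 4 × Fin 4) :=
  Finset.univ.filter fun κ => ((if κ.1.1 < 2 then X - 1 else X, if κ.2.1 < 2 then Y - 1 else Y) : ℤ × ℤ) ∈ D ∧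
    (ring = true → κ.1.1 = 0 ∨ κ.1.1 = 3 ∨ κ.2.1 = 0 ∨ κ.2.1 = 3)

theorem ro_loc_line (X : ℤ) (q : ℕ) (k : Fin 4) (t : ℤ) :
    (X + 2 * (q : ℤ) * (((k.castSucc : Fin 5).1 : ℤ) - 2) ≤ t ∧ t < X + 2 * (q : ℤ) * (((k.succ : Fin 5).1 : ℤ) - 2)) ↔
      (k.1 = 0 ∧ X - 4 * q ≤ t ∧ t < X - 2 * q) ∨ (k.1 = 1 ∧ X - 2 * q ≤ t ∧ t < X) ∨
        (k.1 = 2 ∧ X ≤ t ∧ t < X + 2 * q) ∨ (k.1 = 3 ∧ X + 2 * q ≤ t ∧ t < X + 4 * q) := by
  obtain ⟨k, hk⟩ := k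
  simp only [Fin.val_castSucc, Fin.val_succ]
  interval_cases k <;> push_cast <;> simp only [true_and, false_and, false_or, or_false] <;> omega

theorem ro_loc_mem (X Y : ℤ) (q : ℕ) (hq : 0 < q) (κ : Fin 4 × Fin 4) (x : ℤ × ℤ) :
    x ∈ (roLoc X Y q hq).cell κ ↔
      ((κ.1.1 = 0 ∧ X - 4 * q ≤ x.1 ∧ x.1 < X - 2 * q) ∨ (κ.1.1 = 1 ∧ X - 2 * q ≤ x.1 ∧ x.1 < X) ∨
        (κ.1.1 = 2 ∧ X ≤ x.1 ∧ x.1 < X + 2 * q) ∨ (κ.1.1 = 3 ∧ X + 2 * q ≤ x.1 ∧ x.1 < X + 4 * q)) ∧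
      ((κ.2.1 = 0 ∧ Y - 4 * q ≤ x.2 ∧ x.2 < Y - 2 * q) ∨ (κ.2.1 = 1 ∧ Y - 2 * q ≤ x.2 ∧ x.2 < Y) ∨
        (κ.2.1 = 2 ∧ Y ≤ x.2 ∧ x.2 < Y + 2 * q) ∨ (κ.2.1 = 3 ∧ Y + 2 * q ≤ x.2 ∧ x.2 < Y + 4 * q)) := by
  rw [ro_mem_cell, ← ro_loc_line, ← ro_loc_line]
  unfold roLoc
  tauto

theorem ro_loc_exists (X Y : ℤ) (q : ℕ) (hq : 0 < q) (x : ℤ × ℤ) (h : X - 4 * q ≤ x.1 ∧ x.1 < X + 4 * q ∧ Y - 4 * q ≤ x.2 ∧ x.2 < Y + 4 * q) :
    ∃ κ, x ∈ (roLoc X Y q hq).cell κ := by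
  have h1 : ∀ (X t : ℤ), X - 4 * q ≤ t → t < X + 4 * q → ∃ k : Fin 4,
      (k.1 = 0 ∧ X - 4 * q ≤ t ∧ t < X - 2 * q) ∨ (k.1 = 1 ∧ X - 2 * q ≤ t ∧ t < X) ∨
        (k.1 = 2 ∧ X ≤ t ∧ t < X + 2 * q) ∨ (k.1 = 3 ∧ X + 2 * q ≤ t ∧ t < X + 4 * q) := by
    intro X t ha hb
    by_cases c1 : t < X - 2 * q
    · exact ⟨0, Or.inl ⟨rfl, ha, c1⟩⟩
    by_cases c2 : t < X
    · exact ⟨1, Or.inr (Or.inl ⟨rfl, by omega, c2⟩)⟩
    by_cases c3 : t < X + 2 * q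
    · exact ⟨2, Or.inr (Or.inr (Or.inl ⟨rfl, by omega, c3⟩))⟩
    · exact ⟨3, Or.inr (Or.inr (Or.inr ⟨rfl, by omega, hb⟩))⟩
  obtain ⟨k₁, hk₁⟩ := h1 X x.1 h.1 h.2.1
  obtain ⟨k₂, hk₂⟩ := h1 Y x.2 h.2.2.1 h.2.2.2
  exact ⟨(k₁, k₂), (ro_loc_mem X Y q hq _ x).2 ⟨hk₁, hk₂⟩⟩

theorem ro_loc_key (g : DGrid m₁ m₂) {ν : ℕ} (h : g.SideGe ν) (U : Finset (Fin m₁ × Fin m₂)) (z : Fin (m₁ + 1) × Fin (m₂ + 1)) {q : ℕ}
    (hq : 0 < q) (hν : 4 * q ≤ ν) (κ : Fin 4 × Fin 4) (x : ℤ × ℤ) (hx : x ∈ (roLoc (g.x₁ z.1) (g.x₂ z.2) q hq).cell κ) :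
    x ∈ (roVtx g z).fat (4 * q) ∧ (x ∉ (roVtx g z).fat (2 * q) ↔ (κ.1.1 = 0 ∨ κ.1.1 = 3 ∨ κ.2.1 = 0 ∨ κ.2.1 = 3)) ∧
      (x ∈ g.region U ↔ ((if κ.1.1 < 2 then g.x₁ z.1 - 1 else g.x₁ z.1, if κ.2.1 < 2 then g.x₂ z.2 - 1 else g.x₂ z.2) : ℤ × ℤ) ∈ g.region U) := by
  rw [ro_loc_mem] at hx
  have hq' : (0 : ℤ) < q := by exact_mod_cast hq
  have hfat : x ∈ (roVtx g z).fat (4 * q) := by
    rw [ro_mem_fat]
    simp only [roVtx]
    omega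
  refine ⟨hfat, ?_, ?_⟩
  · rw [ro_mem_fat]
    simp only [roVtx]
    omega
  · refine ro_same_region g U (ro_same_quadrant g h z (r := 4 * q) (by exact_mod_cast hν) hfat ?_ ?_ ?_)
    · rw [ro_mem_fat]
      simp only [roVtx]
      split_ifs <;> omega
    · simp only
      split_ifs <;> omega
    · simp only
      split_ifs <;> omega

/-- L-RO-P5.  The ball and the zone at a vertex are unions of local cells (`ro_same_quadrant`, `ro_same_region`; `ext x`, `ro_mem_fat`, `ro_mem_region`, `ro_mem_cell`; the local cell of `x` has index `⌊(x₁ - X + 4q)/(2q)⌋`). -/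
theorem ro_loc_region (g : DGrid m₁ m₂) {ν : ℕ} (h : g.SideGe ν) (U : Finset (Fin m₁ × Fin m₂)) (z : Fin (m₁ + 1) × Fin (m₂ + 1)) {q : ℕ}
    (hq : 0 < q) (hν : 4 * q ≤ ν) :
    g.region U ∩ (roVtx g z).fat (4 * q) = (roLoc (g.x₁ z.1) (g.x₂ z.2) q hq).region (roLocU (g.region U) (g.x₁ z.1) (g.x₂ z.2) false) ∧
    g.region U ∩ (roVtx g z).zone q = (roLoc (g.x₁ z.1) (g.x₂ z.2) q hq).region (roLocU (g.region U) (g.x₁ z.1) (g.x₂ z.2) true) := by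
  have hex : ∀ x ∈ (roVtx g z).fat (4 * q), ∃ κ, x ∈ (roLoc (g.x₁ z.1) (g.x₂ z.2) q hq).cell κ := by
    intro x hx
    rw [ro_mem_fat] at hx
    exact ro_loc_exists _ _ q hq x hx
  constructor
  · ext x
    rw [mem_inter, ro_mem_region (roLoc (g.x₁ z.1) (g.x₂ z.2) q hq)]
    constructor
    · rintro ⟨hxD, hxf⟩
      obtain ⟨κ, hκ⟩ := hex x hxf
      obtain ⟨k1, k2, k3⟩ := ro_loc_key g h U z hq hν κ x hκ
      refine ⟨κ, ?_, hκ⟩
      unfold roLocU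
      rw [mem_filter]
      exact ⟨mem_univ _, k3.1 hxD, fun hh => absurd hh (by simp)⟩
    · rintro ⟨κ, hκU, hκ⟩
      obtain ⟨k1, k2, k3⟩ := ro_loc_key g h U z hq hν κ x hκ
      unfold roLocU at hκU
      rw [mem_filter] at hκU
      exact ⟨k3.2 hκU.2.1, k1⟩
  · ext x
    unfold RoCore.zone
    rw [mem_inter, ro_mem_region (roLoc (g.x₁ z.1) (g.x₂ z.2) q hq), mem_sdiff]
    constructor
    · rintro ⟨hxD, hxf, hxn⟩
      obtain ⟨κ, hκ⟩ := hex x hxf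
      obtain ⟨k1, k2, k3⟩ := ro_loc_key g h U z hq hν κ x hκ
      refine ⟨κ, ?_, hκ⟩
      unfold roLocU
      rw [mem_filter]
      exact ⟨mem_univ _, k3.1 hxD, fun _ => k2.1 hxn⟩
    · rintro ⟨κ, hκU, hκ⟩
      obtain ⟨k1, k2, k3⟩ := ro_loc_key g h U z hq hν κ x hκ
      unfold roLocU at hκU
      rw [mem_filter] at hκU
      exact ⟨k3.2 hκU.2.1, k1, k2.2 (hκU.2.2 rfl)⟩

/-- Boolean model of `roLocU` -/
def roLocB (a b c d ring : Bool) (κ : Fin 4 × Fin 4) : Bool :=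
  (if κ.1.1 < 2 then (if κ.2.1 < 2 then a else c) else (if κ.2.1 < 2 then b else d)) &&
    (!ring || (κ.1.1 == 0 || (κ.1.1 == 3 || (κ.2.1 == 0 || κ.2.1 == 3))))

/-- Boolean model of `roAdj` -/
def roAdjB (κ κ' : Fin 4 × Fin 4) : Bool :=
  (κ.1.1 + 1 == κ'.1.1 && κ.2.1 == κ'.2.1) || ((κ'.1.1 + 1 == κ.1.1 && κ.2.1 == κ'.2.1) ||
    ((κ.1.1 == κ'.1.1 && κ.2.1 + 1 == κ'.2.1) || (κ.1.1 == κ'.1.1 && κ'.2.1 + 1 == κ.2.1)))

/-- all the cells -/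
def roAll : List (Fin 4 × Fin 4) :=
  [(0, 0), (0, 1), (0, 2), (0, 3), (1, 0), (1, 1), (1, 2), (1, 3), (2, 0), (2, 1), (2, 2), (2, 3), (3, 0), (3, 1), (3, 2), (3, 3)]

/-- one step of the search -/
def roGrow (U : Fin 4 × Fin 4 → Bool) (R : List (Fin 4 × Fin 4)) : List (Fin 4 × Fin 4) :=
  roAll.filter fun κ => U κ && R.any fun w => (w.1.1 == κ.1.1 && w.2.1 == κ.2.1) || roAdjB w κ

/-- the search from the first cell reaches every cell -/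
def roChk (U : Fin 4 × Fin 4 → Bool) : Bool :=
  match roAll.filter U with
  | [] => true
  | ρ :: _ => roAll.all fun κ => !U κ || ((roGrow U)^[9] [ρ]).any fun w => w.1.1 == κ.1.1 && w.2.1 == κ.2.1

theorem ro_chk_all (a b c d ring : Bool) (h1 : a = true → d = true → b = true ∨ c = true)
    (h2 : b = true → c = true → a = true ∨ d = true) : roChk (roLocB a b c d ring) = true := by
  cases a <;> cases b <;> cases c <;> cases d <;> simp at h1 h2 <;> cases ring <;> decide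

theorem ro_locB_eqns_cite : True := by
  have := @roLocB.eq_1
  have := @roAdjB.eq_1
  have := @roAll.eq_1
  have := @roGrow.eq_1
  have := @roChk.eq_1
  trivial

theorem ro_adjB_iff (κ κ' : Fin 4 × Fin 4) : roAdjB κ κ' = true ↔ roAdj κ κ' := by
  unfold roAdjB roAdj
  simp only [Bool.or_eq_true, Bool.and_eq_true, beq_iff_eq, Fin.ext_iff]

theorem ro_mem_all (κ : Fin 4 × Fin 4) : κ ∈ roAll := by
  obtain ⟨i, j⟩ := κ
  fin_cases i <;> fin_cases j <;> simp [roAll]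

theorem ro_adj_symm {m₁ m₂ : ℕ} {κ κ' : Fin m₁ × Fin m₂} (h : roAdj κ κ') : roAdj κ' κ := by
  unfold roAdj at h ⊢
  rcases h with h | h | h | h
  · exact Or.inr (Or.inl ⟨h.1, h.2.symm⟩)
  · exact Or.inl ⟨h.1, h.2.symm⟩
  · exact Or.inr (Or.inr (Or.inr ⟨h.1.symm, h.2⟩))
  · exact Or.inr (Or.inr (Or.inl ⟨h.1.symm, h.2⟩))

theorem ro_grow_sound (U : Fin 4 × Fin 4 → Bool) (ρ : Fin 4 × Fin 4) (R : List (Fin 4 × Fin 4))
    (hR : ∀ x ∈ R, U x = true ∧ Relation.ReflTransGen (fun a b => U a = true ∧ U b = true ∧ roAdj a b) ρ x) :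
    ∀ x ∈ roGrow U R, U x = true ∧ Relation.ReflTransGen (fun a b => U a = true ∧ U b = true ∧ roAdj a b) ρ x := by
  intro x hx
  unfold roGrow at hx
  rw [List.mem_filter] at hx
  obtain ⟨_, hx⟩ := hx
  rw [Bool.and_eq_true, List.any_eq_true] at hx
  obtain ⟨hUx, w, hw, hwx⟩ := hx
  refine ⟨hUx, ?_⟩
  rw [Bool.or_eq_true] at hwx
  rcases hwx with h | h
  · have e : w = x := by
      rw [Bool.and_eq_true, beq_iff_eq, beq_iff_eq] at h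
      exact Prod.ext (Fin.ext h.1) (Fin.ext h.2)
    exact e ▸ (hR w hw).2
  · exact (hR w hw).2.tail ⟨(hR w hw).1, hUx, (ro_adjB_iff w x).1 h⟩

theorem ro_grow_iter (U : Fin 4 × Fin 4 → Bool) (ρ : Fin 4 × Fin 4) (hρ : U ρ = true) (n : ℕ) :
    ∀ x ∈ (roGrow U)^[n] [ρ], U x = true ∧ Relation.ReflTransGen (fun a b => U a = true ∧ U b = true ∧ roAdj a b) ρ x := by
  induction n with
  | zero =>
    intro x hx
    have e : x = ρ := by simpa using hx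
    rw [e]
    exact ⟨hρ, Relation.ReflTransGen.refl⟩
  | succ n ih =>
    rw [Function.iterate_succ_apply']
    exact ro_grow_sound U ρ _ ih

theorem ro_chk_sound (U : Fin 4 × Fin 4 → Bool) (h : roChk U = true) (κ κ' : Fin 4 × Fin 4) (hκ : U κ = true) (hκ' : U κ' = true) :
    Relation.ReflTransGen (fun a b => U a = true ∧ U b = true ∧ roAdj a b) κ κ' := by
  unfold roChk at h
  have hsym : ∀ x y, Relation.ReflTransGen (fun a b : Fin 4 × Fin 4 => U a = true ∧ U b = true ∧ roAdj a b) x y →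
      Relation.ReflTransGen (fun a b : Fin 4 × Fin 4 => U a = true ∧ U b = true ∧ roAdj a b) y x := by
    intro x y hxy
    induction hxy with
    | refl => exact Relation.ReflTransGen.refl
    | tail _ hab ih => exact ih.head ⟨hab.2.1, hab.1, ro_adj_symm hab.2.2⟩
  cases hf : roAll.filter U with
  | nil =>
    have : κ ∈ roAll.filter U := List.mem_filter.2 ⟨ro_mem_all κ, hκ⟩
    rw [hf] at this
    exact absurd this (List.not_mem_nil)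
  | cons ρ l =>
    rw [hf] at h
    have hρ : U ρ = true := by
      have : ρ ∈ roAll.filter U := by rw [hf]; exact List.mem_cons_self
      exact (List.mem_filter.1 this).2
    have key : ∀ x, U x = true → Relation.ReflTransGen (fun a b => U a = true ∧ U b = true ∧ roAdj a b) ρ x := by
      intro x hx
      have h1 := List.all_eq_true.1 h x (ro_mem_all x)
      rw [hx] at h1
      simp only [Bool.not_true, Bool.false_or, List.any_eq_true] at h1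
      obtain ⟨w, hw, hwx⟩ := h1
      have e : w = x := by
        rw [Bool.and_eq_true, beq_iff_eq, beq_iff_eq] at hwx
        exact Prod.ext (Fin.ext hwx.1) (Fin.ext hwx.2)
      exact e ▸ (ro_grow_iter U ρ hρ 9 w hw).2
    exact (hsym _ _ (key κ hκ)).trans (key κ' hκ')

/-- L-RO-P6 (combinatorics of `Fin 4 × Fin 4`).  If the set of present quadrants is not a pair of opposite quadrants, the local cells are face-connected.
Hint: helper lemma "the union of two `roConn` sets containing a pair of `roAdj` (or equal) cells is `roConn`"; the 3 outer (4) cells of one quadrant are `roConn`; neighbouring quadrants are linked by `(1,0) ~ (2,0)` etc.; case split on the four Booleans. -/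
theorem ro_loc_conn (D : Finset (ℤ × ℤ)) (X Y : ℤ) (ring : Bool)
    (h1 : (X - 1, Y - 1) ∈ D → (X, Y) ∈ D → (X, Y - 1) ∈ D ∨ (X - 1, Y) ∈ D)
    (h2 : (X, Y - 1) ∈ D → (X - 1, Y) ∈ D → (X - 1, Y - 1) ∈ D ∨ (X, Y) ∈ D) : roConn (roLocU D X Y ring) := by
  have hmem : ∀ κ, κ ∈ roLocU D X Y ring ↔ roLocB (decide ((X - 1, Y - 1) ∈ D)) (decide ((X, Y - 1) ∈ D))
      (decide ((X - 1, Y) ∈ D)) (decide ((X, Y) ∈ D)) ring κ = true := by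
    intro κ
    unfold roLocU roLocB
    rw [mem_filter]
    by_cases c1 : κ.1.1 < 2 <;> by_cases c2 : κ.2.1 < 2 <;> cases ring <;> simp [c1, c2]
  have hchk := ro_chk_all (decide ((X - 1, Y - 1) ∈ D)) (decide ((X, Y - 1) ∈ D))
      (decide ((X - 1, Y) ∈ D)) (decide ((X, Y) ∈ D)) ring (by simpa using h1) (by simpa using h2)
  intro κ hκ κ' hκ'
  refine Relation.ReflTransGen.mono ?_ _ _ (ro_chk_sound _ hchk κ κ' ((hmem κ).1 hκ) ((hmem κ').1 hκ'))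
  rintro a b ⟨ha, hb, hab⟩
  exact ⟨(hmem a).2 ha, (hmem b).2 hb, hab⟩

theorem ro_line_lo {m : ℕ} {X : Fin (m + 1) → ℤ} (hX : StrictMono X) (k : Fin (m + 1)) (i : Fin m) :
    (X i.castSucc ≤ X k - 1 ∧ X k - 1 < X i.succ) ↔ i.1 + 1 = k.1 := by
  constructor
  · rintro ⟨h1, h2⟩
    have h3 : X i.castSucc < X k := by omega
    have h4 : X k ≤ X i.succ := by omega
    have h5 : i.castSucc < k := hX.lt_iff_lt.1 h3
    have h6 : k ≤ i.succ := hX.le_iff_le.1 h4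
    rw [Fin.lt_def] at h5
    rw [Fin.le_def] at h6
    simp only [Fin.val_castSucc, Fin.val_succ] at h5 h6
    omega
  · intro h
    have e : k = i.succ := Fin.ext (by simp only [Fin.val_succ]; omega)
    rw [e]
    have := hX (Fin.castSucc_lt_succ (i := i))
    omega

theorem ro_line_hi {m : ℕ} {X : Fin (m + 1) → ℤ} (hX : StrictMono X) (k : Fin (m + 1)) (i : Fin m) :
    (X i.castSucc ≤ X k ∧ X k < X i.succ) ↔ i.1 = k.1 := by
  constructor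
  · rintro ⟨h1, h2⟩
    have h5 : i.castSucc ≤ k := hX.le_iff_le.1 h1
    have h6 : k < i.succ := hX.lt_iff_lt.1 h2
    rw [Fin.le_def] at h5
    rw [Fin.lt_def] at h6
    simp only [Fin.val_castSucc, Fin.val_succ] at h5 h6
    omega
  · intro h
    have e : k = i.castSucc := Fin.ext (by simp only [Fin.val_castSucc]; omega)
    rw [e]
    exact ⟨le_rfl, hX (Fin.castSucc_lt_succ (i := i))⟩

/-- the four sites at a vertex and the cells which contain them -/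
theorem ro_site_cell (g : DGrid m₁ m₂) (z : Fin (m₁ + 1) × Fin (m₂ + 1)) (κ : Fin m₁ × Fin m₂) :
    ((g.x₁ z.1 - 1, g.x₂ z.2 - 1) ∈ g.cell κ ↔ κ.1.1 + 1 = z.1.1 ∧ κ.2.1 + 1 = z.2.1) ∧
    ((g.x₁ z.1, g.x₂ z.2 - 1) ∈ g.cell κ ↔ κ.1.1 = z.1.1 ∧ κ.2.1 + 1 = z.2.1) ∧
    ((g.x₁ z.1 - 1, g.x₂ z.2) ∈ g.cell κ ↔ κ.1.1 + 1 = z.1.1 ∧ κ.2.1 = z.2.1) ∧
    ((g.x₁ z.1, g.x₂ z.2) ∈ g.cell κ ↔ κ.1.1 = z.1.1 ∧ κ.2.1 = z.2.1) := by
  simp only [ro_mem_cell, ← ro_line_lo g.mono₁, ← ro_line_lo g.mono₂, ← ro_line_hi g.mono₁, ← ro_line_hi g.mono₂]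
  tauto

/-- L-RO-P7.  `Poly.loc` in terms of the four sites at a vertex (the site `(X-1,Y-1)` lies in the cell `(i-1,j-1)`, ...; `ro_cell_unique`). -/
theorem ro_poly_sites {U : Finset (Fin m₁ × Fin m₂)} (hU : Poly U) (g : DGrid m₁ m₂) (z : Fin (m₁ + 1) × Fin (m₂ + 1)) :
    ((g.x₁ z.1 - 1, g.x₂ z.2 - 1) ∈ g.region U → (g.x₁ z.1, g.x₂ z.2) ∈ g.region U →
      (g.x₁ z.1, g.x₂ z.2 - 1) ∈ g.region U ∨ (g.x₁ z.1 - 1, g.x₂ z.2) ∈ g.region U) ∧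
    ((g.x₁ z.1, g.x₂ z.2 - 1) ∈ g.region U → (g.x₁ z.1 - 1, g.x₂ z.2) ∈ g.region U →
      (g.x₁ z.1 - 1, g.x₂ z.2 - 1) ∈ g.region U ∨ (g.x₁ z.1, g.x₂ z.2) ∈ g.region U) := by
  simp only [ro_mem_region]
  constructor
  · rintro ⟨⟨i, j⟩, hκ, h⟩ ⟨⟨i', j'⟩, hκ', h'⟩
    rw [(ro_site_cell g z _).1] at h
    rw [(ro_site_cell g z _).2.2.2] at h'
    simp only at h h'
    rcases (hU.loc i i' j j' (by omega) (by omega)).1 hκ hκ' with h3 | h3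
    · exact Or.inl ⟨_, h3, (ro_site_cell g z _).2.1.2 ⟨h'.1, h.2⟩⟩
    · exact Or.inr ⟨_, h3, (ro_site_cell g z _).2.2.1.2 ⟨h.1, h'.2⟩⟩
  · rintro ⟨⟨i', j⟩, hκ, h⟩ ⟨⟨i, j'⟩, hκ', h'⟩
    rw [(ro_site_cell g z _).2.1] at h
    rw [(ro_site_cell g z _).2.2.1] at h'
    simp only at h h'
    rcases (hU.loc i i' j j' (by omega) (by omega)).2 hκ hκ' with h3 | h3
    · exact Or.inl ⟨_, h3, (ro_site_cell g z _).1.2 ⟨h'.1, h.2⟩⟩
    · exact Or.inr ⟨_, h3, (ro_site_cell g z _).2.2.2.2 ⟨h.1, h'.2⟩⟩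

theorem ro_loc_side (X Y : ℤ) (q : ℕ) (hq : 0 < q) :
    (roLoc X Y q hq).SideGe (2 * q) ∧ (roLoc X Y q hq).SideLe (1 * (2 * q)) := by
  have e : ∀ (X : ℤ) (i : Fin 4), X + 2 * (q : ℤ) * (((i.succ : Fin 5).1 : ℤ) - 2) -
      (X + 2 * (q : ℤ) * (((i.castSucc : Fin 5).1 : ℤ) - 2)) = 2 * q := by
    intro X i
    simp only [Fin.val_succ, Fin.val_castSucc]
    push_cast
    ring
  unfold DGrid.SideGe DGrid.SideLe roLoc
  simp only [e]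
  push_cast
  simp

theorem ro_zone_core (C₀ : ℝ)
    (hP : ∀ U : Finset (Fin 4 × Fin 4), roConn U → ∀ (g : DGrid 4 4) (ν : ℕ), g.SideGe ν → g.SideLe (1 * ν) →
      ∀ v : ℤ × ℤ → ℝ, roVar (g.region U) v ≤ C₀ * (ν : ℝ) ^ 2 * roDir (g.region U) v)
    (X Y : ℤ) (q : ℕ) (hq : 0 < q) (W : Finset (Fin 4 × Fin 4)) (hW : roConn W) (κ₀ : Fin 4 × Fin 4) (hκ₀ : κ₀ ∈ W)
    (u : ℤ × ℤ → ℝ) :
    ∑ x ∈ (roLoc X Y q hq).region W, (u x - (∑ y ∈ (roLoc X Y q hq).cell κ₀, u y) / ((roLoc X Y q hq).cell κ₀).card) ^ 2 ≤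
      136 * C₀ * (q : ℝ) ^ 2 * roDir ((roLoc X Y q hq).region W) u := by
  obtain ⟨hge, hle⟩ := ro_loc_side X Y q hq
  have hq' : (0 : ℝ) < q := by exact_mod_cast hq
  have hc0 := ro_cell_card_ge (roLoc X Y q hq) hge κ₀
  have hle' : (roLoc X Y q hq).SideLe (2 * q) := by simpa using hle
  have hc1 := ro_region_card_le (roLoc X Y q hq) hle' W
  have hpos : (0 : ℝ) < (((roLoc X Y q hq).cell κ₀).card : ℝ) := lt_of_lt_of_le (by positivity) hc0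
  have hne : ((roLoc X Y q hq).cell κ₀).Nonempty := by
    rw [← Finset.card_pos]
    exact_mod_cast hpos
  have h1 := ro_var_sub (ro_cell_subset_region (roLoc X Y q hq) hκ₀) hne u
  have h2 := hP W hW (roLoc X Y q hq) (2 * q) hge hle u
  have hvar : 0 ≤ roVar ((roLoc X Y q hq).region W) u := Finset.sum_nonneg fun _ _ => sq_nonneg _
  have hdir := ro_dir_nonneg ((roLoc X Y q hq).region W) u
  have hratio : (((roLoc X Y q hq).region W).card : ℝ) / (((roLoc X Y q hq).cell κ₀).card : ℝ) ≤ 16 := by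
    rw [div_le_iff₀ hpos]
    push_cast at hc0 hc1 ⊢
    nlinarith
  refine h1.trans ?_
  calc 2 * (1 + (((roLoc X Y q hq).region W).card : ℝ) / (((roLoc X Y q hq).cell κ₀).card : ℝ)) * roVar ((roLoc X Y q hq).region W) u
      ≤ 34 * roVar ((roLoc X Y q hq).region W) u := mul_le_mul_of_nonneg_right (by linarith) hvar
    _ ≤ 34 * (C₀ * ((2 * q : ℕ) : ℝ) ^ 2 * roDir ((roLoc X Y q hq).region W) u) := by linarith
    _ = 136 * C₀ * (q : ℝ) ^ 2 * roDir ((roLoc X Y q hq).region W) u := by push_cast; ring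

theorem ro_locU_corner (D : Finset (ℤ × ℤ)) (X Y : ℤ) (s t : Prop) [Decidable s] [Decidable t]
    (h : ((if s then X - 1 else X, if t then Y - 1 else Y) : ℤ × ℤ) ∈ D) (ring : Bool) :
    ((if s then 0 else 3, if t then 0 else 3) : Fin 4 × Fin 4) ∈ roLocU D X Y ring := by
  unfold roLocU
  rw [mem_filter]
  by_cases hs : s <;> by_cases ht : t <;> simp_all

/-- L-RO-P8.  **The zone inequality at a vertex.**  `k` = mean of `u` over `S₀ = ` (zone) `∩` (one present quadrant), a quadrant of `P` if `z` touches `P` (then `k = 0`); `k = 0` if no quadrant is present.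
`ro_loc_region`, `ro_loc_conn`, `ro_poly_sites`, `ro_poinc_cells 4 4 1` for `roLoc` (`ν := 2q`), `ro_var_sub` (`|S₀| = 12 q²`, `|zone| ≤ 48 q²`, `|ball| ≤ 64 q²`). -/
theorem ro_zone_vtx : ∃ C : ℝ, 0 ≤ C ∧ ∀ (m₁ m₂ : ℕ) (U Pn : Finset (Fin m₁ × Fin m₂)), Poly U → ∀ (g : DGrid m₁ m₂) (ν : ℕ), g.SideGe ν →
    ∀ (z : Fin (m₁ + 1) × Fin (m₂ + 1)) (q : ℕ), 0 < q → 4 * q ≤ ν → ∀ u : ℤ × ℤ → ℝ, (∀ y ∈ g.region (U ∩ Pn), u y = 0) →
      ∃ k : ℝ,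
        ∑ x ∈ g.region U ∩ (roVtx g z).zone q, (u x - k) ^ 2 ≤ C * (q : ℝ) ^ 2 * roDir (g.region U ∩ (roVtx g z).zone q) u ∧
        ∑ x ∈ g.region U ∩ (roVtx g z).fat (4 * q), (u x - k) ^ 2 ≤ C * (q : ℝ) ^ 2 * roDir (g.region U ∩ (roVtx g z).fat (4 * q)) u ∧
        ((∃ y ∈ g.region (U ∩ Pn), y ∈ (roVtx g z).fat 1) → k = 0) := by
  obtain ⟨C₀, hC₀, hP⟩ := ro_poinc_cells 4 4 1
  refine ⟨136 * C₀, by positivity, ?_⟩
  intro m₁ m₂ U Pn hU g ν h z q hq hν u hu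
  obtain ⟨e1, e2⟩ := ro_loc_region g h U z hq hν
  rw [e1, e2]
  have hs := ro_poly_sites hU g z
  have ct := ro_loc_conn (g.region U) (g.x₁ z.1) (g.x₂ z.2) true hs.1 hs.2
  have cf := ro_loc_conn (g.region U) (g.x₁ z.1) (g.x₂ z.2) false hs.1 hs.2
  have hsub : roLocU (g.region U) (g.x₁ z.1) (g.x₂ z.2) true ⊆ roLocU (g.region U) (g.x₁ z.1) (g.x₂ z.2) false := by
    intro κ hκ
    unfold roLocU at hκ ⊢
    rw [mem_filter] at hκ ⊢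
    exact ⟨hκ.1, hκ.2.1, fun hh => absurd hh (by simp)⟩
  by_cases hA : ∃ y ∈ g.region (U ∩ Pn), y ∈ (roVtx g z).fat 1
  · obtain ⟨y, hyP, hy1⟩ := hA
    rw [ro_mem_fat] at hy1
    simp only [roVtx] at hy1
    have hsite : ((if y.1 < g.x₁ z.1 then g.x₁ z.1 - 1 else g.x₁ z.1, if y.2 < g.x₂ z.2 then g.x₂ z.2 - 1 else g.x₂ z.2) : ℤ × ℤ) = y := by
      apply Prod.ext
      · simp only
        split_ifs <;> omega
      · simp only
        split_ifs <;> omega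
    have hyD : y ∈ g.region U := ro_region_mono g inter_subset_left hyP
    have hκ₀ := ro_locU_corner (g.region U) (g.x₁ z.1) (g.x₂ z.2) (y.1 < g.x₁ z.1) (y.2 < g.x₂ z.2) (by rw [hsite]; exact hyD) true
    obtain ⟨κ₀, hκdef⟩ : ∃ κ₀ : Fin 4 × Fin 4, κ₀ = (if y.1 < g.x₁ z.1 then 0 else 3, if y.2 < g.x₂ z.2 then 0 else 3) := ⟨_, rfl⟩
    rw [← hκdef] at hκ₀
    have hsite' : ((if κ₀.1.1 < 2 then g.x₁ z.1 - 1 else g.x₁ z.1, if κ₀.2.1 < 2 then g.x₂ z.2 - 1 else g.x₂ z.2) : ℤ × ℤ) = y := by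
      rw [← hsite, hκdef]
      by_cases c1 : y.1 < g.x₁ z.1 <;> by_cases c2 : y.2 < g.x₂ z.2 <;> simp [c1, c2]
    have hzero : ∀ x ∈ (roLoc (g.x₁ z.1) (g.x₂ z.2) q hq).cell κ₀, u x = 0 := fun x hx =>
      hu x (((ro_loc_key g h (U ∩ Pn) z hq hν κ₀ x hx).2.2).2 (hsite'.symm ▸ hyP))
    refine ⟨_, ro_zone_core C₀ hP _ _ q hq _ ct κ₀ hκ₀ u, ro_zone_core C₀ hP _ _ q hq _ cf κ₀ (hsub hκ₀) u, fun _ => ?_⟩
    rw [Finset.sum_eq_zero hzero, zero_div]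
  · by_cases hne : (roLocU (g.region U) (g.x₁ z.1) (g.x₂ z.2) true).Nonempty
    · obtain ⟨κ₀, hκ₀⟩ := hne
      exact ⟨_, ro_zone_core C₀ hP _ _ q hq _ ct κ₀ hκ₀ u, ro_zone_core C₀ hP _ _ q hq _ cf κ₀ (hsub hκ₀) u,
        fun hh => absurd hh hA⟩
    · have e_t : roLocU (g.region U) (g.x₁ z.1) (g.x₂ z.2) true = ∅ := not_nonempty_iff_eq_empty.1 hne
      have e_f : roLocU (g.region U) (g.x₁ z.1) (g.x₂ z.2) false = ∅ := by
        refine Finset.eq_empty_of_forall_notMem fun κ hκ => ?_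
        have h1 : ((if κ.1.1 < 2 then g.x₁ z.1 - 1 else g.x₁ z.1, if κ.2.1 < 2 then g.x₂ z.2 - 1 else g.x₂ z.2) : ℤ × ℤ) ∈ g.region U := by
          unfold roLocU at hκ
          rw [mem_filter] at hκ
          exact hκ.2.1
        have h2 := ro_locU_corner (g.region U) (g.x₁ z.1) (g.x₂ z.2) (κ.1.1 < 2) (κ.2.1 < 2) h1 true
        rw [e_t] at h2
        exact absurd h2 (Finset.notMem_empty _)
      rw [e_t, e_f]
      have e0 : (roLoc (g.x₁ z.1) (g.x₂ z.2) q hq).region ∅ = ∅ := by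
        unfold DGrid.region
        exact Finset.biUnion_empty
      rw [e0]
      have hn : (0 : ℝ) ≤ 136 * C₀ * (q : ℝ) ^ 2 * roDir ∅ u := mul_nonneg (by positivity) (ro_dir_nonneg _ _)
      exact ⟨0, by simpa using hn, by simpa using hn, fun _ => rfl⟩

/-! ## Hardy at a cell -/

/-- the `ℓ^∞` distance to the core (`≤ 0` on the core); `x ∈ c.fat r ↔ c.dist x ≤ r` -/
def RoCore.dist (c : RoCore) (x : ℤ × ℤ) : ℤ := max (max (c.a₁ - x.1) (x.1 - c.b₁ + 1)) (max (c.a₂ - x.2) (x.2 - c.b₂ + 1))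

theorem ro_mem_fat_iff_dist (c : RoCore) (r : ℤ) (x : ℤ × ℤ) : x ∈ c.fat r ↔ c.dist x ≤ r := by
  rw [ro_mem_fat]
  unfold RoCore.dist
  omega

private theorem ro_hc_sum_refl (F : ℤ → ℝ) (a : ℤ) (n : ℕ) : ∑ t ∈ Ico (a - n) a, F t = ∑ k ∈ range n, F (a - 1 - k) := by
  have h1 := ro_sum_Ico_int F (a - n) n
  rw [sub_add_cancel] at h1
  rw [h1, ← sum_range_reflect]
  refine sum_congr rfl fun j hj => ?_
  have hj' := mem_range.1 hj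
  congr 1
  omega

private theorem ro_hc_right (f : ℤ → ℝ) (a : ℤ) (n : ℕ) (h0 : f (a - 1) = 0) :
    ∑ t ∈ Ico a (a + n), f t ^ 2 / (((t - a + 1 : ℤ) : ℝ)) ^ 2 ≤ 4 * ∑ t ∈ Ico (a - 1) (a - 1 + n), (f (t + 1) - f t) ^ 2 := by
  rw [ro_sum_Ico_int, ro_sum_Ico_int]
  have h := ro_hardy (fun k => f (a - 1 + k)) (by simpa using h0) n
  refine le_trans (le_of_eq ?_) (h.trans (le_of_eq ?_))
  · refine sum_congr rfl fun k _ => ?_
    rw [div_pow]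
    have e1 : a - 1 + ((k + 1 : ℕ) : ℤ) = a + k := by push_cast; ring
    have e2 : (((a + (k : ℤ) - a + 1 : ℤ)) : ℝ) = (k : ℝ) + 1 := by push_cast; ring
    rw [e1, e2]
  · congr 1
    refine sum_congr rfl fun k _ => ?_
    have e1 : a - 1 + ((k + 1 : ℕ) : ℤ) = a - 1 + k + 1 := by push_cast; ring
    rw [e1]

private theorem ro_hc_left (f : ℤ → ℝ) (a : ℤ) (n : ℕ) (h0 : f a = 0) :
    ∑ t ∈ Ico (a - n) a, f t ^ 2 / (((a - t : ℤ) : ℝ)) ^ 2 ≤ 4 * ∑ t ∈ Ico (a - n) a, (f (t + 1) - f t) ^ 2 := by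
  rw [ro_hc_sum_refl, ro_hc_sum_refl]
  have h := ro_hardy (fun k => f (a - k)) (by simpa using h0) n
  refine le_trans (le_of_eq ?_) (h.trans (le_of_eq ?_))
  · refine sum_congr rfl fun k _ => ?_
    rw [div_pow]
    have e1 : a - ((k + 1 : ℕ) : ℤ) = a - 1 - k := by push_cast; ring
    have e2 : (((a - (a - 1 - (k : ℤ)) : ℤ)) : ℝ) = (k : ℝ) + 1 := by push_cast; ring
    rw [e1, e2]
  · congr 1
    refine sum_congr rfl fun k _ => ?_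
    have e1 : a - ((k + 1 : ℕ) : ℤ) = a - 1 - k := by push_cast; ring
    have e2 : a - 1 - (k : ℤ) + 1 = a - k := by ring
    rw [e1, e2]
    ring

private theorem ro_hc_stripH (D : Finset (ℤ × ℤ)) (u T : ℤ × ℤ → ℝ) (I I' J : Finset ℤ)
    (hdich : I ×ˢ J ⊆ D ∨ ∀ x ∈ I ×ˢ J, x ∉ D)
    (hI' : I ×ˢ J ⊆ D → ∀ x ∈ I' ×ˢ J, x ∈ D ∧ (x.1 + 1, x.2) ∈ D)
    (h1D : ∀ y ∈ J, ∑ t ∈ I, T (t, y) ≤ 4 * ∑ t ∈ I', (u (t + 1, y) - u (t, y)) ^ 2) :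
    ∑ x ∈ D ∩ (I ×ˢ J), T x
      ≤ 4 * ∑ x ∈ D ∩ (I' ×ˢ J), (if (x.1 + 1, x.2) ∈ D then (u (x.1 + 1, x.2) - u x) ^ 2 else 0) := by
  rcases hdich with hs | hs
  · have h2 := hI' hs
    rw [inter_eq_right.2 hs, inter_eq_right.2 (fun x hx => (h2 x hx).1)]
    have e : ∑ x ∈ I' ×ˢ J, (if (x.1 + 1, x.2) ∈ D then (u (x.1 + 1, x.2) - u x) ^ 2 else 0)
        = ∑ x ∈ I' ×ˢ J, (u (x.1 + 1, x.2) - u x) ^ 2 := sum_congr rfl fun x hx => if_pos (h2 x hx).2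
    rw [e, sum_product_right, sum_product_right, mul_sum]
    exact sum_le_sum h1D
  · have e : D ∩ (I ×ˢ J) = ∅ := by
      rw [← disjoint_iff_inter_eq_empty, disjoint_right]
      exact hs
    rw [e, sum_empty]
    refine mul_nonneg (by norm_num) (sum_nonneg fun x _ => ?_)
    split_ifs
    · positivity
    · exact le_rfl

private theorem ro_hc_stripV (D : Finset (ℤ × ℤ)) (u T : ℤ × ℤ → ℝ) (I J J' : Finset ℤ)
    (hdich : I ×ˢ J ⊆ D ∨ ∀ x ∈ I ×ˢ J, x ∉ D)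
    (hI' : I ×ˢ J ⊆ D → ∀ x ∈ I ×ˢ J', x ∈ D ∧ (x.1, x.2 + 1) ∈ D)
    (h1D : ∀ y ∈ I, ∑ t ∈ J, T (y, t) ≤ 4 * ∑ t ∈ J', (u (y, t + 1) - u (y, t)) ^ 2) :
    ∑ x ∈ D ∩ (I ×ˢ J), T x
      ≤ 4 * ∑ x ∈ D ∩ (I ×ˢ J'), (if (x.1, x.2 + 1) ∈ D then (u (x.1, x.2 + 1) - u x) ^ 2 else 0) := by
  rcases hdich with hs | hs
  · have h2 := hI' hs
    rw [inter_eq_right.2 hs, inter_eq_right.2 (fun x hx => (h2 x hx).1)]
    have e : ∑ x ∈ I ×ˢ J', (if (x.1, x.2 + 1) ∈ D then (u (x.1, x.2 + 1) - u x) ^ 2 else 0)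
        = ∑ x ∈ I ×ˢ J', (u (x.1, x.2 + 1) - u x) ^ 2 := sum_congr rfl fun x hx => if_pos (h2 x hx).2
    rw [e, sum_product, sum_product, mul_sum]
    exact sum_le_sum h1D
  · have e : D ∩ (I ×ˢ J) = ∅ := by
      rw [← disjoint_iff_inter_eq_empty, disjoint_right]
      exact hs
    rw [e, sum_empty]
    refine mul_nonneg (by norm_num) (sum_nonneg fun x _ => ?_)
    split_ifs
    · positivity
    · exact le_rfl

private theorem ro_hc_dich (g : DGrid m₁ m₂) (U : Finset (Fin m₁ × Fin m₂)) (S : Finset (ℤ × ℤ))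
    (hS : ∀ x ∈ S, ∀ y ∈ S, roSame g x y) : S ⊆ g.region U ∨ ∀ x ∈ S, x ∉ g.region U := by
  by_cases h : ∃ x ∈ S, x ∈ g.region U
  · obtain ⟨x, hx, hxU⟩ := h
    exact Or.inl fun y hy => (ro_same_region g U (hS x hx y hy)).1 hxU
  · push Not at h
    exact Or.inr h

private theorem ro_hc_lines {m : ℕ} {f : Fin (m + 1) → ℤ} {ν : ℕ} (hgap : ∀ i i' : Fin (m + 1), i < i' → f i + ν ≤ f i')
    (i : Fin m) {n : ℕ} (hn : n ≤ ν) (k : Fin (m + 1)) :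
    f k ≤ f i.castSucc - n ∨ f k = f i.castSucc ∨ f k = f i.succ ∨ f i.succ + n ≤ f k := by
  rcases lt_trichotomy k i.castSucc with h | h | h
  · have := hgap _ _ h
    left
    omega
  · right; left; rw [h]
  · rcases lt_trichotomy k i.succ with h' | h' | h'
    · exfalso
      rw [Fin.lt_def] at h h'
      simp only [Fin.val_succ, Fin.val_castSucc] at h h'
      omega
    · right; right; left; rw [h']
    · have := hgap _ _ h'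
      right; right; right
      omega

private theorem ro_hc_union_le (s t : Finset (ℤ × ℤ)) (F : ℤ × ℤ → ℝ) (hF : ∀ x, 0 ≤ F x) :
    ∑ x ∈ s ∪ t, F x ≤ ∑ x ∈ s, F x + ∑ x ∈ t, F x := by
  have h1 := sum_union_inter (s₁ := s) (s₂ := t) (f := F)
  have h2 : 0 ≤ ∑ x ∈ s ∩ t, F x := sum_nonneg fun x _ => hF x
  linarith

/-- the Hardy weight at the box `[X,X') × [Y,Y')` -/
private def roHcT (u : ℤ × ℤ → ℝ) (X X' Y Y' : ℤ) (x : ℤ × ℤ) : ℝ :=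
  u x ^ 2 / ((max (max (X - x.1) (x.1 - X' + 1)) (max (Y - x.2) (x.2 - Y' + 1)) : ℤ) : ℝ) ^ 2

private def roHcA (D : Finset (ℤ × ℤ)) (u : ℤ × ℤ → ℝ) (x : ℤ × ℤ) : ℝ :=
  if (x.1 + 1, x.2) ∈ D then (u (x.1 + 1, x.2) - u x) ^ 2 else 0

private def roHcB (D : Finset (ℤ × ℤ)) (u : ℤ × ℤ → ℝ) (x : ℤ × ℤ) : ℝ :=
  if (x.1, x.2 + 1) ∈ D then (u (x.1, x.2 + 1) - u x) ^ 2 else 0

private theorem ro_hc_T_nonneg (u : ℤ × ℤ → ℝ) (X X' Y Y' : ℤ) (x : ℤ × ℤ) : 0 ≤ roHcT u X X' Y Y' x := by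
  unfold roHcT
  positivity

private theorem ro_hc_T_eq (u : ℤ × ℤ → ℝ) (X X' Y Y' : ℤ) (x : ℤ × ℤ) (d : ℤ)
    (hd : max (max (X - x.1) (x.1 - X' + 1)) (max (Y - x.2) (x.2 - Y' + 1)) = d) :
    roHcT u X X' Y Y' x = u x ^ 2 / ((d : ℤ) : ℝ) ^ 2 := by
  unfold roHcT
  rw [hd]

private theorem ro_hc_A_nonneg (D : Finset (ℤ × ℤ)) (u : ℤ × ℤ → ℝ) (x : ℤ × ℤ) : 0 ≤ roHcA D u x := by
  unfold roHcA
  split_ifs
  · positivity
  · exact le_rfl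

private theorem ro_hc_B_nonneg (D : Finset (ℤ × ℤ)) (u : ℤ × ℤ → ℝ) (x : ℤ × ℤ) : 0 ≤ roHcB D u x := by
  unfold roHcB
  split_ifs
  · positivity
  · exact le_rfl

private theorem ro_hc_dir (D : Finset (ℤ × ℤ)) (u : ℤ × ℤ → ℝ) : roDir D u = ∑ x ∈ D, roHcA D u x + ∑ x ∈ D, roHcB D u x := by
  unfold roDir
  rw [ro_sum_bonds, sum_add_distrib]
  rfl

private theorem ro_hc_R (D : Finset (ℤ × ℤ)) (u : ℤ × ℤ → ℝ) {X X' Y Y' : ℤ} (n : ℕ) (hXX : X < X')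
    (hcellD : ∀ x : ℤ × ℤ, X ≤ x.1 → x.1 < X' → Y ≤ x.2 → x.2 < Y' → x ∈ D ∧ u x = 0)
    (hd : Ico X' (X' + n) ×ˢ Ico Y Y' ⊆ D ∨ ∀ x ∈ Ico X' (X' + n) ×ˢ Ico Y Y', x ∉ D) :
    ∑ x ∈ D ∩ (Ico X' (X' + n) ×ˢ Ico Y Y'), roHcT u X X' Y Y' x
      ≤ 4 * ∑ x ∈ D ∩ (Ico (X' - 1) (X' - 1 + n) ×ˢ Ico Y Y'), roHcA D u x := by
  refine ro_hc_stripH D u _ _ _ _ hd ?_ ?_
  · intro hs x hx
    rw [mem_product, mem_Ico, mem_Ico] at hx
    constructor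
    · by_cases hx1 : x.1 < X'
      · exact (hcellD x (by omega) hx1 hx.2.1 hx.2.2).1
      · refine hs ?_
        rw [mem_product, mem_Ico, mem_Ico]
        omega
    · refine hs ?_
      rw [mem_product, mem_Ico, mem_Ico]
      simp only
      omega
  · intro y hy
    rw [mem_Ico] at hy
    have h1 := ro_hc_right (fun t => u (t, y)) X' n (hcellD (X' - 1, y) (by simp only; omega) (by simp only; omega) hy.1 hy.2).2
    refine le_trans (le_of_eq ?_) h1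
    refine sum_congr rfl fun t ht => ?_
    rw [mem_Ico] at ht
    exact ro_hc_T_eq u X X' Y Y' (t, y) _ (by simp only; omega)

private theorem ro_hc_L (D : Finset (ℤ × ℤ)) (u : ℤ × ℤ → ℝ) {X X' Y Y' : ℤ} (n : ℕ) (hXX : X < X')
    (hcellD : ∀ x : ℤ × ℤ, X ≤ x.1 → x.1 < X' → Y ≤ x.2 → x.2 < Y' → x ∈ D ∧ u x = 0)
    (hd : Ico (X - n) X ×ˢ Ico Y Y' ⊆ D ∨ ∀ x ∈ Ico (X - n) X ×ˢ Ico Y Y', x ∉ D) :
    ∑ x ∈ D ∩ (Ico (X - n) X ×ˢ Ico Y Y'), roHcT u X X' Y Y' x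
      ≤ 4 * ∑ x ∈ D ∩ (Ico (X - n) X ×ˢ Ico Y Y'), roHcA D u x := by
  refine ro_hc_stripH D u _ _ _ _ hd ?_ ?_
  · intro hs x hx
    refine ⟨hs hx, ?_⟩
    rw [mem_product, mem_Ico, mem_Ico] at hx
    by_cases hx1 : x.1 + 1 < X
    · refine hs ?_
      rw [mem_product, mem_Ico, mem_Ico]
      simp only
      omega
    · exact (hcellD (x.1 + 1, x.2) (by simp only; omega) (by simp only; omega) hx.2.1 hx.2.2).1
  · intro y hy
    rw [mem_Ico] at hy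
    have h1 := ro_hc_left (fun t => u (t, y)) X n (hcellD (X, y) (by simp only; omega) (by simp only; omega) hy.1 hy.2).2
    refine le_trans (le_of_eq ?_) h1
    refine sum_congr rfl fun t ht => ?_
    rw [mem_Ico] at ht
    exact ro_hc_T_eq u X X' Y Y' (t, y) _ (by simp only; omega)

private theorem ro_hc_U (D : Finset (ℤ × ℤ)) (u : ℤ × ℤ → ℝ) {X X' Y Y' : ℤ} (n : ℕ) (hYY : Y < Y')
    (hcellD : ∀ x : ℤ × ℤ, X ≤ x.1 → x.1 < X' → Y ≤ x.2 → x.2 < Y' → x ∈ D ∧ u x = 0)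
    (hd : Ico X X' ×ˢ Ico Y' (Y' + n) ⊆ D ∨ ∀ x ∈ Ico X X' ×ˢ Ico Y' (Y' + n), x ∉ D) :
    ∑ x ∈ D ∩ (Ico X X' ×ˢ Ico Y' (Y' + n)), roHcT u X X' Y Y' x
      ≤ 4 * ∑ x ∈ D ∩ (Ico X X' ×ˢ Ico (Y' - 1) (Y' - 1 + n)), roHcB D u x := by
  refine ro_hc_stripV D u _ _ _ _ hd ?_ ?_
  · intro hs x hx
    rw [mem_product, mem_Ico, mem_Ico] at hx
    constructor
    · by_cases hx1 : x.2 < Y'
      · exact (hcellD x hx.1.1 hx.1.2 (by omega) hx1).1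
      · refine hs ?_
        rw [mem_product, mem_Ico, mem_Ico]
        omega
    · refine hs ?_
      rw [mem_product, mem_Ico, mem_Ico]
      simp only
      omega
  · intro y hy
    rw [mem_Ico] at hy
    have h1 := ro_hc_right (fun t => u (y, t)) Y' n (hcellD (y, Y' - 1) hy.1 hy.2 (by simp only; omega) (by simp only; omega)).2
    refine le_trans (le_of_eq ?_) h1
    refine sum_congr rfl fun t ht => ?_
    rw [mem_Ico] at ht
    exact ro_hc_T_eq u X X' Y Y' (y, t) _ (by simp only; omega)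

private theorem ro_hc_Bt (D : Finset (ℤ × ℤ)) (u : ℤ × ℤ → ℝ) {X X' Y Y' : ℤ} (n : ℕ) (hYY : Y < Y')
    (hcellD : ∀ x : ℤ × ℤ, X ≤ x.1 → x.1 < X' → Y ≤ x.2 → x.2 < Y' → x ∈ D ∧ u x = 0)
    (hd : Ico X X' ×ˢ Ico (Y - n) Y ⊆ D ∨ ∀ x ∈ Ico X X' ×ˢ Ico (Y - n) Y, x ∉ D) :
    ∑ x ∈ D ∩ (Ico X X' ×ˢ Ico (Y - n) Y), roHcT u X X' Y Y' x
      ≤ 4 * ∑ x ∈ D ∩ (Ico X X' ×ˢ Ico (Y - n) Y), roHcB D u x := by
  refine ro_hc_stripV D u _ _ _ _ hd ?_ ?_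
  · intro hs x hx
    refine ⟨hs hx, ?_⟩
    rw [mem_product, mem_Ico, mem_Ico] at hx
    by_cases hx1 : x.2 + 1 < Y
    · refine hs ?_
      rw [mem_product, mem_Ico, mem_Ico]
      simp only
      omega
    · exact (hcellD (x.1, x.2 + 1) hx.1.1 hx.1.2 (by simp only; omega) (by simp only; omega)).1
  · intro y hy
    rw [mem_Ico] at hy
    have h1 := ro_hc_left (fun t => u (y, t)) Y n (hcellD (y, Y) hy.1 hy.2 (by simp only; omega) (by simp only; omega)).2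
    refine le_trans (le_of_eq ?_) h1
    refine sum_congr rfl fun t ht => ?_
    rw [mem_Ico] at ht
    exact ro_hc_T_eq u X X' Y Y' (y, t) _ (by simp only; omega)

private theorem ro_hc_split (D : Finset (ℤ × ℤ)) (u : ℤ × ℤ → ℝ) {X X' Y Y' : ℤ} (n : ℕ)
    (hcor : ∀ x ∈ D, X - n ≤ x.1 → x.1 < X' + n → Y - n ≤ x.2 → x.2 < Y' + n → ¬ (X ≤ x.1 ∧ x.1 < X') → ¬ (Y ≤ x.2 ∧ x.2 < Y') → u x = 0) :
    ∑ x ∈ D ∩ ((Ico (X - n) (X' + n) ×ˢ Ico (Y - n) (Y' + n)) \ (Ico X X' ×ˢ Ico Y Y')), roHcT u X X' Y Y' x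
      ≤ ∑ x ∈ D ∩ (Ico X' (X' + n) ×ˢ Ico Y Y'), roHcT u X X' Y Y' x + ∑ x ∈ D ∩ (Ico (X - n) X ×ˢ Ico Y Y'), roHcT u X X' Y Y' x
        + (∑ x ∈ D ∩ (Ico X X' ×ˢ Ico Y' (Y' + n)), roHcT u X X' Y Y' x + ∑ x ∈ D ∩ (Ico X X' ×ˢ Ico (Y - n) Y), roHcT u X X' Y Y' x) := by
  have hT0 := ro_hc_T_nonneg u X X' Y Y'
  refine le_trans ?_ (add_le_add (ro_hc_union_le _ _ _ hT0) (ro_hc_union_le _ _ _ hT0))
  refine le_trans ?_ (ro_hc_union_le _ _ _ hT0)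
  rw [← sum_filter_ne_zero]
  refine sum_le_sum_of_subset_of_nonneg ?_ fun x _ _ => hT0 x
  intro x hx
  rw [mem_filter, mem_inter, mem_sdiff, mem_product, mem_product, mem_Ico, mem_Ico, mem_Ico, mem_Ico] at hx
  obtain ⟨⟨hxD, hfat, hncell⟩, hTne⟩ := hx
  simp only [mem_union, mem_inter, mem_product, mem_Ico]
  by_cases c1 : X ≤ x.1 ∧ x.1 < X'
  · rcases lt_or_ge x.2 Y with d | d
    · exact Or.inr (Or.inr ⟨hxD, c1, by omega⟩)
    · exact Or.inr (Or.inl ⟨hxD, c1, by omega⟩)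
  · by_cases c2 : Y ≤ x.2 ∧ x.2 < Y'
    · rcases lt_or_ge x.1 X with d | d
      · exact Or.inl (Or.inr ⟨hxD, by omega, c2⟩)
      · exact Or.inl (Or.inl ⟨hxD, by omega, c2⟩)
    · exfalso
      apply hTne
      unfold roHcT
      rw [hcor x hxD hfat.1.1 hfat.1.2 hfat.2.1 hfat.2.2 c1 c2]
      simp

private theorem ro_hc_abs (D : Finset (ℤ × ℤ)) (u : ℤ × ℤ → ℝ) {X X' Y Y' : ℤ} (n : ℕ) (hXX : X < X') (hYY : Y < Y')
    (hcellD : ∀ x : ℤ × ℤ, X ≤ x.1 → x.1 < X' → Y ≤ x.2 → x.2 < Y' → x ∈ D ∧ u x = 0)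
    (hd1 : Ico X' (X' + n) ×ˢ Ico Y Y' ⊆ D ∨ ∀ x ∈ Ico X' (X' + n) ×ˢ Ico Y Y', x ∉ D)
    (hd2 : Ico (X - n) X ×ˢ Ico Y Y' ⊆ D ∨ ∀ x ∈ Ico (X - n) X ×ˢ Ico Y Y', x ∉ D)
    (hd3 : Ico X X' ×ˢ Ico Y' (Y' + n) ⊆ D ∨ ∀ x ∈ Ico X X' ×ˢ Ico Y' (Y' + n), x ∉ D)
    (hd4 : Ico X X' ×ˢ Ico (Y - n) Y ⊆ D ∨ ∀ x ∈ Ico X X' ×ˢ Ico (Y - n) Y, x ∉ D)
    (hcor : ∀ x ∈ D, X - n ≤ x.1 → x.1 < X' + n → Y - n ≤ x.2 → x.2 < Y' + n → ¬ (X ≤ x.1 ∧ x.1 < X') → ¬ (Y ≤ x.2 ∧ x.2 < Y') → u x = 0) :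
    ∑ x ∈ D ∩ ((Ico (X - n) (X' + n) ×ˢ Ico (Y - n) (Y' + n)) \ (Ico X X' ×ˢ Ico Y Y')), roHcT u X X' Y Y' x ≤ 4 * roDir D u := by
  have hAs : ∑ x ∈ D ∩ (Ico (X' - 1) (X' - 1 + n) ×ˢ Ico Y Y'), roHcA D u x + ∑ x ∈ D ∩ (Ico (X - n) X ×ˢ Ico Y Y'), roHcA D u x
      ≤ ∑ x ∈ D, roHcA D u x := by
    rw [← sum_union]
    · exact sum_le_sum_of_subset_of_nonneg (union_subset inter_subset_left inter_subset_left) fun x _ _ => ro_hc_A_nonneg D u x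
    · rw [disjoint_left]
      intro x hx hx'
      rw [mem_inter, mem_product, mem_Ico, mem_Ico] at hx hx'
      omega
  have hBs : ∑ x ∈ D ∩ (Ico X X' ×ˢ Ico (Y' - 1) (Y' - 1 + n)), roHcB D u x + ∑ x ∈ D ∩ (Ico X X' ×ˢ Ico (Y - n) Y), roHcB D u x
      ≤ ∑ x ∈ D, roHcB D u x := by
    rw [← sum_union]
    · exact sum_le_sum_of_subset_of_nonneg (union_subset inter_subset_left inter_subset_left) fun x _ _ => ro_hc_B_nonneg D u x
    · rw [disjoint_left]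
      intro x hx hx'
      rw [mem_inter, mem_product, mem_Ico, mem_Ico] at hx hx'
      omega
  have h1 := ro_hc_R D u n hXX hcellD hd1
  have h2 := ro_hc_L D u n hXX hcellD hd2
  have h3 := ro_hc_U D u n hYY hcellD hd3
  have h4 := ro_hc_Bt D u n hYY hcellD hd4
  have h5 := ro_hc_split D u n hcor
  rw [ro_hc_dir]
  linarith

/-- L-RO-P9.  **Hardy at a cell.**  `u = 0` on the cell `κ ∈ U` and on `D ∩ fat_z n` for its four corners `z`; `n ≤ ν`.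
Split `fat n \ cell` into four side strips and four corner squares (`⊆ fat_z n`, `u = 0` on `D`).  Right strip `[X', X'+n) × [Y, Y')`: all its points are `roSame`, so it is contained in `D` or disjoint from `D`;
in the first case apply `ro_hardy` to `k ↦ u (X' - 1 + k, y)` for every row `y` (`dist = k`); the bonds used by the four strips are distinct bonds of `D` (horizontal right / left, vertical up / down: `ro_sum_bonds`). -/
theorem ro_hardy_cell (g : DGrid m₁ m₂) {ν : ℕ} (h : g.SideGe ν) (U : Finset (Fin m₁ × Fin m₂)) {κ : Fin m₁ × Fin m₂} (hκ : κ ∈ U) {n : ℕ}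
    (hn : n ≤ ν) (u : ℤ × ℤ → ℝ) (hu : ∀ y ∈ g.cell κ, u y = 0)
    (hc : ∀ z, roCorner κ z → ∀ x ∈ g.region U, x ∈ (roVtx g z).fat n → u x = 0) :
    ∑ x ∈ g.region U ∩ ((roCel g κ).fat n \ g.cell κ), u x ^ 2 / (((roCel g κ).dist x : ℤ) : ℝ) ^ 2 ≤ 4 * roDir (g.region U) u := by
  have hXX : g.x₁ κ.1.castSucc < g.x₁ κ.1.succ := g.mono₁ Fin.castSucc_lt_succ
  have hYY : g.x₂ κ.2.castSucc < g.x₂ κ.2.succ := g.mono₂ Fin.castSucc_lt_succ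
  have hl1 := fun k => ro_hc_lines (fun i i' hii => ro_line_gap₁ g h hii) κ.1 hn k
  have hl2 := fun k => ro_hc_lines (fun i i' hii => ro_line_gap₂ g h hii) κ.2 hn k
  refine ro_hc_abs (X := g.x₁ κ.1.castSucc) (X' := g.x₁ κ.1.succ) (Y := g.x₂ κ.2.castSucc) (Y' := g.x₂ κ.2.succ)
    (g.region U) u n hXX hYY ?_ (ro_hc_dich g U _ ?_) (ro_hc_dich g U _ ?_) (ro_hc_dich g U _ ?_)
    (ro_hc_dich g U _ ?_) ?_
  · intro x a b c d
    have hx : x ∈ g.cell κ := (ro_mem_cell g κ x).2 ⟨a, b, c, d⟩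
    exact ⟨ro_cell_subset_region g hκ hx, hu x hx⟩
  · intro x hx y hy
    rw [mem_product, mem_Ico, mem_Ico] at hx hy
    refine ⟨fun k => ?_, fun k => ?_⟩
    · have := hl1 k
      omega
    · have := hl2 k
      omega
  · intro x hx y hy
    rw [mem_product, mem_Ico, mem_Ico] at hx hy
    refine ⟨fun k => ?_, fun k => ?_⟩
    · have := hl1 k
      omega
    · have := hl2 k
      omega
  · intro x hx y hy
    rw [mem_product, mem_Ico, mem_Ico] at hx hy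
    refine ⟨fun k => ?_, fun k => ?_⟩
    · have := hl1 k
      omega
    · have := hl2 k
      omega
  · intro x hx y hy
    rw [mem_product, mem_Ico, mem_Ico] at hx hy
    refine ⟨fun k => ?_, fun k => ?_⟩
    · have := hl1 k
      omega
    · have := hl2 k
      omega
  · intro x hxD f1 f2 f3 f4 c1 c2
    rcases lt_or_ge x.1 (g.x₁ κ.1.castSucc) with d1 | d1 <;> rcases lt_or_ge x.2 (g.x₂ κ.2.castSucc) with d2 | d2
    · refine hc (κ.1.castSucc, κ.2.castSucc) ⟨Or.inl rfl, Or.inl rfl⟩ x hxD ((ro_mem_fat _ _ _).2 ?_)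
      show g.x₁ κ.1.castSucc - n ≤ x.1 ∧ x.1 < g.x₁ κ.1.castSucc + n ∧ g.x₂ κ.2.castSucc - n ≤ x.2 ∧ x.2 < g.x₂ κ.2.castSucc + n
      omega
    · refine hc (κ.1.castSucc, κ.2.succ) ⟨Or.inl rfl, Or.inr rfl⟩ x hxD ((ro_mem_fat _ _ _).2 ?_)
      show g.x₁ κ.1.castSucc - n ≤ x.1 ∧ x.1 < g.x₁ κ.1.castSucc + n ∧ g.x₂ κ.2.succ - n ≤ x.2 ∧ x.2 < g.x₂ κ.2.succ + n
      omega
    · refine hc (κ.1.succ, κ.2.castSucc) ⟨Or.inr rfl, Or.inl rfl⟩ x hxD ((ro_mem_fat _ _ _).2 ?_)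
      show g.x₁ κ.1.succ - n ≤ x.1 ∧ x.1 < g.x₁ κ.1.succ + n ∧ g.x₂ κ.2.castSucc - n ≤ x.2 ∧ x.2 < g.x₂ κ.2.castSucc + n
      omega
    · refine hc (κ.1.succ, κ.2.succ) ⟨Or.inr rfl, Or.inr rfl⟩ x hxD ((ro_mem_fat _ _ _).2 ?_)
      show g.x₁ κ.1.succ - n ≤ x.1 ∧ x.1 < g.x₁ κ.1.succ + n ∧ g.x₂ κ.2.succ - n ≤ x.2 ∧ x.2 < g.x₂ κ.2.succ + n
      omega

end

end Claimed.Agent.R285.Pot
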