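import Claimed.Agent.R285.Pot.RoPoinc

/-!
# ROW 285, POT-REGOPT (architect helper170): stages (B) flattening at the grid vertices and (C) collars of the pinned cells.   GLUE, no own sorry.

Both stages are the same multi-scale selection: core `c` (a grid vertex / a pinned cell), scales `q_j = 2^j q₀`, `j < J`, zones `c.zone q_j` pairwise disjoint, `u' = roMod (c.chi q_j) k u`; `ro_modify_E/L/l1` (RoCalc).
(B) zone cost `≤ C roDir (zone) u` (`ro_zone_vtx`), pigeonhole on the zone energies: `ro_flatten_one`; induction on the set of vertices: `ro_flatten`.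
(C) `k = 0`; pigeonhole on `roDir (zone) u + 64 ∑_zone u²/dist²`, summable by Hardy (`ro_hardy_cell`): `ro_collar_one`; induction on the pinned cells: `ro_collar_ind`; `ro_L_collar`.
-/

set_option autoImplicit false

namespace Claimed.Agent.R285.Pot

open scoped Classical
open Finset

noncomputable section

/-- `ℓ¹ ≤ √card · ℓ²` -/
theorem ro_l1_le (S : Finset (ℤ × ℤ)) (f : ℤ × ℤ → ℝ) (N A : ℝ) (hN : (S.card : ℝ) ≤ N) (hA : ∑ x ∈ S, f x ^ 2 ≤ A) :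
    ∑ x ∈ S, |f x| ≤ Real.sqrt (N * A) := by
  apply Real.le_sqrt_of_sq_le
  have h1 := sq_sum_le_card_mul_sum_sq (s := S) (f := fun x => |f x|)
  simp only [sq_abs] at h1
  have h2 : 0 ≤ ∑ x ∈ S, f x ^ 2 := sum_nonneg fun _ _ => sq_nonneg _
  calc (∑ x ∈ S, |f x|) ^ 2 ≤ (S.card : ℝ) * ∑ x ∈ S, f x ^ 2 := h1
    _ ≤ N * A := mul_le_mul hN hA h2 ((Nat.cast_nonneg _).trans hN)

/-- pigeonhole -/
theorem ro_pigeon (J : ℕ) (hJ : 0 < J) (a : ℕ → ℝ) (E : ℝ) (h : ∑ j ∈ range J, a j ≤ E) : ∃ j < J, a j ≤ E / J := by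
  have hJ' : (0 : ℝ) < J := by exact_mod_cast hJ
  have h1 : ∑ j ∈ range J, a j ≤ ∑ _j ∈ range J, E / J := by
    rw [sum_const, card_range, nsmul_eq_mul]
    have : (J : ℝ) * (E / J) = E := by field_simp
    rw [this]
    exact h
  obtain ⟨j, hj, hj'⟩ := exists_le_of_sum_le (nonempty_range_iff.2 hJ.ne') h1
  exact ⟨j, mem_range.1 hj, hj'⟩

/-- the dyadic zones of a core are pairwise disjoint -/
theorem ro_zone_dyadic_disj (c : RoCore) (q₀ : ℕ) {j j' : ℕ} (h : j ≠ j') : Disjoint (c.zone (2 ^ j * q₀)) (c.zone (2 ^ j' * q₀)) := by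
  have key : ∀ {a b : ℕ}, a < b → Disjoint (c.zone (2 ^ a * q₀)) (c.zone (2 ^ b * q₀)) := by
    intro a b hab
    apply ro_zone_disj
    have h1 : 2 ^ (a + 1) ≤ 2 ^ b := Nat.pow_le_pow_right (by norm_num) hab
    calc 2 * (2 ^ a * q₀) = 2 ^ (a + 1) * q₀ := by ring
      _ ≤ 2 ^ b * q₀ := Nat.mul_le_mul_right _ h1
  rcases lt_or_gt_of_ne h with h | h
  · exact key h
  · exact (key h).symm

/-- the energies of the dyadic zones add up to at most the energy -/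
theorem ro_zone_energy_sum (D : Finset (ℤ × ℤ)) (c : RoCore) (q₀ J : ℕ) (u : ℤ × ℤ → ℝ) :
    ∑ j ∈ range J, roDir (D ∩ c.zone (2 ^ j * q₀)) u ≤ roDir D u :=
  ro_dir_disj D (range J) (fun j => D ∩ c.zone (2 ^ j * q₀)) (fun _ _ => inter_subset_left)
    (fun _ _ _ _ hij => (ro_zone_dyadic_disj c q₀ hij).mono inter_subset_right inter_subset_right) u

/-! ## (B) flattening -/

/-- **flattening at one grid vertex** -/
theorem ro_flatten_one : ∃ C : ℝ, 0 ≤ C ∧ ∀ (m₁ m₂ : ℕ) (U Pn : Finset (Fin m₁ × Fin m₂)), Poly U → ∀ (g : DGrid m₁ m₂) (ν : ℕ), g.SideGe ν →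
    ∀ (z : Fin (m₁ + 1) × Fin (m₂ + 1)) (J q₀ : ℕ), 0 < J → 0 < q₀ → 4 * (2 ^ J * q₀) ≤ ν →
    ∀ u : ℤ × ℤ → ℝ, (∀ y ∈ g.region (U ∩ Pn), u y = 0) → ∀ E₁ : ℝ, roDir (g.region U) u ≤ E₁ →
    ∃ u' : ℤ × ℤ → ℝ, (∀ y ∈ g.region (U ∩ Pn), u' y = 0) ∧
      (∀ x, x ∉ (roVtx g z).fat (4 * (2 ^ J * q₀ : ℕ)) → u' x = u x) ∧
      (∃ k : ℝ, (∀ x ∈ (roVtx g z).fat (2 * q₀), u' x = k) ∧ ((∃ y ∈ g.region (U ∩ Pn), y ∈ (roVtx g z).fat 1) → k = 0)) ∧
      roDir (g.region U) u' ≤ roDir (g.region U) u + C * E₁ / J ∧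
      ∑ x ∈ g.region U, |u' x - u x| ≤ C * ((2 ^ J * q₀ : ℕ) : ℝ) ^ 2 * Real.sqrt E₁ ∧
      ∀ W ⊆ g.region U, roL (g.region U) W u' ≤ 3 * roL (g.region U) W u + C * E₁ / (q₀ : ℝ) ^ 2 := by
  obtain ⟨C₀, hC₀, hzv⟩ := ro_zone_vtx
  refine ⟨48 * C₀ + 24, by positivity, ?_⟩
  intro m₁ m₂ U Pn hU g ν hν z J q₀ hJ hq₀ hs u hu E₁ hE
  set D := g.region U with hD
  set c := roVtx g z with hc
  have hE0 : 0 ≤ E₁ := (ro_dir_nonneg D u).trans hE
  have hJ' : (0 : ℝ) < J := by exact_mod_cast hJ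
  have hcle := ro_onGrid_le g (ro_vtx_onGrid g z)
  -- selection of the scale
  obtain ⟨j, hj, haj⟩ := ro_pigeon J hJ (fun j => roDir (D ∩ c.zone (2 ^ j * q₀)) u) E₁ ((ro_zone_energy_sum D c q₀ J u).trans hE)
  set q := 2 ^ j * q₀ with hq
  have hq0 : 0 < q := by positivity
  have hqq₀ : q₀ ≤ q := Nat.le_mul_of_pos_left _ (by positivity)
  have hqJ : q ≤ 2 ^ J * q₀ := Nat.mul_le_mul_right _ (Nat.pow_le_pow_right (by norm_num) hj.le)
  have hqν : 4 * q ≤ ν := (Nat.mul_le_mul_left 4 hqJ).trans hs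
  have hq' : (0 : ℝ) < q := by exact_mod_cast hq0
  have hq₀' : (0 : ℝ) < q₀ := by exact_mod_cast hq₀
  obtain ⟨k, hk1, hk2, hk3⟩ := hzv m₁ m₂ U Pn hU g ν hν z q hq0 hqν u hu
  have hcut : RoCut q D (c.chi q) := ro_core_cut g U hν (ro_vtx_onGrid g z) hq0 hqν
  have hzone : RoZone D (c.zone q) (c.chi q) := ro_core_zone c hcle.1 hcle.2 hq0 D
  set a := roDir (D ∩ c.zone q) u with ha
  have ha0 : 0 ≤ a := ro_dir_nonneg _ _
  have haE : a ≤ E₁ := (ro_dir_mono inter_subset_left u).trans hE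
  refine ⟨roMod (c.chi q) k u, ?_, ?_, ⟨k, ?_, hk3⟩, ?_, ?_, ?_⟩
  · intro y hy
    by_cases ht : ∃ y ∈ g.region (U ∩ Pn), y ∈ c.fat 1
    · unfold roMod
      rw [hk3 ht, hu y hy]; ring
    · have hy' : y ∉ c.fat (4 * q) := by
        intro hcon
        have hν0 : 0 < ν := by omega
        exact ht (ro_touch g hν hν0 (U ∩ Pn) z (by exact_mod_cast hqν) hy hcon)
      rw [ro_modify_eq_of_one (ro_core_chi_one c hcle.1 hcle.2 hq0 hy'), hu y hy]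
  · intro x hx
    refine ro_modify_eq_of_one (ro_core_chi_one c hcle.1 hcle.2 hq0 fun hcon => hx (ro_fat_mono c ?_ hcon)) k u
    exact_mod_cast Nat.mul_le_mul_left 4 hqJ
  · intro x hx
    refine ro_modify_eq_of_zero (ro_core_chi_zero c hq0 (ro_fat_mono c ?_ hx)) k u
    exact_mod_cast Nat.mul_le_mul_left 2 hqq₀
  · have h1 := ro_modify_E hcut hzone k u
    have h2 : 4 / (q : ℝ) ^ 2 * ∑ x ∈ D ∩ c.zone q, (u x - k) ^ 2 ≤ 4 / (q : ℝ) ^ 2 * (C₀ * (q : ℝ) ^ 2 * a) :=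
      mul_le_mul_of_nonneg_left hk1 (by positivity)
    have e2 : 4 / (q : ℝ) ^ 2 * (C₀ * (q : ℝ) ^ 2 * a) = 4 * C₀ * a := by field_simp
    have h3 : (1 + 4 * C₀) * a ≤ (48 * C₀ + 24) * (E₁ / J) := by
      have : (1 + 4 * C₀) * a ≤ (1 + 4 * C₀) * (E₁ / J) := mul_le_mul_of_nonneg_left haj (by positivity)
      have h4 : 0 ≤ E₁ / J := by positivity
      nlinarith
    have e3 : (48 * C₀ + 24) * E₁ / J = (48 * C₀ + 24) * (E₁ / J) := by ring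
    rw [e3]
    rw [e2] at h2
    linarith
  · have h1 := ro_modify_l1 (D := D) (B := c.fat (4 * q)) hcut.mem (fun x hx => ro_core_chi_one c hcle.1 hcle.2 hq0 hx) k u
    have hcard : ((D ∩ c.fat (4 * q)).card : ℝ) ≤ 64 * (q : ℝ) ^ 2 := by
      have h2 : ((D ∩ c.fat (4 * q)).card : ℝ) ≤ ((c.fat (4 * q)).card : ℝ) := by
        exact_mod_cast card_le_card inter_subset_right
      have h3 := ro_vtx_fat_card g z (4 * q)
      push_cast at h3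
      rw [← hc] at h3
      rw [h3] at h2
      linarith
    have hsq : ∑ x ∈ D ∩ c.fat (4 * q), (u x - k) ^ 2 ≤ C₀ * (q : ℝ) ^ 2 * E₁ := by
      refine hk2.trans (mul_le_mul_of_nonneg_left ((ro_dir_mono inter_subset_left u).trans hE) (by positivity))
    have h4 := ro_l1_le (D ∩ c.fat (4 * q)) (fun x => u x - k) _ _ hcard hsq
    refine h1.trans (h4.trans ?_)
    have e5 : 64 * (q : ℝ) ^ 2 * (C₀ * (q : ℝ) ^ 2 * E₁) = (8 * (q : ℝ) ^ 2) ^ 2 * (C₀ * E₁) := by ring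
    rw [e5, Real.sqrt_mul (by positivity), Real.sqrt_sq (by positivity), Real.sqrt_mul hC₀]
    have h6 : Real.sqrt C₀ ≤ C₀ + 1 := by
      have := Real.sqrt_le_sqrt (show C₀ ≤ (C₀ + 1) ^ 2 by nlinarith)
      rwa [Real.sqrt_sq (by positivity)] at this
    have h7 : (q : ℝ) ^ 2 ≤ ((2 ^ J * q₀ : ℕ) : ℝ) ^ 2 := by
      have : (q : ℝ) ≤ ((2 ^ J * q₀ : ℕ) : ℝ) := by exact_mod_cast hqJ
      exact pow_le_pow_left₀ hq'.le this 2
    have h8 : 0 ≤ Real.sqrt E₁ := Real.sqrt_nonneg _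
    have h9 : 0 ≤ Real.sqrt C₀ := Real.sqrt_nonneg _
    calc 8 * (q : ℝ) ^ 2 * (Real.sqrt C₀ * Real.sqrt E₁) = (8 * Real.sqrt C₀) * (q : ℝ) ^ 2 * Real.sqrt E₁ := by ring
      _ ≤ (48 * C₀ + 24) * ((2 ^ J * q₀ : ℕ) : ℝ) ^ 2 * Real.sqrt E₁ := by
          refine mul_le_mul_of_nonneg_right ?_ h8
          exact mul_le_mul (by linarith) h7 (by positivity) (by positivity)
  · intro W hW
    have h1 := ro_modify_L hcut hzone hW k u
    have h2 : 48 / (q : ℝ) ^ 4 * ∑ x ∈ D ∩ c.zone q, (u x - k) ^ 2 ≤ 48 / (q : ℝ) ^ 4 * (C₀ * (q : ℝ) ^ 2 * a) :=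
      mul_le_mul_of_nonneg_left hk1 (by positivity)
    have e2 : 48 / (q : ℝ) ^ 4 * (C₀ * (q : ℝ) ^ 2 * a) + 24 / (q : ℝ) ^ 2 * a = (48 * C₀ + 24) * a / (q : ℝ) ^ 2 := by
      field_simp
    have h3 : (48 * C₀ + 24) * a / (q : ℝ) ^ 2 ≤ (48 * C₀ + 24) * E₁ / (q₀ : ℝ) ^ 2 := by
      have h4 : (q₀ : ℝ) ^ 2 ≤ (q : ℝ) ^ 2 := by
        have : (q₀ : ℝ) ≤ (q : ℝ) := by exact_mod_cast hqq₀
        exact pow_le_pow_left₀ hq₀'.le this 2
      exact div_le_div₀ (by positivity) (mul_le_mul_of_nonneg_left haE (by positivity)) (by positivity) h4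
    linarith

/-- **(B) flattening at all the grid vertices of `Z`** -/
theorem ro_flatten : ∃ C : ℝ, 0 ≤ C ∧ ∀ (m₁ m₂ : ℕ) (U Pn : Finset (Fin m₁ × Fin m₂)), Poly U → ∀ (g : DGrid m₁ m₂) (ν : ℕ), g.SideGe ν →
    ∀ (J q₀ : ℕ), 0 < J → 0 < q₀ → 8 * (2 ^ J * q₀) ≤ ν → ∀ E₁ : ℝ, 0 ≤ E₁ → ∀ (Z : Finset (Fin (m₁ + 1) × Fin (m₂ + 1))) (u : ℤ × ℤ → ℝ),
    (∀ y ∈ g.region (U ∩ Pn), u y = 0) → roDir (g.region U) u + Z.card * (C * E₁ / J) ≤ E₁ →
    ∃ u' : ℤ × ℤ → ℝ, (∀ y ∈ g.region (U ∩ Pn), u' y = 0) ∧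
      RoFlatAt g (g.region U) (g.region (U ∩ Pn)) Z (2 * q₀) u' ∧
      roDir (g.region U) u' ≤ roDir (g.region U) u + Z.card * (C * E₁ / J) ∧
      ∑ x ∈ g.region U, |u' x - u x| ≤ Z.card * (C * ((2 ^ J * q₀ : ℕ) : ℝ) ^ 2 * Real.sqrt E₁) ∧
      ∀ W ⊆ g.region U, roL (g.region U) W u' ≤ 3 ^ Z.card * (roL (g.region U) W u + Z.card * (C * E₁ / (q₀ : ℝ) ^ 2)) := by
  obtain ⟨C, hC, hone⟩ := ro_flatten_one
  refine ⟨C, hC, ?_⟩
  intro m₁ m₂ U Pn hU g ν hν J q₀ hJ hq₀ hs E₁ hE0 Z u hu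
  set D := g.region U with hD
  set P := g.region (U ∩ Pn) with hP
  have hJ' : (0 : ℝ) < J := by exact_mod_cast hJ
  have hq₀' : (0 : ℝ) < q₀ := by exact_mod_cast hq₀
  induction Z using Finset.induction_on with
  | empty =>
    intro _
    refine ⟨u, hu, fun z hz => absurd hz (notMem_empty z), by simp, by simp, fun W _ => by simp⟩
  | insert z Z hz ih =>
    intro hE
    rw [card_insert_of_notMem hz, Nat.cast_add, Nat.cast_one] at hE ⊢
    have hη : 0 ≤ C * E₁ / J := by positivity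
    obtain ⟨u₁, hu₁, hfl, hE₁, hl1, hL⟩ := ih (by nlinarith)
    have hEu₁ : roDir D u₁ ≤ E₁ := by nlinarith
    obtain ⟨u', hu', hout, ⟨k, hk1, hk2⟩, hE', hl1', hL'⟩ :=
      hone m₁ m₂ U Pn hU g ν hν z J q₀ hJ hq₀ (by omega) u₁ hu₁ E₁ hEu₁
    refine ⟨u', hu', ?_, ?_, ?_, ?_⟩
    · intro z' hz'
      rcases mem_insert.1 hz' with rfl | hz'
      · exact ⟨k, fun x _ hx => hk1 x hx, hk2⟩
      · obtain ⟨k', hk1', hk2'⟩ := hfl z' hz'
        refine ⟨k', fun x hx hx' => ?_, hk2'⟩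
        rw [hout x, hk1' x hx hx']
        intro hcon
        have hne : z' ≠ z := fun h => hz (h ▸ hz')
        have hdis := ro_vtx_disj g hν hne (r := 2 * q₀) (r' := 4 * (2 ^ J * q₀ : ℕ)) (by
          have h1 : q₀ ≤ 2 ^ J * q₀ := Nat.le_mul_of_pos_left _ (by positivity)
          have h2 : 2 * q₀ + 4 * (2 ^ J * q₀) ≤ ν := by omega
          exact_mod_cast h2)
        exact disjoint_left.1 hdis hx' hcon
    · linarith
    · have h1 : ∑ x ∈ D, |u' x - u x| ≤ ∑ x ∈ D, (|u' x - u₁ x| + |u₁ x - u x|) := by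
        refine sum_le_sum fun x _ => ?_
        have : u' x - u x = (u' x - u₁ x) + (u₁ x - u x) := by ring
        rw [this]
        exact abs_add_le _ _
      rw [sum_add_distrib] at h1
      linarith
    · intro W hW
      have h1 := hL' W hW
      have h2 := hL W hW
      set A := C * E₁ / (q₀ : ℝ) ^ 2 with hA
      have hA0 : 0 ≤ A := by positivity
      have h3 : (1 : ℝ) ≤ 3 ^ (Z.card + 1) := one_le_pow₀ (by norm_num)
      have e : (3 : ℝ) ^ (Z.card + 1) * (roL D W u + ((Z.card : ℝ) + 1) * A)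
          = 3 * (3 ^ Z.card * (roL D W u + (Z.card : ℝ) * A)) + 3 ^ (Z.card + 1) * A := by ring
      rw [e]
      nlinarith

/-! ## (C) collars -/

theorem ro_cel_fat_card_le {m₁ m₂ : ℕ} (g : DGrid m₁ m₂) {n : ℕ} (h : g.SideLe n) (κ : Fin m₁ × Fin m₂) (r : ℕ) :
    (((roCel g κ).fat r).card : ℝ) ≤ ((n : ℝ) + 2 * r) ^ 2 := by
  unfold RoCore.fat roCel
  rw [card_product, Int.card_Ico, Int.card_Ico]
  have h1 := h.1 κ.1
  have h2 := h.2 κ.2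
  have h3 : (g.x₁ κ.1.succ + r - (g.x₁ κ.1.castSucc - r)).toNat ≤ n + 2 * r := by omega
  have h4 : (g.x₂ κ.2.succ + r - (g.x₂ κ.2.castSucc - r)).toNat ≤ n + 2 * r := by omega
  have h5 := Nat.mul_le_mul h3 h4
  have h6 : (((g.x₁ κ.1.succ + r - (g.x₁ κ.1.castSucc - r)).toNat * (g.x₂ κ.2.succ + r - (g.x₂ κ.2.castSucc - r)).toNat : ℕ) : ℝ)
      ≤ (((n + 2 * r) * (n + 2 * r) : ℕ) : ℝ) := by exact_mod_cast h5
  refine h6.trans (le_of_eq ?_)
  push_cast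
  ring

/-- **the collar of one pinned cell** -/
theorem ro_collar_one : ∃ C : ℝ, 0 ≤ C ∧ ∀ (m₁ m₂ : ℕ) (U : Finset (Fin m₁ × Fin m₂)) (g : DGrid m₁ m₂) (ν K : ℕ), g.SideGe ν → g.SideLe (K * ν) →
    ∀ κ : Fin m₁ × Fin m₂, κ ∈ U → ∀ (J q₀ : ℕ), 0 < J → 0 < q₀ → 4 * (2 ^ J * q₀) ≤ ν →
    ∀ u : ℤ × ℤ → ℝ, (∀ y ∈ g.cell κ, u y = 0) →
      (∀ z, roCorner κ z → ∀ x ∈ g.region U, x ∈ (roVtx g z).fat (4 * (2 ^ J * q₀ : ℕ)) → u x = 0) →
    ∀ E₁ : ℝ, roDir (g.region U) u ≤ E₁ →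
    ∃ χ : ℤ × ℤ → ℝ, (∀ x, 0 ≤ χ x ∧ χ x ≤ 1) ∧ (∀ x ∈ (roCel g κ).fat (2 * q₀), χ x = 0) ∧
      (∀ x, x ∉ (roCel g κ).fat (4 * (2 ^ J * q₀ : ℕ)) → χ x = 1) ∧
      roDir (g.region U) (fun x => χ x * u x) ≤ roDir (g.region U) u + C * E₁ / J ∧
      ∑ x ∈ g.region U, |χ x * u x - u x| ≤ C * ((K : ℝ) + 2) * ν * ((2 ^ J * q₀ : ℕ) : ℝ) * Real.sqrt E₁ ∧
      ∀ W ⊆ g.region U, roL (g.region U) W (fun x => χ x * u x) ≤ 3 * roL (g.region U) W u + C * E₁ / (q₀ : ℝ) ^ 2 := by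
  refine ⟨6168, by norm_num, ?_⟩
  intro m₁ m₂ U g ν K hν hK κ hκ J q₀ hJ hq₀ hs u hu hcor E₁ hE
  set D := g.region U with hD
  set c := roCel g κ with hc
  have hE0 : 0 ≤ E₁ := (ro_dir_nonneg D u).trans hE
  have hJ' : (0 : ℝ) < J := by exact_mod_cast hJ
  have hq₀' : (0 : ℝ) < q₀ := by exact_mod_cast hq₀
  have hcle := ro_onGrid_le g (ro_cel_onGrid g κ)
  set n := 4 * (2 ^ J * q₀) with hn
  -- Hardy
  have hH := ro_hardy_cell g hν U hκ (n := n) hs u hu (fun z hz x hx hx' => hcor z hz x hx (by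
    have : ((n : ℕ) : ℤ) = 4 * ((2 ^ J * q₀ : ℕ) : ℤ) := by rw [hn]; push_cast; ring
    rwa [this] at hx'))
  rw [← hD, ← hc] at hH
  set F : ℤ × ℤ → ℝ := fun x => u x ^ 2 / ((c.dist x : ℤ) : ℝ) ^ 2 with hF
  have hF0 : ∀ x, 0 ≤ F x := fun x => by positivity
  set Big := D ∩ (c.fat n \ g.cell κ) with hBig
  have hH' : ∑ x ∈ Big, F x ≤ 4 * E₁ := hH.trans (by linarith)
  -- the zones
  have hzsub : ∀ j < J, D ∩ c.zone (2 ^ j * q₀) ⊆ Big := by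
    intro j hj x hx
    rw [mem_inter] at hx
    unfold RoCore.zone at hx
    rw [mem_sdiff] at hx
    rw [hBig, mem_inter, mem_sdiff]
    refine ⟨hx.1, ro_fat_mono c ?_ hx.2.1, fun hcon => hx.2.2 ?_⟩
    · have h1 : 2 ^ j * q₀ ≤ 2 ^ J * q₀ := Nat.mul_le_mul_right _ (Nat.pow_le_pow_right (by norm_num) hj.le)
      have h2 : 4 * (2 ^ j * q₀) ≤ n := by omega
      exact_mod_cast h2
    · rw [← ro_cel_fat_zero, ← hc] at hcon
      exact ro_fat_mono c (by positivity) hcon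
  have hzF : ∀ q : ℕ, 0 < q → ∑ x ∈ D ∩ c.zone q, u x ^ 2 ≤ 16 * (q : ℝ) ^ 2 * ∑ x ∈ D ∩ c.zone q, F x := by
    intro q hq
    rw [mul_sum]
    refine sum_le_sum fun x hx => ?_
    rw [mem_inter] at hx
    unfold RoCore.zone at hx
    rw [mem_sdiff, ro_mem_fat_iff_dist, ro_mem_fat_iff_dist] at hx
    have h1 : (0 : ℤ) < c.dist x := by
      have : (0 : ℤ) < q := by exact_mod_cast hq
      omega
    have h1' : (0 : ℝ) < ((c.dist x : ℤ) : ℝ) := by exact_mod_cast h1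
    have h2 : ((c.dist x : ℤ) : ℝ) ≤ 4 * (q : ℝ) := by exact_mod_cast hx.2.1
    have h3 : ((c.dist x : ℤ) : ℝ) ^ 2 ≤ 16 * (q : ℝ) ^ 2 := by nlinarith
    rw [hF]
    show u x ^ 2 ≤ 16 * (q : ℝ) ^ 2 * (u x ^ 2 / ((c.dist x : ℤ) : ℝ) ^ 2)
    rw [mul_div_assoc', le_div_iff₀ (by positivity)]
    nlinarith [sq_nonneg (u x)]
  have hsumF : ∑ j ∈ range J, ∑ x ∈ D ∩ c.zone (2 ^ j * q₀), F x ≤ ∑ x ∈ Big, F x :=
    ro_sq_disj Big (range J) (fun j => D ∩ c.zone (2 ^ j * q₀)) (fun j hj => hzsub j (mem_range.1 hj))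
      (fun _ _ _ _ hij => (ro_zone_dyadic_disj c q₀ hij).mono inter_subset_right inter_subset_right) F hF0
  have hsum : ∑ j ∈ range J, (roDir (D ∩ c.zone (2 ^ j * q₀)) u + 64 * ∑ x ∈ D ∩ c.zone (2 ^ j * q₀), F x) ≤ 257 * E₁ := by
    rw [sum_add_distrib, ← mul_sum]
    have := (ro_zone_energy_sum D c q₀ J u).trans hE
    linarith
  obtain ⟨j, hj, haj⟩ := ro_pigeon J hJ _ _ hsum
  set q := 2 ^ j * q₀ with hq
  have hq0 : 0 < q := by positivity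
  have hqq₀ : q₀ ≤ q := Nat.le_mul_of_pos_left _ (by positivity)
  have hqJ : q ≤ 2 ^ J * q₀ := Nat.mul_le_mul_right _ (Nat.pow_le_pow_right (by norm_num) hj.le)
  have hqν : 4 * q ≤ ν := (Nat.mul_le_mul_left 4 hqJ).trans hs
  have hq' : (0 : ℝ) < q := by exact_mod_cast hq0
  have hcut : RoCut q D (c.chi q) := ro_core_cut g U hν (ro_cel_onGrid g κ) hq0 hqν
  have hzone : RoZone D (c.zone q) (c.chi q) := ro_core_zone c hcle.1 hcle.2 hq0 D
  set a := roDir (D ∩ c.zone q) u with ha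
  set b := ∑ x ∈ D ∩ c.zone q, F x with hb
  have ha0 : 0 ≤ a := ro_dir_nonneg _ _
  have hb0 : 0 ≤ b := sum_nonneg fun x _ => hF0 x
  have hzq := hzF q hq0
  have emod : roMod (c.chi q) 0 u = fun x => c.chi q x * u x := by
    funext x; unfold roMod; ring
  have hJ1 : (1 : ℝ) ≤ J := by exact_mod_cast hJ
  have habE : a + 64 * b ≤ 257 * E₁ := by
    refine haj.trans ?_
    rw [div_le_iff₀ hJ']
    nlinarith
  refine ⟨c.chi q, hcut.mem, ?_, ?_, ?_, ?_, ?_⟩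
  · intro x hx
    refine ro_core_chi_zero c hq0 (ro_fat_mono c ?_ hx)
    exact_mod_cast Nat.mul_le_mul_left 2 hqq₀
  · intro x hx
    refine ro_core_chi_one c hcle.1 hcle.2 hq0 fun hcon => hx (ro_fat_mono c ?_ hcon)
    exact_mod_cast Nat.mul_le_mul_left 4 hqJ
  · have h1 := ro_modify_E hcut hzone 0 u
    rw [emod] at h1
    simp only [sub_zero] at h1
    have h2 : 4 / (q : ℝ) ^ 2 * ∑ x ∈ D ∩ c.zone q, u x ^ 2 ≤ 4 / (q : ℝ) ^ 2 * (16 * (q : ℝ) ^ 2 * b) :=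
      mul_le_mul_of_nonneg_left hzq (by positivity)
    have e2 : 4 / (q : ℝ) ^ 2 * (16 * (q : ℝ) ^ 2 * b) = 64 * b := by field_simp; ring
    rw [e2] at h2
    have h3 : 257 * E₁ / J ≤ 6168 * E₁ / J := by
      apply div_le_div_of_nonneg_right _ hJ'.le
      linarith
    linarith
  · have h1 := ro_modify_l1 (D := D) (B := c.fat (4 * q)) hcut.mem (fun x hx => ro_core_chi_one c hcle.1 hcle.2 hq0 hx) 0 u
    rw [emod] at h1
    simp only [sub_zero] at h1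
    have hcard : ((D ∩ c.fat (4 * q)).card : ℝ) ≤ (((K : ℝ) + 2) * ν) ^ 2 := by
      have h2 : ((D ∩ c.fat (4 * q)).card : ℝ) ≤ ((c.fat (4 * q)).card : ℝ) := by
        exact_mod_cast card_le_card inter_subset_right
      have h3 := ro_cel_fat_card_le g hK κ (4 * q)
      push_cast at h3
      rw [← hc] at h3
      have h4 : (4 : ℝ) * q ≤ ν := by exact_mod_cast hqν
      have h5 : (K : ℝ) * ν + 2 * (4 * q) ≤ ((K : ℝ) + 2) * ν := by nlinarith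
      have h6 : (0 : ℝ) ≤ (K : ℝ) * ν + 2 * (4 * q) := by positivity
      exact h2.trans (h3.trans (pow_le_pow_left₀ h6 h5 2))
    have hsq : ∑ x ∈ D ∩ c.fat (4 * q), u x ^ 2 ≤ 64 * (q : ℝ) ^ 2 * E₁ := by
      have h2 : ∑ x ∈ D ∩ c.fat (4 * q), u x ^ 2 ≤ ∑ x ∈ D ∩ c.fat (4 * q), (if x ∈ Big then 16 * (q : ℝ) ^ 2 * F x else 0) := by
        refine sum_le_sum fun x hx => ?_
        rw [mem_inter] at hx
        by_cases hcell : x ∈ g.cell κ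
        · rw [hu x hcell]
          split_ifs
          · have := hF0 x
            have h0 : (0 : ℝ) ≤ 16 * (q : ℝ) ^ 2 * F x := by positivity
            simpa using h0
          · norm_num
        · have hxB : x ∈ Big := by
            rw [hBig, mem_inter, mem_sdiff]
            refine ⟨hx.1, ro_fat_mono c ?_ hx.2, hcell⟩
            have h2 : 4 * q ≤ n := by omega
            exact_mod_cast h2
          rw [if_pos hxB]
          have hd1 : (0 : ℤ) < c.dist x := by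
            rw [← ro_cel_fat_zero, ← hc, ro_mem_fat_iff_dist] at hcell
            omega
          have hd2 := (ro_mem_fat_iff_dist c _ x).1 hx.2
          have h1' : (0 : ℝ) < ((c.dist x : ℤ) : ℝ) := by exact_mod_cast hd1
          have h2' : ((c.dist x : ℤ) : ℝ) ≤ 4 * (q : ℝ) := by exact_mod_cast hd2
          have h3 : ((c.dist x : ℤ) : ℝ) ^ 2 ≤ 16 * (q : ℝ) ^ 2 := by nlinarith
          show u x ^ 2 ≤ 16 * (q : ℝ) ^ 2 * (u x ^ 2 / ((c.dist x : ℤ) : ℝ) ^ 2)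
          rw [mul_div_assoc', le_div_iff₀ (by positivity)]
          nlinarith [sq_nonneg (u x)]
      rw [sum_ite_mem, ← mul_sum] at h2
      have h3 : ∑ x ∈ D ∩ c.fat (4 * q) ∩ Big, F x ≤ ∑ x ∈ Big, F x :=
        sum_le_sum_of_subset_of_nonneg inter_subset_right fun x _ _ => hF0 x
      have h4 : 16 * (q : ℝ) ^ 2 * ∑ x ∈ D ∩ c.fat (4 * q) ∩ Big, F x ≤ 16 * (q : ℝ) ^ 2 * (4 * E₁) :=
        mul_le_mul_of_nonneg_left (h3.trans hH') (by positivity)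
      linarith
    have h4 := ro_l1_le (D ∩ c.fat (4 * q)) u _ _ hcard hsq
    refine h1.trans (h4.trans ?_)
    have e5 : (((K : ℝ) + 2) * ν) ^ 2 * (64 * (q : ℝ) ^ 2 * E₁) = (((K : ℝ) + 2) * ν * (8 * q)) ^ 2 * E₁ := by ring
    rw [e5, Real.sqrt_mul (by positivity), Real.sqrt_sq (by positivity)]
    have h7 : (q : ℝ) ≤ ((2 ^ J * q₀ : ℕ) : ℝ) := by exact_mod_cast hqJ
    have h8 : 0 ≤ Real.sqrt E₁ := Real.sqrt_nonneg _
    refine mul_le_mul_of_nonneg_right ?_ h8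
    have h9 : (0 : ℝ) ≤ ((K : ℝ) + 2) * ν := by positivity
    nlinarith
  · intro W hW
    have h1 := ro_modify_L hcut hzone hW 0 u
    rw [emod] at h1
    simp only [sub_zero] at h1
    have h2 : 48 / (q : ℝ) ^ 4 * ∑ x ∈ D ∩ c.zone q, u x ^ 2 ≤ 48 / (q : ℝ) ^ 4 * (16 * (q : ℝ) ^ 2 * b) :=
      mul_le_mul_of_nonneg_left hzq (by positivity)
    have e2 : 48 / (q : ℝ) ^ 4 * (16 * (q : ℝ) ^ 2 * b) + 24 / (q : ℝ) ^ 2 * a = (768 * b + 24 * a) / (q : ℝ) ^ 2 := by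
      field_simp
      ring
    have h3 : (768 * b + 24 * a) / (q : ℝ) ^ 2 ≤ 6168 * E₁ / (q₀ : ℝ) ^ 2 := by
      have h4 : (q₀ : ℝ) ^ 2 ≤ (q : ℝ) ^ 2 := by
        have : (q₀ : ℝ) ≤ (q : ℝ) := by exact_mod_cast hqq₀
        exact pow_le_pow_left₀ hq₀'.le this 2
      exact div_le_div₀ (by positivity) (by linarith) (by positivity) h4
    linarith

/-- **(C) the collars of the pinned cells of `Q`** -/
theorem ro_collar_ind : ∃ C : ℝ, 0 ≤ C ∧ ∀ (m₁ m₂ : ℕ) (U Pn : Finset (Fin m₁ × Fin m₂)) (g : DGrid m₁ m₂) (ν K : ℕ), g.SideGe ν → g.SideLe (K * ν) →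
    ∀ (J q₀ ρ : ℕ), 0 < J → 0 < q₀ → 4 * (2 ^ J * q₀) ≤ ρ → 2 * ρ ≤ ν → ∀ E₁ : ℝ, 0 ≤ E₁ →
    ∀ (Q : Finset (Fin m₁ × Fin m₂)), Q ⊆ U ∩ Pn → ∀ u : ℤ × ℤ → ℝ, (∀ y ∈ g.region (U ∩ Pn), u y = 0) →
    RoFlatAt g (g.region U) (g.region (U ∩ Pn)) Finset.univ ρ u → roDir (g.region U) u + Q.card * (C * E₁ / J) ≤ E₁ →
    ∃ u' : ℤ × ℤ → ℝ, (∀ x, u x = 0 → u' x = 0) ∧ (∀ κ ∈ Q, ∀ x ∈ (roCel g κ).fat (2 * q₀), u' x = 0) ∧
      RoFlatAt g (g.region U) (g.region (U ∩ Pn)) Finset.univ ρ u' ∧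
      roDir (g.region U) u' ≤ roDir (g.region U) u + Q.card * (C * E₁ / J) ∧
      ∑ x ∈ g.region U, |u' x - u x| ≤ Q.card * (C * ((K : ℝ) + 2) * ν * ((2 ^ J * q₀ : ℕ) : ℝ) * Real.sqrt E₁) ∧
      ∀ W ⊆ g.region U, roL (g.region U) W u' ≤ 3 ^ Q.card * (roL (g.region U) W u + Q.card * (C * E₁ / (q₀ : ℝ) ^ 2)) := by
  obtain ⟨C, hC, hone⟩ := ro_collar_one
  refine ⟨C, hC, ?_⟩
  intro m₁ m₂ U Pn g ν K hν hK J q₀ ρ hJ hq₀ hs hρ E₁ hE0 Q
  set D := g.region U with hD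
  set P := g.region (U ∩ Pn) with hP
  have hJ' : (0 : ℝ) < J := by exact_mod_cast hJ
  have hq₀' : (0 : ℝ) < q₀ := by exact_mod_cast hq₀
  have hη : 0 ≤ C * E₁ / J := by positivity
  induction Q using Finset.induction_on with
  | empty =>
    intro _ u _ hfl _
    exact ⟨u, fun _ h => h, fun κ hκ => absurd hκ (notMem_empty κ), hfl, by simp, by simp, fun W _ => by simp⟩
  | insert κ Q hκQ ih =>
    intro hQ u hu hfl hE
    rw [card_insert_of_notMem hκQ, Nat.cast_add, Nat.cast_one] at hE ⊢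
    have hκ : κ ∈ U ∩ Pn := hQ (mem_insert_self κ Q)
    have hκU : κ ∈ U := (mem_inter.1 hκ).1
    obtain ⟨u₁, hz₁, hcol₁, hfl₁, hE₁, hl1, hL⟩ := ih (fun x hx => hQ (mem_insert_of_mem hx)) u hu hfl (by nlinarith)
    have hEu₁ : roDir D u₁ ≤ E₁ := by nlinarith
    have hcellP : g.cell κ ⊆ P := ro_cell_subset_region g hκ
    have hcorner : ∀ z, roCorner κ z → ∀ x ∈ D, x ∈ (roVtx g z).fat ρ → u₁ x = 0 := by
      intro z hz x hx hx'
      obtain ⟨k, hk1, hk2⟩ := hfl₁ z (mem_univ z)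
      obtain ⟨y, hy, hy'⟩ := ro_corner_touch g hz
      rw [hk1 x hx hx', hk2 ⟨y, hcellP hy, hy'⟩]
    obtain ⟨χ, hχm, hχ0, hχ1, hE', hl1', hL'⟩ := hone m₁ m₂ U g ν K hν hK κ hκU J q₀ hJ hq₀ (by omega) u₁
      (fun y hy => hz₁ y (hu y (hcellP hy)))
      (fun z hz x hx hx' => hcorner z hz x hx (ro_fat_mono _ (by exact_mod_cast hs) hx')) E₁ hEu₁
    refine ⟨fun x => χ x * u₁ x, ?_, ?_, ?_, ?_, ?_, ?_⟩
    · intro x hx
      show χ x * u₁ x = 0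
      rw [hz₁ x hx, mul_zero]
    · intro κ' hκ' x hx
      show χ x * u₁ x = 0
      rcases mem_insert.1 hκ' with rfl | hκ'
      · rw [hχ0 x hx, zero_mul]
      · rw [hcol₁ κ' hκ' x hx, mul_zero]
    · intro z hz
      by_cases hcz : roCorner κ z
      · refine ⟨0, fun x hx hx' => ?_, fun _ => rfl⟩
        show χ x * u₁ x = 0
        rw [hcorner z hcz x hx hx', mul_zero]
      · obtain ⟨k, hk1, hk2⟩ := hfl₁ z hz
        refine ⟨k, fun x hx hx' => ?_, hk2⟩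
        show χ x * u₁ x = k
        have hdis := ro_vtx_cel_disj g hν hcz (r := ρ) (r' := 4 * (2 ^ J * q₀ : ℕ)) (by
          have h2 : ρ + 4 * (2 ^ J * q₀) ≤ ν := by omega
          exact_mod_cast h2)
        rw [hχ1 x (fun hcon => disjoint_left.1 hdis hx' hcon), one_mul, hk1 x hx hx']
    · linarith
    · have h1 : ∑ x ∈ D, |χ x * u₁ x - u x| ≤ ∑ x ∈ D, (|χ x * u₁ x - u₁ x| + |u₁ x - u x|) := by
        refine sum_le_sum fun x _ => ?_
        have : χ x * u₁ x - u x = (χ x * u₁ x - u₁ x) + (u₁ x - u x) := by ring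
        rw [this]
        exact abs_add_le _ _
      rw [sum_add_distrib] at h1
      linarith
    · intro W hW
      have h1 := hL' W hW
      have h2 := hL W hW
      set A := C * E₁ / (q₀ : ℝ) ^ 2 with hA
      have hA0 : 0 ≤ A := by positivity
      have h3 : (1 : ℝ) ≤ 3 ^ (Q.card + 1) := one_le_pow₀ (by norm_num)
      have e : (3 : ℝ) ^ (Q.card + 1) * (roL D W u + ((Q.card : ℝ) + 1) * A)
          = 3 * (3 ^ Q.card * (roL D W u + (Q.card : ℝ) * A)) + 3 ^ (Q.card + 1) * A := by ring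
      rw [e]
      nlinarith

theorem ro_lap_zero_of_nb (D : Finset (ℤ × ℤ)) (u : ℤ × ℤ → ℝ) {x : ℤ × ℤ} (h0 : u x = 0) (h : ∀ y ∈ roNb x, u y = 0) : roLap D u x = 0 := by
  by_cases hx : x ∈ D
  · rw [ro_lap_nb D u hx]
    refine sum_eq_zero fun y hy => ?_
    rw [h0, h y (mem_filter.1 hy).1, sub_zero]
  · exact ro_lap_off D u hx

/-- a function which vanishes near the pinned cells has no Laplacian on them -/
theorem ro_L_collar {m₁ m₂ : ℕ} (g : DGrid m₁ m₂) (U V : Finset (Fin m₁ × Fin m₂)) {q₀ : ℕ} (hq₀ : 0 < q₀) (u : ℤ × ℤ → ℝ)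
    (h : ∀ κ ∈ V, ∀ x ∈ (roCel g κ).fat (2 * q₀), u x = 0) :
    roL (g.region U) (g.region U) u = roL (g.region U) (g.region U \ g.region V) u := by
  unfold roL
  symm
  refine sum_subset sdiff_subset fun x hx hx' => ?_
  have hxV : x ∈ g.region V := by
    by_contra hcon
    exact hx' (mem_sdiff.2 ⟨hx, hcon⟩)
  obtain ⟨κ, hκ, hxκ⟩ := (ro_mem_region g V x).1 hxV
  rw [← ro_cel_fat_zero, ro_mem_fat] at hxκ
  have hq : (0 : ℤ) < q₀ := by exact_mod_cast hq₀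
  rw [ro_lap_zero_of_nb]
  · norm_num
  · apply h κ hκ
    rw [ro_mem_fat]
    omega
  · intro y hy
    apply h κ hκ
    rw [ro_mem_fat]
    rcases ro_mem_nb.1 hy with rfl | rfl | rfl | rfl <;> simp only <;> omega

end

end Claimed.Agent.R285.Pot
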