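import Claimed.Agent.R285.Pot.StripLine

/-!
# ROW 285, POT-STRIP block 4 : collars in a geometry `(Γ, g)` (owner helper53).   Paper-free.

`d = psDist Γ g A ρ` = sup distance to the cells of `A` in the same component, truncated at `ρ + 1`.   `ρ < ν ≤` all sides.
MAIN: `ps_geom_weight`: `∑_{1 ≤ d ≤ ρ} ω(d) v² ≤ C |A| W_E en v + C (W_c/δ) ∑_A v²` for EVERY field `v` on the graph.
PROOF.  If `1 ≤ d x = psDistCell g κ₀ x ≤ ρ < ν`, `x ∈ κ`, `Conn κ κ₀`, then `κ` is one of the 8 neighbours of `κ₀`.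
Face neighbour: the face is not removed (`NoDiag` (a)), flat frame with origin on the face (`ps_frame_flat`, 4 orientations).
Diagonal neighbour: `NoDiag` (b) gives a third cell joined to both by faces which are not removed: corner frame through it (`ps_frame_corner`, 4 corners x 2 ways).
Sum over `κ₀ ∈ A` and over the 8 + 4 frames; `ω(d x) v x²` is one of the terms.
-/

set_option autoImplicit false

namespace Claimed.Agent.R285.Pot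

open scoped Classical

noncomputable section

/-- LEAF L-PS-G0: at most four edges at a vertex of `domG`. -/
theorem ps_deg4 (D : Finset (ℤ × ℤ)) (cut : Set Bond) : psDeg (domG D cut) 4 := by
  intro x
  have h1 : (Finset.univ.filter fun e : (domG D cut).E => (domG D cut).src e = x).card ≤ 2 := by
    have := Finset.card_le_card_of_injOn (s := Finset.univ.filter fun e : (domG D cut).E => (domG D cut).src e = x)
      (t := (Finset.univ : Finset Bool)) (fun e => (domBond e).2) (fun _ _ => Finset.mem_univ _) (by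
        intro e he e' he' h
        have a1 : (domG D cut).src e = x := (Finset.mem_filter.1 he).2
        have a2 : (domG D cut).src e' = x := (Finset.mem_filter.1 he').2
        have a3 : (domBond e).1 = (domBond e').1 := congrArg domPos (a1.trans a2.symm)
        exact Subtype.ext (Prod.ext a3 h))
    simpa using this
  have h2 : (Finset.univ.filter fun e : (domG D cut).E => (domG D cut).tgt e = x).card ≤ 2 := by
    have := Finset.card_le_card_of_injOn (s := Finset.univ.filter fun e : (domG D cut).E => (domG D cut).tgt e = x)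
      (t := (Finset.univ : Finset Bool)) (fun e => (domBond e).2) (fun _ _ => Finset.mem_univ _) (by
        intro e he e' he' h
        have a1 : (domG D cut).tgt e = x := (Finset.mem_filter.1 he).2
        have a2 : (domG D cut).tgt e' = x := (Finset.mem_filter.1 he').2
        have a3 : (domBond e).snd = (domBond e').snd := congrArg domPos (a1.trans a2.symm)
        have h' : (domBond e).2 = (domBond e').2 := h
        apply Subtype.ext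
        show domBond e = domBond e'
        generalize domBond e = u at a3 h' ⊢
        generalize domBond e' = u' at a3 h' ⊢
        obtain ⟨⟨a, c⟩, d⟩ := u
        obtain ⟨⟨a', c'⟩, d'⟩ := u'
        have h'' : d = d' := h'
        subst h''
        cases d
        · simp only [Bond.snd, Bool.false_eq_true, if_false, Prod.mk.injEq] at a3
          have b1 : a = a' := a3.1
          have b2 : c = c' := by omega
          rw [b1, b2]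
        · simp only [Bond.snd, if_true, Prod.mk.injEq] at a3
          have b1 : a = a' := by omega
          have b2 : c = c' := a3.2
          rw [b1, b2])
    simpa using this
  omega

/-- order of the indices of two intervals of a grid -/
theorem ps_idx_le {m : ℕ} {x : Fin (m + 1) → ℤ} (hx : StrictMono x) {i i' : Fin m} {a a' : ℤ}
    (h1 : x i.castSucc ≤ a) (h2 : a' < x i'.succ) (h : a ≤ a') : i ≤ i' := by
  by_contra hc
  have h3 : i'.succ ≤ i.castSucc := by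
    rw [Fin.le_def]
    simp only [Fin.val_succ, Fin.val_castSucc]
    have : i' < i := not_le.1 hc
    exact this
  have := hx.monotone h3
  omega

theorem ps_idx_le_succ {m : ℕ} {x : Fin (m + 1) → ℤ} (hx : StrictMono x) {i i' : Fin m} {a a' : ℤ}
    (h1 : a < x i.succ) (h2 : x i'.castSucc ≤ a') (h : a' ≤ a + 1) : i'.1 ≤ i.1 + 1 := by
  by_contra hc
  have h3 : i.succ < i'.castSucc := by
    rw [Fin.lt_def]
    simp only [Fin.val_succ, Fin.val_castSucc]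
    omega
  have := hx h3
  omega

variable {m₁ m₂ : ℕ} (Γ : CGeom m₁ m₂) (g : DGrid m₁ m₂)

theorem ps_mem_cell {κ : Fin m₁ × Fin m₂} {z : ℤ × ℤ} :
    z ∈ g.cell κ ↔ (g.x₁ κ.1.castSucc ≤ z.1 ∧ z.1 < g.x₁ κ.1.succ) ∧ (g.x₂ κ.2.castSucc ≤ z.2 ∧ z.2 < g.x₂ κ.2.succ) := by
  simp [DGrid.cell, Finset.mem_product, Finset.mem_Ico]

/-- the cells are disjoint -/
theorem ps_cell_unique {κ κ' : Fin m₁ × Fin m₂} {z : ℤ × ℤ} (h : z ∈ g.cell κ) (h' : z ∈ g.cell κ') : κ = κ' := by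
  rw [ps_mem_cell] at h h'
  apply Prod.ext
  · exact le_antisymm (ps_idx_le g.mono₁ h.1.1 h'.1.2 le_rfl) (ps_idx_le g.mono₁ h'.1.1 h.1.2 le_rfl)
  · exact le_antisymm (ps_idx_le g.mono₂ h.2.1 h'.2.2 le_rfl) (ps_idx_le g.mono₂ h'.2.1 h.2.2 le_rfl)

theorem ps_pos_mem (x : (Γ.graph g).V) : domPos (D := g.region Γ.T) (cut := Γ.cutB g) x ∈ g.region Γ.T := x.2

theorem ps_pos_cell (x : (Γ.graph g).V) : ∃ κ ∈ Γ.T, domPos (D := g.region Γ.T) (cut := Γ.cutB g) x ∈ g.cell κ := by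
  have := ps_pos_mem Γ g x
  unfold DGrid.region at this
  exact Finset.mem_biUnion.1 this

theorem ps_cell_T (x : (Γ.graph g).V) {κ : Fin m₁ × Fin m₂}
    (h : domPos (D := g.region Γ.T) (cut := Γ.cutB g) x ∈ g.cell κ) : κ ∈ Γ.T := by
  obtain ⟨κ', h1, h2⟩ := ps_pos_cell Γ g x
  rw [ps_cell_unique g h h2]
  exact h1

/-- LEAF L-PS-G1: an edge of the graph joins two sites of one cell or of two adjacent cells. -/
theorem ps_edge_cells (e : (Γ.graph g).E) {κ κ' : Fin m₁ × Fin m₂}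
    (h : domPos (D := g.region Γ.T) (cut := Γ.cutB g) ((Γ.graph g).src e) ∈ g.cell κ)
    (h' : domPos (D := g.region Γ.T) (cut := Γ.cutB g) ((Γ.graph g).tgt e) ∈ g.cell κ') : κ = κ' ∨ Γ.Adj κ κ' := by
  have hT := ps_cell_T Γ g _ h
  have hT' := ps_cell_T Γ g _ h'
  have hcut : domBond (D := g.region Γ.T) (cut := Γ.cutB g) e ∉ Γ.cutB g := (Finset.mem_filter.1 e.2).2.2
  have e1 : domPos (D := g.region Γ.T) (cut := Γ.cutB g) ((Γ.graph g).src e) = (domBond (D := g.region Γ.T) (cut := Γ.cutB g) e).1 := rfl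
  have e2 : domPos (D := g.region Γ.T) (cut := Γ.cutB g) ((Γ.graph g).tgt e) = (domBond (D := g.region Γ.T) (cut := Γ.cutB g) e).snd := rfl
  rw [e1] at h
  rw [e2] at h'
  generalize domBond (D := g.region Γ.T) (cut := Γ.cutB g) e = u at h h' hcut
  by_cases hk : κ = κ'
  · exact Or.inl hk
  right
  have hn : u.snd ∉ g.cell κ := fun hc => hk (ps_cell_unique g hc h')
  have hcF : (κ, u.2) ∉ Γ.cutF := fun hc => hcut ⟨(κ, u.2), hc, rfl, h, hn⟩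
  obtain ⟨⟨a, c⟩, d⟩ := u
  rw [ps_mem_cell] at h h'
  refine ⟨hT, hT', ?_⟩
  cases d
  · simp only [Bond.snd, Bool.false_eq_true, if_false] at h'
    have i1 : κ.1 = κ'.1 :=
      le_antisymm (ps_idx_le g.mono₁ h.1.1 h'.1.2 le_rfl) (ps_idx_le g.mono₁ h'.1.1 h.1.2 le_rfl)
    have i2 : κ.2 ≤ κ'.2 := ps_idx_le g.mono₂ h.2.1 h'.2.2 (by simp)
    have i3 : κ'.2.1 ≤ κ.2.1 + 1 := ps_idx_le_succ g.mono₂ h.2.2 h'.2.1 le_rfl
    have i4 : κ.2 ≠ κ'.2 := fun hc => hk (Prod.ext i1 hc)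
    have i5 : κ.2.1 ≠ κ'.2.1 := fun hc => i4 (Fin.ext hc)
    have i6 : κ.2.1 ≤ κ'.2.1 := i2
    exact Or.inr (Or.inl ⟨i1, by omega, hcF⟩)
  · simp only [Bond.snd, if_true] at h'
    have i1 : κ.2 = κ'.2 :=
      le_antisymm (ps_idx_le g.mono₂ h.2.1 h'.2.2 le_rfl) (ps_idx_le g.mono₂ h'.2.1 h.2.2 le_rfl)
    have i2 : κ.1 ≤ κ'.1 := ps_idx_le g.mono₁ h.1.1 h'.1.2 (by simp)
    have i3 : κ'.1.1 ≤ κ.1.1 + 1 := ps_idx_le_succ g.mono₁ h.1.2 h'.1.1 le_rfl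
    have i4 : κ.1 ≠ κ'.1 := fun hc => hk (Prod.ext hc i1)
    have i5 : κ.1.1 ≠ κ'.1.1 := fun hc => i4 (Fin.ext hc)
    have i6 : κ.1.1 ≤ κ'.1.1 := i2
    exact Or.inl ⟨by omega, i1, hcF⟩

theorem ps_adj_symm {κ κ' : Fin m₁ × Fin m₂} (h : Γ.Adj κ κ') : Γ.Adj κ' κ := by
  obtain ⟨h1, h2, h3⟩ := h
  refine ⟨h2, h1, ?_⟩
  rcases h3 with ⟨a, b, c⟩ | ⟨a, b, c⟩ | ⟨a, b, c⟩ | ⟨a, b, c⟩
  · exact Or.inr (Or.inr (Or.inl ⟨a, b.symm, c⟩))
  · exact Or.inr (Or.inr (Or.inr ⟨a.symm, b, c⟩))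
  · exact Or.inl ⟨a, b.symm, c⟩
  · exact Or.inr (Or.inl ⟨a.symm, b, c⟩)

theorem ps_distBox_lip (lo hi z z' : ℤ × ℤ) (h1 : z.1 ≤ z'.1 + 1) (h2 : z'.1 ≤ z.1 + 1) (h3 : z.2 ≤ z'.2 + 1)
    (h4 : z'.2 ≤ z.2 + 1) : psDistBox lo hi z ≤ psDistBox lo hi z' + 1 := by
  unfold psDistBox
  omega

theorem ps_dist_mem (A : Finset (Fin m₁ × Fin m₂)) (ρ : ℕ) (x : (Γ.graph g).V) :
    psDist Γ g A ρ x ∈ ({ρ + 1} ∪ psDistSet Γ g A x : Set ℕ) :=
  Nat.sInf_mem ⟨ρ + 1, Or.inl rfl⟩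

theorem ps_dist_le_top (A : Finset (Fin m₁ × Fin m₂)) (ρ : ℕ) (x : (Γ.graph g).V) : psDist Γ g A ρ x ≤ ρ + 1 :=
  Nat.sInf_le (Or.inl rfl)

theorem ps_dist_le_of_mem (A : Finset (Fin m₁ × Fin m₂)) (ρ : ℕ) (x : (Γ.graph g).V) {n : ℕ}
    (hn : n ∈ psDistSet Γ g A x) : psDist Γ g A ρ x ≤ n :=
  Nat.sInf_le (Or.inr hn)

theorem ps_dist_step (A : Finset (Fin m₁ × Fin m₂)) (ρ : ℕ) (x y : (Γ.graph g).V)
    (h1 : (domPos (D := g.region Γ.T) (cut := Γ.cutB g) x).1 ≤ (domPos (D := g.region Γ.T) (cut := Γ.cutB g) y).1 + 1)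
    (h2 : (domPos (D := g.region Γ.T) (cut := Γ.cutB g) y).1 ≤ (domPos (D := g.region Γ.T) (cut := Γ.cutB g) x).1 + 1)
    (h3 : (domPos (D := g.region Γ.T) (cut := Γ.cutB g) x).2 ≤ (domPos (D := g.region Γ.T) (cut := Γ.cutB g) y).2 + 1)
    (h4 : (domPos (D := g.region Γ.T) (cut := Γ.cutB g) y).2 ≤ (domPos (D := g.region Γ.T) (cut := Γ.cutB g) x).2 + 1)
    (hc : ∀ κ κ', domPos (D := g.region Γ.T) (cut := Γ.cutB g) x ∈ g.cell κ →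
      domPos (D := g.region Γ.T) (cut := Γ.cutB g) y ∈ g.cell κ' → κ = κ' ∨ Γ.Adj κ κ') :
    psDist Γ g A ρ x ≤ psDist Γ g A ρ y + 1 := by
  rcases ps_dist_mem Γ g A ρ y with hy | hy
  · have hy' : psDist Γ g A ρ y = ρ + 1 := hy
    have := ps_dist_le_top Γ g A ρ x
    omega
  · obtain ⟨κ', hκ', κ₀, hκ₀, hp, hconn, hd⟩ := hy
    obtain ⟨κ, hκ, hpx⟩ := ps_pos_cell Γ g x
    have hconn' : Γ.Conn κ κ₀ := by
      rcases hc κ κ' hpx hp with rfl | ha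
      · exact hconn
      · exact Relation.ReflTransGen.head ha hconn
    have h5 : psDist Γ g A ρ x ≤ psDistCell g κ₀ (domPos (D := g.region Γ.T) (cut := Γ.cutB g) x) :=
      ps_dist_le_of_mem Γ g A ρ x ⟨κ, hκ, κ₀, hκ₀, hpx, hconn', rfl⟩
    have h6 : psDistCell g κ₀ (domPos (D := g.region Γ.T) (cut := Γ.cutB g) x)
        ≤ psDistCell g κ₀ (domPos (D := g.region Γ.T) (cut := Γ.cutB g) y) + 1 :=
      ps_distBox_lip _ _ _ _ h1 h2 h3 h4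
    omega

/-- LEAF L-PS-G1: `psDist` is a layer function (from `ps_edge_cells`; `psDistCell` is 1-Lipschitz for the sup norm). -/
theorem ps_dist_layer (A : Finset (Fin m₁ × Fin m₂)) (ρ : ℕ) : psLayer (psDist Γ g A ρ) := by
  intro e
  have e1 : domPos (D := g.region Γ.T) (cut := Γ.cutB g) ((Γ.graph g).src e) = (domBond (D := g.region Γ.T) (cut := Γ.cutB g) e).1 := rfl
  have e2 : domPos (D := g.region Γ.T) (cut := Γ.cutB g) ((Γ.graph g).tgt e) = (domBond (D := g.region Γ.T) (cut := Γ.cutB g) e).snd := rfl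
  have k : ∀ u : Bond, u.1.1 ≤ u.snd.1 + 1 ∧ u.snd.1 ≤ u.1.1 + 1 ∧ u.1.2 ≤ u.snd.2 + 1 ∧ u.snd.2 ≤ u.1.2 + 1 := by
    rintro ⟨⟨a, c⟩, d⟩
    cases d <;> simp [Bond.snd] <;> omega
  obtain ⟨k1, k2, k3, k4⟩ := k (domBond (D := g.region Γ.T) (cut := Γ.cutB g) e)
  constructor
  · apply ps_dist_step Γ g A ρ
    · rw [e1, e2]; exact k1
    · rw [e1, e2]; exact k2
    · rw [e1, e2]; exact k3
    · rw [e1, e2]; exact k4
    · intro κ κ' h h'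
      exact ps_edge_cells Γ g e h h'
  · apply ps_dist_step Γ g A ρ
    · rw [e1, e2]; exact k2
    · rw [e1, e2]; exact k1
    · rw [e1, e2]; exact k4
    · rw [e1, e2]; exact k3
    · intro κ κ' h h'
      rcases ps_edge_cells Γ g e h' h with hh | hh
      · exact Or.inl hh.symm
      · exact Or.inr (ps_adj_symm Γ hh)

/-- LEAF L-PS-G2 -/
theorem ps_collar_iff (A : Finset (Fin m₁ × Fin m₂)) {δ ρ : ℕ} (h : δ ≤ ρ) (x : (Γ.graph g).V) :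
    x ∈ psCollar Γ g A δ ↔ psDist Γ g A ρ x ≤ δ := by
  constructor
  · rintro ⟨n, hn, hnd⟩
    exact (ps_dist_le_of_mem Γ g A ρ x hn).trans hnd
  · intro hd
    rcases ps_dist_mem Γ g A ρ x with hy | hy
    · have hy' : psDist Γ g A ρ x = ρ + 1 := hy
      omega
    · exact ⟨_, hy, hd⟩

theorem ps_distCell_eq_zero {κ : Fin m₁ × Fin m₂} {z : ℤ × ℤ} : psDistCell g κ z = 0 ↔ z ∈ g.cell κ := by
  rw [ps_mem_cell]
  unfold psDistCell psDistBox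
  simp only
  omega

/-- LEAF L-PS-G2 -/
theorem ps_dist_eq_zero (A : Finset (Fin m₁ × Fin m₂)) (hA : A ⊆ Γ.T) (ρ : ℕ) (x : (Γ.graph g).V) :
    psDist Γ g A ρ x = 0 ↔ x ∈ Γ.sites g A := by
  constructor
  · intro hd
    rcases ps_dist_mem Γ g A ρ x with hy | hy
    · have hy' : psDist Γ g A ρ x = ρ + 1 := hy
      omega
    · obtain ⟨κ, _, κ₀, hκ₀, _, _, h0⟩ := hy
      rw [hd] at h0
      have h1 := (ps_distCell_eq_zero g).1 h0.symm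
      show domPos (D := g.region Γ.T) (cut := Γ.cutB g) x ∈ (↑(g.region A) : Set (ℤ × ℤ))
      rw [Finset.mem_coe]
      unfold DGrid.region
      exact Finset.mem_biUnion.2 ⟨κ₀, hκ₀, h1⟩
  · intro hx
    have hx' : domPos (D := g.region Γ.T) (cut := Γ.cutB g) x ∈ (↑(g.region A) : Set (ℤ × ℤ)) := hx
    rw [Finset.mem_coe] at hx'
    unfold DGrid.region at hx'
    obtain ⟨κ₀, hκ₀, h1⟩ := Finset.mem_biUnion.1 hx'
    have h2 : psDist Γ g A ρ x ≤ 0 := by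
      apply ps_dist_le_of_mem Γ g A ρ x
      exact ⟨κ₀, hA hκ₀, κ₀, hκ₀, h1, Relation.ReflTransGen.refl, ((ps_distCell_eq_zero g).2 h1).symm⟩
    omega

/-- the `ρ`-neighbourhood of a cell -/
def psFat (κ : Fin m₁ × Fin m₂) (ρ : ℕ) : Finset (ℤ × ℤ) :=
  Finset.Ico (g.x₁ κ.1.castSucc - ρ) (g.x₁ κ.1.succ + ρ) ×ˢ Finset.Ico (g.x₂ κ.2.castSucc - ρ) (g.x₂ κ.2.succ + ρ)

theorem ps_mem_fat {κ : Fin m₁ × Fin m₂} {ρ : ℕ} {z : ℤ × ℤ} (h : psDistCell g κ z ≤ ρ) : z ∈ psFat g κ ρ := by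
  unfold psFat
  rw [Finset.mem_product, Finset.mem_Ico, Finset.mem_Ico]
  unfold psDistCell psDistBox at h
  simp only at h
  omega

theorem ps_fat_card (κ : Fin m₁ × Fin m₂) (n ρ : ℕ) (hn : g.SideLe n) : (psFat g κ ρ).card ≤ (n + 2 * ρ) ^ 2 := by
  unfold psFat
  rw [Finset.card_product, Int.card_Ico, Int.card_Ico, sq]
  have h1 := hn.1 κ.1
  have h2 := hn.2 κ.2
  apply Nat.mul_le_mul <;> omega

/-- LEAF L-PS-G2: the number of sites of a collar. -/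
theorem ps_collar_card (A : Finset (Fin m₁ × Fin m₂)) (n ρ : ℕ) (hn : g.SideLe n) :
    ((Finset.univ.filter fun x : (Γ.graph g).V => x ∈ psCollar Γ g A ρ).card : ℝ) ≤ A.card * ((n : ℝ) + 2 * ρ) ^ 2 := by
  have h1 : (Finset.univ.filter fun x : (Γ.graph g).V => x ∈ psCollar Γ g A ρ).card ≤ (A.biUnion fun κ => psFat g κ ρ).card := by
    apply Finset.card_le_card_of_injOn (fun x : (Γ.graph g).V => domPos (D := g.region Γ.T) (cut := Γ.cutB g) x)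
    · intro x hx
      have hx' : x ∈ psCollar Γ g A ρ := (Finset.mem_filter.1 (Finset.mem_coe.1 hx)).2
      obtain ⟨k, ⟨κ, _, κ₀, hκ₀, _, _, h0⟩, hk⟩ := hx'
      rw [Finset.mem_coe]
      exact Finset.mem_biUnion.2 ⟨κ₀, hκ₀, ps_mem_fat g (h0 ▸ hk)⟩
    · intro x _ y _ h
      exact Subtype.ext h
  have h2 : (A.biUnion fun κ => psFat g κ ρ).card ≤ A.card * (n + 2 * ρ) ^ 2 :=
    Finset.card_biUnion_le_card_mul _ _ _ fun κ _ => ps_fat_card g κ n ρ hn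
  have h3 := h1.trans h2
  exact_mod_cast h3

section PsFrameGen

theorem ps_pt_inj {F : PsFrame} (hF : F.Ok) {t y t' y' : ℤ} (h : F.pt t y = F.pt t' y') : t = t' ∧ y = y' := by
  obtain ⟨⟨o1, o2⟩, e1, e2⟩ := F
  simp only [PsFrame.pt] at h
  rcases hF with ⟨h1 | h1, h2 | h2⟩ | ⟨h1 | h1, h2 | h2⟩ <;> simp only at h1 h2 <;> subst h1 <;> subst h2 <;>
    simp only [Prod.smul_mk, smul_eq_mul, Prod.mk_add_mk, Prod.mk.injEq] at h <;> omega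

theorem ps_pt_add₁ (F : PsFrame) (t y : ℤ) : F.pt t y + F.e₁ = F.pt (t + 1) y := by
  simp only [PsFrame.pt, add_smul, one_smul]
  abel

theorem ps_pt_add₂ (F : PsFrame) (t y : ℤ) : F.pt t y + F.e₂ = F.pt t (y + 1) := by
  simp only [PsFrame.pt, add_smul, one_smul]
  abel

/-- comparison of two finite sums through an injection -/
theorem ps_sum_le_inj {α β : Type*} (S : Finset α) (T : Finset β) (f : α → ℝ) (h : β → ℝ) (φ : α → β)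
    (hT : ∀ p ∈ T, 0 ≤ h p) (hφ : ∀ z ∈ S, φ z ∈ T) (hinj : ∀ z ∈ S, ∀ z' ∈ S, φ z = φ z' → z = z')
    (hf : ∀ z ∈ S, f z = h (φ z)) : ∑ z ∈ S, f z ≤ ∑ p ∈ T, h p := by
  calc ∑ z ∈ S, f z = ∑ z ∈ S, h (φ z) := Finset.sum_congr rfl hf
    _ = ∑ p ∈ S.image φ, h p := (Finset.sum_image hinj).symm
    _ ≤ ∑ p ∈ T, h p := by
      apply Finset.sum_le_sum_of_subset_of_nonneg
      · intro p hp
        obtain ⟨z, hz, rfl⟩ := Finset.mem_image.1 hp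
        exact hφ z hz
      · intro p hp _
        exact hT p hp

variable {D : Finset (ℤ × ℤ)} {cut : Set Bond}

theorem ps_gf_ext_pos (v : (domG D cut).V → ℝ) (x : (domG D cut).V) : psExt v (domPos x) = v x := by
  have hx : domPos x ∈ D := x.2
  unfold psExt
  rw [dif_pos hx]
  rfl

theorem ps_gf_sum_V (v : (domG D cut).V → ℝ) (P : ℤ × ℤ → Prop) (G : ℤ × ℤ → ℝ)
    (inst : ∀ x : (domG D cut).V, Decidable (P (domPos x))) (S : Finset (ℤ × ℤ)) (hS : ∀ z, z ∈ S ↔ z ∈ D ∧ P z) :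
    ∑ x, (@ite _ (P (domPos x)) (inst x) (G (domPos x) * v x ^ 2) 0) = ∑ z ∈ S, G z * psExt v z ^ 2 := by
  have e : S = D.filter P := by
    ext z
    rw [hS, Finset.mem_filter]
  rw [e, Finset.sum_filter, ← Finset.sum_coe_sort D (fun z => if P z then G z * psExt v z ^ 2 else 0)]
  apply Finset.sum_congr rfl
  intro x _
  have h1 := ps_gf_ext_pos v x
  by_cases hP : P (domPos x)
  · rw [if_pos hP]
    have hP' : P x.1 := hP
    rw [if_pos hP']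
    have h2 : psExt v x.1 = v x := h1
    rw [h2]
    rfl
  · rw [if_neg hP]
    have hP' : ¬ P x.1 := hP
    rw [if_neg hP']

/-- **flat frames, general form** -/
theorem ps_flat_gen (v : (domG D cut).V → ℝ) (F : PsFrame) (hF : F.Ok) (len δ ρ : ℕ) (hδ : 1 ≤ δ)
    (hl : ∀ y ∈ Finset.range len, ∀ s ∈ Finset.Ico (-(δ : ℤ) + 1) (ρ : ℤ), psLinked D cut (F.pt s y) F.e₁)
    (ω : ℕ → ℝ) (hω : ∀ t, 0 ≤ ω t) (S K : Finset (ℤ × ℤ)) (d : ℤ × ℤ → ℕ)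
    (hcov : ∀ z ∈ S, d z ∈ Finset.Icc 1 ρ ∧ ∃ y ∈ Finset.range len, z = F.pt (d z) y)
    (hK : ∀ y ∈ Finset.range len, ∀ τ ∈ Finset.range δ, F.pt (-(τ : ℤ)) y ∈ K) :
    ∑ z ∈ S, ω (d z) * psExt v z ^ 2
      ≤ 2 / δ * (∑ t ∈ Finset.Icc 1 ρ, ω t) * ∑ z ∈ K, psExt v z ^ 2
        + 2 * (∑ t ∈ Finset.Icc 1 ρ, ω t * ((t : ℝ) + δ)) * HLaw.en v 0 := by
  have h0 := ps_frame_flat v F hF len δ ρ hδ hl ω hω
  have h1 : ∑ z ∈ S, ω (d z) * psExt v z ^ 2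
      ≤ ∑ y ∈ Finset.range len, ∑ t ∈ Finset.Icc 1 ρ, ω t * psExt v (F.pt t y) ^ 2 := by
    rw [← Finset.sum_product']
    choose! yy hy1 hy2 using fun z hz => (hcov z hz).2
    apply ps_sum_le_inj S _ _ (fun p : ℕ × ℕ => ω p.2 * psExt v (F.pt p.2 p.1) ^ 2) (fun z => (yy z, d z))
    · intro p _
      exact mul_nonneg (hω _) (sq_nonneg _)
    · intro z hz
      exact Finset.mem_product.2 ⟨hy1 z hz, (hcov z hz).1⟩
    · intro z hz z' hz' h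
      rw [hy2 z hz, hy2 z' hz']
      simp only [Prod.mk.injEq] at h
      rw [h.1, h.2]
    · intro z hz
      simp only
      rw [← hy2 z hz]
  have h2 : ∑ y ∈ Finset.range len, ∑ τ ∈ Finset.range δ, psExt v (F.pt (-(τ : ℤ)) y) ^ 2 ≤ ∑ z ∈ K, psExt v z ^ 2 := by
    rw [← Finset.sum_product']
    apply ps_sum_le_inj _ K _ (fun z => psExt v z ^ 2) (fun p : ℕ × ℕ => F.pt (-(p.2 : ℤ)) p.1)
    · intro p _
      exact sq_nonneg _
    · intro p hp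
      exact hK _ (Finset.mem_product.1 hp).1 _ (Finset.mem_product.1 hp).2
    · intro p _ p' _ h
      obtain ⟨a1, a2⟩ := ps_pt_inj hF h
      apply Prod.ext <;> omega
    · intro p _
      rfl
  have h3 : 0 ≤ 2 / (δ : ℝ) * (∑ t ∈ Finset.Icc 1 ρ, ω t) :=
    mul_nonneg (by positivity) (Finset.sum_nonneg fun t _ => hω t)
  have h4 := mul_le_mul_of_nonneg_left h2 h3
  linarith

end PsFrameGen

theorem ps_cell_region {κ : Fin m₁ × Fin m₂} (hκ : κ ∈ Γ.T) {z : ℤ × ℤ} (hz : z ∈ g.cell κ) : z ∈ g.region Γ.T := by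
  unfold DGrid.region
  exact Finset.mem_biUnion.2 ⟨κ, hκ, hz⟩

/-- converse of `ps_edge_cells` -/
theorem ps_bond_mem {κ κ' : Fin m₁ × Fin m₂} {e : Bond} (h1 : e.1 ∈ g.cell κ) (h2 : e.snd ∈ g.cell κ') (hT : κ ∈ Γ.T)
    (hT' : κ' ∈ Γ.T) (h : κ = κ' ∨ Γ.Adj κ κ') : e ∈ domBonds (g.region Γ.T) (Γ.cutB g) := by
  unfold domBonds
  rw [Finset.mem_filter, Finset.mem_product]
  refine ⟨⟨ps_cell_region Γ g hT h1, Finset.mem_univ _⟩, ps_cell_region Γ g hT' h2, ?_⟩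
  rintro ⟨f, hf, f2, f3, f4⟩
  have hfk : f.1 = κ := ps_cell_unique g f3 h1
  have hf' : (κ, e.2) ∈ Γ.cutF := by
    have : f = (κ, e.2) := Prod.ext hfk f2.symm
    rw [← this]
    exact hf
  rw [hfk] at f4
  rcases h with rfl | ⟨_, _, h⟩
  · exact f4 h2
  obtain ⟨⟨a, c⟩, d⟩ := e
  rw [ps_mem_cell] at h1 h2
  cases d
  · simp only [Bond.snd, Bool.false_eq_true, if_false] at h2
    have i1 : κ.1 = κ'.1 :=
      le_antisymm (ps_idx_le g.mono₁ h1.1.1 h2.1.2 le_rfl) (ps_idx_le g.mono₁ h2.1.1 h1.1.2 le_rfl)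
    have i2 : κ.2.1 ≤ κ'.2.1 := ps_idx_le g.mono₂ h1.2.1 h2.2.2 (by simp)
    have i3 : κ.1.1 = κ'.1.1 := congrArg Fin.val i1
    rcases h with ⟨a1, _, _⟩ | ⟨_, _, a3⟩ | ⟨a1, _, _⟩ | ⟨_, a2, _⟩
    · omega
    · exact a3 hf'
    · omega
    · omega
  · simp only [Bond.snd, if_true] at h2
    have i1 : κ.2 = κ'.2 :=
      le_antisymm (ps_idx_le g.mono₂ h1.2.1 h2.2.2 le_rfl) (ps_idx_le g.mono₂ h2.2.1 h1.2.2 le_rfl)
    have i2 : κ.1.1 ≤ κ'.1.1 := ps_idx_le g.mono₁ h1.1.1 h2.1.2 (by simp)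
    have i3 : κ.2.1 = κ'.2.1 := congrArg Fin.val i1
    rcases h with ⟨_, _, a3⟩ | ⟨_, a2, _⟩ | ⟨a1, _, _⟩ | ⟨_, a2, _⟩
    · exact a3 hf'
    · omega
    · omega
    · omega

theorem ps_linked_of_cells {κ κ' : Fin m₁ × Fin m₂} {z u : ℤ × ℤ}
    (hu : u = (1, 0) ∨ u = (-1, 0) ∨ u = (0, 1) ∨ u = (0, -1)) (h1 : z ∈ g.cell κ) (h2 : z + u ∈ g.cell κ')
    (hT : κ ∈ Γ.T) (hT' : κ' ∈ Γ.T) (h : κ = κ' ∨ Γ.Adj κ κ') : psLinked (g.region Γ.T) (Γ.cutB g) z u := by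
  have h' : κ' = κ ∨ Γ.Adj κ' κ := h.imp Eq.symm (ps_adj_symm Γ)
  unfold psLinked psBond
  obtain ⟨z1, z2⟩ := z
  rcases hu with rfl | rfl | rfl | rfl
  · rw [if_pos rfl]
    refine ps_bond_mem Γ g h1 ?_ hT hT' h
    simpa [Bond.snd] using h2
  · rw [if_neg (by simp), if_pos rfl]
    refine ps_bond_mem Γ g h2 ?_ hT' hT h'
    simpa [Bond.snd] using h1
  · rw [if_neg (by simp), if_neg (by simp), if_pos rfl]
    refine ps_bond_mem Γ g h1 ?_ hT hT' h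
    simpa [Bond.snd] using h2
  · rw [if_neg (by simp), if_neg (by simp), if_neg (by simp)]
    refine ps_bond_mem Γ g h2 ?_ hT' hT h'
    simpa [Bond.snd] using h1

theorem ps_ok_e₁ {F : PsFrame} (hF : F.Ok) : F.e₁ = (1, 0) ∨ F.e₁ = (-1, 0) ∨ F.e₁ = (0, 1) ∨ F.e₁ = (0, -1) := by
  rcases hF with ⟨h1 | h1, _⟩ | ⟨h1 | h1, _⟩ <;> simp [h1]

theorem ps_ok_e₂ {F : PsFrame} (hF : F.Ok) : F.e₂ = (1, 0) ∨ F.e₂ = (-1, 0) ∨ F.e₂ = (0, 1) ∨ F.e₂ = (0, -1) := by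
  rcases hF with ⟨_, h1 | h1⟩ | ⟨_, h1 | h1⟩ <;> simp [h1]

theorem ps_mem_sites_single (κ₀ : Fin m₁ × Fin m₂) (x : (Γ.graph g).V) :
    x ∈ Γ.sites g {κ₀} ↔ domPos (D := g.region Γ.T) (cut := Γ.cutB g) x ∈ g.cell κ₀ := by
  show domPos (D := g.region Γ.T) (cut := Γ.cutB g) x ∈ (↑(g.region {κ₀}) : Set (ℤ × ℤ)) ↔ _
  rw [Finset.mem_coe]
  unfold DGrid.region
  rw [Finset.singleton_biUnion]

theorem ps_sum_sites {κ₀ : Fin m₁ × Fin m₂} (hκ : κ₀ ∈ Γ.T) (v : (Γ.graph g).V → ℝ) :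
    ∑ x, (if x ∈ Γ.sites g {κ₀} then v x ^ 2 else 0)
      = ∑ z ∈ g.cell κ₀, psExt (D := g.region Γ.T) (cut := Γ.cutB g) v z ^ 2 := by
  have h := ps_gf_sum_V (D := g.region Γ.T) (cut := Γ.cutB g) v (fun z => z ∈ g.cell κ₀) (fun _ => 1) (fun _ => inferInstance)
    (g.cell κ₀) (fun z => ⟨fun hz => ⟨ps_cell_region Γ g hκ hz, hz⟩, fun hz => hz.2⟩)
  simp only [one_mul] at h
  refine Eq.trans ?_ h
  apply Finset.sum_congr rfl
  intro x _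
  exact if_congr (ps_mem_sites_single Γ g κ₀ x) rfl rfl

/-- face neighbours: the estimate from a frame -/
theorem ps_geom_flat_frame {κ₀ κ' : Fin m₁ × Fin m₂} (hadj : Γ.Adj κ₀ κ') (F : PsFrame) (hF : F.Ok) (len δ ρ : ℕ) (h1 : 1 ≤ δ)
    (c0 : ∀ y ∈ Finset.range len, ∀ s : ℤ, -(δ : ℤ) < s → s ≤ 0 → F.pt s y ∈ g.cell κ₀)
    (c1 : ∀ y ∈ Finset.range len, ∀ s : ℤ, 1 ≤ s → s ≤ ρ → F.pt s y ∈ g.cell κ')
    (cov : ∀ z ∈ g.cell κ', 1 ≤ psDistCell g κ₀ z → psDistCell g κ₀ z ≤ ρ →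
      ∃ y ∈ Finset.range len, z = F.pt (psDistCell g κ₀ z) y)
    (ω : ℕ → ℝ) (hω : ∀ t, 0 ≤ ω t) (v : (Γ.graph g).V → ℝ) :
    ∑ x, (if domPos (D := g.region Γ.T) (cut := Γ.cutB g) x ∈ g.cell κ' ∧ 1 ≤ psDistCell g κ₀ (domPos (D := g.region Γ.T) (cut := Γ.cutB g) x)
          ∧ psDistCell g κ₀ (domPos (D := g.region Γ.T) (cut := Γ.cutB g) x) ≤ ρ
        then ω (psDistCell g κ₀ (domPos (D := g.region Γ.T) (cut := Γ.cutB g) x)) * v x ^ 2 else 0)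
      ≤ 2 / δ * (∑ t ∈ Finset.Icc 1 ρ, ω t) * ∑ x, (if x ∈ Γ.sites g {κ₀} then v x ^ 2 else 0)
        + 2 * (∑ t ∈ Finset.Icc 1 ρ, ω t * ((t : ℝ) + δ)) * HLaw.en v 0 := by
  rw [ps_sum_sites Γ g hadj.1]
  refine (ps_gf_sum_V (D := g.region Γ.T) (cut := Γ.cutB g) v
    (fun z => z ∈ g.cell κ' ∧ 1 ≤ psDistCell g κ₀ z ∧ psDistCell g κ₀ z ≤ ρ) (fun z => ω (psDistCell g κ₀ z)) _
    ((g.cell κ').filter fun z => 1 ≤ psDistCell g κ₀ z ∧ psDistCell g κ₀ z ≤ ρ) (fun z => by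
      rw [Finset.mem_filter]
      exact ⟨fun hz => ⟨ps_cell_region Γ g hadj.2.1 hz.1, hz⟩, fun hz => hz.2⟩)).le.trans ?_
  apply ps_flat_gen (D := g.region Γ.T) (cut := Γ.cutB g) v F hF len δ ρ h1 _ ω hω _ _ (psDistCell g κ₀)
  · intro z hz
    obtain ⟨a1, a2, a3⟩ := Finset.mem_filter.1 hz
    exact ⟨Finset.mem_Icc.2 ⟨a2, a3⟩, cov z a1 a2 a3⟩
  · intro y hy τ hτ
    have := Finset.mem_range.1 hτ
    exact c0 y hy (-(τ : ℤ)) (by omega) (by omega)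
  · intro y hy s hs
    obtain ⟨s1, s2⟩ := Finset.mem_Ico.1 hs
    by_cases hs0 : s + 1 ≤ 0
    · refine ps_linked_of_cells Γ g (ps_ok_e₁ hF) (c0 y hy s (by omega) (by omega)) ?_ hadj.1 hadj.1 (Or.inl rfl)
      rw [ps_pt_add₁]
      exact c0 y hy (s + 1) (by omega) hs0
    by_cases hs1 : s ≤ 0
    · refine ps_linked_of_cells Γ g (ps_ok_e₁ hF) (c0 y hy s (by omega) hs1) ?_ hadj.1 hadj.2.1 (Or.inr hadj)
      rw [ps_pt_add₁]
      exact c1 y hy (s + 1) (by omega) (by omega)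
    · refine ps_linked_of_cells Γ g (ps_ok_e₁ hF) (c1 y hy s (by omega) (by omega)) ?_ hadj.2.1 hadj.2.1 (Or.inl rfl)
      rw [ps_pt_add₁]
      exact c1 y hy (s + 1) (by omega) (by omega)

theorem ps_distCell_def (κ : Fin m₁ × Fin m₂) (z : ℤ × ℤ) :
    psDistCell g κ z = (max (max (g.x₁ κ.1.castSucc - z.1) (z.1 - (g.x₁ κ.1.succ - 1)))
      (max (g.x₂ κ.2.castSucc - z.2) (z.2 - (g.x₂ κ.2.succ - 1)))).toNat := rfl

theorem ps_fin_succ {m : ℕ} {i i' : Fin m} (h : i.1 + 1 = i'.1) : i'.castSucc = i.succ := by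
  apply Fin.ext
  simp only [Fin.val_succ, Fin.val_castSucc]
  omega

/-- LEAF L-PS-G4: **face neighbour**.  `κ'` shares with `κ₀` a face which is not removed.  4 orientations (the 4 cases of `Adj`); in each one a frame with origin on the last layer of `κ₀`:
e.g. `κ'` to the right: `o = (x₁ κ₀.1.succ - 1, x₂ κ₀.2.castSucc)`, `e₁ = (1,0)`, `e₂ = (0,1)`, `len` = height; `F.pt t y ∈ κ'` and `psDistCell g κ₀ (F.pt t y) = t` for `1 ≤ t ≤ ρ`; `F.pt (-τ) y ∈ κ₀` for `τ < δ`.  Then `ps_frame_flat`. -/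
theorem ps_geom_flat (ν : ℕ) (hν : g.SideGe ν) {κ₀ κ' : Fin m₁ × Fin m₂} (hadj : Γ.Adj κ₀ κ') (δ ρ : ℕ) (h1 : 1 ≤ δ) (h2 : δ ≤ ρ) (h3 : ρ < ν)
    (ω : ℕ → ℝ) (hω : ∀ t, 0 ≤ ω t) (v : (Γ.graph g).V → ℝ) :
    ∑ x, (if domPos (D := g.region Γ.T) (cut := Γ.cutB g) x ∈ g.cell κ' ∧ 1 ≤ psDistCell g κ₀ (domPos (D := g.region Γ.T) (cut := Γ.cutB g) x)
          ∧ psDistCell g κ₀ (domPos (D := g.region Γ.T) (cut := Γ.cutB g) x) ≤ ρ
        then ω (psDistCell g κ₀ (domPos (D := g.region Γ.T) (cut := Γ.cutB g) x)) * v x ^ 2 else 0)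
      ≤ 2 / δ * (∑ t ∈ Finset.Icc 1 ρ, ω t) * ∑ x, (if x ∈ Γ.sites g {κ₀} then v x ^ 2 else 0)
        + 2 * (∑ t ∈ Finset.Icc 1 ρ, ω t * ((t : ℝ) + δ)) * HLaw.en v 0 := by
  have s1 := hν.1 κ₀.1
  have s2 := hν.2 κ₀.2
  have s1' := hν.1 κ'.1
  have s2' := hν.2 κ'.2
  rcases hadj.2.2 with ⟨a1, a2, _⟩ | ⟨a1, a2, _⟩ | ⟨a1, a2, _⟩ | ⟨a1, a2, _⟩
  · have e1 : g.x₁ κ'.1.castSucc = g.x₁ κ₀.1.succ := by rw [ps_fin_succ a1]
    rw [← a2] at s2'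
    apply ps_geom_flat_frame Γ g hadj ⟨(g.x₁ κ₀.1.succ - 1, g.x₂ κ₀.2.castSucc), (1, 0), (0, 1)⟩
      (Or.inl ⟨Or.inl rfl, Or.inl rfl⟩) (g.x₂ κ₀.2.succ - g.x₂ κ₀.2.castSucc).toNat δ ρ h1 _ _ _ ω hω v
    · intro y hy s hs1 hs2
      have := Finset.mem_range.1 hy
      rw [ps_mem_cell]
      simp only [PsFrame.pt, Prod.smul_mk, smul_eq_mul, Prod.mk_add_mk, mul_one, mul_zero, add_zero, zero_add]
      omega
    · intro y hy s hs1 hs2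
      have := Finset.mem_range.1 hy
      rw [ps_mem_cell, ← a2]
      simp only [PsFrame.pt, Prod.smul_mk, smul_eq_mul, Prod.mk_add_mk, mul_one, mul_zero, add_zero, zero_add]
      omega
    · intro z hz d1 d2
      rw [ps_mem_cell, ← a2] at hz
      rw [ps_distCell_def] at d1 d2 ⊢
      refine ⟨(z.2 - g.x₂ κ₀.2.castSucc).toNat, Finset.mem_range.2 (by omega), ?_⟩
      simp only [PsFrame.pt, Prod.smul_mk, smul_eq_mul, Prod.mk_add_mk, mul_one, mul_zero, add_zero, zero_add]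
      apply Prod.ext <;> simp only <;> omega
  · have e1 : g.x₂ κ'.2.castSucc = g.x₂ κ₀.2.succ := by rw [ps_fin_succ a2]
    rw [← a1] at s1'
    apply ps_geom_flat_frame Γ g hadj ⟨(g.x₁ κ₀.1.castSucc, g.x₂ κ₀.2.succ - 1), (0, 1), (1, 0)⟩
      (Or.inr ⟨Or.inl rfl, Or.inl rfl⟩) (g.x₁ κ₀.1.succ - g.x₁ κ₀.1.castSucc).toNat δ ρ h1 _ _ _ ω hω v
    · intro y hy s hs1 hs2
      have := Finset.mem_range.1 hy
      rw [ps_mem_cell]
      simp only [PsFrame.pt, Prod.smul_mk, smul_eq_mul, Prod.mk_add_mk, mul_one, mul_zero, add_zero, zero_add, mul_neg]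
      omega
    · intro y hy s hs1 hs2
      have := Finset.mem_range.1 hy
      rw [ps_mem_cell, ← a1]
      simp only [PsFrame.pt, Prod.smul_mk, smul_eq_mul, Prod.mk_add_mk, mul_one, mul_zero, add_zero, zero_add, mul_neg]
      omega
    · intro z hz d1 d2
      rw [ps_mem_cell, ← a1] at hz
      rw [ps_distCell_def] at d1 d2 ⊢
      refine ⟨(z.1 - g.x₁ κ₀.1.castSucc).toNat, Finset.mem_range.2 (by omega), ?_⟩
      simp only [PsFrame.pt, Prod.smul_mk, smul_eq_mul, Prod.mk_add_mk, mul_one, mul_zero, add_zero, zero_add, mul_neg]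
      apply Prod.ext <;> simp only <;> omega
  · have e1 : g.x₁ κ₀.1.castSucc = g.x₁ κ'.1.succ := by rw [ps_fin_succ a1]
    rw [← a2] at s2'
    apply ps_geom_flat_frame Γ g hadj ⟨(g.x₁ κ₀.1.castSucc, g.x₂ κ₀.2.castSucc), (-1, 0), (0, 1)⟩
      (Or.inl ⟨Or.inr rfl, Or.inl rfl⟩) (g.x₂ κ₀.2.succ - g.x₂ κ₀.2.castSucc).toNat δ ρ h1 _ _ _ ω hω v
    · intro y hy s hs1 hs2
      have := Finset.mem_range.1 hy
      rw [ps_mem_cell]
      simp only [PsFrame.pt, Prod.smul_mk, smul_eq_mul, Prod.mk_add_mk, mul_one, mul_zero, add_zero, zero_add, mul_neg]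
      omega
    · intro y hy s hs1 hs2
      have := Finset.mem_range.1 hy
      rw [ps_mem_cell, ← a2]
      simp only [PsFrame.pt, Prod.smul_mk, smul_eq_mul, Prod.mk_add_mk, mul_one, mul_zero, add_zero, zero_add, mul_neg]
      omega
    · intro z hz d1 d2
      rw [ps_mem_cell, ← a2] at hz
      rw [ps_distCell_def] at d1 d2 ⊢
      refine ⟨(z.2 - g.x₂ κ₀.2.castSucc).toNat, Finset.mem_range.2 (by omega), ?_⟩
      simp only [PsFrame.pt, Prod.smul_mk, smul_eq_mul, Prod.mk_add_mk, mul_one, mul_zero, add_zero, zero_add, mul_neg]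
      apply Prod.ext <;> simp only <;> omega
  · have e1 : g.x₂ κ₀.2.castSucc = g.x₂ κ'.2.succ := by rw [ps_fin_succ a2]
    rw [← a1] at s1'
    apply ps_geom_flat_frame Γ g hadj ⟨(g.x₁ κ₀.1.castSucc, g.x₂ κ₀.2.castSucc), (0, -1), (1, 0)⟩
      (Or.inr ⟨Or.inr rfl, Or.inl rfl⟩) (g.x₁ κ₀.1.succ - g.x₁ κ₀.1.castSucc).toNat δ ρ h1 _ _ _ ω hω v
    · intro y hy s hs1 hs2
      have := Finset.mem_range.1 hy
      rw [ps_mem_cell]
      simp only [PsFrame.pt, Prod.smul_mk, smul_eq_mul, Prod.mk_add_mk, mul_one, mul_zero, add_zero, zero_add, mul_neg]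
      omega
    · intro y hy s hs1 hs2
      have := Finset.mem_range.1 hy
      rw [ps_mem_cell, ← a1]
      simp only [PsFrame.pt, Prod.smul_mk, smul_eq_mul, Prod.mk_add_mk, mul_one, mul_zero, add_zero, zero_add, mul_neg]
      omega
    · intro z hz d1 d2
      rw [ps_mem_cell, ← a1] at hz
      rw [ps_distCell_def] at d1 d2 ⊢
      refine ⟨(z.1 - g.x₁ κ₀.1.castSucc).toNat, Finset.mem_range.2 (by omega), ?_⟩
      simp only [PsFrame.pt, Prod.smul_mk, smul_eq_mul, Prod.mk_add_mk, mul_one, mul_zero, add_zero, zero_add, mul_neg]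
      apply Prod.ext <;> simp only <;> omega

section PsCornerGen

variable {D : Finset (ℤ × ℤ)} {cut : Set Bond}

/-- **corner frames, general form** -/
theorem ps_corner_gen (v : (domG D cut).V → ℝ) (F : PsFrame) (hF : F.Ok) (δ ρ : ℕ) (hδ : 1 ≤ δ) (hρ : δ ≤ ρ)
    (hl1 : ∀ j ∈ Finset.Icc (1 : ℤ) ρ, ∀ s ∈ Finset.Ico (1 - (ρ : ℤ)) (ρ : ℤ), psLinked D cut (F.pt s j) F.e₁)
    (hl2 : ∀ c ∈ Finset.Icc (1 - (ρ : ℤ)) 0, ∀ s ∈ Finset.Ico (-(δ : ℤ) + 1) (ρ : ℤ), psLinked D cut (F.pt c s) F.e₂)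
    (ω : ℕ → ℝ) (hω : ∀ t, 0 ≤ ω t) {WE Wc : ℝ}
    (h1 : ∀ j ∈ Finset.Icc 1 ρ, ∑ i ∈ Finset.Icc 1 ρ, ω (max i j) * (((max i j : ℕ) : ℝ) + δ) ≤ WE)
    (h2 : ∀ j ∈ Finset.Icc 1 ρ, ∑ i ∈ Finset.Icc 1 ρ, ω (max i j) ≤ Wc)
    (S K : Finset (ℤ × ℤ)) (d : ℤ × ℤ → ℕ)
    (hcov : ∀ z ∈ S, ∃ i ∈ Finset.Icc 1 ρ, ∃ j ∈ Finset.Icc 1 ρ, d z = max i j ∧ z = F.pt (i : ℤ) (j : ℤ))
    (hK : ∀ c ∈ Finset.Icc (1 - (ρ : ℤ)) 0, ∀ τ ∈ Finset.range δ, F.pt c (-(τ : ℤ)) ∈ K) :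
    ∑ z ∈ S, ω (d z) * psExt v z ^ 2 ≤ 3 * Wc / δ * ∑ z ∈ K, psExt v z ^ 2 + 6 * WE * HLaw.en v 0 := by
  have h0 := ps_frame_corner v F hF δ ρ hδ hρ hl1 hl2 ω hω h1 h2
  have g1 : ∑ z ∈ S, ω (d z) * psExt v z ^ 2
      ≤ ∑ i ∈ Finset.Icc 1 ρ, ∑ j ∈ Finset.Icc 1 ρ, ω (max i j) * psExt v (F.pt (i : ℤ) (j : ℤ)) ^ 2 := by
    rw [← Finset.sum_product']
    choose! ii hi1 jj hj1 hd hz using hcov
    apply ps_sum_le_inj S _ _ (fun p : ℕ × ℕ => ω (max p.1 p.2) * psExt v (F.pt (p.1 : ℤ) (p.2 : ℤ)) ^ 2)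
      (fun z => (ii z, jj z))
    · intro p _
      exact mul_nonneg (hω _) (sq_nonneg _)
    · intro z hz'
      exact Finset.mem_product.2 ⟨hi1 z hz', hj1 z hz'⟩
    · intro z hz1 z' hz2 h
      rw [hz z hz1, hz z' hz2]
      simp only [Prod.mk.injEq] at h
      rw [h.1, h.2]
    · intro z hz'
      simp only
      rw [← hz z hz', hd z hz']
  have g2 : ∑ c ∈ Finset.Icc (1 - (ρ : ℤ)) 0, ∑ τ ∈ Finset.range δ, psExt v (F.pt c (-(τ : ℤ))) ^ 2 ≤ ∑ z ∈ K, psExt v z ^ 2 := by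
    rw [← Finset.sum_product']
    apply ps_sum_le_inj _ K _ (fun z => psExt v z ^ 2) (fun p : ℤ × ℕ => F.pt p.1 (-(p.2 : ℤ)))
    · intro p _
      exact sq_nonneg _
    · intro p hp
      exact hK _ (Finset.mem_product.1 hp).1 _ (Finset.mem_product.1 hp).2
    · intro p _ p' _ h
      obtain ⟨a1, a2⟩ := ps_pt_inj hF h
      apply Prod.ext <;> omega
    · intro p _
      rfl
  have g3 : 0 ≤ Wc := by
    have := h2 1 (Finset.mem_Icc.2 ⟨le_rfl, by omega⟩)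
    exact (Finset.sum_nonneg fun i _ => hω _).trans this
  have g4 : 0 ≤ 3 * Wc / (δ : ℝ) := by positivity
  have g5 := mul_le_mul_of_nonneg_left g2 g4
  linarith

end PsCornerGen

/-- diagonal neighbours: the estimate from a frame -/
theorem ps_geom_corner_frame {κ₀ κ₁ κ' : Fin m₁ × Fin m₂} (h01 : Γ.Adj κ₀ κ₁) (h12 : Γ.Adj κ₁ κ') (F : PsFrame) (hF : F.Ok)
    (δ ρ : ℕ) (h1 : 1 ≤ δ) (h2 : δ ≤ ρ)
    (c0 : ∀ c s : ℤ, -(ρ : ℤ) < c → c ≤ 0 → -(δ : ℤ) < s → s ≤ 0 → F.pt c s ∈ g.cell κ₀)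
    (c1 : ∀ c s : ℤ, -(ρ : ℤ) < c → c ≤ 0 → 1 ≤ s → s ≤ ρ → F.pt c s ∈ g.cell κ₁)
    (c2 : ∀ c s : ℤ, 1 ≤ c → c ≤ ρ → 1 ≤ s → s ≤ ρ → F.pt c s ∈ g.cell κ')
    (cov : ∀ z ∈ g.cell κ', 1 ≤ psDistCell g κ₀ z → psDistCell g κ₀ z ≤ ρ →
      ∃ i ∈ Finset.Icc 1 ρ, ∃ j ∈ Finset.Icc 1 ρ, psDistCell g κ₀ z = max i j ∧ z = F.pt (i : ℤ) (j : ℤ))
    (ω : ℕ → ℝ) (hω : ∀ t, 0 ≤ ω t) {WE Wc : ℝ}
    (hE : ∀ j ∈ Finset.Icc 1 ρ, ∑ i ∈ Finset.Icc 1 ρ, ω (max i j) * (((max i j : ℕ) : ℝ) + δ) ≤ WE)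
    (hc : ∀ j ∈ Finset.Icc 1 ρ, ∑ i ∈ Finset.Icc 1 ρ, ω (max i j) ≤ Wc) (v : (Γ.graph g).V → ℝ) :
    ∑ x, (if domPos (D := g.region Γ.T) (cut := Γ.cutB g) x ∈ g.cell κ' ∧ 1 ≤ psDistCell g κ₀ (domPos (D := g.region Γ.T) (cut := Γ.cutB g) x)
          ∧ psDistCell g κ₀ (domPos (D := g.region Γ.T) (cut := Γ.cutB g) x) ≤ ρ
        then ω (psDistCell g κ₀ (domPos (D := g.region Γ.T) (cut := Γ.cutB g) x)) * v x ^ 2 else 0)
      ≤ 3 * Wc / δ * ∑ x, (if x ∈ Γ.sites g {κ₀} then v x ^ 2 else 0) + 6 * WE * HLaw.en v 0 := by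
  rw [ps_sum_sites Γ g h01.1]
  refine (ps_gf_sum_V (D := g.region Γ.T) (cut := Γ.cutB g) v
    (fun z => z ∈ g.cell κ' ∧ 1 ≤ psDistCell g κ₀ z ∧ psDistCell g κ₀ z ≤ ρ) (fun z => ω (psDistCell g κ₀ z)) _
    ((g.cell κ').filter fun z => 1 ≤ psDistCell g κ₀ z ∧ psDistCell g κ₀ z ≤ ρ) (fun z => by
      rw [Finset.mem_filter]
      exact ⟨fun hz => ⟨ps_cell_region Γ g h12.2.1 hz.1, hz⟩, fun hz => hz.2⟩)).le.trans ?_
  apply ps_corner_gen (D := g.region Γ.T) (cut := Γ.cutB g) v F hF δ ρ h1 h2 _ _ ω hω hE hc _ _ (psDistCell g κ₀)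
  · intro z hz
    obtain ⟨a1, a2, a3⟩ := Finset.mem_filter.1 hz
    exact cov z a1 a2 a3
  · intro c hc' τ hτ
    have := Finset.mem_range.1 hτ
    obtain ⟨b1, b2⟩ := Finset.mem_Icc.1 hc'
    exact c0 c (-(τ : ℤ)) (by omega) b2 (by omega) (by omega)
  · intro j hj s hs
    obtain ⟨j1, j2⟩ := Finset.mem_Icc.1 hj
    obtain ⟨s1, s2⟩ := Finset.mem_Ico.1 hs
    by_cases hs0 : s + 1 ≤ 0
    · refine ps_linked_of_cells Γ g (ps_ok_e₁ hF) (c1 s j (by omega) (by omega) j1 j2) ?_ h12.1 h12.1 (Or.inl rfl)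
      rw [ps_pt_add₁]
      exact c1 (s + 1) j (by omega) hs0 j1 j2
    by_cases hs1 : s ≤ 0
    · refine ps_linked_of_cells Γ g (ps_ok_e₁ hF) (c1 s j (by omega) hs1 j1 j2) ?_ h12.1 h12.2.1 (Or.inr h12)
      rw [ps_pt_add₁]
      exact c2 (s + 1) j (by omega) (by omega) j1 j2
    · refine ps_linked_of_cells Γ g (ps_ok_e₁ hF) (c2 s j (by omega) (by omega) j1 j2) ?_ h12.2.1 h12.2.1 (Or.inl rfl)
      rw [ps_pt_add₁]
      exact c2 (s + 1) j (by omega) (by omega) j1 j2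
  · intro c hc' s hs
    obtain ⟨b1, b2⟩ := Finset.mem_Icc.1 hc'
    obtain ⟨s1, s2⟩ := Finset.mem_Ico.1 hs
    by_cases hs0 : s + 1 ≤ 0
    · refine ps_linked_of_cells Γ g (ps_ok_e₂ hF) (c0 c s (by omega) b2 (by omega) (by omega)) ?_ h01.1 h01.1 (Or.inl rfl)
      rw [ps_pt_add₂]
      exact c0 c (s + 1) (by omega) b2 (by omega) hs0
    by_cases hs1 : s ≤ 0
    · refine ps_linked_of_cells Γ g (ps_ok_e₂ hF) (c0 c s (by omega) b2 (by omega) hs1) ?_ h01.1 h01.2.1 (Or.inr h01)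
      rw [ps_pt_add₂]
      exact c1 c (s + 1) (by omega) b2 (by omega) (by omega)
    · refine ps_linked_of_cells Γ g (ps_ok_e₂ hF) (c1 c s (by omega) b2 (by omega) (by omega)) ?_ h01.2.1 h01.2.1 (Or.inl rfl)
      rw [ps_pt_add₂]
      exact c1 c (s + 1) (by omega) b2 (by omega) (by omega)

/-- LEAF L-PS-G5: **diagonal neighbour** `κ'` of `κ₀`, joined through `κ₁`.  8 cases (4 corners, 2 ways); frame with origin at the corner site of `κ₀`, `e₂` pointing into `κ₁`, `e₁` from `κ₁` into `κ'`;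
`psDistCell g κ₀ (F.pt i j) = max i j` for `1 ≤ i, j ≤ ρ`.  Then `ps_frame_corner`. -/
theorem ps_geom_corner (ν : ℕ) (hν : g.SideGe ν) {κ₀ κ₁ κ' : Fin m₁ × Fin m₂} (h01 : Γ.Adj κ₀ κ₁) (h12 : Γ.Adj κ₁ κ')
    (hd1 : κ₀.1 ≠ κ'.1) (hd2 : κ₀.2 ≠ κ'.2) (δ ρ : ℕ) (h1 : 1 ≤ δ) (h2 : δ ≤ ρ) (h3 : ρ < ν)
    (ω : ℕ → ℝ) (hω : ∀ t, 0 ≤ ω t) {WE Wc : ℝ}
    (hE : ∀ j ∈ Finset.Icc 1 ρ, ∑ i ∈ Finset.Icc 1 ρ, ω (max i j) * (((max i j : ℕ) : ℝ) + δ) ≤ WE)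
    (hc : ∀ j ∈ Finset.Icc 1 ρ, ∑ i ∈ Finset.Icc 1 ρ, ω (max i j) ≤ Wc) (v : (Γ.graph g).V → ℝ) :
    ∑ x, (if domPos (D := g.region Γ.T) (cut := Γ.cutB g) x ∈ g.cell κ' ∧ 1 ≤ psDistCell g κ₀ (domPos (D := g.region Γ.T) (cut := Γ.cutB g) x)
          ∧ psDistCell g κ₀ (domPos (D := g.region Γ.T) (cut := Γ.cutB g) x) ≤ ρ
        then ω (psDistCell g κ₀ (domPos (D := g.region Γ.T) (cut := Γ.cutB g) x)) * v x ^ 2 else 0)
      ≤ 3 * Wc / δ * ∑ x, (if x ∈ Γ.sites g {κ₀} then v x ^ 2 else 0) + 6 * WE * HLaw.en v 0 := by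
  have s1 := hν.1 κ₀.1
  have s2 := hν.2 κ₀.2
  have t1 := hν.1 κ₁.1
  have t2 := hν.2 κ₁.2
  have u1 := hν.1 κ'.1
  have u2 := hν.2 κ'.2
  rcases h01.2.2 with ⟨a1, a2, _⟩ | ⟨a1, a2, _⟩ | ⟨a1, a2, _⟩ | ⟨a1, a2, _⟩ <;>
    rcases h12.2.2 with ⟨b1, b2, _⟩ | ⟨b1, b2, _⟩ | ⟨b1, b2, _⟩ | ⟨b1, b2, _⟩
  · exact absurd (a2.trans b2) hd2
  · have p1 : g.x₁ κ₁.1.castSucc = g.x₁ κ₀.1.succ := by rw [ps_fin_succ a1]
    have p2 : g.x₂ κ₁.2.castSucc = g.x₂ κ₀.2.castSucc := by rw [a2]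
    have p3 : g.x₂ κ₁.2.succ = g.x₂ κ₀.2.succ := by rw [a2]
    have q1 : g.x₂ κ'.2.castSucc = g.x₂ κ₁.2.succ := by rw [ps_fin_succ b2]
    have q2 : g.x₁ κ'.1.castSucc = g.x₁ κ₁.1.castSucc := by rw [b1]
    have q3 : g.x₁ κ'.1.succ = g.x₁ κ₁.1.succ := by rw [b1]
    apply ps_geom_corner_frame Γ g h01 h12 ⟨(g.x₁ κ₀.1.succ - 1, g.x₂ κ₀.2.succ - 1), (0, 1), (1, 0)⟩ (Or.inr ⟨Or.inl rfl, Or.inl rfl⟩) δ ρ h1 h2 _ _ _ _ ω hω hE hc v
    · intro c s r1 r2 r3 r4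
      rw [ps_mem_cell]
      simp only [PsFrame.pt, Prod.smul_mk, smul_eq_mul, Prod.mk_add_mk, mul_one, mul_zero, add_zero, zero_add, mul_neg]
      omega
    · intro c s r1 r2 r3 r4
      rw [ps_mem_cell]
      simp only [PsFrame.pt, Prod.smul_mk, smul_eq_mul, Prod.mk_add_mk, mul_one, mul_zero, add_zero, zero_add, mul_neg]
      omega
    · intro c s r1 r2 r3 r4
      rw [ps_mem_cell]
      simp only [PsFrame.pt, Prod.smul_mk, smul_eq_mul, Prod.mk_add_mk, mul_one, mul_zero, add_zero, zero_add, mul_neg]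
      omega
    · intro z hz d1 d2
      rw [ps_mem_cell] at hz
      rw [ps_distCell_def] at d1 d2 ⊢
      refine ⟨(z.2 - (g.x₂ κ₀.2.succ - 1)).toNat, Finset.mem_Icc.2 ⟨by omega, by omega⟩, (z.1 - (g.x₁ κ₀.1.succ - 1)).toNat, Finset.mem_Icc.2 ⟨by omega, by omega⟩, by omega, ?_⟩
      simp only [PsFrame.pt, Prod.smul_mk, smul_eq_mul, Prod.mk_add_mk, mul_one, mul_zero, add_zero, zero_add, mul_neg]
      apply Prod.ext <;> simp only <;> omega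
  · exact absurd (a2.trans b2) hd2
  · have p1 : g.x₁ κ₁.1.castSucc = g.x₁ κ₀.1.succ := by rw [ps_fin_succ a1]
    have p2 : g.x₂ κ₁.2.castSucc = g.x₂ κ₀.2.castSucc := by rw [a2]
    have p3 : g.x₂ κ₁.2.succ = g.x₂ κ₀.2.succ := by rw [a2]
    have q1 : g.x₂ κ₁.2.castSucc = g.x₂ κ'.2.succ := by rw [ps_fin_succ b2]
    have q2 : g.x₁ κ'.1.castSucc = g.x₁ κ₁.1.castSucc := by rw [b1]
    have q3 : g.x₁ κ'.1.succ = g.x₁ κ₁.1.succ := by rw [b1]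
    apply ps_geom_corner_frame Γ g h01 h12 ⟨(g.x₁ κ₀.1.succ - 1, g.x₂ κ₀.2.castSucc), (0, -1), (1, 0)⟩ (Or.inr ⟨Or.inr rfl, Or.inl rfl⟩) δ ρ h1 h2 _ _ _ _ ω hω hE hc v
    · intro c s r1 r2 r3 r4
      rw [ps_mem_cell]
      simp only [PsFrame.pt, Prod.smul_mk, smul_eq_mul, Prod.mk_add_mk, mul_one, mul_zero, add_zero, zero_add, mul_neg]
      omega
    · intro c s r1 r2 r3 r4
      rw [ps_mem_cell]
      simp only [PsFrame.pt, Prod.smul_mk, smul_eq_mul, Prod.mk_add_mk, mul_one, mul_zero, add_zero, zero_add, mul_neg]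
      omega
    · intro c s r1 r2 r3 r4
      rw [ps_mem_cell]
      simp only [PsFrame.pt, Prod.smul_mk, smul_eq_mul, Prod.mk_add_mk, mul_one, mul_zero, add_zero, zero_add, mul_neg]
      omega
    · intro z hz d1 d2
      rw [ps_mem_cell] at hz
      rw [ps_distCell_def] at d1 d2 ⊢
      refine ⟨(g.x₂ κ₀.2.castSucc - z.2).toNat, Finset.mem_Icc.2 ⟨by omega, by omega⟩, (z.1 - (g.x₁ κ₀.1.succ - 1)).toNat, Finset.mem_Icc.2 ⟨by omega, by omega⟩, by omega, ?_⟩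
      simp only [PsFrame.pt, Prod.smul_mk, smul_eq_mul, Prod.mk_add_mk, mul_one, mul_zero, add_zero, zero_add, mul_neg]
      apply Prod.ext <;> simp only <;> omega
  · have p1 : g.x₂ κ₁.2.castSucc = g.x₂ κ₀.2.succ := by rw [ps_fin_succ a2]
    have p2 : g.x₁ κ₁.1.castSucc = g.x₁ κ₀.1.castSucc := by rw [a1]
    have p3 : g.x₁ κ₁.1.succ = g.x₁ κ₀.1.succ := by rw [a1]
    have q1 : g.x₁ κ'.1.castSucc = g.x₁ κ₁.1.succ := by rw [ps_fin_succ b1]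
    have q2 : g.x₂ κ'.2.castSucc = g.x₂ κ₁.2.castSucc := by rw [b2]
    have q3 : g.x₂ κ'.2.succ = g.x₂ κ₁.2.succ := by rw [b2]
    apply ps_geom_corner_frame Γ g h01 h12 ⟨(g.x₁ κ₀.1.succ - 1, g.x₂ κ₀.2.succ - 1), (1, 0), (0, 1)⟩ (Or.inl ⟨Or.inl rfl, Or.inl rfl⟩) δ ρ h1 h2 _ _ _ _ ω hω hE hc v
    · intro c s r1 r2 r3 r4
      rw [ps_mem_cell]
      simp only [PsFrame.pt, Prod.smul_mk, smul_eq_mul, Prod.mk_add_mk, mul_one, mul_zero, add_zero, zero_add, mul_neg]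
      omega
    · intro c s r1 r2 r3 r4
      rw [ps_mem_cell]
      simp only [PsFrame.pt, Prod.smul_mk, smul_eq_mul, Prod.mk_add_mk, mul_one, mul_zero, add_zero, zero_add, mul_neg]
      omega
    · intro c s r1 r2 r3 r4
      rw [ps_mem_cell]
      simp only [PsFrame.pt, Prod.smul_mk, smul_eq_mul, Prod.mk_add_mk, mul_one, mul_zero, add_zero, zero_add, mul_neg]
      omega
    · intro z hz d1 d2
      rw [ps_mem_cell] at hz
      rw [ps_distCell_def] at d1 d2 ⊢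
      refine ⟨(z.1 - (g.x₁ κ₀.1.succ - 1)).toNat, Finset.mem_Icc.2 ⟨by omega, by omega⟩, (z.2 - (g.x₂ κ₀.2.succ - 1)).toNat, Finset.mem_Icc.2 ⟨by omega, by omega⟩, by omega, ?_⟩
      simp only [PsFrame.pt, Prod.smul_mk, smul_eq_mul, Prod.mk_add_mk, mul_one, mul_zero, add_zero, zero_add, mul_neg]
      apply Prod.ext <;> simp only <;> omega
  · exact absurd (a1.trans b1) hd1
  · have p1 : g.x₂ κ₁.2.castSucc = g.x₂ κ₀.2.succ := by rw [ps_fin_succ a2]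
    have p2 : g.x₁ κ₁.1.castSucc = g.x₁ κ₀.1.castSucc := by rw [a1]
    have p3 : g.x₁ κ₁.1.succ = g.x₁ κ₀.1.succ := by rw [a1]
    have q1 : g.x₁ κ₁.1.castSucc = g.x₁ κ'.1.succ := by rw [ps_fin_succ b1]
    have q2 : g.x₂ κ'.2.castSucc = g.x₂ κ₁.2.castSucc := by rw [b2]
    have q3 : g.x₂ κ'.2.succ = g.x₂ κ₁.2.succ := by rw [b2]
    apply ps_geom_corner_frame Γ g h01 h12 ⟨(g.x₁ κ₀.1.castSucc, g.x₂ κ₀.2.succ - 1), (-1, 0), (0, 1)⟩ (Or.inl ⟨Or.inr rfl, Or.inl rfl⟩) δ ρ h1 h2 _ _ _ _ ω hω hE hc v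
    · intro c s r1 r2 r3 r4
      rw [ps_mem_cell]
      simp only [PsFrame.pt, Prod.smul_mk, smul_eq_mul, Prod.mk_add_mk, mul_one, mul_zero, add_zero, zero_add, mul_neg]
      omega
    · intro c s r1 r2 r3 r4
      rw [ps_mem_cell]
      simp only [PsFrame.pt, Prod.smul_mk, smul_eq_mul, Prod.mk_add_mk, mul_one, mul_zero, add_zero, zero_add, mul_neg]
      omega
    · intro c s r1 r2 r3 r4
      rw [ps_mem_cell]
      simp only [PsFrame.pt, Prod.smul_mk, smul_eq_mul, Prod.mk_add_mk, mul_one, mul_zero, add_zero, zero_add, mul_neg]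
      omega
    · intro z hz d1 d2
      rw [ps_mem_cell] at hz
      rw [ps_distCell_def] at d1 d2 ⊢
      refine ⟨(g.x₁ κ₀.1.castSucc - z.1).toNat, Finset.mem_Icc.2 ⟨by omega, by omega⟩, (z.2 - (g.x₂ κ₀.2.succ - 1)).toNat, Finset.mem_Icc.2 ⟨by omega, by omega⟩, by omega, ?_⟩
      simp only [PsFrame.pt, Prod.smul_mk, smul_eq_mul, Prod.mk_add_mk, mul_one, mul_zero, add_zero, zero_add, mul_neg]
      apply Prod.ext <;> simp only <;> omega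
  · exact absurd (a1.trans b1) hd1
  · exact absurd (a2.trans b2) hd2
  · have p1 : g.x₁ κ₀.1.castSucc = g.x₁ κ₁.1.succ := by rw [ps_fin_succ a1]
    have p2 : g.x₂ κ₁.2.castSucc = g.x₂ κ₀.2.castSucc := by rw [a2]
    have p3 : g.x₂ κ₁.2.succ = g.x₂ κ₀.2.succ := by rw [a2]
    have q1 : g.x₂ κ'.2.castSucc = g.x₂ κ₁.2.succ := by rw [ps_fin_succ b2]
    have q2 : g.x₁ κ'.1.castSucc = g.x₁ κ₁.1.castSucc := by rw [b1]
    have q3 : g.x₁ κ'.1.succ = g.x₁ κ₁.1.succ := by rw [b1]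
    apply ps_geom_corner_frame Γ g h01 h12 ⟨(g.x₁ κ₀.1.castSucc, g.x₂ κ₀.2.succ - 1), (0, 1), (-1, 0)⟩ (Or.inr ⟨Or.inl rfl, Or.inr rfl⟩) δ ρ h1 h2 _ _ _ _ ω hω hE hc v
    · intro c s r1 r2 r3 r4
      rw [ps_mem_cell]
      simp only [PsFrame.pt, Prod.smul_mk, smul_eq_mul, Prod.mk_add_mk, mul_one, mul_zero, add_zero, zero_add, mul_neg]
      omega
    · intro c s r1 r2 r3 r4
      rw [ps_mem_cell]
      simp only [PsFrame.pt, Prod.smul_mk, smul_eq_mul, Prod.mk_add_mk, mul_one, mul_zero, add_zero, zero_add, mul_neg]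
      omega
    · intro c s r1 r2 r3 r4
      rw [ps_mem_cell]
      simp only [PsFrame.pt, Prod.smul_mk, smul_eq_mul, Prod.mk_add_mk, mul_one, mul_zero, add_zero, zero_add, mul_neg]
      omega
    · intro z hz d1 d2
      rw [ps_mem_cell] at hz
      rw [ps_distCell_def] at d1 d2 ⊢
      refine ⟨(z.2 - (g.x₂ κ₀.2.succ - 1)).toNat, Finset.mem_Icc.2 ⟨by omega, by omega⟩, (g.x₁ κ₀.1.castSucc - z.1).toNat, Finset.mem_Icc.2 ⟨by omega, by omega⟩, by omega, ?_⟩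
      simp only [PsFrame.pt, Prod.smul_mk, smul_eq_mul, Prod.mk_add_mk, mul_one, mul_zero, add_zero, zero_add, mul_neg]
      apply Prod.ext <;> simp only <;> omega
  · exact absurd (a2.trans b2) hd2
  · have p1 : g.x₁ κ₀.1.castSucc = g.x₁ κ₁.1.succ := by rw [ps_fin_succ a1]
    have p2 : g.x₂ κ₁.2.castSucc = g.x₂ κ₀.2.castSucc := by rw [a2]
    have p3 : g.x₂ κ₁.2.succ = g.x₂ κ₀.2.succ := by rw [a2]
    have q1 : g.x₂ κ₁.2.castSucc = g.x₂ κ'.2.succ := by rw [ps_fin_succ b2]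
    have q2 : g.x₁ κ'.1.castSucc = g.x₁ κ₁.1.castSucc := by rw [b1]
    have q3 : g.x₁ κ'.1.succ = g.x₁ κ₁.1.succ := by rw [b1]
    apply ps_geom_corner_frame Γ g h01 h12 ⟨(g.x₁ κ₀.1.castSucc, g.x₂ κ₀.2.castSucc), (0, -1), (-1, 0)⟩ (Or.inr ⟨Or.inr rfl, Or.inr rfl⟩) δ ρ h1 h2 _ _ _ _ ω hω hE hc v
    · intro c s r1 r2 r3 r4
      rw [ps_mem_cell]
      simp only [PsFrame.pt, Prod.smul_mk, smul_eq_mul, Prod.mk_add_mk, mul_one, mul_zero, add_zero, zero_add, mul_neg]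
      omega
    · intro c s r1 r2 r3 r4
      rw [ps_mem_cell]
      simp only [PsFrame.pt, Prod.smul_mk, smul_eq_mul, Prod.mk_add_mk, mul_one, mul_zero, add_zero, zero_add, mul_neg]
      omega
    · intro c s r1 r2 r3 r4
      rw [ps_mem_cell]
      simp only [PsFrame.pt, Prod.smul_mk, smul_eq_mul, Prod.mk_add_mk, mul_one, mul_zero, add_zero, zero_add, mul_neg]
      omega
    · intro z hz d1 d2
      rw [ps_mem_cell] at hz
      rw [ps_distCell_def] at d1 d2 ⊢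
      refine ⟨(g.x₂ κ₀.2.castSucc - z.2).toNat, Finset.mem_Icc.2 ⟨by omega, by omega⟩, (g.x₁ κ₀.1.castSucc - z.1).toNat, Finset.mem_Icc.2 ⟨by omega, by omega⟩, by omega, ?_⟩
      simp only [PsFrame.pt, Prod.smul_mk, smul_eq_mul, Prod.mk_add_mk, mul_one, mul_zero, add_zero, zero_add, mul_neg]
      apply Prod.ext <;> simp only <;> omega
  · have p1 : g.x₂ κ₀.2.castSucc = g.x₂ κ₁.2.succ := by rw [ps_fin_succ a2]
    have p2 : g.x₁ κ₁.1.castSucc = g.x₁ κ₀.1.castSucc := by rw [a1]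
    have p3 : g.x₁ κ₁.1.succ = g.x₁ κ₀.1.succ := by rw [a1]
    have q1 : g.x₁ κ'.1.castSucc = g.x₁ κ₁.1.succ := by rw [ps_fin_succ b1]
    have q2 : g.x₂ κ'.2.castSucc = g.x₂ κ₁.2.castSucc := by rw [b2]
    have q3 : g.x₂ κ'.2.succ = g.x₂ κ₁.2.succ := by rw [b2]
    apply ps_geom_corner_frame Γ g h01 h12 ⟨(g.x₁ κ₀.1.succ - 1, g.x₂ κ₀.2.castSucc), (1, 0), (0, -1)⟩ (Or.inl ⟨Or.inl rfl, Or.inr rfl⟩) δ ρ h1 h2 _ _ _ _ ω hω hE hc v
    · intro c s r1 r2 r3 r4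
      rw [ps_mem_cell]
      simp only [PsFrame.pt, Prod.smul_mk, smul_eq_mul, Prod.mk_add_mk, mul_one, mul_zero, add_zero, zero_add, mul_neg]
      omega
    · intro c s r1 r2 r3 r4
      rw [ps_mem_cell]
      simp only [PsFrame.pt, Prod.smul_mk, smul_eq_mul, Prod.mk_add_mk, mul_one, mul_zero, add_zero, zero_add, mul_neg]
      omega
    · intro c s r1 r2 r3 r4
      rw [ps_mem_cell]
      simp only [PsFrame.pt, Prod.smul_mk, smul_eq_mul, Prod.mk_add_mk, mul_one, mul_zero, add_zero, zero_add, mul_neg]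
      omega
    · intro z hz d1 d2
      rw [ps_mem_cell] at hz
      rw [ps_distCell_def] at d1 d2 ⊢
      refine ⟨(z.1 - (g.x₁ κ₀.1.succ - 1)).toNat, Finset.mem_Icc.2 ⟨by omega, by omega⟩, (g.x₂ κ₀.2.castSucc - z.2).toNat, Finset.mem_Icc.2 ⟨by omega, by omega⟩, by omega, ?_⟩
      simp only [PsFrame.pt, Prod.smul_mk, smul_eq_mul, Prod.mk_add_mk, mul_one, mul_zero, add_zero, zero_add, mul_neg]
      apply Prod.ext <;> simp only <;> omega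
  · exact absurd (a1.trans b1) hd1
  · have p1 : g.x₂ κ₀.2.castSucc = g.x₂ κ₁.2.succ := by rw [ps_fin_succ a2]
    have p2 : g.x₁ κ₁.1.castSucc = g.x₁ κ₀.1.castSucc := by rw [a1]
    have p3 : g.x₁ κ₁.1.succ = g.x₁ κ₀.1.succ := by rw [a1]
    have q1 : g.x₁ κ₁.1.castSucc = g.x₁ κ'.1.succ := by rw [ps_fin_succ b1]
    have q2 : g.x₂ κ'.2.castSucc = g.x₂ κ₁.2.castSucc := by rw [b2]
    have q3 : g.x₂ κ'.2.succ = g.x₂ κ₁.2.succ := by rw [b2]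
    apply ps_geom_corner_frame Γ g h01 h12 ⟨(g.x₁ κ₀.1.castSucc, g.x₂ κ₀.2.castSucc), (-1, 0), (0, -1)⟩ (Or.inl ⟨Or.inr rfl, Or.inr rfl⟩) δ ρ h1 h2 _ _ _ _ ω hω hE hc v
    · intro c s r1 r2 r3 r4
      rw [ps_mem_cell]
      simp only [PsFrame.pt, Prod.smul_mk, smul_eq_mul, Prod.mk_add_mk, mul_one, mul_zero, add_zero, zero_add, mul_neg]
      omega
    · intro c s r1 r2 r3 r4
      rw [ps_mem_cell]
      simp only [PsFrame.pt, Prod.smul_mk, smul_eq_mul, Prod.mk_add_mk, mul_one, mul_zero, add_zero, zero_add, mul_neg]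
      omega
    · intro c s r1 r2 r3 r4
      rw [ps_mem_cell]
      simp only [PsFrame.pt, Prod.smul_mk, smul_eq_mul, Prod.mk_add_mk, mul_one, mul_zero, add_zero, zero_add, mul_neg]
      omega
    · intro z hz d1 d2
      rw [ps_mem_cell] at hz
      rw [ps_distCell_def] at d1 d2 ⊢
      refine ⟨(g.x₁ κ₀.1.castSucc - z.1).toNat, Finset.mem_Icc.2 ⟨by omega, by omega⟩, (g.x₂ κ₀.2.castSucc - z.2).toNat, Finset.mem_Icc.2 ⟨by omega, by omega⟩, by omega, ?_⟩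
      simp only [PsFrame.pt, Prod.smul_mk, smul_eq_mul, Prod.mk_add_mk, mul_one, mul_zero, add_zero, zero_add, mul_neg]
      apply Prod.ext <;> simp only <;> omega
  · exact absurd (a1.trans b1) hd1

theorem ps_idx_near {m : ℕ} {x : Fin (m + 1) → ℤ} (hx : StrictMono x) {ν : ℕ}
    (hs : ∀ i : Fin m, (ν : ℤ) ≤ x i.succ - x i.castSucc) {i i' : Fin m} {a : ℤ}
    (h1 : x i.castSucc ≤ a) (h2 : a < x i'.succ + ν) : i.1 ≤ i'.1 + 1 := by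
  by_contra hc
  have hk : i'.1 + 1 < m := by have := i.2; omega
  have e1 : (⟨i'.1 + 1, hk⟩ : Fin m).castSucc = i'.succ := ps_fin_succ (i := i') (i' := ⟨i'.1 + 1, hk⟩) rfl
  have e2 : (⟨i'.1 + 1, hk⟩ : Fin m).succ ≤ i.castSucc := by
    rw [Fin.le_def]
    simp only [Fin.val_succ, Fin.val_castSucc]
    omega
  have e3 := hx.monotone e2
  have e4 := hs ⟨i'.1 + 1, hk⟩
  rw [e1] at e4
  omega

theorem ps_idx_near' {m : ℕ} {x : Fin (m + 1) → ℤ} (hx : StrictMono x) {ν : ℕ}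
    (hs : ∀ i : Fin m, (ν : ℤ) ≤ x i.succ - x i.castSucc) {i i' : Fin m} {a : ℤ}
    (h1 : a < x i.succ) (h2 : x i'.castSucc - ν ≤ a) : i'.1 ≤ i.1 + 1 := by
  by_contra hc
  have hk : i.1 + 1 < m := by have := i'.2; omega
  have e1 : (⟨i.1 + 1, hk⟩ : Fin m).castSucc = i.succ := ps_fin_succ (i := i) (i' := ⟨i.1 + 1, hk⟩) rfl
  have e2 : (⟨i.1 + 1, hk⟩ : Fin m).succ ≤ i'.castSucc := by
    rw [Fin.le_def]
    simp only [Fin.val_succ, Fin.val_castSucc]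
    omega
  have e3 := hx.monotone e2
  have e4 := hs ⟨i.1 + 1, hk⟩
  rw [e1] at e4
  omega

theorem ps_conn_symm {κ κ' : Fin m₁ × Fin m₂} (h : Γ.Conn κ κ') : Γ.Conn κ' κ := by
  induction h with
  | refl => exact Relation.ReflTransGen.refl
  | tail _ hbc ih => exact Relation.ReflTransGen.head (ps_adj_symm Γ hbc) ih

/-- a cell at distance `≤ ρ < ν` is one of the 9 cells of the block -/
theorem ps_near_block {ν ρ : ℕ} (hν : g.SideGe ν) (h3 : ρ < ν) {κ κ₀ : Fin m₁ × Fin m₂} {z : ℤ × ℤ} (hz : z ∈ g.cell κ)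
    (hd : psDistCell g κ₀ z ≤ ρ) :
    κ.1.1 ≤ κ₀.1.1 + 1 ∧ κ₀.1.1 ≤ κ.1.1 + 1 ∧ κ.2.1 ≤ κ₀.2.1 + 1 ∧ κ₀.2.1 ≤ κ.2.1 + 1 := by
  rw [ps_mem_cell] at hz
  rw [ps_distCell_def] at hd
  refine ⟨ps_idx_near g.mono₁ hν.1 hz.1.1 (by omega), ps_idx_near' g.mono₁ hν.1 hz.1.2 (by omega),
    ps_idx_near g.mono₂ hν.2 hz.2.1 (by omega), ps_idx_near' g.mono₂ hν.2 hz.2.2 (by omega)⟩

/-- the neighbours of a cell in its component: face neighbours are adjacent, diagonal neighbours are joined through a third cell -/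
theorem ps_nbr_cases (hN : Γ.NoDiag) {κ κ₀ : Fin m₁ × Fin m₂} (hκ : κ ∈ Γ.T) (hκ₀ : κ₀ ∈ Γ.T) (hc : Γ.Conn κ κ₀) (hne : κ ≠ κ₀)
    (hb : κ.1.1 ≤ κ₀.1.1 + 1 ∧ κ₀.1.1 ≤ κ.1.1 + 1 ∧ κ.2.1 ≤ κ₀.2.1 + 1 ∧ κ₀.2.1 ≤ κ.2.1 + 1) :
    Γ.Adj κ₀ κ ∨ (κ₀.1 ≠ κ.1 ∧ κ₀.2 ≠ κ.2 ∧ ∃ κ₁, Γ.Adj κ₀ κ₁ ∧ Γ.Adj κ₁ κ) := by
  have hc' := ps_conn_symm Γ hc
  obtain ⟨i, j⟩ := κ
  obtain ⟨i₀, j₀⟩ := κ₀
  simp only at hb
  by_cases h1 : i = i₀
  · subst h1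
    left
    have hj : j ≠ j₀ := fun h => hne (by rw [h])
    have hj' : j.1 ≠ j₀.1 := fun h => hj (Fin.ext h)
    refine ⟨hκ₀, hκ, ?_⟩
    by_cases h2 : j₀.1 + 1 = j.1
    · refine Or.inr (Or.inl ⟨rfl, h2, fun hcut => ?_⟩)
      exact hN.1 (i, j₀) (i, j) hκ₀ hκ (Or.inr ⟨rfl, h2, hcut⟩) hc'
    · have h2' : j.1 + 1 = j₀.1 := by omega
      refine Or.inr (Or.inr (Or.inr ⟨rfl, h2', fun hcut => ?_⟩))
      exact hN.1 (i, j) (i, j₀) hκ hκ₀ (Or.inr ⟨rfl, h2', hcut⟩) hc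
  by_cases h2 : j = j₀
  · subst h2
    left
    have hi' : i.1 ≠ i₀.1 := fun h => h1 (Fin.ext h)
    refine ⟨hκ₀, hκ, ?_⟩
    by_cases h3 : i₀.1 + 1 = i.1
    · refine Or.inl ⟨h3, rfl, fun hcut => ?_⟩
      exact hN.1 (i₀, j) (i, j) hκ₀ hκ (Or.inl ⟨h3, rfl, hcut⟩) hc'
    · have h3' : i.1 + 1 = i₀.1 := by omega
      refine Or.inr (Or.inr (Or.inl ⟨h3', rfl, fun hcut => ?_⟩))
      exact hN.1 (i, j) (i₀, j) hκ hκ₀ (Or.inl ⟨h3', rfl, hcut⟩) hc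
  right
  refine ⟨fun h => h1 h.symm, fun h => h2 h.symm, ?_⟩
  have hi' : i.1 ≠ i₀.1 := fun h => h1 (Fin.ext h)
  have hj' : j.1 ≠ j₀.1 := fun h => h2 (Fin.ext h)
  by_cases a1 : i₀.1 + 1 = i.1 <;> by_cases a2 : j₀.1 + 1 = j.1
  · -- κ = κ₀ + (1,1)
    rcases (hN.2 i₀ j₀ i j a1 a2).1 hc' hκ₀ hκ with ⟨t, c1, c2⟩ | ⟨t, c1, c2⟩
    · exact ⟨(i, j₀), ⟨hκ₀, t, Or.inl ⟨a1, rfl, c1⟩⟩, ⟨t, hκ, Or.inr (Or.inl ⟨rfl, a2, c2⟩)⟩⟩
    · exact ⟨(i₀, j), ⟨hκ₀, t, Or.inr (Or.inl ⟨rfl, a2, c1⟩)⟩, ⟨t, hκ, Or.inl ⟨a1, rfl, c2⟩⟩⟩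
  · -- κ = κ₀ + (1,-1)
    have a2' : j.1 + 1 = j₀.1 := by omega
    rcases (hN.2 i₀ j i j₀ a1 a2').2 hc hκ hκ₀ with ⟨t, c1, c2⟩ | ⟨t, c1, c2⟩
    · exact ⟨(i₀, j), ⟨hκ₀, t, Or.inr (Or.inr (Or.inr ⟨rfl, a2', c2⟩))⟩, ⟨t, hκ, Or.inl ⟨a1, rfl, c1⟩⟩⟩
    · exact ⟨(i, j₀), ⟨hκ₀, t, Or.inl ⟨a1, rfl, c2⟩⟩, ⟨t, hκ, Or.inr (Or.inr (Or.inr ⟨rfl, a2', c1⟩))⟩⟩
  · -- κ = κ₀ + (-1,1)
    have a1' : i.1 + 1 = i₀.1 := by omega
    rcases (hN.2 i j₀ i₀ j a1' a2).2 hc' hκ₀ hκ with ⟨t, c1, c2⟩ | ⟨t, c1, c2⟩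
    · exact ⟨(i, j₀), ⟨hκ₀, t, Or.inr (Or.inr (Or.inl ⟨a1', rfl, c1⟩))⟩, ⟨t, hκ, Or.inr (Or.inl ⟨rfl, a2, c2⟩)⟩⟩
    · exact ⟨(i₀, j), ⟨hκ₀, t, Or.inr (Or.inl ⟨rfl, a2, c1⟩)⟩, ⟨t, hκ, Or.inr (Or.inr (Or.inl ⟨a1', rfl, c2⟩))⟩⟩
  · -- κ = κ₀ + (-1,-1)
    have a1' : i.1 + 1 = i₀.1 := by omega
    have a2' : j.1 + 1 = j₀.1 := by omega
    rcases (hN.2 i j i₀ j₀ a1' a2').1 hc hκ hκ₀ with ⟨t, c1, c2⟩ | ⟨t, c1, c2⟩
    · exact ⟨(i₀, j), ⟨hκ₀, t, Or.inr (Or.inr (Or.inr ⟨rfl, a2', c2⟩))⟩, ⟨t, hκ, Or.inr (Or.inr (Or.inl ⟨a1', rfl, c1⟩))⟩⟩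
    · exact ⟨(i, j₀), ⟨hκ₀, t, Or.inr (Or.inr (Or.inl ⟨a1', rfl, c2⟩))⟩, ⟨t, hκ, Or.inr (Or.inr (Or.inr ⟨rfl, a2', c1⟩))⟩⟩

/-- the neighbours of `κ₀` in its component -/
def psNbr (κ₀ : Fin m₁ × Fin m₂) : Finset (Fin m₁ × Fin m₂) :=
  Finset.univ.filter fun κ => κ ∈ Γ.T ∧ Γ.Conn κ κ₀ ∧ κ ≠ κ₀ ∧
    (κ.1.1 ≤ κ₀.1.1 + 1 ∧ κ₀.1.1 ≤ κ.1.1 + 1 ∧ κ.2.1 ≤ κ₀.2.1 + 1 ∧ κ₀.2.1 ≤ κ.2.1 + 1)

theorem ps_nbr_card (κ₀ : Fin m₁ × Fin m₂) : (psNbr Γ κ₀).card ≤ 9 := by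
  have h : (psNbr Γ κ₀).card ≤ (Finset.Icc (-1 : ℤ) 1 ×ˢ Finset.Icc (-1 : ℤ) 1).card := by
    apply Finset.card_le_card_of_injOn (fun κ : Fin m₁ × Fin m₂ => ((κ.1.1 : ℤ) - κ₀.1.1, (κ.2.1 : ℤ) - κ₀.2.1))
    · intro κ hκ
      obtain ⟨_, _, _, _, b1, b2, b3, b4⟩ := Finset.mem_filter.1 (Finset.mem_coe.1 hκ)
      rw [Finset.mem_coe, Finset.mem_product, Finset.mem_Icc, Finset.mem_Icc]
      simp only
      omega
    · intro κ _ κ' _ h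
      simp only [Prod.mk.injEq] at h
      apply Prod.ext <;> apply Fin.ext <;> omega
  have h9 : (Finset.Icc (-1 : ℤ) 1 ×ˢ Finset.Icc (-1 : ℤ) 1).card = 9 := by
    rw [Finset.card_product, Int.card_Icc]
    rfl
  omega

theorem ps_en_nonneg {G : HGraph} (v : G.V → ℝ) : 0 ≤ HLaw.en v 0 := by
  unfold HLaw.en
  exact Finset.sum_nonneg fun e _ => sq_nonneg _

theorem ps_sum_max_one (ρ : ℕ) (f : ℕ → ℝ) : ∑ i ∈ Finset.Icc 1 ρ, f (max i 1) = ∑ i ∈ Finset.Icc 1 ρ, f i := by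
  apply Finset.sum_congr rfl
  intro i hi
  rw [max_eq_left (Finset.mem_Icc.1 hi).1]

theorem ps_pair_bound (hN : Γ.NoDiag) (ν : ℕ) (hν : g.SideGe ν) {κ₀ κ : Fin m₁ × Fin m₂} (hκ₀ : κ₀ ∈ Γ.T) (hκ : κ ∈ psNbr Γ κ₀)
    (δ ρ : ℕ) (h1 : 1 ≤ δ) (h2 : δ ≤ ρ) (h3 : ρ < ν) (ω : ℕ → ℝ) (hω : ∀ t, 0 ≤ ω t) {WE Wc : ℝ}
    (hE : ∀ j ∈ Finset.Icc 1 ρ, ∑ i ∈ Finset.Icc 1 ρ, ω (max i j) * (((max i j : ℕ) : ℝ) + δ) ≤ WE)
    (hc : ∀ j ∈ Finset.Icc 1 ρ, ∑ i ∈ Finset.Icc 1 ρ, ω (max i j) ≤ Wc) (v : (Γ.graph g).V → ℝ) :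
    ∑ x, (if domPos (D := g.region Γ.T) (cut := Γ.cutB g) x ∈ g.cell κ ∧ 1 ≤ psDistCell g κ₀ (domPos (D := g.region Γ.T) (cut := Γ.cutB g) x)
          ∧ psDistCell g κ₀ (domPos (D := g.region Γ.T) (cut := Γ.cutB g) x) ≤ ρ
        then ω (psDistCell g κ₀ (domPos (D := g.region Γ.T) (cut := Γ.cutB g) x)) * v x ^ 2 else 0)
      ≤ 3 * Wc / δ * ∑ x, (if x ∈ Γ.sites g {κ₀} then v x ^ 2 else 0) + 6 * WE * HLaw.en v 0 := by
  obtain ⟨_, k1, k2, k3, k4⟩ := Finset.mem_filter.1 hκ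
  rcases ps_nbr_cases Γ hN k1 hκ₀ k2 k3 k4 with hadj | ⟨d1, d2, κ₁, a1, a2⟩
  · have h0 := ps_geom_flat Γ g ν hν hadj δ ρ h1 h2 h3 ω hω v
    have m1 : (1 : ℕ) ∈ Finset.Icc 1 ρ := Finset.mem_Icc.2 ⟨le_rfl, by omega⟩
    have w1 : ∑ t ∈ Finset.Icc 1 ρ, ω t ≤ Wc := by
      have := hc 1 m1
      rwa [ps_sum_max_one ρ ω] at this
    have w2 : ∑ t ∈ Finset.Icc 1 ρ, ω t * ((t : ℝ) + δ) ≤ WE := by
      have := hE 1 m1
      rwa [ps_sum_max_one ρ (fun t => ω t * ((t : ℝ) + δ))] at this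
    have w0 : 0 ≤ ∑ t ∈ Finset.Icc 1 ρ, ω t := Finset.sum_nonneg fun t _ => hω t
    have w3 : 0 ≤ ∑ t ∈ Finset.Icc 1 ρ, ω t * ((t : ℝ) + δ) :=
      Finset.sum_nonneg fun t _ => mul_nonneg (hω t) (by positivity)
    have hM : 0 ≤ ∑ x, (if x ∈ Γ.sites g {κ₀} then v x ^ 2 else 0) :=
      Finset.sum_nonneg fun x _ => by split_ifs <;> positivity
    have hen := ps_en_nonneg v
    have hδ : (0 : ℝ) < δ := by exact_mod_cast h1
    have q1 : 2 / (δ : ℝ) * (∑ t ∈ Finset.Icc 1 ρ, ω t) ≤ 3 * Wc / δ := by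
      rw [div_mul_eq_mul_div]
      apply div_le_div_of_nonneg_right _ hδ.le
      linarith
    have q2 : 2 * (∑ t ∈ Finset.Icc 1 ρ, ω t * ((t : ℝ) + δ)) ≤ 6 * WE := by linarith
    have q3 := mul_le_mul_of_nonneg_right q1 hM
    have q4 := mul_le_mul_of_nonneg_right q2 hen
    linarith
  · exact ps_geom_corner Γ g ν hν a1 a2 d1 d2 δ ρ h1 h2 h3 ω hω hE hc v

/-- the masses of the cells of `A` add up to the mass of `A` -/
theorem ps_mass_sum (A : Finset (Fin m₁ × Fin m₂)) (v : (Γ.graph g).V → ℝ) :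
    ∑ κ₀ ∈ A, ∑ x, (if x ∈ Γ.sites g {κ₀} then v x ^ 2 else 0) ≤ ∑ x, (if x ∈ Γ.sites g A then v x ^ 2 else 0) := by
  rw [Finset.sum_comm]
  apply Finset.sum_le_sum
  intro x _
  by_cases hx : ∃ κ ∈ A, domPos (D := g.region Γ.T) (cut := Γ.cutB g) x ∈ g.cell κ
  · obtain ⟨κ, hκ, hp⟩ := hx
    have hxA : x ∈ Γ.sites g A := by
      show domPos (D := g.region Γ.T) (cut := Γ.cutB g) x ∈ (↑(g.region A) : Set (ℤ × ℤ))
      rw [Finset.mem_coe]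
      unfold DGrid.region
      exact Finset.mem_biUnion.2 ⟨κ, hκ, hp⟩
    rw [if_pos hxA, Finset.sum_eq_single κ]
    · rw [if_pos ((ps_mem_sites_single Γ g κ x).2 hp)]
    · intro κ' _ hne
      rw [if_neg]
      intro h
      exact hne (ps_cell_unique g ((ps_mem_sites_single Γ g κ' x).1 h) hp)
    · intro h
      exact absurd hκ h
  · rw [Finset.sum_eq_zero]
    · split_ifs <;> positivity
    · intro κ hκ
      rw [if_neg]
      intro h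
      exact hx ⟨κ, hκ, (ps_mem_sites_single Γ g κ x).1 h⟩

/-- LEAF L-PS-G3: **the weighted collar estimate** (assembly of `ps_geom_flat`, `ps_geom_corner`; `C = 48` is enough).
If `1 ≤ d x ≤ ρ` then `d x = psDistCell g κ₀ (pos x)` for some `κ₀ ∈ A`, `pos x ∈ κ ∈ T`, `Conn κ κ₀`, `κ ≠ κ₀`; as `ρ < ν`, the indices of `κ`, `κ₀` differ by at most one.
Face neighbours: `Adj` by `NoDiag` (a).  Diagonal neighbours: `NoDiag` (b) gives `κ₁`.   Bound the sum by the sum over `κ₀ ∈ A` and over the (at most 8) neighbours `κ`. -/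
theorem ps_geom_weight : ∃ C : ℝ, 0 < C ∧ ∀ (m₁ m₂ : ℕ) (Γ : CGeom m₁ m₂), Γ.NoDiag → ∀ (g : DGrid m₁ m₂) (ν : ℕ), g.SideGe ν →
    ∀ A : Finset (Fin m₁ × Fin m₂), A ⊆ Γ.T → ∀ δ ρ : ℕ, 1 ≤ δ → δ ≤ ρ → ρ < ν → ∀ ω : ℕ → ℝ, (∀ t, 0 ≤ ω t) → ∀ WE Wc : ℝ,
    (∀ j ∈ Finset.Icc 1 ρ, ∑ i ∈ Finset.Icc 1 ρ, ω (max i j) * (((max i j : ℕ) : ℝ) + δ) ≤ WE) →
    (∀ j ∈ Finset.Icc 1 ρ, ∑ i ∈ Finset.Icc 1 ρ, ω (max i j) ≤ Wc) → ∀ v : (Γ.graph g).V → ℝ,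
    ∑ x, (if 1 ≤ psDist Γ g A ρ x ∧ psDist Γ g A ρ x ≤ ρ then ω (psDist Γ g A ρ x) * v x ^ 2 else 0)
      ≤ C * A.card * WE * HLaw.en v 0 + C * (Wc / δ) * ∑ x, (if x ∈ Γ.sites g A then v x ^ 2 else 0) := by
  refine ⟨54, by norm_num, ?_⟩
  intro m₁ m₂ Γ hN g ν hν A hA δ ρ h1 h2 h3 ω hω WE Wc hE hc v
  have m1 : (1 : ℕ) ∈ Finset.Icc 1 ρ := Finset.mem_Icc.2 ⟨le_rfl, by omega⟩
  have hWc : 0 ≤ Wc := (Finset.sum_nonneg fun i _ => hω _).trans (hc 1 m1)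
  have hWE : 0 ≤ WE := (Finset.sum_nonneg fun i _ => mul_nonneg (hω _) (by positivity)).trans (hE 1 m1)
  have hen := ps_en_nonneg v
  have hδ : (0 : ℝ) < δ := by exact_mod_cast h1
  -- pointwise bound
  have hpt : ∀ x : (Γ.graph g).V,
      (if 1 ≤ psDist Γ g A ρ x ∧ psDist Γ g A ρ x ≤ ρ then ω (psDist Γ g A ρ x) * v x ^ 2 else 0)
      ≤ ∑ κ₀ ∈ A, ∑ κ ∈ psNbr Γ κ₀,
        (if domPos (D := g.region Γ.T) (cut := Γ.cutB g) x ∈ g.cell κ ∧ 1 ≤ psDistCell g κ₀ (domPos (D := g.region Γ.T) (cut := Γ.cutB g) x)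
          ∧ psDistCell g κ₀ (domPos (D := g.region Γ.T) (cut := Γ.cutB g) x) ≤ ρ
        then ω (psDistCell g κ₀ (domPos (D := g.region Γ.T) (cut := Γ.cutB g) x)) * v x ^ 2 else 0) := by
    intro x
    have hnn : ∀ κ₀ κ : Fin m₁ × Fin m₂, 0 ≤
        (if domPos (D := g.region Γ.T) (cut := Γ.cutB g) x ∈ g.cell κ ∧ 1 ≤ psDistCell g κ₀ (domPos (D := g.region Γ.T) (cut := Γ.cutB g) x)
          ∧ psDistCell g κ₀ (domPos (D := g.region Γ.T) (cut := Γ.cutB g) x) ≤ ρ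
        then ω (psDistCell g κ₀ (domPos (D := g.region Γ.T) (cut := Γ.cutB g) x)) * v x ^ 2 else 0) := by
      intro κ₀ κ
      split_ifs
      · exact mul_nonneg (hω _) (sq_nonneg _)
      · exact le_rfl
    by_cases hx : 1 ≤ psDist Γ g A ρ x ∧ psDist Γ g A ρ x ≤ ρ
    · rw [if_pos hx]
      rcases ps_dist_mem Γ g A ρ x with hy | hy
      · have hy' : psDist Γ g A ρ x = ρ + 1 := hy
        omega
      · obtain ⟨κ, hκ, κ₀, hκ₀, hp, hconn, hd⟩ := hy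
        have hne : κ ≠ κ₀ := by
          rintro rfl
          have := (ps_distCell_eq_zero g).2 hp
          omega
        have hmem : κ ∈ psNbr Γ κ₀ :=
          Finset.mem_filter.2 ⟨Finset.mem_univ _, hκ, hconn, hne, ps_near_block g hν h3 hp (by omega)⟩
        refine le_trans ?_ (Finset.single_le_sum (f := fun κ₀ => ∑ κ ∈ psNbr Γ κ₀,
          (if domPos (D := g.region Γ.T) (cut := Γ.cutB g) x ∈ g.cell κ ∧ 1 ≤ psDistCell g κ₀ (domPos (D := g.region Γ.T) (cut := Γ.cutB g) x)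
            ∧ psDistCell g κ₀ (domPos (D := g.region Γ.T) (cut := Γ.cutB g) x) ≤ ρ
          then ω (psDistCell g κ₀ (domPos (D := g.region Γ.T) (cut := Γ.cutB g) x)) * v x ^ 2 else 0))
          (fun κ₀ _ => Finset.sum_nonneg fun κ _ => hnn κ₀ κ) hκ₀)
        refine le_trans ?_ (Finset.single_le_sum (f := fun κ =>
          (if domPos (D := g.region Γ.T) (cut := Γ.cutB g) x ∈ g.cell κ ∧ 1 ≤ psDistCell g κ₀ (domPos (D := g.region Γ.T) (cut := Γ.cutB g) x)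
            ∧ psDistCell g κ₀ (domPos (D := g.region Γ.T) (cut := Γ.cutB g) x) ≤ ρ
          then ω (psDistCell g κ₀ (domPos (D := g.region Γ.T) (cut := Γ.cutB g) x)) * v x ^ 2 else 0))
          (fun κ _ => hnn κ₀ κ) hmem)
        rw [if_pos ⟨hp, by omega, by omega⟩, ← hd]
    · rw [if_neg hx]
      exact Finset.sum_nonneg fun κ₀ _ => Finset.sum_nonneg fun κ _ => hnn κ₀ κ
  have s1 := Finset.sum_le_sum fun x (_ : x ∈ (Finset.univ : Finset (Γ.graph g).V)) => hpt x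
  rw [Finset.sum_comm] at s1
  have s2 : ∀ κ₀ ∈ A, ∑ x : (Γ.graph g).V, ∑ κ ∈ psNbr Γ κ₀,
        (if domPos (D := g.region Γ.T) (cut := Γ.cutB g) x ∈ g.cell κ ∧ 1 ≤ psDistCell g κ₀ (domPos (D := g.region Γ.T) (cut := Γ.cutB g) x)
          ∧ psDistCell g κ₀ (domPos (D := g.region Γ.T) (cut := Γ.cutB g) x) ≤ ρ
        then ω (psDistCell g κ₀ (domPos (D := g.region Γ.T) (cut := Γ.cutB g) x)) * v x ^ 2 else 0)
      ≤ 9 * (3 * Wc / δ * ∑ x, (if x ∈ Γ.sites g {κ₀} then v x ^ 2 else 0) + 6 * WE * HLaw.en v 0) := by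
    intro κ₀ hκ₀
    rw [Finset.sum_comm]
    have hM : 0 ≤ ∑ x, (if x ∈ Γ.sites g {κ₀} then v x ^ 2 else 0) :=
      Finset.sum_nonneg fun x _ => by split_ifs <;> positivity
    have hB : 0 ≤ 3 * Wc / δ * ∑ x, (if x ∈ Γ.sites g {κ₀} then v x ^ 2 else 0) + 6 * WE * HLaw.en v 0 := by positivity
    have t1 := Finset.sum_le_sum fun κ (hκ : κ ∈ psNbr Γ κ₀) =>
      ps_pair_bound Γ g hN ν hν (hA hκ₀) hκ δ ρ h1 h2 h3 ω hω hE hc v
    refine t1.trans ?_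
    rw [Finset.sum_const, nsmul_eq_mul]
    apply mul_le_mul_of_nonneg_right _ hB
    exact_mod_cast ps_nbr_card Γ κ₀
  have s3 := Finset.sum_le_sum s2
  have s4 := ps_mass_sum Γ g A v
  have hMA : 0 ≤ ∑ x, (if x ∈ Γ.sites g A then v x ^ 2 else 0) :=
    Finset.sum_nonneg fun x _ => by split_ifs <;> positivity
  rw [← Finset.mul_sum, Finset.sum_add_distrib, ← Finset.mul_sum, Finset.sum_const, nsmul_eq_mul] at s3
  have hq : 0 ≤ Wc / (δ : ℝ) := by positivity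
  have s5 := mul_le_mul_of_nonneg_left s4 hq
  have s6 : 0 ≤ Wc / (δ : ℝ) * ∑ x, (if x ∈ Γ.sites g A then v x ^ 2 else 0) := by positivity
  have e1 : 3 * Wc / (δ : ℝ) = 3 * (Wc / δ) := by ring
  rw [e1] at s3
  have s7 := s1.trans s3
  nlinarith [s7, s5, s6]


theorem ps_sum_V {D : Finset (ℤ × ℤ)} {cut : Set Bond} (φ : ℤ × ℤ → ℝ) :
    ∑ x : (domG D cut).V, φ (domPos x) = ∑ z ∈ D, φ z :=
  (Finset.sum_subtype (p := fun z => z ∈ D) (F := (domG D cut).fV) D (fun _ => Iff.rfl) φ).symm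

theorem ps_ext_pos {D : Finset (ℤ × ℤ)} {cut : Set Bond} (v : (domG D cut).V → ℝ) (x : (domG D cut).V) :
    psExt v (domPos x) = v x := by
  have h : domPos x ∈ D := x.2
  exact dif_pos h

theorem ps_soft_mass_dom {D : Finset (ℤ × ℤ)} {cut : Set Bond} (R : Finset (ℤ × ℤ)) (hR : R ⊆ D) {ι : Type} [Fintype ι] (b : ι → PsBox)
    (s : ℕ) (hside : ∀ i, (b i).p ≤ s ∧ (b i).q ≤ s) (hdisj : ∀ i j, i ≠ j → Disjoint (b i).set (b j).set)
    (hcov : R = Finset.univ.biUnion fun i => (b i).set) (hbonds : ∀ i, domBonds (b i).set ∅ ⊆ domBonds D cut)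
    (v : (domG D cut).V → ℝ) :
    ∑ x, (if domPos x ∈ R then v x ^ 2 else 0)
      ≤ 2 * ∑ i, ((b i).set.card : ℝ) * (∑ x, psAvg (b i).set (domPos x) * v x) ^ 2 + 2 * (s : ℝ) ^ 2 * HLaw.en v 0 := by
  have hsub : ∀ i, (b i).set ⊆ R := by
    intro i
    rw [hcov]
    exact Finset.subset_biUnion_of_mem (fun i => (b i).set) (Finset.mem_univ i)
  have e1 : ∑ x, (if domPos x ∈ R then v x ^ 2 else 0) = ∑ i, ∑ z ∈ (b i).set, psExt v z ^ 2 := by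
    have a1 : ∑ x, (if domPos x ∈ R then v x ^ 2 else 0)
        = ∑ x : (domG D cut).V, (fun z => if z ∈ R then psExt v z ^ 2 else 0) (domPos x) := by
      refine Finset.sum_congr rfl fun x _ => ?_
      simp only [ps_ext_pos]
    rw [a1, ps_sum_V (D := D) (cut := cut) (fun z => if z ∈ R then psExt v z ^ 2 else 0), ← Finset.sum_filter, Finset.filter_mem_eq_inter, Finset.inter_eq_right.2 hR, hcov,
      Finset.sum_biUnion]
    intro i _ j _ hij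
    exact hdisj i j hij
  have e2 : ∀ i, ∑ x, psAvg (b i).set (domPos x) * v x = ∑ z ∈ (b i).set, psAvg (b i).set z * psExt v z := by
    intro i
    have a1 : ∑ x, psAvg (b i).set (domPos x) * v x
        = ∑ x : (domG D cut).V, (fun z => psAvg (b i).set z * psExt v z) (domPos x) := by
      refine Finset.sum_congr rfl fun x _ => ?_
      simp only [ps_ext_pos]
    rw [a1, ps_sum_V (D := D) (cut := cut) (fun z => psAvg (b i).set z * psExt v z)]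
    symm
    apply Finset.sum_subset ((hsub i).trans hR)
    intro z _ hz
    simp [psAvg, hz]
  have e3 : ∑ i, ∑ e ∈ domBonds (b i).set ∅, (psExt v e.snd - psExt v e.1) ^ 2 ≤ HLaw.en v 0 := by
    rw [ps_en_eq, ← Finset.sum_biUnion]
    · apply Finset.sum_le_sum_of_subset_of_nonneg
      · intro e he
        obtain ⟨i, _, hi⟩ := Finset.mem_biUnion.1 he
        exact hbonds i hi
      · intro e _ _
        exact sq_nonneg _
    · intro i _ j _ hij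
      rw [Function.onFun, Finset.disjoint_left]
      intro e he he'
      exact Finset.disjoint_left.1 (hdisj i j hij) (domBonds_fst he) (domBonds_fst he')
  have e4 : ∀ i, ∑ z ∈ (b i).set, psExt v z ^ 2
      ≤ 2 * (((b i).set.card : ℝ) * (∑ x, psAvg (b i).set (domPos x) * v x) ^ 2)
        + 2 * ((s : ℝ) ^ 2 * ∑ e ∈ domBonds (b i).set ∅, (psExt v e.snd - psExt v e.1) ^ 2) := by
    intro i
    have hp := ps_box_poincare (b i) (psExt v) s (hside i).1 (hside i).2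
    rw [e2 i]
    set m := ∑ z ∈ (b i).set, psAvg (b i).set z * psExt v z with hm
    have a1 : ∑ z ∈ (b i).set, psExt v z ^ 2 ≤ ∑ z ∈ (b i).set, (2 * m ^ 2 + 2 * (psExt v z - m) ^ 2) := by
      refine Finset.sum_le_sum fun z _ => ?_
      nlinarith [sq_nonneg (psExt v z - 2 * m)]
    rw [Finset.sum_add_distrib, Finset.sum_const, nsmul_eq_mul, ← Finset.mul_sum] at a1
    nlinarith
  rw [e1]
  calc ∑ i, ∑ z ∈ (b i).set, psExt v z ^ 2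
      ≤ ∑ i, (2 * (((b i).set.card : ℝ) * (∑ x, psAvg (b i).set (domPos x) * v x) ^ 2)
        + 2 * ((s : ℝ) ^ 2 * ∑ e ∈ domBonds (b i).set ∅, (psExt v e.snd - psExt v e.1) ^ 2)) :=
        Finset.sum_le_sum fun i _ => e4 i
    _ = 2 * ∑ i, ((b i).set.card : ℝ) * (∑ x, psAvg (b i).set (domPos x) * v x) ^ 2
        + 2 * (s : ℝ) ^ 2 * ∑ i, ∑ e ∈ domBonds (b i).set ∅, (psExt v e.snd - psExt v e.1) ^ 2 := by
        rw [Finset.sum_add_distrib, ← Finset.mul_sum, ← Finset.mul_sum, ← Finset.mul_sum]; ring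
    _ ≤ _ := by
        have : 0 ≤ 2 * (s : ℝ) ^ 2 := by positivity
        have := mul_le_mul_of_nonneg_left e3 this
        linarith

/-- LEAF L-PS-G6: **mass of a softly pinned region**: `∑_A v² ≤ 2 ∑_i |b_i| (avg_i v)² + 2 s² en v`  (`ps_box_poincare` on every box; the bonds inside a box are edges of the graph, boxes are disjoint). -/
theorem ps_soft_mass (A : Finset (Fin m₁ × Fin m₂)) (hA : A ⊆ Γ.T) (s : ℕ) {ι : Type} [Fintype ι] (b : ι → PsBox) (hb : psIsPart g A s b)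
    (v : (Γ.graph g).V → ℝ) :
    ∑ x, (if x ∈ Γ.sites g A then v x ^ 2 else 0)
      ≤ 2 * ∑ i, ((b i).set.card : ℝ) * (∑ x, psSoft Γ g b (fun _ => 1) i x * v x) ^ 2 + 2 * (s : ℝ) ^ 2 * HLaw.en v 0 := by

  obtain ⟨hb1, hb2, hb3, hb4⟩ := hb
  have hsubA : ∀ i, (b i).set ⊆ g.region A := by
    intro i
    obtain ⟨κ, hκ, h⟩ := hb1 i
    exact h.trans (Finset.subset_biUnion_of_mem g.cell hκ)
  have hAT : g.region A ⊆ g.region Γ.T := Finset.biUnion_subset_biUnion_of_subset_left _ hA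
  have hreg : g.region A = Finset.univ.biUnion fun i => (b i).set := by
    ext z
    constructor
    · intro hz
      obtain ⟨i, hi⟩ := hb4 z hz
      exact Finset.mem_biUnion.2 ⟨i, Finset.mem_univ _, hi⟩
    · intro hz
      obtain ⟨i, _, hi⟩ := Finset.mem_biUnion.1 hz
      exact hsubA i hi
  have hbonds : ∀ i, domBonds (b i).set ∅ ⊆ domBonds (g.region Γ.T) (Γ.cutB g) := by
    intro i e he
    obtain ⟨κ, hκ, h⟩ := hb1 i
    have h1 := domBonds_fst he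
    have h2 := domBonds_snd he
    unfold domBonds
    rw [Finset.mem_filter, Finset.mem_product]
    refine ⟨⟨hAT (hsubA i h1), Finset.mem_univ _⟩, hAT (hsubA i h2), ?_⟩
    rintro ⟨f, _, _, hf1, hf2⟩
    have : f.1 = κ := ps_cell_unique g hf1 (h h1)
    rw [this] at hf2
    exact hf2 (h h2)
  have key := ps_soft_mass_dom (D := g.region Γ.T) (cut := Γ.cutB g) (g.region A) hAT b s
    (fun i => ⟨(hb2 i).2.1, (hb2 i).2.2.2⟩) hb3 hreg hbonds v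
  have l1 : ∑ x, (if x ∈ Γ.sites g A then v x ^ 2 else 0)
      = ∑ x : (domG (g.region Γ.T) (Γ.cutB g)).V, (if domPos x ∈ g.region A then v x ^ 2 else 0) := by
    refine Finset.sum_congr rfl fun x _ => ?_
    have hx : x ∈ Γ.sites g A ↔ domPos (D := g.region Γ.T) (cut := Γ.cutB g) x ∈ g.region A := by
      show domPos (D := g.region Γ.T) (cut := Γ.cutB g) x ∈ (↑(g.region A) : Set (ℤ × ℤ)) ↔ _
      rw [Finset.mem_coe]
    by_cases h : domPos (D := g.region Γ.T) (cut := Γ.cutB g) x ∈ g.region A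
    · rw [if_pos (hx.2 h), if_pos h]
    · rw [if_neg (fun h' => h (hx.1 h')), if_neg h]
  have l2 : ∀ i, ∑ x, psSoft Γ g b (fun _ => 1) i x * v x
      = ∑ x : (domG (g.region Γ.T) (Γ.cutB g)).V, psAvg (b i).set (domPos x) * v x := by
    intro i
    refine Finset.sum_congr rfl fun x _ => ?_
    simp only [psSoft, one_mul]
  rw [l1]
  simp only [l2]
  exact key

end

end Claimed.Agent.R285.Pot
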