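import Claimed.Agent.R285.Pot.StripLog
import Claimed.Agent.R285.Pot.StripGeo

/-!
# ROW 285, POT-STRIP : EXPORTS, part 1 (variances)      (owner helper53; chief helper115; consumers PINS T3.1 / T3.2 / L3.3 / P3.8)

Soft band / probes -> hard pin for the real Gaussian reference, UNIFORMLY IN THE MESH.   Everything on the graph `Γ.graph g` of the COARSE geometry; all sides of `g` in `[ν, Kν]`.
Laws: `plPin H P` = rows of `H`, coordinate pins `P` (`plPin (C3.lawR Γ g row) (Γ.sites g Γ.pin) = C3.lawR Γ g row` by `rfl`);  `psAdd H R` = more rows.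
Fine cells: ANY finite family of boxes `b i` which is a partition of the region `A` with sides `≤ s` (`psIsPart g A s b`); soft rows `psSoft Γ g b w i = w i · avg_{b i}`.
Only a LOWER bound of the weights is used: `λ |b i| ≤ (w i)² ν²`.

* `ps_collar`     (E1) collar continuity: `gVar` with pins `P ⊇ A` minus `gVar` with pins `P ∪ (δ-collar of A)` is `≤ ε (gVar + Cf²)` for `δ ≤ η ν`.
* `ps_soft_hard`  (E2) soft rows on `A` -> hard pin on `A` AND its `δ`-collar.   Order of the constants: `ε`, then `η` (collar), then `λ₀`, `σ` (`s ≤ σ ν`).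
* `ps_balayage`   (P1 of helper178, EXACT): with `s = ∑_i (R_i v_soft) R_i` (bounded coefficients): `gVar_P (β_f - s) ≤ gap`, `β_f = f - T v_hard`.
* `ps_sep_cov`, `ps_cross` (E3) cross covariance through a separating band.
PROOF of E1, E2: `ps_core` = `ps_collar_abs` (T-A of helper115 with a logarithmic cutoff in the distance to `A`) + `ps_geom_weight` with the weights `psWH δ` and `1`.
-/

set_option autoImplicit false

namespace Claimed.Agent.R285.Pot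

open scoped Classical

noncomputable section

/-! ## 1. any graph -/

section Abstract

variable {G : HGraph} (H : HLaw G)

/-- `⟨psT v, u⟩ = B(v, u)` -/
theorem ps_pair_T (a : ℝ) (v u : G.V → ℝ) : HLaw.pair (psT H a v) u = plB H a v u := by
  rw [psT, pl_pair_add_left, pl_pair_smul_left, pl_pair_div, pl_pair_obsT, plB]

/-- the balayage `β_f = f - T v_hard` is carried by the pins -/
theorem ps_bal_supp {a : ℝ} {Q : Set G.V} {f vh : G.V → ℝ} (hh : plIsOpt (plPin H Q) a f vh) (u : G.V → ℝ) (hu : ∀ x ∈ Q, u x = 0) :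
    HLaw.pair (f - psT H a vh) u = 0 := by
  rw [pl_pair_sub_left, ps_pair_T, ← ps_pin_B H Q, hh.2 u ((ps_mem_rspan_pin H Q u).2 hu), sub_self]

/-- more rows: the polarised form -/
theorem ps_add_B {ι : Type} [Fintype ι] (R : ι → G.V → ℝ) (a : ℝ) (u v : G.V → ℝ) :
    plB (psAdd H R) a u v = plB H a u v + ∑ i, (∑ x, R i x * u x) * (∑ x, R i x * v x) := by
  have h : ∑ o, (psAdd H R).obs u o * (psAdd H R).obs v o
      = ∑ o, H.obs u o * H.obs v o + ∑ i, (∑ x, R i x * u x) * (∑ x, R i x * v x) :=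
    Fintype.sum_sum_type fun o : H.O ⊕ ι => (∑ x, Sum.elim H.B R o x * u x) * (∑ x, Sum.elim H.B R o x * v x)
  rw [plB, h, plB, add_assoc]

theorem ps_pair_rows {ι : Type} [Fintype ι] (R : ι → G.V → ℝ) (c : ι → ℝ) (u : G.V → ℝ) :
    HLaw.pair (fun x => ∑ i, c i * R i x) u = ∑ i, c i * ∑ x, R i x * u x := by
  unfold HLaw.pair
  simp only [Finset.sum_mul, Finset.mul_sum]
  rw [Finset.sum_comm]
  refine Finset.sum_congr rfl fun i _ => Finset.sum_congr rfl fun x _ => ?_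
  ring

/-- **P1, exact**: the soft multipliers approximate the balayage in reference cost.  GLUE (helper53). -/
theorem ps_balayage {ι : Type} [Fintype ι] (R : ι → G.V → ℝ) {a : ℝ} (ha : 0 < a) {P S : Set G.V} {f vs vh : G.V → ℝ}
    (hs : plIsOpt (plPin (psAdd H R) P) a f vs) (hh : plIsOpt (plPin H (P ∪ S)) a f vh) (hR : ∀ i x, R i x ≠ 0 → x ∈ S) :
    (plPin H P).gVar a (f - psT H a vh - fun x => ∑ i, (∑ y, R i y * vs y) * R i x) ≤ psGap (psAdd H R) a P S f := by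
  have hsP := (ps_mem_rspan_pin (psAdd H R) P vs).1 hs.1
  have hhP := (ps_mem_rspan_pin H (P ∪ S) vh).1 hh.1
  -- rows vanish on fields vanishing on `S`
  have hrow : ∀ u : G.V → ℝ, (∀ x ∈ P ∪ S, u x = 0) → ∀ i, ∑ x, R i x * u x = 0 := by
    intro u hu i
    refine Finset.sum_eq_zero fun x _ => ?_
    by_cases hx : R i x = 0
    · rw [hx, zero_mul]
    · rw [hu x (Or.inr (hR i x hx)), mul_zero]
  -- `vh` is optimal with the additional rows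
  have hh' : plIsOpt (plPin (psAdd H R) (P ∪ S)) a f vh := by
    refine ⟨(ps_mem_rspan_pin (psAdd H R) (P ∪ S) vh).2 hhP, fun u hu => ?_⟩
    have hu0 := (ps_mem_rspan_pin (psAdd H R) (P ∪ S) u).1 hu
    have h1 := hh.2 u ((ps_mem_rspan_pin H (P ∪ S) u).2 hu0)
    rw [ps_pin_B] at h1 ⊢
    rw [ps_add_B, h1]
    have : ∑ i, (∑ x, R i x * vh x) * (∑ x, R i x * u x) = 0 :=
      Finset.sum_eq_zero fun i _ => by rw [hrow u hu0 i, mul_zero]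
    rw [this, add_zero]
  -- `vs - vh` is the optimiser of the test of the statement
  have hz : plIsOpt (plPin H P) a (f - psT H a vh - fun x => ∑ i, (∑ y, R i y * vs y) * R i x) (vs - vh) := by
    refine ⟨(ps_mem_rspan_pin H P _).2 fun x hx => ?_, fun u hu => ?_⟩
    · simp [hsP x hx, hhP x (Or.inl hx)]
    · have hu0 := (ps_mem_rspan_pin H P u).1 hu
      have h1 := hs.2 u ((ps_mem_rspan_pin (psAdd H R) P u).2 hu0)
      rw [ps_pin_B, ps_add_B] at h1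
      rw [ps_pin_B, pl_B_sub_left, pl_pair_sub_left, pl_pair_sub_left, ps_pair_T, ps_pair_rows]
      linarith
  rw [pl_gVar_eq_form _ ha hz, ps_gap_eq_form (psAdd H R) ha hs hh', ps_pin_form, ps_add_form]
  have e : H.form a (vh - vs) = H.form a (vs - vh) := by
    rw [pl_form_sub, pl_form_sub, pl_B_comm H a vh vs]
    ring
  rw [e]
  have : 0 ≤ ∑ i, (∑ x, R i x * (vh - vs) x) ^ 2 := Finset.sum_nonneg fun i _ => sq_nonneg _
  linarith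

/-- **separation**: pins `Q` which disconnect `W₁` from `W₂` (no edge, no common row) decouple the two sides.  LEAF L-PS-SEP. -/
theorem ps_sep_cov {a : ℝ} (ha : 0 < a) {Q W₁ W₂ : Set G.V} (hc : ∀ x, x ∈ Q ∨ x ∈ W₁ ∨ x ∈ W₂)
    (hE : ∀ e, ¬ (G.src e ∈ W₁ ∧ G.tgt e ∈ W₂) ∧ ¬ (G.src e ∈ W₂ ∧ G.tgt e ∈ W₁))
    (hB : ∀ o, (∀ x ∈ W₁, x ∉ Q → H.B o x = 0) ∨ ∀ x ∈ W₂, x ∉ Q → H.B o x = 0) {f g : G.V → ℝ}
    (hf : plAdm (plPin H Q) f) (hg : plAdm (plPin H Q) g) (hf0 : ∀ x ∈ W₂, x ∉ Q → f x = 0) (hg0 : ∀ x ∈ W₁, x ∉ Q → g x = 0) :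
    plCov (plPin H Q) a f g = 0 := by

  obtain ⟨v, hv⟩ := pl_opt_exists (plPin H Q) ha hf
  rw [pl_cov_comm _ ha, pl_cov_eq_pair _ ha hg hv]
  have hvQ := (ps_mem_rspan_pin H Q v).1 hv.1
  obtain ⟨v2, hv2⟩ : ∃ v2 : G.V → ℝ, ∀ x, v2 x = if x ∈ W₂ ∧ x ∉ Q then v x else 0 := ⟨_, fun x => rfl⟩
  obtain ⟨v1, hv1⟩ : ∃ v1 : G.V → ℝ, ∀ x, v1 x = if x ∈ W₂ ∧ x ∉ Q then 0 else v x := ⟨_, fun x => rfl⟩
  have hsum : v = v1 + v2 := by
    ext x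
    simp only [Pi.add_apply, hv1, hv2]
    split_ifs <;> simp
  have s1 : ∀ x, v1 x ≠ 0 → x ∈ W₁ ∧ x ∉ Q := by
    intro x hx
    rw [hv1] at hx
    by_cases hc' : x ∈ W₂ ∧ x ∉ Q
    · rw [if_pos hc'] at hx; exact absurd rfl hx
    · rw [if_neg hc'] at hx
      have hxQ : x ∉ Q := fun h => hx (hvQ x h)
      refine ⟨?_, hxQ⟩
      rcases hc x with h | h | h
      · exact absurd h hxQ
      · exact h
      · exact absurd ⟨h, hxQ⟩ hc'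
  have s2 : ∀ x, v2 x ≠ 0 → x ∈ W₂ ∧ x ∉ Q := by
    intro x hx
    rw [hv2] at hx
    by_cases hc' : x ∈ W₂ ∧ x ∉ Q
    · exact hc'
    · rw [if_neg hc'] at hx; exact absurd rfl hx
  have z : ∀ x y, ¬ (x ∈ W₁ ∧ y ∈ W₂) → v1 x * v2 y = 0 := by
    intro x y h
    by_contra hne
    exact h ⟨(s1 x (left_ne_zero_of_mul hne)).1, (s2 y (right_ne_zero_of_mul hne)).1⟩
  have zd : ∀ x, v1 x * v2 x = 0 := by
    intro x
    rw [hv1, hv2]
    split_ifs <;> simp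
  have hB12 : plB H a v1 v2 = 0 := by
    have e1 : ∑ e, plGrad v1 e * plGrad v2 e = 0 := by
      refine Finset.sum_eq_zero fun e _ => ?_
      simp only [plGrad]
      have a1 := zd (G.tgt e)
      have a2 := zd (G.src e)
      have a3 := z (G.tgt e) (G.src e) (fun h => (hE e).2 ⟨h.2, h.1⟩)
      have a4 := z (G.src e) (G.tgt e) (hE e).1
      linear_combination a1 - a3 - a4 + a2
    have e2 : ∑ o, H.obs v1 o * H.obs v2 o = 0 := by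
      refine Finset.sum_eq_zero fun o _ => ?_
      rcases hB o with h | h
      · have : H.obs v1 o = 0 := by
          unfold HLaw.obs
          refine Finset.sum_eq_zero fun x _ => ?_
          by_cases hx : v1 x = 0
          · rw [hx, mul_zero]
          · rw [h x (s1 x hx).1 (s1 x hx).2, zero_mul]
        rw [this, zero_mul]
      · have : H.obs v2 o = 0 := by
          unfold HLaw.obs
          refine Finset.sum_eq_zero fun x _ => ?_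
          by_cases hx : v2 x = 0
          · rw [hx, mul_zero]
          · rw [h x (s2 x hx).1 (s2 x hx).2, zero_mul]
        rw [this, mul_zero]
    rw [plB, e1, e2]; simp
  have hm2 : v2 ∈ (plPin H Q).rspan := (ps_mem_rspan_pin H Q v2).2 fun x hx => by
    rw [hv2, if_neg (fun h => h.2 hx)]
  have hf2 : HLaw.pair f v2 = 0 := by
    unfold HLaw.pair
    refine Finset.sum_eq_zero fun x _ => ?_
    by_cases hx : v2 x = 0
    · rw [hx, mul_zero]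
    · rw [hf0 x (s2 x hx).1 (s2 x hx).2, zero_mul]
  have hform : H.form a v2 = 0 := by
    have h3 := hv.2 v2 hm2
    rw [ps_pin_B, hsum, pl_B_add_left, hB12, zero_add, hf2] at h3
    rw [pl_form_eq, h3]
  obtain ⟨n1, n2⟩ := (pl_form_eq_zero_iff H ha v2).1 hform
  have hg2 : HLaw.pair g v2 = 0 := hg v2 hm2 n1 n2
  have hg1 : HLaw.pair g v1 = 0 := by
    unfold HLaw.pair
    refine Finset.sum_eq_zero fun x _ => ?_
    by_cases hx : v1 x = 0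
    · rw [hx, mul_zero]
    · rw [hg0 x (s1 x hx).1 (s1 x hx).2, zero_mul]
  rw [hsum, pl_pair_add_right, hg1, hg2, add_zero]

/-- **E3**: cross covariance through a soft band. -/
theorem ps_cross {a : ℝ} (ha : 0 < a) (P S : Set G.V) {f g : G.V → ℝ} (hf : plAdm (plPin H P) f) (hg : plAdm (plPin H P) g)
    (h0 : plCov (plPin H (P ∪ S)) a f g = 0) : plCov (plPin H P) a f g ^ 2 ≤ psGap H a P S f * psGap H a P S g := by
  have := ps_cov_gap H ha P S hf hg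
  rwa [h0, sub_zero] at this

end Abstract

/-! ## 2. geometries -/

theorem psWH_nonneg (δ t : ℕ) : 0 ≤ psWH δ t := by
  unfold psWH
  split_ifs <;> positivity

/-- **the explicit estimate**.  `v` = optimiser of `f` for the rows `H ⊕ R` and the pins `P`; the rows `R` are carried by the sites of `A`.   GLUE (helper53). -/
theorem ps_core : ∃ C : ℝ, 0 < C ∧ ∀ (m₁ m₂ : ℕ) (Γ : CGeom m₁ m₂), Γ.NoDiag → ∀ (g : DGrid m₁ m₂) (ν : ℕ), g.SideGe ν →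
    ∀ A : Finset (Fin m₁ × Fin m₂), A ⊆ Γ.T → ∀ (H : HLaw (Γ.graph g)) (ι : Type) [Fintype ι] (R : ι → (Γ.graph g).V → ℝ),
    (∀ i x, R i x ≠ 0 → x ∈ Γ.sites g A) → ∀ (a : ℝ), 0 < a → ∀ (P : Set (Γ.graph g).V) (f v : (Γ.graph g).V → ℝ),
    plIsOpt (plPin (psAdd H R) P) a f v → ∀ δ ρ : ℕ, 1 ≤ δ → δ < ρ → ρ < ν → ∀ mA F2 b2 : ℝ,
    ∑ x, (if x ∈ Γ.sites g A then v x ^ 2 else 0) ≤ mA → ∑ x, (if x ∈ psCollar Γ g A ρ then f x ^ 2 else 0) ≤ F2 →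
    ∑ o, ∑ x, (if x ∈ psCollar Γ g A ρ then H.B o x ^ 2 else 0) ≤ b2 →
    psGap (psAdd H R) a P (psCollar Γ g A δ) f
      ≤ Real.sqrt (F2 * ((1 + C * (ρ / δ)) * mA + C * A.card * (ρ : ℝ) ^ 2 * HLaw.en v 0))
        + a⁻¹ * (8 / Real.log ((ρ : ℝ) / δ) ^ 2
            * (C * A.card * (4 + 2 * Real.log ((ρ : ℝ) / δ)) * HLaw.en v 0 + C / (δ : ℝ) ^ 2 * mA))
        + b2 * ((1 + C * (ρ / δ)) * mA + C * A.card * (ρ : ℝ) ^ 2 * HLaw.en v 0)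
        + Real.sqrt ((psAdd H R).form a v * (b2 * ((1 + C * (ρ / δ)) * mA + C * A.card * (ρ : ℝ) ^ 2 * HLaw.en v 0))) := by
  obtain ⟨Cg, hCg, hgeo⟩ := ps_geom_weight
  refine ⟨3 * Cg, by positivity, ?_⟩
  intro m₁ m₂ Γ hΓ g ν hν A hA H ι _ R hR a ha P f v hv δ ρ h1 h2 h3 mA F2 b2 hmA hF2 hb2
  have hL := ps_lcut_logpos h1 h2
  have hδ0 : (0 : ℝ) < δ := by exact_mod_cast h1
  have hρ0 : (0 : ℝ) < ρ := by exact_mod_cast (by omega : 0 < ρ)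
  have hen : 0 ≤ HLaw.en v 0 := Finset.sum_nonneg fun e _ => sq_nonneg _
  obtain ⟨en, hend⟩ : ∃ en : ℝ, en = HLaw.en v 0 := ⟨_, rfl⟩
  rw [← hend] at hen ⊢
  obtain ⟨mA', hmA'⟩ : ∃ mA' : ℝ, mA' = ∑ x, (if x ∈ Γ.sites g A then v x ^ 2 else 0) := ⟨_, rfl⟩
  have hmA'0 : 0 ≤ mA' := by
    rw [hmA']
    exact Finset.sum_nonneg fun x _ => by split_ifs <;> positivity
  rw [← hmA'] at hmA
  have hmA0 : 0 ≤ mA := hmA'0.trans hmA
  obtain ⟨d, hd⟩ : ∃ d : (Γ.graph g).V → ℕ, d = psDist Γ g A ρ := ⟨_, rfl⟩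
  have hcol : ∀ x, d x < ρ → x ∈ psCollar Γ g A ρ := fun x hx =>
    (ps_collar_iff Γ g A le_rfl x).2 (by rw [← hd]; omega)
  have hd0 : ∀ x, d x = 0 ↔ x ∈ Γ.sites g A := fun x => by rw [hd]; exact ps_dist_eq_zero Γ g A hA ρ x
  have hcard : (0 : ℝ) ≤ (A.card : ℝ) := Nat.cast_nonneg _
  -- the two weighted estimates
  have W1 := hgeo m₁ m₂ Γ hΓ g ν hν A hA δ ρ h1 h2.le h3 (fun _ => 1) (fun _ => zero_le_one) (2 * (ρ : ℝ) ^ 2) ρ
    (ps_w1_E h2.le) (fun j _ => by simp) v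
  have WH := hgeo m₁ m₂ Γ hΓ g ν hν A hA δ ρ h1 h2.le h3 (psWH δ) (psWH_nonneg δ) (4 + 2 * Real.log ((ρ : ℝ) / δ)) (3 / δ)
    (ps_wh_E h1 h2.le) (ps_wh_c h1 h2.le) v
  rw [← hd, ← hend, ← hmA'] at W1 WH
  obtain ⟨L, hLd⟩ : ∃ L : ℝ, L = Real.log ((ρ : ℝ) / δ) := ⟨_, rfl⟩
  rw [← hLd] at hL WH ⊢
  have hM : ∑ x, (if d x < ρ then v x ^ 2 else 0)
      ≤ (1 + 3 * Cg * (ρ / δ)) * mA + 3 * Cg * A.card * (ρ : ℝ) ^ 2 * en := by
    have s1 : ∑ x, (if d x < ρ then v x ^ 2 else 0)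
        ≤ ∑ x, ((if x ∈ Γ.sites g A then v x ^ 2 else 0) + (if 1 ≤ d x ∧ d x ≤ ρ then (1 : ℝ) * v x ^ 2 else 0)) := by
      refine Finset.sum_le_sum fun x _ => ?_
      by_cases hx0 : d x = 0
      · have hxA := (hd0 x).1 hx0
        rw [if_pos hxA, if_neg (by omega : ¬ (1 ≤ d x ∧ d x ≤ ρ)), add_zero]
        split_ifs
        · exact le_rfl
        · positivity
      · have hxA : x ∉ Γ.sites g A := fun h => hx0 ((hd0 x).2 h)
        rw [if_neg hxA, zero_add]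
        by_cases hx : d x < ρ
        · rw [if_pos hx, if_pos (by omega : 1 ≤ d x ∧ d x ≤ ρ), one_mul]
        · rw [if_neg hx]
          split_ifs <;> positivity
    rw [Finset.sum_add_distrib, ← hmA'] at s1
    have k0 : 0 ≤ Cg * ((ρ : ℝ) / δ) := by positivity
    have t1 : Cg * ((ρ : ℝ) / δ) * mA' ≤ Cg * ((ρ : ℝ) / δ) * mA := mul_le_mul_of_nonneg_left hmA k0
    have t1' : 0 ≤ Cg * ((ρ : ℝ) / δ) * mA := mul_nonneg k0 hmA0
    have t2 : 0 ≤ Cg * A.card * (ρ : ℝ) ^ 2 * en := by positivity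
    have e1 : Cg * A.card * (2 * (ρ : ℝ) ^ 2) * en = 2 * (Cg * A.card * (ρ : ℝ) ^ 2 * en) := by ring
    have e2 : (1 + 3 * Cg * ((ρ : ℝ) / δ)) * mA + 3 * Cg * A.card * (ρ : ℝ) ^ 2 * en
        = mA + 3 * (Cg * ((ρ : ℝ) / δ) * mA) + 3 * (Cg * A.card * (ρ : ℝ) ^ 2 * en) := by ring
    rw [e2]
    rw [e1] at W1
    linarith
  have hH : psHardy d δ ρ v ≤ 3 * Cg * A.card * (4 + 2 * L) * en + 3 * Cg / (δ : ℝ) ^ 2 * mA := by
    have s1 : psHardy d δ ρ v ≤ ∑ x, (if 1 ≤ d x ∧ d x ≤ ρ then psWH δ (d x) * v x ^ 2 else 0) := by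
      unfold psHardy
      refine Finset.sum_le_sum fun x _ => ?_
      by_cases hx : δ ≤ d x ∧ d x ≤ ρ
      · rw [if_pos hx, if_pos (by omega : 1 ≤ d x ∧ d x ≤ ρ), psWH, if_pos hx.1]
        apply le_of_eq
        ring
      · rw [if_neg hx]
        split_ifs
        · exact mul_nonneg (psWH_nonneg _ _) (sq_nonneg _)
        · exact le_rfl
    have k0 : 0 ≤ Cg / (δ : ℝ) ^ 2 := by positivity
    have t1 : Cg / (δ : ℝ) ^ 2 * mA' ≤ Cg / (δ : ℝ) ^ 2 * mA := mul_le_mul_of_nonneg_left hmA k0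
    have t2 : 0 ≤ Cg * A.card * (4 + 2 * L) * en := by positivity
    have e1 : Cg * (3 / (δ : ℝ) / δ) * mA' = 3 * (Cg / (δ : ℝ) ^ 2 * mA') := by
      field_simp
    have e2 : 3 * Cg * A.card * (4 + 2 * L) * en + 3 * Cg / (δ : ℝ) ^ 2 * mA
        = 3 * (Cg * A.card * (4 + 2 * L) * en) + 3 * (Cg / (δ : ℝ) ^ 2 * mA) := by ring
    rw [e2]
    rw [e1] at WH
    linarith
  have hF : ∑ x, (if d x < ρ then f x ^ 2 else 0) ≤ F2 := by
    refine le_trans (Finset.sum_le_sum fun x _ => ?_) hF2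
    by_cases hx : d x < ρ
    · rw [if_pos hx, if_pos (hcol x hx)]
    · rw [if_neg hx]
      split_ifs <;> positivity
  have hb : ∑ o, ∑ x, (if d x < ρ then H.B o x ^ 2 else 0) ≤ b2 := by
    refine le_trans (Finset.sum_le_sum fun o _ => Finset.sum_le_sum fun x _ => ?_) hb2
    by_cases hx : d x < ρ
    · rw [if_pos hx, if_pos (hcol x hx)]
    · rw [if_neg hx]
      split_ifs <;> positivity
  have key := ps_collar_abs H R ha (S := psCollar Γ g A δ) hv (ps_deg4 _ _ : psDeg (Γ.graph g) 4)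
    (d := d) (by rw [hd]; exact ps_dist_layer Γ g A ρ) h1 h2
    (fun x hx => by rw [hd]; exact (ps_collar_iff Γ g A h2.le x).1 hx)
    (fun i x hx => by rw [(hd0 x).2 (hR i x hx)]; exact Nat.zero_le _) hF hM hH hb
  rw [← hLd] at key
  have e8 : (2 : ℝ) * ((4 : ℕ) : ℝ) = 8 := by norm_num
  rw [e8] at key
  exact key

theorem ps_aux1 {x y : ℝ} (hx : 0 ≤ x) (hy : 0 ≤ y) : y * x ≤ (x + y) ^ 2 := by
  nlinarith [mul_nonneg hx hy, sq_nonneg x, sq_nonneg y]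

theorem ps_aux2 {q : ℝ} (hq : 0 ≤ q) : q ≤ (q + 1) ^ 2 := by nlinarith

theorem ps_aux3 {t : ℝ} (h0 : 0 ≤ t) (h1 : t ≤ 1) : t ^ 2 ≤ t := by nlinarith

theorem ps_aux4 {l : ℝ} (h : 1 ≤ l) : 8 * (4 + 2 * l) * l ≤ 48 * l ^ 2 := by nlinarith

theorem ps_aux5 {l : ℝ} (h : 1 ≤ l) : 8 ≤ 8 * l ^ 2 := by nlinarith

theorem ps_est_num {a C m nA q B V Cf2 en mA ρ δ ν τ ζ L L' F2 b2 gap : ℝ}
    (ha : 0 < a) (hC : 0 < C) (hnA0 : 0 ≤ nA) (hnA : nA ≤ m) (hq : 0 ≤ q) (hB : 0 ≤ B) (hV : 0 ≤ V) (hCf : 0 ≤ Cf2)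
    (hen0 : 0 ≤ en) (hen : en ≤ a * V) (hmA : 0 ≤ mA) (hρ : 0 < ρ) (hδ : 0 < δ) (hν : 0 < ν) (hτ0 : 0 ≤ τ) (hτ1 : τ ≤ 1)
    (hζ : 0 ≤ ζ) (hL : 1 ≤ L) (hLL : L ≤ L') (hF2 : F2 = q * Cf2 / ν ^ 2) (hb2 : b2 = q * B / ν ^ 2)
    (hM : (1 + C * (ρ / δ)) * mA + C * m * ρ ^ 2 * (a * V) ≤ τ ^ 2 * ν ^ 2 * V)
    (hZ : C / δ ^ 2 * mA ≤ ζ * V)
    (hgap : gap ≤ Real.sqrt (F2 * ((1 + C * (ρ / δ)) * mA + C * nA * ρ ^ 2 * en))
        + a⁻¹ * (8 / L' ^ 2 * (C * nA * (4 + 2 * L') * en + C / δ ^ 2 * mA))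
        + b2 * ((1 + C * (ρ / δ)) * mA + C * nA * ρ ^ 2 * en)
        + Real.sqrt (V * (b2 * ((1 + C * (ρ / δ)) * mA + C * nA * ρ ^ 2 * en)))) :
    gap ≤ (((q + 1) + q * B + (q * B + 1) + 48 * C * m) * (τ + 1 / L) + 8 * ζ / a) * (V + Cf2) := by
  have hm0 : 0 ≤ m := hnA0.trans hnA
  have hL0 : 0 < L := by linarith
  have hL'1 : 1 ≤ L' := hL.trans hLL
  have hL'0 : 0 < L' := by linarith
  obtain ⟨M, hMd⟩ : ∃ M : ℝ, M = (1 + C * (ρ / δ)) * mA + C * nA * ρ ^ 2 * en := ⟨_, rfl⟩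
  rw [← hMd] at hgap
  have hM0 : 0 ≤ M := by rw [hMd]; positivity
  have hMle : M ≤ τ ^ 2 * ν ^ 2 * V := by
    refine le_trans ?_ hM
    rw [hMd]
    have h1 : C * nA * ρ ^ 2 * en ≤ C * m * ρ ^ 2 * (a * V) :=
      mul_le_mul (mul_le_mul_of_nonneg_right (mul_le_mul_of_nonneg_left hnA hC.le) (by positivity)) hen hen0
        (by positivity)
    linarith
  have hν2 : 0 < ν ^ 2 := by positivity
  -- `F2 * M`, `b2 * M`
  have hFM : F2 * M ≤ q * τ ^ 2 * (Cf2 * V) := by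
    rw [hF2]
    have h1 : q * Cf2 / ν ^ 2 * M ≤ q * Cf2 / ν ^ 2 * (τ ^ 2 * ν ^ 2 * V) :=
      mul_le_mul_of_nonneg_left hMle (by positivity)
    have e1 : q * Cf2 / ν ^ 2 * (τ ^ 2 * ν ^ 2 * V) = q * τ ^ 2 * (Cf2 * V) := by
      field_simp
    linarith
  have hbM : b2 * M ≤ q * B * τ ^ 2 * V := by
    rw [hb2]
    have h1 : q * B / ν ^ 2 * M ≤ q * B / ν ^ 2 * (τ ^ 2 * ν ^ 2 * V) :=
      mul_le_mul_of_nonneg_left hMle (by positivity)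
    have e1 : q * B / ν ^ 2 * (τ ^ 2 * ν ^ 2 * V) = q * B * τ ^ 2 * V := by
      field_simp
    linarith
  have hτ2 : τ ^ 2 ≤ τ := ps_aux3 hτ0 hτ1
  -- T1
  have T1 : Real.sqrt (F2 * M) ≤ (q + 1) * τ * (V + Cf2) := by
    rw [Real.sqrt_le_iff]
    refine ⟨by positivity, hFM.trans ?_⟩
    have h1 : Cf2 * V ≤ (V + Cf2) ^ 2 := ps_aux1 hV hCf
    have h2 : q ≤ (q + 1) ^ 2 := ps_aux2 hq
    have e1 : ((q + 1) * τ * (V + Cf2)) ^ 2 = (q + 1) ^ 2 * τ ^ 2 * (V + Cf2) ^ 2 := by ring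
    rw [e1]
    exact mul_le_mul (mul_le_mul_of_nonneg_right h2 (by positivity)) h1 (by positivity) (by positivity)
  -- T3
  have T3 : b2 * M ≤ q * B * τ * (V + Cf2) := by
    refine hbM.trans ?_
    have h1 : q * B * τ ^ 2 ≤ q * B * τ := mul_le_mul_of_nonneg_left hτ2 (by positivity)
    exact mul_le_mul h1 (by linarith) hV (by positivity)
  -- T4
  have T4 : Real.sqrt (V * (b2 * M)) ≤ (q * B + 1) * τ * (V + Cf2) := by
    rw [Real.sqrt_le_iff]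
    refine ⟨by positivity, ?_⟩
    have h0 : V * (b2 * M) ≤ V * (q * B * τ ^ 2 * V) := mul_le_mul_of_nonneg_left hbM hV
    refine h0.trans ?_
    have hqB : 0 ≤ q * B := by positivity
    have h2 : q * B ≤ (q * B + 1) ^ 2 := ps_aux2 hqB
    have h3 : V ^ 2 ≤ (V + Cf2) ^ 2 := pow_le_pow_left₀ hV (by linarith) 2
    have e0 : V * (q * B * τ ^ 2 * V) = q * B * τ ^ 2 * V ^ 2 := by ring
    have e1 : ((q * B + 1) * τ * (V + Cf2)) ^ 2 = (q * B + 1) ^ 2 * τ ^ 2 * (V + Cf2) ^ 2 := by ring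
    rw [e0, e1]
    exact mul_le_mul (mul_le_mul_of_nonneg_right h2 (by positivity)) h3 (by positivity) (by positivity)
  -- T2
  have T2 : a⁻¹ * (8 / L' ^ 2 * (C * nA * (4 + 2 * L') * en + C / δ ^ 2 * mA))
      ≤ 48 * C * m * (1 / L) * (V + Cf2) + 8 * ζ / a * (V + Cf2) := by
    have e1 : a⁻¹ * (8 / L' ^ 2 * (C * nA * (4 + 2 * L') * en + C / δ ^ 2 * mA))
        = (8 * (4 + 2 * L') / L' ^ 2) * (a⁻¹ * (C * nA * en)) + a⁻¹ * (8 / L' ^ 2) * (C / δ ^ 2 * mA) := by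
      ring
    rw [e1]
    have k1 : 8 * (4 + 2 * L') / L' ^ 2 ≤ 48 * (1 / L) := by
      have k2 : 8 * (4 + 2 * L') / L' ^ 2 ≤ 48 / L' := by
        rw [div_le_div_iff₀ (by positivity) hL'0]
        exact ps_aux4 hL'1
      have k3 : 48 / L' ≤ 48 / L := div_le_div_of_nonneg_left (by norm_num) hL0 hLL
      have e2 : 48 * (1 / L) = 48 / L := by ring
      linarith
    have k4 : a⁻¹ * (C * nA * en) ≤ C * m * V := by
      have h1 : C * nA * en ≤ C * m * (a * V) :=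
        mul_le_mul (mul_le_mul_of_nonneg_left hnA hC.le) hen hen0 (by positivity)
      have h2 : a⁻¹ * (C * nA * en) ≤ a⁻¹ * (C * m * (a * V)) :=
        mul_le_mul_of_nonneg_left h1 (by positivity)
      have e2 : a⁻¹ * (C * m * (a * V)) = C * m * V := by
        field_simp
      linarith
    have k5 : (8 * (4 + 2 * L') / L' ^ 2) * (a⁻¹ * (C * nA * en)) ≤ 48 * (1 / L) * (C * m * V) :=
      mul_le_mul k1 k4 (by positivity) (by positivity)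
    have k6 : 48 * (1 / L) * (C * m * V) ≤ 48 * C * m * (1 / L) * (V + Cf2) := by
      have e2 : 48 * (1 / L) * (C * m * V) = 48 * C * m * (1 / L) * V := by ring
      rw [e2]
      exact mul_le_mul_of_nonneg_left (by linarith) (by positivity)
    have k7 : a⁻¹ * (8 / L' ^ 2) ≤ a⁻¹ * 8 := by
      refine mul_le_mul_of_nonneg_left ?_ (by positivity)
      rw [div_le_iff₀ (by positivity)]
      exact ps_aux5 hL'1
    have hZ0 : 0 ≤ C / δ ^ 2 * mA := by positivity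
    have k8 : a⁻¹ * (8 / L' ^ 2) * (C / δ ^ 2 * mA) ≤ a⁻¹ * 8 * (ζ * V) :=
      mul_le_mul k7 hZ hZ0 (by positivity)
    have k9 : a⁻¹ * 8 * (ζ * V) ≤ 8 * ζ / a * (V + Cf2) := by
      have e2 : a⁻¹ * 8 * (ζ * V) = 8 * ζ / a * V := by
        field_simp
      rw [e2]
      exact mul_le_mul_of_nonneg_left (by linarith) (by positivity)
    linarith
  have hW : 0 ≤ V + Cf2 := by linarith
  have hinv : 0 ≤ 1 / L := by positivity
  have fin : (q + 1) * τ * (V + Cf2) + (48 * C * m * (1 / L) * (V + Cf2) + 8 * ζ / a * (V + Cf2))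
      + q * B * τ * (V + Cf2) + (q * B + 1) * τ * (V + Cf2)
      ≤ (((q + 1) + q * B + (q * B + 1) + 48 * C * m) * (τ + 1 / L) + 8 * ζ / a) * (V + Cf2) := by
    have e1 : (q + 1) * τ * (V + Cf2) + (48 * C * m * (1 / L) * (V + Cf2) + 8 * ζ / a * (V + Cf2))
      + q * B * τ * (V + Cf2) + (q * B + 1) * τ * (V + Cf2)
      = (((q + 1) + q * B + (q * B + 1)) * τ + 48 * C * m * (1 / L) + 8 * ζ / a) * (V + Cf2) := by ring
    rw [e1]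
    refine mul_le_mul_of_nonneg_right ?_ hW
    have p1 : 0 ≤ ((q + 1) + q * B + (q * B + 1)) * (1 / L) := by positivity
    have p2 : 0 ≤ 48 * C * m * τ := by positivity
    have e2 : ((q + 1) + q * B + (q * B + 1) + 48 * C * m) * (τ + 1 / L)
        = ((q + 1) + q * B + (q * B + 1)) * τ + ((q + 1) + q * B + (q * B + 1)) * (1 / L)
          + 48 * C * m * τ + 48 * C * m * (1 / L) := by ring
    linarith
  linarith

theorem ps_sum_ite_const {α : Type*} [Fintype α] (p : α → Prop) (c : ℝ) :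
    ∑ x, (if p x then c else 0) = ((Finset.univ.filter fun x => p x).card : ℝ) * c := by
  rw [← Finset.sum_filter, Finset.sum_const, nsmul_eq_mul]

/-- **the estimate behind E1 and E2**: `ps_core` + counting + numerics. -/
theorem ps_est {m₁ m₂ : ℕ} (Γ : CGeom m₁ m₂) (hΓ : Γ.NoDiag) (K : ℕ) {a : ℝ} (ha : 0 < a) (CB : ℝ) :
    ∃ C C₀ : ℝ, 0 < C ∧ 0 < C₀ ∧ ∀ (g : DGrid m₁ m₂) (ν : ℕ), g.SideGe ν → g.SideLe (K * ν) → ∀ H : HLaw (Γ.graph g),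
    (∀ x, ∑ o, H.B o x ^ 2 ≤ CB / (ν : ℝ) ^ 4) → ∀ A : Finset (Fin m₁ × Fin m₂), A ⊆ Γ.T →
    ∀ (ι : Type) [Fintype ι] (R : ι → (Γ.graph g).V → ℝ), (∀ i x, R i x ≠ 0 → x ∈ Γ.sites g A) →
    ∀ (P : Set (Γ.graph g).V) (f v : (Γ.graph g).V → ℝ) (Cf : ℝ), plIsOpt (plPin (psAdd H R) P) a f v →
    (∀ x, |f x| ≤ Cf / (ν : ℝ) ^ 2) → ∀ δ ρ : ℕ, 1 ≤ δ → δ < ρ → ρ < ν → ∀ mA τ ζ L : ℝ,
    ∑ x, (if x ∈ Γ.sites g A then v x ^ 2 else 0) ≤ mA → 0 ≤ τ → τ ≤ 1 → 0 ≤ ζ → 1 ≤ L → L ≤ Real.log ((ρ : ℝ) / δ) →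
    (1 + C * (ρ / δ)) * mA + C * ((m₁ * m₂ : ℕ) : ℝ) * (ρ : ℝ) ^ 2 * (a * (psAdd H R).form a v)
      ≤ τ ^ 2 * (ν : ℝ) ^ 2 * (psAdd H R).form a v →
    C / (δ : ℝ) ^ 2 * mA ≤ ζ * (psAdd H R).form a v →
    psGap (psAdd H R) a P (psCollar Γ g A δ) f
      ≤ (C₀ * (τ + 1 / L) + 8 * ζ / a) * ((psAdd H R).form a v + Cf ^ 2) := by
  obtain ⟨C, hC, hcore⟩ := ps_core
  obtain ⟨m, hm⟩ : ∃ m : ℝ, m = ((m₁ * m₂ : ℕ) : ℝ) := ⟨_, rfl⟩
  have hm0 : 0 ≤ m := by rw [hm]; positivity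
  obtain ⟨q, hq⟩ : ∃ q : ℝ, q = m * ((K : ℝ) + 2) ^ 2 := ⟨_, rfl⟩
  have hq0 : 0 ≤ q := by rw [hq]; positivity
  obtain ⟨B, hB⟩ : ∃ B : ℝ, B = max CB 0 := ⟨_, rfl⟩
  have hB0 : 0 ≤ B := by rw [hB]; exact le_max_right _ _
  have hCBB : CB ≤ B := by rw [hB]; exact le_max_left _ _
  refine ⟨C, (q + 1) + q * B + (q * B + 1) + 48 * C * m, hC, by positivity, ?_⟩
  intro g ν hge hle H hrow A hA ι _ R hR P f v Cf hv hf δ ρ h1 h2 h3 mA τ ζ L hmA hτ0 hτ1 hζ hL hLL hM hZ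
  rw [← hm] at hM
  have hν0 : (0 : ℝ) < ν := by exact_mod_cast (by omega : 0 < ν)
  have hδ0 : (0 : ℝ) < δ := by exact_mod_cast h1
  have hρ0 : (0 : ℝ) < ρ := by exact_mod_cast (by omega : 0 < ρ)
  have hρν : (ρ : ℝ) ≤ ν := by exact_mod_cast h3.le
  have hV0 : 0 ≤ (psAdd H R).form a v := pl_form_nonneg _ ha v
  have hen0 : 0 ≤ HLaw.en v 0 := Finset.sum_nonneg fun e _ => sq_nonneg _
  have hen : HLaw.en v 0 ≤ a * (psAdd H R).form a v := by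
    have h0 : 0 ≤ ∑ o, (psAdd H R).obs v o ^ 2 := Finset.sum_nonneg fun o _ => sq_nonneg _
    have e : a * (psAdd H R).form a v = HLaw.en v 0 + a * ∑ o, (psAdd H R).obs v o ^ 2 := by
      rw [HLaw.form]
      field_simp
    rw [e]
    have := mul_nonneg ha.le h0
    linarith
  have hmA0 : 0 ≤ mA := le_trans (Finset.sum_nonneg fun x _ => by split_ifs <;> positivity) hmA
  have hAm : (A.card : ℝ) ≤ m := by
    rw [hm]
    have : A.card ≤ m₁ * m₂ := by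
      have := Finset.card_le_univ A
      simpa [Fintype.card_prod] using this
    exact_mod_cast this
  -- the number of sites of the collar
  obtain ⟨cc, hcc⟩ : ∃ cc : ℝ, cc = ((Finset.univ.filter fun x : (Γ.graph g).V => x ∈ psCollar Γ g A ρ).card : ℝ) :=
    ⟨_, rfl⟩
  have hcc0 : 0 ≤ cc := by rw [hcc]; positivity
  have hccle : cc ≤ q * (ν : ℝ) ^ 2 := by
    have h := ps_collar_card Γ g A (K * ν) ρ hle
    rw [← hcc] at h
    refine h.trans ?_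
    have e1 : (((K * ν : ℕ) : ℝ) + 2 * ρ) ^ 2 ≤ (((K : ℝ) + 2) * ν) ^ 2 := by
      refine pow_le_pow_left₀ (by positivity) ?_ 2
      push_cast
      linarith
    have e2 : q * (ν : ℝ) ^ 2 = m * (((K : ℝ) + 2) * ν) ^ 2 := by rw [hq]; ring
    rw [e2]
    exact mul_le_mul hAm e1 (by positivity) hm0
  have hF2 : ∑ x, (if x ∈ psCollar Γ g A ρ then f x ^ 2 else 0) ≤ q * Cf ^ 2 / (ν : ℝ) ^ 2 := by
    have s1 : ∑ x, (if x ∈ psCollar Γ g A ρ then f x ^ 2 else 0)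
        ≤ ∑ x, (if x ∈ psCollar Γ g A ρ then (Cf / (ν : ℝ) ^ 2) ^ 2 else 0) := by
      refine Finset.sum_le_sum fun x _ => ?_
      split_ifs
      · rw [← sq_abs (f x)]
        exact pow_le_pow_left₀ (abs_nonneg _) (hf x) 2
      · exact le_rfl
    rw [ps_sum_ite_const, ← hcc] at s1
    refine s1.trans ?_
    have s2 : cc * (Cf / (ν : ℝ) ^ 2) ^ 2 ≤ q * (ν : ℝ) ^ 2 * (Cf / (ν : ℝ) ^ 2) ^ 2 :=
      mul_le_mul_of_nonneg_right hccle (by positivity)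
    have e : q * (ν : ℝ) ^ 2 * (Cf / (ν : ℝ) ^ 2) ^ 2 = q * Cf ^ 2 / (ν : ℝ) ^ 2 := by
      field_simp
    linarith
  have hb2 : ∑ o, ∑ x, (if x ∈ psCollar Γ g A ρ then H.B o x ^ 2 else 0) ≤ q * B / (ν : ℝ) ^ 2 := by
    rw [Finset.sum_comm]
    have s1 : ∑ x, ∑ o, (if x ∈ psCollar Γ g A ρ then H.B o x ^ 2 else 0)
        ≤ ∑ x, (if x ∈ psCollar Γ g A ρ then B / (ν : ℝ) ^ 4 else 0) := by
      refine Finset.sum_le_sum fun x _ => ?_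
      by_cases hx : x ∈ psCollar Γ g A ρ
      · simp only [if_pos hx]
        refine (hrow x).trans ?_
        exact div_le_div_of_nonneg_right hCBB (by positivity)
      · simp only [if_neg hx, Finset.sum_const_zero, le_refl]
    rw [ps_sum_ite_const, ← hcc] at s1
    refine s1.trans ?_
    have s2 : cc * (B / (ν : ℝ) ^ 4) ≤ q * (ν : ℝ) ^ 2 * (B / (ν : ℝ) ^ 4) :=
      mul_le_mul_of_nonneg_right hccle (by positivity)
    have e : q * (ν : ℝ) ^ 2 * (B / (ν : ℝ) ^ 4) = q * B / (ν : ℝ) ^ 2 := by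
      field_simp
    linarith
  have key := hcore m₁ m₂ Γ hΓ g ν hge A hA H ι R hR a ha P f v hv δ ρ h1 h2 h3 mA _ _ hmA hF2 hb2
  exact ps_est_num ha hC (Nat.cast_nonneg _) hAm hq0 hB0 hV0 (sq_nonneg Cf) hen0 hen hmA0 hρ0 hδ0 hν0 hτ0 hτ1 hζ hL hLL
    rfl rfl hM hZ key

/-- the choice of the constants of E1, E2 -/
theorem ps_consts {C C₀ m a ε : ℝ} (hC : 0 < C) (hC₀ : 0 < C₀) (hm : 0 ≤ m) (ha : 0 < a) (hε : 0 < ε) :
    ∃ L τ₀ ηρ : ℝ, 1 ≤ L ∧ 0 < τ₀ ∧ τ₀ ≤ 1 ∧ 0 < ηρ ∧ ηρ ≤ 1 / 2 ∧ C₀ * (τ₀ + 1 / L) ≤ ε / 2 ∧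
      C * m * a * ηρ ^ 2 ≤ τ₀ ^ 2 / 2 := by
  obtain ⟨τ₀, hτ⟩ : ∃ τ₀ : ℝ, τ₀ = min 1 (ε / (4 * C₀)) := ⟨_, rfl⟩
  have hτ0 : 0 < τ₀ := by rw [hτ]; exact lt_min one_pos (by positivity)
  have hτ1 : τ₀ ≤ 1 := by rw [hτ]; exact min_le_left _ _
  have hτ2 : C₀ * τ₀ ≤ ε / 4 := by
    have h : τ₀ ≤ ε / (4 * C₀) := by rw [hτ]; exact min_le_right _ _
    rw [le_div_iff₀ (by positivity)] at h
    linarith
  obtain ⟨w, hw⟩ : ∃ w : ℝ, w = C * m * a + 1 := ⟨_, rfl⟩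
  have hw1 : 1 ≤ w := by
    rw [hw]
    have : 0 ≤ C * m * a := by positivity
    linarith
  have hw0 : 0 < w := by linarith
  obtain ⟨ηρ, hη⟩ : ∃ ηρ : ℝ, ηρ = min (1 / 2) (τ₀ / (2 * w)) := ⟨_, rfl⟩
  have hη0 : 0 < ηρ := by rw [hη]; exact lt_min (by norm_num) (by positivity)
  have hη1 : ηρ ≤ 1 / 2 := by rw [hη]; exact min_le_left _ _
  have hη2 : w * ηρ ≤ τ₀ / 2 := by
    have h : ηρ ≤ τ₀ / (2 * w) := by rw [hη]; exact min_le_right _ _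
    rw [le_div_iff₀ (by positivity)] at h
    linarith
  refine ⟨max 1 (4 * C₀ / ε), τ₀, ηρ, le_max_left _ _, hτ0, hτ1, hη0, hη1, ?_, ?_⟩
  · have hL0 : 0 < max 1 (4 * C₀ / ε) := lt_of_lt_of_le one_pos (le_max_left _ _)
    have h1 : C₀ * (1 / max 1 (4 * C₀ / ε)) ≤ ε / 4 := by
      rw [mul_one_div, div_le_iff₀ hL0]
      have h2 : 4 * C₀ / ε ≤ max 1 (4 * C₀ / ε) := le_max_right _ _
      rw [div_le_iff₀ hε] at h2
      linarith
    rw [mul_add]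
    linarith
  · have h1 : C * m * a ≤ w ^ 2 := by
      have : w ≤ w ^ 2 := by nlinarith
      rw [hw] at this ⊢
      linarith
    have h2 : C * m * a * ηρ ^ 2 ≤ w ^ 2 * ηρ ^ 2 := mul_le_mul_of_nonneg_right h1 (by positivity)
    have h3 : (w * ηρ) ^ 2 ≤ (τ₀ / 2) ^ 2 := pow_le_pow_left₀ (by positivity) hη2 2
    have e1 : (w * ηρ) ^ 2 = w ^ 2 * ηρ ^ 2 := by ring
    have e2 : (τ₀ / 2) ^ 2 = τ₀ ^ 2 / 4 := by ring
    have h4 : 0 ≤ τ₀ ^ 2 := by positivity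
    linarith

/-- the choice of the outer radius -/
theorem ps_rho {ηρ L : ℝ} (hη0 : 0 < ηρ) (hη1 : ηρ ≤ 1 / 2) (hL : 1 ≤ L) {ν δ : ℕ} (h1 : 1 ≤ δ)
    (hδ : (δ : ℝ) ≤ ηρ * Real.exp (-L) / 2 * ν) :
    δ < ⌊ηρ * ν⌋₊ ∧ ⌊ηρ * ν⌋₊ < ν ∧ ((⌊ηρ * ν⌋₊ : ℕ) : ℝ) ≤ ηρ * ν ∧ L ≤ Real.log (((⌊ηρ * ν⌋₊ : ℕ) : ℝ) / δ) := by
  have hδ1 : (1 : ℝ) ≤ δ := by exact_mod_cast h1
  have hδ0 : (0 : ℝ) < δ := by linarith
  have hE : 1 < Real.exp L := Real.one_lt_exp_iff.2 (by linarith)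
  have hE0 : 0 < Real.exp L := Real.exp_pos _
  obtain ⟨t, ht⟩ : ∃ t : ℝ, t = ηρ * ν := ⟨_, rfl⟩
  rw [← ht]
  have h2 : 2 * (Real.exp L * δ) ≤ t := by
    have e : ηρ * Real.exp (-L) / 2 * ν = t / (2 * Real.exp L) := by
      rw [ht, Real.exp_neg]
      field_simp
    rw [e, le_div_iff₀ (by positivity)] at hδ
    linarith
  have h3 : Real.exp L * 1 ≤ Real.exp L * δ := mul_le_mul_of_nonneg_left hδ1 hE0.le
  have ht2 : 2 ≤ t := by linarith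
  have ht0 : 0 ≤ t := by linarith
  have f1 : ((⌊t⌋₊ : ℕ) : ℝ) ≤ t := Nat.floor_le ht0
  have f2 : t < ((⌊t⌋₊ : ℕ) : ℝ) + 1 := Nat.lt_floor_add_one t
  have f3 : Real.exp L * δ ≤ ((⌊t⌋₊ : ℕ) : ℝ) := by linarith
  have hν0 : (0 : ℝ) < ν := by
    by_contra hcon
    have : (ν : ℝ) = 0 := le_antisymm (not_lt.1 hcon) (Nat.cast_nonneg _)
    rw [this, mul_zero] at ht
    linarith
  refine ⟨?_, ?_, f1, ?_⟩
  · have : (δ : ℝ) < ((⌊t⌋₊ : ℕ) : ℝ) := by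
      have : (1 : ℝ) * δ < Real.exp L * δ := mul_lt_mul_of_pos_right hE hδ0
      linarith
    exact_mod_cast this
  · have : ((⌊t⌋₊ : ℕ) : ℝ) < ν := by
      have : t ≤ 1 / 2 * ν := by rw [ht]; exact mul_le_mul_of_nonneg_right hη1 hν0.le
      linarith
    exact_mod_cast this
  · rw [Real.le_log_iff_exp_le (by
      have : 0 < ((⌊t⌋₊ : ℕ) : ℝ) := by linarith [mul_pos hE0 hδ0]
      positivity), le_div_iff₀ hδ0]
    exact f3

/-- **E1, collar continuity**, uniform in the mesh, in the pins `P ⊇ A`, in the rows (bounded densities) and in the test (bounded density).   GLUE (helper53). -/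
theorem ps_collar {m₁ m₂ : ℕ} (Γ : CGeom m₁ m₂) (hΓ : Γ.NoDiag) (K : ℕ) {a : ℝ} (ha : 0 < a) (CB : ℝ) {ε : ℝ} (hε : 0 < ε) :
    ∃ η : ℝ, 0 < η ∧ ∀ (g : DGrid m₁ m₂) (ν : ℕ), g.SideGe ν → g.SideLe (K * ν) → ∀ H : HLaw (Γ.graph g),
    (∀ x, ∑ o, H.B o x ^ 2 ≤ CB / (ν : ℝ) ^ 4) → ∀ A : Finset (Fin m₁ × Fin m₂), A ⊆ Γ.T → ∀ P : Set (Γ.graph g).V, Γ.sites g A ⊆ P →
    ∀ (f : (Γ.graph g).V → ℝ) (Cf : ℝ), plAdm (plPin H P) f → (∀ x, |f x| ≤ Cf / (ν : ℝ) ^ 2) → ∀ δ : ℕ, (δ : ℝ) ≤ η * ν →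
    psGap H a P (psCollar Γ g A δ) f ≤ ε * ((plPin H P).gVar a f + Cf ^ 2) := by
  obtain ⟨C, C₀, hC, hC₀, hest⟩ := ps_est Γ hΓ K ha CB
  obtain ⟨L, τ₀, ηρ, hL1, hτ0, hτ1, hη0, hη1, hc1, hc2⟩ :=
    ps_consts hC hC₀ (Nat.cast_nonneg (m₁ * m₂) : (0 : ℝ) ≤ ((m₁ * m₂ : ℕ) : ℝ)) ha hε
  refine ⟨ηρ * Real.exp (-L) / 2, by positivity, ?_⟩
  intro g ν hge hle H hrow A hA P hAP f Cf hadm hf δ hδ
  have hgV : 0 ≤ (plPin H P).gVar a f := pl_gVar_nonneg _ ha f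
  rcases Nat.eq_zero_or_pos δ with h0 | h1
  · subst h0
    have hsub : psCollar Γ g A 0 ⊆ P := fun x hx =>
      hAP ((ps_dist_eq_zero Γ g A hA 0 x).1 (Nat.le_zero.1 ((ps_collar_iff Γ g A le_rfl x).1 hx)))
    rw [psGap, Set.union_eq_self_of_subset_right hsub, sub_self]
    positivity
  · obtain ⟨R, -⟩ : ∃ R : Empty → (Γ.graph g).V → ℝ, True := ⟨fun i => i.elim, trivial⟩
    have hR : ∀ (Q : Set (Γ.graph g).V) (i : Empty) (x : (Γ.graph g).V), R i x ≠ 0 → x ∈ Q := fun _ i => i.elim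
    have hadm' : plAdm (plPin (psAdd H R) P) f := fun v hv g1 g2 => hadm v hv g1 fun o => g2 (Sum.inl o)
    obtain ⟨v, hv⟩ := pl_opt_exists _ ha hadm'
    have hvP := (ps_mem_rspan_pin (psAdd H R) P v).1 hv.1
    have hV : (plPin H P).gVar a f = (psAdd H R).form a v := by
      rw [← ps_add_pin_gVar H R a P (hR P) f, pl_gVar_eq_form _ ha hv, ps_pin_form]
    have hgap : psGap H a P (psCollar Γ g A δ) f = psGap (psAdd H R) a P (psCollar Γ g A δ) f := by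
      rw [psGap, psGap, ps_add_pin_gVar H R a P (hR P) f, ps_add_pin_gVar H R a _ (hR _) f]
    obtain ⟨r1, r2, r3, r4⟩ := ps_rho hη0 hη1 hL1 h1 hδ
    have hV0 : 0 ≤ (psAdd H R).form a v := pl_form_nonneg _ ha v
    have hmA : ∑ x, (if x ∈ Γ.sites g A then v x ^ 2 else 0) ≤ 0 := by
      refine le_of_eq (Finset.sum_eq_zero fun x _ => ?_)
      split_ifs with hx
      · rw [hvP x (hAP hx)]; simp
      · rfl
    have key := hest g ν hge hle H hrow A hA Empty R (hR _) P f v Cf hv hf δ ⌊ηρ * ν⌋₊ h1 r1 r2 0 τ₀ 0 L hmA hτ0.le hτ1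
      le_rfl hL1 r4 (by
        rw [mul_zero, zero_add]
        have k1 : ((⌊ηρ * ν⌋₊ : ℕ) : ℝ) ^ 2 ≤ (ηρ * ν) ^ 2 := pow_le_pow_left₀ (Nat.cast_nonneg _) r3 2
        have k2 : C * ((m₁ * m₂ : ℕ) : ℝ) * ((⌊ηρ * ν⌋₊ : ℕ) : ℝ) ^ 2 ≤ C * ((m₁ * m₂ : ℕ) : ℝ) * (ηρ * ν) ^ 2 :=
          mul_le_mul_of_nonneg_left k1 (by positivity)
        have k3 := mul_le_mul_of_nonneg_right k2 (mul_nonneg ha.le hV0)
        refine k3.trans ?_
        have e1 : C * ((m₁ * m₂ : ℕ) : ℝ) * (ηρ * ν) ^ 2 * (a * (psAdd H R).form a v)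
            = C * ((m₁ * m₂ : ℕ) : ℝ) * a * ηρ ^ 2 * ((ν : ℝ) ^ 2 * (psAdd H R).form a v) := by ring
        have e2 : τ₀ ^ 2 * (ν : ℝ) ^ 2 * (psAdd H R).form a v = τ₀ ^ 2 * ((ν : ℝ) ^ 2 * (psAdd H R).form a v) := by ring
        rw [e1, e2]
        refine mul_le_mul_of_nonneg_right ?_ (by positivity)
        have : 0 ≤ τ₀ ^ 2 := by positivity
        linarith) (by simp)
    rw [hgap, hV]
    refine key.trans (mul_le_mul_of_nonneg_right ?_ (by positivity))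
    have : 8 * (0 : ℝ) / a = 0 := by simp
    rw [this]
    linarith

theorem ps_en_le_form {G : HGraph} (H : HLaw G) {a : ℝ} (ha : 0 < a) (v : G.V → ℝ) : HLaw.en v 0 ≤ a * H.form a v := by
  have h0 : 0 ≤ ∑ o, H.obs v o ^ 2 := Finset.sum_nonneg fun o _ => sq_nonneg _
  have e : a * H.form a v = HLaw.en v 0 + a * ∑ o, H.obs v o ^ 2 := by
    rw [HLaw.form]
    field_simp
  rw [e]
  have := mul_nonneg ha.le h0
  linarith

theorem ps_floor_half {t : ℝ} (ht : 1 ≤ t) : 1 ≤ ⌊t⌋₊ ∧ t / 2 ≤ ((⌊t⌋₊ : ℕ) : ℝ) ∧ ((⌊t⌋₊ : ℕ) : ℝ) ≤ t := by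
  have h1 : 1 ≤ ⌊t⌋₊ := Nat.le_floor (by simpa using ht)
  have h1R : (1 : ℝ) ≤ ((⌊t⌋₊ : ℕ) : ℝ) := by exact_mod_cast h1
  have h2 : t < ((⌊t⌋₊ : ℕ) : ℝ) + 1 := Nat.lt_floor_add_one t
  exact ⟨h1, by linarith, Nat.floor_le (by linarith)⟩

section Soft

variable {m₁ m₂ : ℕ} (Γ : CGeom m₁ m₂) (g : DGrid m₁ m₂)

theorem ps_soft_supp {A : Finset (Fin m₁ × Fin m₂)} {s : ℕ} {ι : Type} {b : ι → PsBox} (hb : psIsPart g A s b) (w : ι → ℝ)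
    (i : ι) (x : (Γ.graph g).V) (h : psSoft Γ g b w i x ≠ 0) : x ∈ Γ.sites g A := by
  obtain ⟨κ, hκ, hsub⟩ := hb.1 i
  have h1 : domPos (D := g.region Γ.T) (cut := Γ.cutB g) x ∈ (b i).set := by
    by_contra hcon
    apply h
    simp only [psSoft, psAvg, if_neg hcon, mul_zero]
  show domPos (D := g.region Γ.T) (cut := Γ.cutB g) x ∈ (↑(g.region A) : Set (ℤ × ℤ))
  rw [Finset.mem_coe]
  unfold DGrid.region
  exact Finset.mem_biUnion.2 ⟨κ, hκ, hsub h1⟩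

theorem ps_sites_sub_collar {A : Finset (Fin m₁ × Fin m₂)} (hA : A ⊆ Γ.T) (δ : ℕ) : Γ.sites g A ⊆ psCollar Γ g A δ :=
  fun x hx => (ps_collar_iff Γ g A le_rfl x).2 (by rw [(ps_dist_eq_zero Γ g A hA δ x).2 hx]; exact Nat.zero_le _)

theorem ps_collar_mono (A : Finset (Fin m₁ × Fin m₂)) {δ δ' : ℕ} (h : δ ≤ δ') : psCollar Γ g A δ ⊆ psCollar Γ g A δ' := by
  rintro x ⟨n, hn, hnd⟩
  exact ⟨n, hn, hnd.trans h⟩

theorem ps_collar_empty (δ : ℕ) : psCollar Γ g ∅ δ = ∅ := by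
  ext x
  constructor
  · rintro ⟨n, ⟨κ, _, κ₀, hκ₀, _⟩, _⟩
    exact absurd hκ₀ (Finset.notMem_empty _)
  · intro h
    exact absurd h (Set.notMem_empty _)

theorem ps_part_side {A : Finset (Fin m₁ × Fin m₂)} (hne : A.Nonempty) {s : ℕ} {ι : Type} {b : ι → PsBox}
    (hb : psIsPart g A s b) : 1 ≤ s := by
  obtain ⟨κ, hκ⟩ := hne
  have hz : (g.x₁ κ.1.castSucc, g.x₂ κ.2.castSucc) ∈ g.cell κ := by
    unfold DGrid.cell
    rw [Finset.mem_product, Finset.mem_Ico, Finset.mem_Ico]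
    exact ⟨⟨le_rfl, g.mono₁ (Fin.castSucc_lt_succ)⟩, ⟨le_rfl, g.mono₂ (Fin.castSucc_lt_succ)⟩⟩
  have hz' : (g.x₁ κ.1.castSucc, g.x₂ κ.2.castSucc) ∈ g.region A := by
    unfold DGrid.region
    exact Finset.mem_biUnion.2 ⟨κ, hκ, hz⟩
  obtain ⟨i, _⟩ := hb.2.2.2 _ hz'
  obtain ⟨h1, h2, _, _⟩ := hb.2.1 i
  omega

/-- the mass of a softly pinned region in terms of the form -/
theorem ps_soft_mA {A : Finset (Fin m₁ × Fin m₂)} (hA : A ⊆ Γ.T) {s : ℕ} {ι : Type} [Fintype ι] {b : ι → PsBox}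
    (hb : psIsPart g A s b) (w : ι → ℝ) {lam σ a : ℝ} (hlam : 0 < lam) (ha : 0 < a) {ν : ℕ} (hs : (s : ℝ) ≤ σ * ν)
    (hw : ∀ i, lam * (b i).set.card ≤ w i ^ 2 * (ν : ℝ) ^ 2) (H : HLaw (Γ.graph g)) (v : (Γ.graph g).V → ℝ) :
    ∑ x, (if x ∈ Γ.sites g A then v x ^ 2 else 0)
      ≤ (2 / lam + 2 * a * σ ^ 2) * (ν : ℝ) ^ 2 * (psAdd H (psSoft Γ g b w)).form a v := by
  have h0 := ps_soft_mass Γ g A hA s b hb v
  obtain ⟨V, hV⟩ : ∃ V : ℝ, V = (psAdd H (psSoft Γ g b w)).form a v := ⟨_, rfl⟩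
  rw [← hV]
  have hV0 : 0 ≤ V := by rw [hV]; exact pl_form_nonneg _ ha v
  have hen : HLaw.en v 0 ≤ a * V := by rw [hV]; exact ps_en_le_form _ ha v
  have hen0 : 0 ≤ HLaw.en v 0 := Finset.sum_nonneg fun e _ => sq_nonneg _
  have hrows : ∑ i, (∑ x, psSoft Γ g b w i x * v x) ^ 2 ≤ V := by
    rw [hV, ps_add_form]
    have := pl_form_nonneg H ha v
    linarith
  have hi : ∀ i, ((b i).set.card : ℝ) * (∑ x, psSoft Γ g b (fun _ => 1) i x * v x) ^ 2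
      ≤ (ν : ℝ) ^ 2 / lam * (∑ x, psSoft Γ g b w i x * v x) ^ 2 := by
    intro i
    have e : ∑ x, psSoft Γ g b w i x * v x = w i * ∑ x, psSoft Γ g b (fun _ => 1) i x * v x := by
      rw [Finset.mul_sum]
      refine Finset.sum_congr rfl fun x _ => ?_
      simp only [psSoft]
      ring
    rw [e]
    generalize ∑ x, psSoft Γ g b (fun _ => 1) i x * v x = α
    have h1 : ((b i).set.card : ℝ) ≤ w i ^ 2 * (ν : ℝ) ^ 2 / lam := by
      rw [le_div_iff₀ hlam]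
      linarith [hw i]
    have h2 := mul_le_mul_of_nonneg_right h1 (sq_nonneg α)
    have e2 : w i ^ 2 * (ν : ℝ) ^ 2 / lam * α ^ 2 = (ν : ℝ) ^ 2 / lam * (w i * α) ^ 2 := by ring
    linarith
  have h1 : ∑ i, ((b i).set.card : ℝ) * (∑ x, psSoft Γ g b (fun _ => 1) i x * v x) ^ 2 ≤ (ν : ℝ) ^ 2 / lam * V := by
    refine (Finset.sum_le_sum fun i _ => hi i).trans ?_
    rw [← Finset.mul_sum]
    exact mul_le_mul_of_nonneg_left hrows (by positivity)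
  have h2 : (s : ℝ) ^ 2 * HLaw.en v 0 ≤ (σ * ν) ^ 2 * (a * V) :=
    mul_le_mul (pow_le_pow_left₀ (Nat.cast_nonneg _) hs 2) hen hen0 (by positivity)
  have e3 : (2 / lam + 2 * a * σ ^ 2) * (ν : ℝ) ^ 2 * V = 2 * ((ν : ℝ) ^ 2 / lam * V) + 2 * ((σ * ν) ^ 2 * (a * V)) := by
    ring
  rw [e3]
  have e4 : 2 * (s : ℝ) ^ 2 * HLaw.en v 0 = 2 * ((s : ℝ) ^ 2 * HLaw.en v 0) := by ring
  linarith

end Soft

/-- **E2, soft rows -> hard pin with collar**, uniform in the mesh and in the fine partition.   GLUE (helper53). -/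
theorem ps_soft_hard {m₁ m₂ : ℕ} (Γ : CGeom m₁ m₂) (hΓ : Γ.NoDiag) (K : ℕ) {a : ℝ} (ha : 0 < a) (CB : ℝ) {ε : ℝ} (hε : 0 < ε) :
    ∃ η : ℝ, 0 < η ∧ ∃ lam σ : ℝ, 0 < lam ∧ 0 < σ ∧ ∀ (g : DGrid m₁ m₂) (ν : ℕ), g.SideGe ν → g.SideLe (K * ν) → ∀ H : HLaw (Γ.graph g),
    (∀ x, ∑ o, H.B o x ^ 2 ≤ CB / (ν : ℝ) ^ 4) → ∀ A : Finset (Fin m₁ × Fin m₂), A ⊆ Γ.T → ∀ P : Set (Γ.graph g).V,
    ∀ (ι : Type) [Fintype ι] (b : ι → PsBox) (w : ι → ℝ) (s : ℕ), psIsPart g A s b → (s : ℝ) ≤ σ * ν →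
    (∀ i, lam * (b i).set.card ≤ w i ^ 2 * (ν : ℝ) ^ 2) →
    ∀ (f : (Γ.graph g).V → ℝ) (Cf : ℝ), plAdm (plPin (psAdd H (psSoft Γ g b w)) P) f → (∀ x, |f x| ≤ Cf / (ν : ℝ) ^ 2) →
    ∀ δ : ℕ, (δ : ℝ) ≤ η * ν →
    (plPin (psAdd H (psSoft Γ g b w)) P).gVar a f - (plPin H (P ∪ psCollar Γ g A δ)).gVar a f
      ≤ ε * ((plPin (psAdd H (psSoft Γ g b w)) P).gVar a f + Cf ^ 2) := by
  obtain ⟨C, C₀, hC, hC₀, hest⟩ := ps_est Γ hΓ K ha CB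
  obtain ⟨L, τ₀, ηρ, hL1, hτ0, hτ1, hη0, hη1, hc1, hc2⟩ :=
    ps_consts hC hC₀ (Nat.cast_nonneg (m₁ * m₂) : (0 : ℝ) ≤ ((m₁ * m₂ : ℕ) : ℝ)) ha hε
  obtain ⟨η, hηd⟩ : ∃ η : ℝ, η = ηρ * Real.exp (-L) / 2 := ⟨_, rfl⟩
  have hηpos : 0 < η := by rw [hηd]; positivity
  have hE0 : 0 < Real.exp L := Real.exp_pos _
  have hηE : 2 * (Real.exp L * η) = ηρ := by
    rw [hηd, Real.exp_neg]
    field_simp
  obtain ⟨μ₀, hμd⟩ : ∃ μ₀ : ℝ, μ₀ = min (τ₀ ^ 2 / (2 * (1 + 4 * C * Real.exp L))) (a * ε * η ^ 2 / (64 * C)) := ⟨_, rfl⟩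
  have hμ0 : 0 < μ₀ := by rw [hμd]; exact lt_min (by positivity) (by positivity)
  have hμ1 : (1 + 4 * C * Real.exp L) * μ₀ ≤ τ₀ ^ 2 / 2 := by
    have h : μ₀ ≤ τ₀ ^ 2 / (2 * (1 + 4 * C * Real.exp L)) := by rw [hμd]; exact min_le_left _ _
    rw [le_div_iff₀ (by positivity)] at h
    linarith
  have hμ2 : 64 * C * μ₀ ≤ a * ε * η ^ 2 := by
    have h : μ₀ ≤ a * ε * η ^ 2 / (64 * C) := by rw [hμd]; exact min_le_right _ _
    rw [le_div_iff₀ (by positivity)] at h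
    linarith
  obtain ⟨σ, hσd⟩ : ∃ σ : ℝ, σ = min η (min 1 (μ₀ / (4 * a))) := ⟨_, rfl⟩
  have hσ0 : 0 < σ := by rw [hσd]; exact lt_min hηpos (lt_min one_pos (by positivity))
  have hση : σ ≤ η := by rw [hσd]; exact min_le_left _ _
  have hσ1 : σ ≤ 1 := by rw [hσd]; exact (min_le_right _ _).trans (min_le_left _ _)
  have hσμ : 4 * a * σ ≤ μ₀ := by
    have h : σ ≤ μ₀ / (4 * a) := by rw [hσd]; exact (min_le_right _ _).trans (min_le_right _ _)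
    rw [le_div_iff₀ (by positivity)] at h
    linarith
  have hμle : 2 / (4 / μ₀) + 2 * a * σ ^ 2 ≤ μ₀ := by
    have e1 : 2 / (4 / μ₀) = μ₀ / 2 := by field_simp; norm_num
    have h2 : σ ^ 2 ≤ σ := ps_aux3 hσ0.le hσ1
    have h3 : 2 * a * σ ^ 2 ≤ 2 * a * σ := mul_le_mul_of_nonneg_left h2 (by positivity)
    rw [e1]
    linarith
  refine ⟨η, hηpos, 4 / μ₀, σ, by positivity, hσ0, ?_⟩
  intro g ν hge hle H hrow A hA P ι _ b w s hb hs hw f Cf hadm hf δ hδ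
  obtain ⟨R, hRd⟩ : ∃ R : ι → (Γ.graph g).V → ℝ, R = psSoft Γ g b w := ⟨_, rfl⟩
  have hR : ∀ i x, R i x ≠ 0 → x ∈ Γ.sites g A := fun i x h => ps_soft_supp Γ g hb w i x (by rw [← hRd]; exact h)
  have hmass := ps_soft_mA Γ g hA hb w (by positivity : (0:ℝ) < 4 / μ₀) ha hs hw H
  rw [← hRd] at hadm hmass ⊢
  have hgV : 0 ≤ (plPin (psAdd H R) P).gVar a f := pl_gVar_nonneg _ ha f
  have hLHS : (plPin (psAdd H R) P).gVar a f - (plPin H (P ∪ psCollar Γ g A δ)).gVar a f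
      = psGap (psAdd H R) a P (psCollar Γ g A δ) f := by
    rw [psGap, ps_add_pin_gVar H R a (P ∪ psCollar Γ g A δ)
      (fun i x h => Or.inr (ps_sites_sub_collar Γ g hA δ (hR i x h))) f]
  rw [hLHS]
  rcases A.eq_empty_or_nonempty with hAe | hAne
  · subst hAe
    rw [ps_collar_empty, psGap, Set.union_empty, sub_self]
    positivity
  · have hs1 : 1 ≤ s := ps_part_side g hAne hb
    have hs1R : (1 : ℝ) ≤ s := by exact_mod_cast hs1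
    have hν0 : (0 : ℝ) < ν := by
      by_contra hcon
      have : (ν : ℝ) = 0 := le_antisymm (not_lt.1 hcon) (Nat.cast_nonneg _)
      rw [this, mul_zero] at hs
      linarith
    have hην : 1 ≤ η * ν := by
      have := mul_le_mul_of_nonneg_right hση hν0.le
      linarith
    obtain ⟨d1, d2, d3⟩ := ps_floor_half hην
    obtain ⟨δ', hδ'⟩ : ∃ δ' : ℕ, δ' = ⌊η * ν⌋₊ := ⟨_, rfl⟩
    rw [← hδ'] at d1 d2 d3
    have hδδ' : δ ≤ δ' := by rw [hδ']; exact Nat.le_floor hδ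
    have hδ'0 : (0 : ℝ) < δ' := by exact_mod_cast d1
    refine (ps_gap_mono (psAdd H R) ha P (ps_collar_mono Γ g A hδδ') hadm).trans ?_
    obtain ⟨v, hv⟩ := pl_opt_exists _ ha hadm
    have hV : (plPin (psAdd H R) P).gVar a f = (psAdd H R).form a v := by
      rw [pl_gVar_eq_form _ ha hv, ps_pin_form]
    rw [hV]
    obtain ⟨V, hVd⟩ : ∃ V : ℝ, V = (psAdd H R).form a v := ⟨_, rfl⟩
    have hV0 : 0 ≤ V := by rw [hVd]; exact pl_form_nonneg _ ha v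
    obtain ⟨r1, r2, r3, r4⟩ := ps_rho hη0 hη1 hL1 d1 (by rw [← hηd]; exact d3)
    obtain ⟨ρ, hρd⟩ : ∃ ρ : ℕ, ρ = ⌊ηρ * ν⌋₊ := ⟨_, rfl⟩
    rw [← hρd] at r1 r2 r3 r4
    have hνV : 0 ≤ (ν : ℝ) ^ 2 * V := by positivity
    have hmA : ∑ x, (if x ∈ Γ.sites g A then v x ^ 2 else 0) ≤ μ₀ * ((ν : ℝ) ^ 2 * V) := by
      refine (hmass v).trans ?_
      rw [← hVd, mul_assoc]
      exact mul_le_mul_of_nonneg_right hμle hνV
    have hratio : (ρ : ℝ) / δ' ≤ 4 * Real.exp L := by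
      rw [div_le_iff₀ hδ'0]
      have h1 : 4 * Real.exp L * (η * ν / 2) ≤ 4 * Real.exp L * δ' := mul_le_mul_of_nonneg_left d2 (by positivity)
      have e1 : 4 * Real.exp L * (η * ν / 2) = 2 * (Real.exp L * η) * ν := by ring
      rw [e1, hηE] at h1
      linarith
    have hM : (1 + C * ((ρ : ℝ) / δ')) * (μ₀ * ((ν : ℝ) ^ 2 * V)) + C * ((m₁ * m₂ : ℕ) : ℝ) * (ρ : ℝ) ^ 2 * (a * V)
        ≤ τ₀ ^ 2 * (ν : ℝ) ^ 2 * V := by
      have k0 : 1 + C * ((ρ : ℝ) / δ') ≤ 1 + 4 * C * Real.exp L := by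
        have := mul_le_mul_of_nonneg_left hratio hC.le
        linarith
      have k1 : (1 + C * ((ρ : ℝ) / δ')) * (μ₀ * ((ν : ℝ) ^ 2 * V)) ≤ (1 + 4 * C * Real.exp L) * (μ₀ * ((ν : ℝ) ^ 2 * V)) :=
        mul_le_mul_of_nonneg_right k0 (by positivity)
      have k2 : (1 + 4 * C * Real.exp L) * (μ₀ * ((ν : ℝ) ^ 2 * V)) ≤ τ₀ ^ 2 / 2 * ((ν : ℝ) ^ 2 * V) := by
        rw [← mul_assoc]
        exact mul_le_mul_of_nonneg_right hμ1 hνV
      have k3 : (ρ : ℝ) ^ 2 ≤ (ηρ * ν) ^ 2 := pow_le_pow_left₀ (Nat.cast_nonneg _) r3 2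
      have k4 : C * ((m₁ * m₂ : ℕ) : ℝ) * (ρ : ℝ) ^ 2 ≤ C * ((m₁ * m₂ : ℕ) : ℝ) * (ηρ * ν) ^ 2 :=
        mul_le_mul_of_nonneg_left k3 (by positivity)
      have k5 := mul_le_mul_of_nonneg_right k4 (mul_nonneg ha.le hV0)
      have e1 : C * ((m₁ * m₂ : ℕ) : ℝ) * (ηρ * ν) ^ 2 * (a * V)
          = C * ((m₁ * m₂ : ℕ) : ℝ) * a * ηρ ^ 2 * ((ν : ℝ) ^ 2 * V) := by ring
      have k6 : C * ((m₁ * m₂ : ℕ) : ℝ) * a * ηρ ^ 2 * ((ν : ℝ) ^ 2 * V) ≤ τ₀ ^ 2 / 2 * ((ν : ℝ) ^ 2 * V) :=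
        mul_le_mul_of_nonneg_right hc2 hνV
      have e2 : τ₀ ^ 2 * (ν : ℝ) ^ 2 * V = τ₀ ^ 2 / 2 * ((ν : ℝ) ^ 2 * V) + τ₀ ^ 2 / 2 * ((ν : ℝ) ^ 2 * V) := by ring
      rw [e2]
      linarith
    have hZ : C / (δ' : ℝ) ^ 2 * (μ₀ * ((ν : ℝ) ^ 2 * V)) ≤ a * ε / 16 * V := by
      have k1 : (η * ν / 2) ^ 2 ≤ (δ' : ℝ) ^ 2 := pow_le_pow_left₀ (by positivity) d2 2
      have k2 : C * μ₀ * (ν : ℝ) ^ 2 ≤ a * ε / 16 * (δ' : ℝ) ^ 2 := by
        have k3 : a * ε / 16 * (η * ν / 2) ^ 2 ≤ a * ε / 16 * (δ' : ℝ) ^ 2 := mul_le_mul_of_nonneg_left k1 (by positivity)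
        have k4 : 64 * C * μ₀ * (ν : ℝ) ^ 2 ≤ a * ε * η ^ 2 * (ν : ℝ) ^ 2 := mul_le_mul_of_nonneg_right hμ2 (by positivity)
        have e1 : a * ε / 16 * (η * ν / 2) ^ 2 = a * ε * η ^ 2 * (ν : ℝ) ^ 2 / 64 := by ring
        linarith
      have e2 : C / (δ' : ℝ) ^ 2 * (μ₀ * ((ν : ℝ) ^ 2 * V)) = C * μ₀ * (ν : ℝ) ^ 2 / (δ' : ℝ) ^ 2 * V := by ring
      rw [e2]
      refine mul_le_mul_of_nonneg_right ?_ hV0
      rw [div_le_iff₀ (by positivity)]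
      exact k2
    rw [hVd] at hmA hM hZ
    have key := hest g ν hge hle H hrow A hA ι R hR P f v Cf hv hf δ' ρ d1 r1 r2 _ τ₀ (a * ε / 16) L hmA hτ0.le hτ1
      (by positivity) hL1 r4 hM hZ
    refine key.trans (mul_le_mul_of_nonneg_right ?_ (by rw [← hVd]; positivity))
    have e8 : 8 * (a * ε / 16) / a = ε / 2 := by field_simp; norm_num
    rw [e8]
    linarith

end

end Claimed.Agent.R285.Pot
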