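import Claimed.Agent.R285.Pot.StripTr
import Claimed.Agent.R285.Pot.StripGeo
import Claimed.Agent.R285.Pot.DecGeo

/-!
# ROW 285, POT-STRIP, part 2 : MACROSCOPIC CUTOFFS, THE BAND      (owner helper53).   Paper-free.   Prefix `ps`.

Everything on `Γ.graph g`, sides of `g` in `[ν, Kν]`, ANY geometry (`NoDiag` is not used in this file: only cells, ambient cutoffs and the degree `≤ 4`).
* `psFar Γ g J ν` : the cutoff `0` on the cells of `J`, `1` on the cells not adjacent (`geoAdj`: face or corner, ambient indices) to `J`, slope `3/ν`; it is CONSTANT near the boundary of every cell: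
  a bond with `∇χ ≠ 0` has both ends in `psShell Γ J` = the cells of `Γ.T` outside `J` adjacent to `J`.
* `ps_far_cutErr` : the cutoff error of `psFar` for a law `psAdd H (psSoft Γ g b w)` (coarse rows `H` + local rows on a fine partition).
* LAYERS `PsLay Γ In Kb Out`: `Γ.T ⊆ In ∪ Kb ∪ Out`, no cell of `In` adjacent to a cell of `Out`.   BAND LAW: local rows on `Kb`, `λ |b_i| ≤ w_i² ν² ≤ Λ |b_i|`, coarse rows carried by `In` or by `Out`.
* `ps_band_cut`  : `psCutErr χ v ≤ (18/a + 18 Λ s²/ν²)(2/λ + 2 a s²/ν²) form v` for EVERY field `v`.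
* `ps_band_cov`  (POT-D of `Pins/Plan.lean`): cross covariance through the band, explicit.
-/

set_option autoImplicit false

namespace Claimed.Agent.R285.Pot

open scoped Classical

noncomputable section

/-! ## 0. any graph -/

section Abstract

variable {G : HGraph} (H : HLaw G)

/-- the energy on the edges inside `Y` -/
def psEnIn (Y : Set G.V) (u : G.V → ℝ) : ℝ := ∑ e, if G.src e ∈ Y ∧ G.tgt e ∈ Y then plGrad u e ^ 2 else 0

/-- LEAF L-PS-B0 (~60 l. for the three lemmas): the cutoff error is invariant under affine changes of the cutoff. -/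
theorem ps_cutErr_affine (a α β : ℝ) (χ v : G.V → ℝ) : psCutErr H a (fun x => α * χ x + β) v = α ^ 2 * psCutErr H a χ v := by
  unfold psCutErr
  have h1 : ∀ e, plGrad (fun x => α * χ x + β) e = α * plGrad χ e := by
    intro e; simp only [plGrad]; ring
  have h2 : ∀ o, H.obs ((fun x => α * χ x + β) * v) o = α * H.obs (χ * v) o + β * H.obs v o := by
    intro o
    simp only [HLaw.obs, Pi.mul_apply, Finset.mul_sum]
    rw [← Finset.sum_add_distrib]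
    exact Finset.sum_congr rfl fun x _ => by ring
  have h3 : ∀ o, H.obs ((fun x => α * χ x + β) * (fun x => α * χ x + β) * v) o
      = α ^ 2 * H.obs (χ * χ * v) o + 2 * α * β * H.obs (χ * v) o + β ^ 2 * H.obs v o := by
    intro o
    simp only [HLaw.obs, Pi.mul_apply, Finset.mul_sum]
    rw [← Finset.sum_add_distrib, ← Finset.sum_add_distrib]
    exact Finset.sum_congr rfl fun x _ => by ring
  simp only [h1, h2, h3]
  rw [mul_add, Finset.mul_sum, Finset.mul_sum, Finset.mul_sum, Finset.mul_sum]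
  congr 1
  · exact Finset.sum_congr rfl fun e _ => by ring
  · exact Finset.sum_congr rfl fun o _ => by ring

/-- more rows: the commutators add up (`Fintype.sum_sum_type`, as in the proof of `ps_cutErr_add`) -/
theorem ps_cutErr_add' {ι : Type} [Fintype ι] (R : ι → G.V → ℝ) (a : ℝ) (φ v : G.V → ℝ) :
    psCutErr (psAdd H R) a φ v = psCutErr H a φ v
      + ∑ i, ((∑ x, R i x * (φ * v) x) ^ 2 - (∑ x, R i x * v x) * ∑ x, R i x * (φ * φ * v) x) := by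
  have h : ∑ o, ((psAdd H R).obs (φ * v) o ^ 2 - (psAdd H R).obs v o * (psAdd H R).obs (φ * φ * v) o)
      = ∑ o, (H.obs (φ * v) o ^ 2 - H.obs v o * H.obs (φ * φ * v) o)
        + ∑ i, ((∑ x, R i x * (φ * v) x) ^ 2 - (∑ x, R i x * v x) * ∑ x, R i x * (φ * φ * v) x) :=
    Fintype.sum_sum_type fun o : H.O ⊕ ι => (∑ x, Sum.elim H.B R o x * (φ * v) x) ^ 2
      - (∑ x, Sum.elim H.B R o x * v x) * ∑ x, Sum.elim H.B R o x * (φ * φ * v) x
  unfold psCutErr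
  rw [h, add_assoc]

/-- a row on whose support the cutoff is constant has no commutator -/
theorem ps_comm_const (B φ v : G.V → ℝ) (c : ℝ) (h : ∀ x, B x ≠ 0 → φ x = c) :
    (∑ x, B x * (φ * v) x) ^ 2 - (∑ x, B x * v x) * ∑ x, B x * (φ * φ * v) x = 0 := by
  have a1 : ∑ x, B x * (φ * v) x = c * ∑ x, B x * v x := by
    rw [Finset.mul_sum]
    refine Finset.sum_congr rfl fun x _ => ?_
    by_cases hx : B x = 0
    · simp [hx]
    · simp only [Pi.mul_apply, h x hx]; ring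
  have a2 : ∑ x, B x * (φ * φ * v) x = c ^ 2 * ∑ x, B x * v x := by
    rw [Finset.mul_sum]
    refine Finset.sum_congr rfl fun x _ => ?_
    by_cases hx : B x = 0
    · simp [hx]
    · simp only [Pi.mul_apply, h x hx]; ring
  rw [a1, a2]; ring

/-- coercivity bounds the variance:  `gVar f = ⟨f,v⟩ ≤ |f| |v| ≤ |f| √(C form v)`, `form v = gVar f`.   LEAF L-PS-B0. -/
theorem ps_gVar_le_coer {a : ℝ} (ha : 0 < a) {P : Set G.V} {C : ℝ} (hC0 : 0 ≤ C)
    (hC : ∀ v : G.V → ℝ, (∀ x ∈ P, v x = 0) → ∑ x, v x ^ 2 ≤ C * H.form a v) (f : G.V → ℝ) : (plPin H P).gVar a f ≤ C * ∑ x, f x ^ 2 := by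
  unfold HLaw.gVar
  refine ciSup_le fun v => ?_
  have hv := (ps_mem_rspan_pin H P v.1).1 v.2
  rw [ps_pin_form]
  have h1 := hC v.1 hv
  have h0 := pl_form_nonneg H ha v.1
  rcases hC0.eq_or_lt with rfl | hpos
  · have hz : ∀ x, (v : G.V → ℝ) x = 0 := by
      intro x
      have h2 : ∑ x, (v : G.V → ℝ) x ^ 2 = 0 :=
        le_antisymm (by simpa using h1) (Finset.sum_nonneg fun _ _ => sq_nonneg _)
      have := (Finset.sum_eq_zero_iff_of_nonneg (fun _ _ => sq_nonneg _)).1 h2 x (Finset.mem_univ x)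
      exact pow_eq_zero_iff (two_ne_zero) |>.1 this
    simp only [hz, mul_zero, Finset.sum_const_zero, zero_mul]
    linarith
  · have h2 : 2 * ∑ x, f x * (v : G.V → ℝ) x ≤ C * ∑ x, f x ^ 2 + C⁻¹ * ∑ x, (v : G.V → ℝ) x ^ 2 := by
      rw [Finset.mul_sum, Finset.mul_sum, Finset.mul_sum, ← Finset.sum_add_distrib]
      refine Finset.sum_le_sum fun x _ => ?_
      have h3 : 0 ≤ C⁻¹ * (C * f x - (v : G.V → ℝ) x) ^ 2 := mul_nonneg (inv_nonneg.2 hpos.le) (sq_nonneg _)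
      have h4 : C⁻¹ * (C * f x - (v : G.V → ℝ) x) ^ 2 = C * f x ^ 2 - 2 * (f x * (v : G.V → ℝ) x) + C⁻¹ * (v : G.V → ℝ) x ^ 2 := by
        field_simp
        ring
      linarith
    have h5 : C⁻¹ * ∑ x, (v : G.V → ℝ) x ^ 2 ≤ H.form a v.1 := by
      rw [inv_mul_le_iff₀ hpos]; exact h1
    linarith

/-- coercivity implies properness.   LEAF L-PS-B0. -/
theorem ps_PD_of_coer {a : ℝ} {P : Set G.V} {C : ℝ} (hC : ∀ v : G.V → ℝ, (∀ x ∈ P, v x = 0) → ∑ x, v x ^ 2 ≤ C * H.form a v) : plPD H P := by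
  intro v hv he ho
  have hf : H.form a v = 0 := by
    unfold HLaw.form HLaw.en
    have e1 : ∑ e, (v (G.tgt e) - v (G.src e) + (0 : G.E → ℝ) e) ^ 2 = 0 := by
      refine Finset.sum_eq_zero fun e _ => ?_
      have := he e
      simp only [plGrad] at this
      simp [this]
    have e2 : ∑ o, H.obs v o ^ 2 = 0 := Finset.sum_eq_zero fun o _ => by simp [ho o]
    rw [e1, e2]; simp
  have h1 := hC v hv
  rw [hf, mul_zero] at h1
  have h2 : ∑ x, v x ^ 2 = 0 := le_antisymm h1 (Finset.sum_nonneg fun _ _ => sq_nonneg _)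
  funext x
  have := (Finset.sum_eq_zero_iff_of_nonneg (fun _ _ => sq_nonneg _)).1 h2 x (Finset.mem_univ x)
  exact pow_eq_zero_iff (two_ne_zero) |>.1 this

end Abstract

/-! ## 1. the cutoffs -/

variable {m₁ m₂ : ℕ}

/-- sup distance from `z` to the cells of `J`, truncated at `ρ + 1` -/
def psDJ (g : DGrid m₁ m₂) (J : Finset (Fin m₁ × Fin m₂)) (ρ : ℕ) (z : ℤ × ℤ) : ℕ :=
  sInf ({ρ + 1} ∪ {n | ∃ κ ∈ J, n = psDistCell g κ z})

/-- `0` up to `ν/3`, `1` from `2ν/3` on -/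
def psRamp (ν d : ℕ) : ℝ := max 0 (min 1 ((3 * (d : ℝ) - ν) / ν))

/-- the ambient cutoff: `0` on `J`, `1` on the cells which are not adjacent to `J` -/
def psFarZ (g : DGrid m₁ m₂) (J : Finset (Fin m₁ × Fin m₂)) (ν : ℕ) : ℤ × ℤ → ℝ := fun z => psRamp ν (psDJ g J ν z)

/-- its restriction to the graph -/
def psFar (Γ : CGeom m₁ m₂) (g : DGrid m₁ m₂) (J : Finset (Fin m₁ × Fin m₂)) (ν : ℕ) : (Γ.graph g).V → ℝ :=
  fun x => psFarZ g J ν (domPos (D := g.region Γ.T) (cut := Γ.cutB g) x)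

/-- the cells of the geometry outside `J` which are adjacent to `J` -/
def psShell (Γ : CGeom m₁ m₂) (J : Finset (Fin m₁ × Fin m₂)) : Finset (Fin m₁ × Fin m₂) :=
  Γ.T.filter fun κ => κ ∉ J ∧ ∃ κ' ∈ J, geoAdj κ κ'

/-- three layers of cells -/
structure PsLay (Γ : CGeom m₁ m₂) (In Kb Out : Finset (Fin m₁ × Fin m₂)) : Prop where
  cover : Γ.T ⊆ In ∪ Kb ∪ Out
  band : Kb ⊆ Γ.T
  sep : ∀ κ ∈ In, ∀ κ' ∈ Out, ¬ geoAdj κ κ'

theorem ps_band_eqns_cite : True := by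
  have := @psEnIn.eq_1; have := @psDJ.eq_1; have := @psRamp.eq_1; have := @psFarZ.eq_1; have := @psFar.eq_1; have := @psShell.eq_1
  trivial

section Cut

variable (g : DGrid m₁ m₂) (J : Finset (Fin m₁ × Fin m₂)) (ν : ℕ)

/-! ### helpers of `ps_farZ_*` (helper282) -/

theorem ps_fz_mem (z : ℤ × ℤ) : psDJ g J ν z ∈ ({ν + 1} ∪ {n | ∃ κ ∈ J, n = psDistCell g κ z} : Set ℕ) :=
  Nat.sInf_mem ⟨ν + 1, Or.inl rfl⟩

theorem ps_fz_le {κ : Fin m₁ × Fin m₂} (hκ : κ ∈ J) (z : ℤ × ℤ) : psDJ g J ν z ≤ psDistCell g κ z :=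
  Nat.sInf_le (Or.inr ⟨κ, hκ, rfl⟩)

theorem ps_fz_le_top (z : ℤ × ℤ) : psDJ g J ν z ≤ ν + 1 := Nat.sInf_le (Or.inl rfl)

theorem ps_fz_box_lip (lo hi z z' : ℤ × ℤ) (D : ℕ) (h1 : z.1 ≤ z'.1 + D) (h2 : z'.1 ≤ z.1 + D) (h3 : z.2 ≤ z'.2 + D)
    (h4 : z'.2 ≤ z.2 + D) : psDistBox lo hi z ≤ psDistBox lo hi z' + D := by
  unfold psDistBox
  omega

theorem ps_fz_lip (z z' : ℤ × ℤ) (D : ℕ) (h1 : z.1 ≤ z'.1 + D) (h2 : z'.1 ≤ z.1 + D) (h3 : z.2 ≤ z'.2 + D)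
    (h4 : z'.2 ≤ z.2 + D) : psDJ g J ν z ≤ psDJ g J ν z' + D := by
  rcases ps_fz_mem g J ν z' with h | ⟨κ, hκ, h⟩
  · rw [Set.mem_singleton_iff] at h
    rw [h]
    exact (ps_fz_le_top g J ν z).trans (Nat.le_add_right _ _)
  · rw [h]
    exact (ps_fz_le g J ν hκ z).trans (ps_fz_box_lip _ _ z z' D h1 h2 h3 h4)

theorem ps_fz_far (hg : g.SideGe ν) {κ : Fin m₁ × Fin m₂} (hκ : ∀ κ' ∈ J, ¬ geoAdj κ κ') {z : ℤ × ℤ} (hz : z ∈ g.cell κ) :
    ν ≤ psDJ g J ν z := by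
  rcases ps_fz_mem g J ν z with h | ⟨κ', hκ', h⟩
  · rw [Set.mem_singleton_iff] at h
    omega
  · rw [h]
    by_contra hlt
    have := ps_near_block g hg (not_le.1 hlt) hz le_rfl
    exact hκ κ' hκ' ⟨⟨this.1, this.2.1⟩, this.2.2.1, this.2.2.2⟩

theorem ps_ramp_zero {ν d : ℕ} (h : 3 * d ≤ ν) : psRamp ν d = 0 := by
  unfold psRamp
  have h1 : 3 * (d : ℝ) ≤ ν := by exact_mod_cast h
  have h2 : (3 * (d : ℝ) - ν) / ν ≤ 0 := div_nonpos_of_nonpos_of_nonneg (by linarith) (Nat.cast_nonneg _)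
  exact max_eq_left ((min_le_right _ _).trans h2)

theorem ps_ramp_one {ν d : ℕ} (h1 : 1 ≤ ν) (h : 2 * ν ≤ 3 * d) : psRamp ν d = 1 := by
  unfold psRamp
  have hν : (0 : ℝ) < ν := by exact_mod_cast h1
  have h2 : 2 * (ν : ℝ) ≤ 3 * d := by exact_mod_cast h
  have h3 : 1 ≤ (3 * (d : ℝ) - ν) / ν := by
    rw [le_div_iff₀ hν]
    linarith
  rw [min_eq_left h3, max_eq_right zero_le_one]

theorem ps_ramp_lip {ν : ℕ} (h1 : 1 ≤ ν) (d d' : ℕ) : |psRamp ν d - psRamp ν d'| ≤ 3 / ν * |(d : ℝ) - d'| := by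
  unfold psRamp
  have hν : (0 : ℝ) < ν := by exact_mod_cast h1
  have e : (3 * (d : ℝ) - ν) / ν - (3 * (d' : ℝ) - ν) / ν = 3 / ν * ((d : ℝ) - d') := by
    field_simp
    ring
  calc |max 0 (min 1 ((3 * (d : ℝ) - ν) / ν)) - max 0 (min 1 ((3 * (d' : ℝ) - ν) / ν))|
      ≤ |min 1 ((3 * (d : ℝ) - ν) / ν) - min 1 ((3 * (d' : ℝ) - ν) / ν)| := by
        rw [max_comm 0, max_comm 0]
        exact abs_max_sub_max_le_abs _ _ _
    _ ≤ max |(1 : ℝ) - 1| |(3 * (d : ℝ) - ν) / ν - (3 * (d' : ℝ) - ν) / ν| := abs_min_sub_min_le_max _ _ _ _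
    _ = |(3 * (d : ℝ) - ν) / ν - (3 * (d' : ℝ) - ν) / ν| := by
        rw [sub_self, abs_zero]
        exact max_eq_right (abs_nonneg _)
    _ = 3 / ν * |(d : ℝ) - d'| := by
        rw [e, abs_mul, abs_of_pos (by positivity : (0 : ℝ) < 3 / ν)]

theorem ps_fz_step (h3 : 3 ≤ ν) (hg : g.SideGe ν) {z z' : ℤ × ℤ} (h1 : z.1 ≤ z'.1 + 1) (h2 : z'.1 ≤ z.1 + 1) (h3' : z.2 ≤ z'.2 + 1)
    (h4 : z'.2 ≤ z.2 + 1) (hne : psFarZ g J ν z ≠ psFarZ g J ν z') {κ : Fin m₁ × Fin m₂} (hκ : z ∈ g.cell κ) :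
    κ ∉ J ∧ ∃ κ' ∈ J, geoAdj κ κ' := by
  have l1 := ps_fz_lip g J ν z z' 1 (by omega) (by omega) (by omega) (by omega)
  have l2 := ps_fz_lip g J ν z' z 1 (by omega) (by omega) (by omega) (by omega)
  constructor
  · intro hJ
    have d0 : psDJ g J ν z = 0 :=
      Nat.le_zero.1 ((ps_fz_le g J ν hJ z).trans (le_of_eq ((ps_distCell_eq_zero g).2 hκ)))
    apply hne
    unfold psFarZ
    rw [ps_ramp_zero (by omega), ps_ramp_zero (by omega)]
  · by_contra hc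
    have hc' : ∀ κ' ∈ J, ¬ geoAdj κ κ' := fun κ' h1 h2 => hc ⟨κ', h1, h2⟩
    have dν : ν ≤ psDJ g J ν z := ps_fz_far g J ν hg hc' hκ
    apply hne
    unfold psFarZ
    rw [ps_ramp_one (by omega) (by omega), ps_ramp_one (by omega) (by omega)]

theorem ps_fz_snd (e : Bond) : e.1.1 ≤ e.snd.1 ∧ e.snd.1 ≤ e.1.1 + 1 ∧ e.1.2 ≤ e.snd.2 ∧ e.snd.2 ≤ e.1.2 + 1 := by
  unfold Bond.snd
  split_ifs <;> simp

/-- LEAF L-PS-B1 (~250 l. for the five lemmas `ps_farZ_*`). -/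
theorem ps_farZ_mem (z : ℤ × ℤ) : 0 ≤ psFarZ g J ν z ∧ psFarZ g J ν z ≤ 1 := by
  unfold psFarZ psRamp
  exact ⟨le_max_left _ _, max_le zero_le_one (min_le_left _ _)⟩

/-- `psDistCell g κ z = 0` for `z ∈ g.cell κ` -/
theorem ps_farZ_zero {z : ℤ × ℤ} (hz : z ∈ g.region J) : psFarZ g J ν z = 0 := by
  unfold DGrid.region at hz
  obtain ⟨κ, hκ, hzκ⟩ := Finset.mem_biUnion.1 hz
  have d0 : psDJ g J ν z = 0 :=
    Nat.le_zero.1 ((ps_fz_le g J ν hκ z).trans (le_of_eq ((ps_distCell_eq_zero g).2 hzκ)))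
  unfold psFarZ
  rw [d0]
  exact ps_ramp_zero (by omega)

/-- non adjacent cells are at sup distance `≥ ν + 1` -/
theorem ps_farZ_one (h1 : 1 ≤ ν) (hg : g.SideGe ν) {κ : Fin m₁ × Fin m₂} (hκ : ∀ κ' ∈ J, ¬ geoAdj κ κ') {z : ℤ × ℤ} (hz : z ∈ g.cell κ) :
    psFarZ g J ν z = 1 := by
  have dν : ν ≤ psDJ g J ν z := ps_fz_far g J ν hg hκ hz
  unfold psFarZ
  exact ps_ramp_one h1 (by omega)

/-- `psDistCell g κ` is `1`-Lipschitz for the sup distance, hence `psDJ`; `psRamp ν` has slope `3/ν`. -/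
theorem ps_farZ_lip (h1 : 1 ≤ ν) (z z' : ℤ × ℤ) :
    |psFarZ g J ν z - psFarZ g J ν z'| ≤ 3 / ν * max |((z.1 - z'.1 : ℤ) : ℝ)| |((z.2 - z'.2 : ℤ) : ℝ)| := by
  obtain ⟨D, hD⟩ : ∃ D : ℕ, D = max (z.1 - z'.1).natAbs (z.2 - z'.2).natAbs := ⟨_, rfl⟩
  have l1 := ps_fz_lip g J ν z z' D (by omega) (by omega) (by omega) (by omega)
  have l2 := ps_fz_lip g J ν z' z D (by omega) (by omega) (by omega) (by omega)
  have hDr : (D : ℝ) = max |((z.1 - z'.1 : ℤ) : ℝ)| |((z.2 - z'.2 : ℤ) : ℝ)| := by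
    rw [hD, Nat.cast_max, Nat.cast_natAbs, Nat.cast_natAbs, Int.cast_abs, Int.cast_abs]
  have hd : |((psDJ g J ν z : ℕ) : ℝ) - (psDJ g J ν z' : ℕ)| ≤ D := by
    have a1 : ((psDJ g J ν z : ℕ) : ℝ) ≤ (psDJ g J ν z' : ℕ) + D := by exact_mod_cast l1
    have a2 : ((psDJ g J ν z' : ℕ) : ℝ) ≤ (psDJ g J ν z : ℕ) + D := by exact_mod_cast l2
    rw [abs_le]
    constructor <;> linarith
  rw [← hDr]
  unfold psFarZ
  refine (ps_ramp_lip h1 _ _).trans (mul_le_mul_of_nonneg_left hd (by positivity))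

/-- **the transition stays inside the shell**: `d z = 0 ⇒ d z' ≤ 1 ⇒` both values `0` (`ν ≥ 3`);  `d z ≥ ν ⇒ d z' ≥ ν - 1 ⇒` both values `1`;  so `1 ≤ d z ≤ ν - 1`: `z` lies in no cell of `J` and at distance `< ν` of one of them. -/
theorem ps_farZ_step (h3 : 3 ≤ ν) (hg : g.SideGe ν) (e : Bond) (he : psFarZ g J ν e.1 ≠ psFarZ g J ν e.snd) {κ : Fin m₁ × Fin m₂} {z : ℤ × ℤ}
    (hz : z = e.1 ∨ z = e.snd) (hκ : z ∈ g.cell κ) : κ ∉ J ∧ ∃ κ' ∈ J, geoAdj κ κ' := by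
  obtain ⟨a1, a2, a3, a4⟩ := ps_fz_snd e
  rcases hz with rfl | rfl
  · exact ps_fz_step g J ν h3 hg (by omega) (by omega) (by omega) (by omega) he hκ
  · exact ps_fz_step g J ν h3 hg (by omega) (by omega) (by omega) (by omega) he.symm hκ

end Cut

section Graph

variable (Γ : CGeom m₁ m₂) (g : DGrid m₁ m₂)

/-- LEAF L-PS-B2 (~150 l.): **the gradient part of the cutoff error.**   Edge by edge: `∇χ = 0`, or `(∇χ)² ≤ 9/ν²` (`ps_farZ_lip`) and both ends lie in the sites of the shell (`ps_farZ_step`; every vertex lies in a cell of `Γ.T`), `u u' ≤ (u² + u'²)/2`;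
then `ps_sum_src`, `ps_sum_tgt`, `ps_deg4`. -/
theorem ps_far_grad (J : Finset (Fin m₁ × Fin m₂)) {ν : ℕ} (h3 : 3 ≤ ν) (hg : g.SideGe ν) (u : (Γ.graph g).V → ℝ) :
    ∑ e, u ((Γ.graph g).src e) * u ((Γ.graph g).tgt e) * plGrad (psFar Γ g J ν) e ^ 2
      ≤ 18 / (ν : ℝ) ^ 2 * psMass (Γ.sites g (psShell Γ J)) u := by
  have hν : (0 : ℝ) < ν := by exact_mod_cast (by omega : 0 < ν)
  obtain ⟨m, hm⟩ : ∃ m : (Γ.graph g).V → ℝ, ∀ x, m x = if x ∈ Γ.sites g (psShell Γ J) then u x ^ 2 else 0 :=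
    ⟨_, fun _ => rfl⟩
  have hm0 : ∀ x, 0 ≤ m x := fun x => by
    rw [hm]
    split_ifs <;> positivity
  -- a vertex which sees the transition lies in the shell
  have hshell : ∀ (e : Bond) (x : (Γ.graph g).V), psFarZ g J ν e.1 ≠ psFarZ g J ν e.snd →
      (domPos (D := g.region Γ.T) (cut := Γ.cutB g) x = e.1 ∨ domPos (D := g.region Γ.T) (cut := Γ.cutB g) x = e.snd) →
      x ∈ Γ.sites g (psShell Γ J) := by
    intro e x hne hx
    obtain ⟨κ, hκT, hκ⟩ := ps_pos_cell Γ g x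
    obtain ⟨b1, b2⟩ := ps_farZ_step g J ν h3 hg e hne hx hκ
    show domPos (D := g.region Γ.T) (cut := Γ.cutB g) x ∈ (↑(g.region (psShell Γ J)) : Set (ℤ × ℤ))
    rw [Finset.mem_coe]
    unfold DGrid.region
    exact Finset.mem_biUnion.2 ⟨κ, Finset.mem_filter.2 ⟨hκT, b1, b2⟩, hκ⟩
  have hedge : ∀ e : (Γ.graph g).E, u ((Γ.graph g).src e) * u ((Γ.graph g).tgt e) * plGrad (psFar Γ g J ν) e ^ 2 ≤
      9 / (2 * (ν : ℝ) ^ 2) * (m ((Γ.graph g).src e) + m ((Γ.graph g).tgt e)) := by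
    intro e
    have hgr : plGrad (psFar Γ g J ν) e = psFarZ g J ν (domBond e).snd - psFarZ g J ν (domBond e).1 := rfl
    by_cases h0 : plGrad (psFar Γ g J ν) e = 0
    · rw [h0]
      have := hm0 ((Γ.graph g).src e)
      have := hm0 ((Γ.graph g).tgt e)
      have : 0 ≤ 9 / (2 * (ν : ℝ) ^ 2) * (m ((Γ.graph g).src e) + m ((Γ.graph g).tgt e)) := by positivity
      simpa using this
    · have hne : psFarZ g J ν (domBond e).1 ≠ psFarZ g J ν (domBond e).snd := fun h => h0 (by rw [hgr, h, sub_self])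
      have hs := hshell (domBond e) ((Γ.graph g).src e) hne (Or.inl rfl)
      have ht := hshell (domBond e) ((Γ.graph g).tgt e) hne (Or.inr rfl)
      have hl : plGrad (psFar Γ g J ν) e ^ 2 ≤ 9 / (ν : ℝ) ^ 2 := by
        have h1 := ps_farZ_lip g J ν (by omega) (domBond e).snd (domBond e).1
        obtain ⟨a1, a2, a3, a4⟩ := ps_fz_snd (domBond e)
        have h2 : max |(((domBond e).snd.1 - (domBond e).1.1 : ℤ) : ℝ)| |(((domBond e).snd.2 - (domBond e).1.2 : ℤ) : ℝ)| ≤ 1 := by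
          refine max_le ?_ ?_
          · rw [← Int.cast_abs]
            have : |(domBond e).snd.1 - (domBond e).1.1| ≤ 1 := by rw [abs_le]; constructor <;> omega
            exact_mod_cast this
          · rw [← Int.cast_abs]
            have : |(domBond e).snd.2 - (domBond e).1.2| ≤ 1 := by rw [abs_le]; constructor <;> omega
            exact_mod_cast this
        have h3' : |plGrad (psFar Γ g J ν) e| ≤ 3 / ν := by
          rw [hgr]
          refine h1.trans ?_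
          calc 3 / (ν : ℝ) * max |(((domBond e).snd.1 - (domBond e).1.1 : ℤ) : ℝ)| |(((domBond e).snd.2 - (domBond e).1.2 : ℤ) : ℝ)|
              ≤ 3 / (ν : ℝ) * 1 := mul_le_mul_of_nonneg_left h2 (by positivity)
            _ = 3 / ν := mul_one _
        calc plGrad (psFar Γ g J ν) e ^ 2 = |plGrad (psFar Γ g J ν) e| ^ 2 := (sq_abs _).symm
          _ ≤ (3 / (ν : ℝ)) ^ 2 := pow_le_pow_left₀ (abs_nonneg _) h3' 2
          _ = 9 / (ν : ℝ) ^ 2 := by rw [div_pow]; norm_num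
      rw [hm, hm, if_pos hs, if_pos ht]
      have h5 : u ((Γ.graph g).src e) * u ((Γ.graph g).tgt e) ≤
          (u ((Γ.graph g).src e) ^ 2 + u ((Γ.graph g).tgt e) ^ 2) / 2 := by
        nlinarith [sq_nonneg (u ((Γ.graph g).src e) - u ((Γ.graph g).tgt e))]
      calc u ((Γ.graph g).src e) * u ((Γ.graph g).tgt e) * plGrad (psFar Γ g J ν) e ^ 2
          ≤ (u ((Γ.graph g).src e) ^ 2 + u ((Γ.graph g).tgt e) ^ 2) / 2 * plGrad (psFar Γ g J ν) e ^ 2 :=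
            mul_le_mul_of_nonneg_right h5 (sq_nonneg _)
        _ ≤ (u ((Γ.graph g).src e) ^ 2 + u ((Γ.graph g).tgt e) ^ 2) / 2 * (9 / (ν : ℝ) ^ 2) :=
            mul_le_mul_of_nonneg_left hl (by positivity)
        _ = 9 / (2 * (ν : ℝ) ^ 2) * (u ((Γ.graph g).src e) ^ 2 + u ((Γ.graph g).tgt e) ^ 2) := by
            field_simp
  have hdeg := ps_deg4 (g.region Γ.T) (Γ.cutB g)
  have hsum : ∑ e, (m ((Γ.graph g).src e) + m ((Γ.graph g).tgt e)) ≤ 4 * ∑ x, m x := by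
    rw [Finset.sum_add_distrib, ps_sum_src, ps_sum_tgt, ← Finset.sum_add_distrib, Finset.mul_sum]
    refine Finset.sum_le_sum fun x _ => ?_
    rw [← add_mul]
    refine mul_le_mul_of_nonneg_right ?_ (hm0 x)
    exact_mod_cast hdeg x
  calc ∑ e, u ((Γ.graph g).src e) * u ((Γ.graph g).tgt e) * plGrad (psFar Γ g J ν) e ^ 2
      ≤ ∑ e, 9 / (2 * (ν : ℝ) ^ 2) * (m ((Γ.graph g).src e) + m ((Γ.graph g).tgt e)) :=
        Finset.sum_le_sum fun e _ => hedge e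
    _ = 9 / (2 * (ν : ℝ) ^ 2) * ∑ e, (m ((Γ.graph g).src e) + m ((Γ.graph g).tgt e)) := by rw [Finset.mul_sum]
    _ ≤ 9 / (2 * (ν : ℝ) ^ 2) * (4 * ∑ x, m x) := mul_le_mul_of_nonneg_left hsum (by positivity)
    _ = 18 / (ν : ℝ) ^ 2 * psMass (Γ.sites g (psShell Γ J)) u := by
        unfold psMass
        simp only [hm]
        field_simp
        ring

/-- abstract commutator bound: a row `R`, a cutoff `χ` within `δ` of the constant `c` on the support of the row -/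
theorem ps_comm_le {V : Type} [Fintype V] (R χ u : V → ℝ) (c δ : ℝ) (_hδ : 0 ≤ δ) (h : ∀ x, R x ≠ 0 → |χ x - c| ≤ δ) :
    (∑ x, R x * (χ * u) x) ^ 2 - (∑ x, R x * u x) * ∑ x, R x * (χ * χ * u) x
      ≤ 2 * δ ^ 2 * ((∑ x, R x ^ 2) * ∑ x, if R x ≠ 0 then u x ^ 2 else 0) := by
  set P := ∑ x, |R x| * |u x| with hP
  have hP0 : 0 ≤ P := Finset.sum_nonneg fun x _ => by positivity
  set A := ∑ x, R x * ((χ x - c) * u x) with hA
  set B := ∑ x, R x * u x with hB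
  set D := ∑ x, R x * ((χ x - c) ^ 2 * u x) with hD
  have e1 : ∑ x, R x * (χ * u) x = A + c * B := by
    rw [hA, hB, Finset.mul_sum, ← Finset.sum_add_distrib]
    refine Finset.sum_congr rfl fun x _ => ?_
    simp only [Pi.mul_apply]; ring
  have e2 : ∑ x, R x * (χ * χ * u) x = D + 2 * c * A + c ^ 2 * B := by
    rw [hA, hB, hD, Finset.mul_sum, Finset.mul_sum, ← Finset.sum_add_distrib, ← Finset.sum_add_distrib]
    refine Finset.sum_congr rfl fun x _ => ?_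
    simp only [Pi.mul_apply]; ring
  have bA : |A| ≤ δ * P := by
    rw [hA, hP, Finset.mul_sum]
    refine (Finset.abs_sum_le_sum_abs _ _).trans (Finset.sum_le_sum fun x _ => ?_)
    by_cases hx : R x = 0
    · simp [hx]
    · rw [abs_mul, abs_mul]
      have h1 := h x hx
      have h2 : 0 ≤ |R x| * |u x| := by positivity
      nlinarith
  have bB : |B| ≤ P := by
    rw [hB, hP]
    refine (Finset.abs_sum_le_sum_abs _ _).trans (Finset.sum_le_sum fun x _ => ?_)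
    rw [abs_mul]
  have bD : |D| ≤ δ ^ 2 * P := by
    rw [hD, hP, Finset.mul_sum]
    refine (Finset.abs_sum_le_sum_abs _ _).trans (Finset.sum_le_sum fun x _ => ?_)
    by_cases hx : R x = 0
    · simp [hx]
    · rw [abs_mul, abs_mul, abs_pow]
      have h1 := h x hx
      have h2 : 0 ≤ |R x| * |u x| := by positivity
      have h3 : |χ x - c| ^ 2 ≤ δ ^ 2 := pow_le_pow_left₀ (abs_nonneg _) h1 2
      nlinarith
  have cs : P ^ 2 ≤ (∑ x, R x ^ 2) * ∑ x, if R x ≠ 0 then u x ^ 2 else 0 := by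
    have h0 := Finset.sum_mul_sq_le_sq_mul_sq Finset.univ (fun x => |R x|) (fun x => if R x ≠ 0 then |u x| else 0)
    have a1 : ∑ x, |R x| * (if R x ≠ 0 then |u x| else 0) = P := by
      rw [hP]
      refine Finset.sum_congr rfl fun x _ => ?_
      by_cases hx : R x = 0
      · simp [hx]
      · simp [hx]
    have a2 : ∑ x, |R x| ^ 2 = ∑ x, R x ^ 2 := Finset.sum_congr rfl fun x _ => sq_abs _
    have a3 : ∑ x, (if R x ≠ 0 then |u x| else 0) ^ 2 = ∑ x, if R x ≠ 0 then u x ^ 2 else 0 := by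
      refine Finset.sum_congr rfl fun x _ => ?_
      by_cases hx : R x = 0
      · simp [hx]
      · simp [hx]
    rw [a1, a2, a3] at h0
    exact h0
  rw [e1, e2]
  have t1 : (A + c * B) ^ 2 - B * (D + 2 * c * A + c ^ 2 * B) = A ^ 2 - B * D := by ring
  rw [t1]
  have t2 : A ^ 2 ≤ δ ^ 2 * P ^ 2 := by
    have := pow_le_pow_left₀ (abs_nonneg A) bA 2
    rw [sq_abs] at this
    nlinarith
  have t3 : -(B * D) ≤ δ ^ 2 * P ^ 2 := by
    have a1 : -(B * D) ≤ |B| * |D| := by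
      rw [← abs_mul]; exact neg_le_abs _
    have a2 : |B| * |D| ≤ P * (δ ^ 2 * P) := mul_le_mul bB bD (abs_nonneg _) hP0
    nlinarith
  have t4 : 0 ≤ δ ^ 2 := sq_nonneg _
  nlinarith [mul_le_mul_of_nonneg_left cs t4]

/-- the squared norm of a soft row -/
theorem ps_soft_sq_le {ι : Type} (b : ι → PsBox) (w : ι → ℝ) (i : ι) (hn : 0 < (b i).set.card) :
    ∑ x, psSoft Γ g b w i x ^ 2 ≤ w i ^ 2 / (b i).set.card := by
  have a1 : ∑ x, psSoft Γ g b w i x ^ 2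
      = ∑ x : (domG (g.region Γ.T) (Γ.cutB g)).V, (fun z => (w i * psAvg (b i).set z) ^ 2) (domPos x) := rfl
  rw [a1, ps_sum_V (D := g.region Γ.T) (cut := Γ.cutB g) (fun z => (w i * psAvg (b i).set z) ^ 2)]
  have hn' : (0 : ℝ) < (b i).set.card := by exact_mod_cast hn
  have a2 : ∀ z ∈ g.region Γ.T, (w i * psAvg (b i).set z) ^ 2 = if z ∈ (b i).set then w i ^ 2 * (((b i).set.card : ℝ)⁻¹) ^ 2 else 0 := by
    intro z _
    by_cases hz : z ∈ (b i).set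
    · simp only [psAvg, if_pos hz]; ring
    · simp only [psAvg, if_neg hz]; ring
  rw [Finset.sum_congr rfl a2, ← Finset.sum_filter, Finset.sum_const, nsmul_eq_mul]
  have a3 : (((g.region Γ.T).filter fun z => z ∈ (b i).set).card : ℝ) ≤ (b i).set.card := by
    have : ((g.region Γ.T).filter fun z => z ∈ (b i).set) ⊆ (b i).set := fun z hz => (Finset.mem_filter.1 hz).2
    exact_mod_cast Finset.card_le_card this
  have a4 : 0 ≤ w i ^ 2 * (((b i).set.card : ℝ)⁻¹) ^ 2 := by positivity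
  calc _ ≤ ((b i).set.card : ℝ) * (w i ^ 2 * (((b i).set.card : ℝ)⁻¹) ^ 2) := mul_le_mul_of_nonneg_right a3 a4
    _ = w i ^ 2 / (b i).set.card := by field_simp

/-- LEAF L-PS-B3 (~250 l.): **commutators of the local rows.**   The box `b i` lies in a cell `κ ∈ S`.  `κ ∈ J` or `κ` not adjacent to `J`: `χ` is constant on the box (`ps_farZ_zero`, `ps_farZ_one`, `ps_comm_const`).
Otherwise `κ ∈ S ∩ psShell Γ J`; `c` = value of `χ` at a point of the box, `|χ - c| ≤ 3 s/ν` on the box (`ps_farZ_lip`);  `(R(χu))² - (Ru)(R(χ²u)) = (R((χ-c)u))² - (Ru)(R((χ-c)²u))` (algebra, cf. `pd_row_cacc`)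
`≤ 2 w² (3s/ν)² avg(u²)` (Cauchy-Schwarz / Jensen for the average) `≤ 18 Λ s²/ν⁴ ∑_{b i} u²`;  the boxes are disjoint. -/
theorem ps_far_soft (J S : Finset (Fin m₁ × Fin m₂)) (hS : S ⊆ Γ.T) {ν : ℕ} (h1 : 1 ≤ ν) (hg : g.SideGe ν) {ι : Type} [Fintype ι] (b : ι → PsBox) (w : ι → ℝ)
    (s : ℕ) (hb : psIsPart g S s b) {Lam : ℝ} (hw : ∀ i, w i ^ 2 * (ν : ℝ) ^ 2 ≤ Lam * (b i).set.card) (u : (Γ.graph g).V → ℝ) :
    ∑ i, ((∑ x, psSoft Γ g b w i x * (psFar Γ g J ν * u) x) ^ 2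
        - (∑ x, psSoft Γ g b w i x * u x) * ∑ x, psSoft Γ g b w i x * (psFar Γ g J ν * psFar Γ g J ν * u) x)
      ≤ 18 * Lam * (s : ℝ) ^ 2 / (ν : ℝ) ^ 4 * psMass (Γ.sites g (S ∩ psShell Γ J)) u := by
  obtain ⟨hb1, hb2, hb3, hb4⟩ := hb
  have hν : (0 : ℝ) < ν := by exact_mod_cast h1
  set Y := Γ.sites g (S ∩ psShell Γ J) with hY
  set C := 18 * Lam * (s : ℝ) ^ 2 / (ν : ℝ) ^ 4 with hC
  have hmemY : ∀ x : (Γ.graph g).V, x ∈ Y ↔ domPos (D := g.region Γ.T) (cut := Γ.cutB g) x ∈ g.region (S ∩ psShell Γ J) := by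
    intro x
    show domPos (D := g.region Γ.T) (cut := Γ.cutB g) x ∈ (↑(g.region (S ∩ psShell Γ J)) : Set (ℤ × ℤ)) ↔ _
    rw [Finset.mem_coe]
  -- the mass as a sum over the boxes
  have hmass : psMass Y u
      = ∑ i, ∑ x, if domPos (D := g.region Γ.T) (cut := Γ.cutB g) x ∈ (b i).set ∧ x ∈ Y then u x ^ 2 else 0 := by
    rw [Finset.sum_comm]
    unfold psMass
    refine Finset.sum_congr rfl fun x _ => ?_
    by_cases hx : x ∈ Y
    · rw [if_pos hx]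
      have hx' := (hmemY x).1 hx
      have hxS : domPos (D := g.region Γ.T) (cut := Γ.cutB g) x ∈ g.region S :=
        Finset.biUnion_subset_biUnion_of_subset_left _ Finset.inter_subset_left hx'
      obtain ⟨i0, hi0⟩ := hb4 _ hxS
      rw [Finset.sum_eq_single i0]
      · rw [if_pos ⟨hi0, hx⟩]
      · intro j _ hj
        rw [if_neg]
        rintro ⟨hj', _⟩
        exact Finset.disjoint_left.1 (hb3 j i0 hj) hj' hi0
      · intro h; exact absurd (Finset.mem_univ _) h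
    · rw [if_neg hx]
      symm
      apply Finset.sum_eq_zero
      intro i _
      rw [if_neg]
      exact fun h => hx h.2
  rw [hmass, Finset.mul_sum]
  refine Finset.sum_le_sum fun i _ => ?_
  obtain ⟨κ, hκS, hκ⟩ := hb1 i
  obtain ⟨hp0, hps, hq0, hqs⟩ := hb2 i
  have hcard : 0 < (b i).set.card := by
    apply Finset.card_pos.2
    refine ⟨(b i).o, ?_⟩
    unfold PsBox.set
    rw [Finset.mem_product, Finset.mem_Ico, Finset.mem_Ico]
    refine ⟨⟨le_rfl, ?_⟩, ⟨le_rfl, ?_⟩⟩ <;> omega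
  have hcardR : (0 : ℝ) < (b i).set.card := by exact_mod_cast hcard
  have hLam : 0 ≤ Lam := by
    have h0 : 0 ≤ w i ^ 2 * (ν : ℝ) ^ 2 := by positivity
    have h2 := h0.trans (hw i)
    by_contra hcon
    push Not at hcon
    nlinarith
  have hC0 : 0 ≤ C := by rw [hC]; positivity
  have hM0 : 0 ≤ ∑ x, if domPos (D := g.region Γ.T) (cut := Γ.cutB g) x ∈ (b i).set ∧ x ∈ Y then u x ^ 2 else 0 :=
    Finset.sum_nonneg fun x _ => by split_ifs <;> positivity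
  have hsupp : ∀ x, psSoft Γ g b w i x ≠ 0 → domPos (D := g.region Γ.T) (cut := Γ.cutB g) x ∈ (b i).set := by
    intro x hx
    by_contra hcon
    apply hx
    simp only [psSoft, psAvg, if_neg hcon, mul_zero]
  -- constant cutoff
  have hconst : ∀ c : ℝ, (∀ z ∈ g.cell κ, psFarZ g J ν z = c) →
      (∑ x, psSoft Γ g b w i x * (psFar Γ g J ν * u) x) ^ 2
        - (∑ x, psSoft Γ g b w i x * u x) * ∑ x, psSoft Γ g b w i x * (psFar Γ g J ν * psFar Γ g J ν * u) x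
      ≤ C * ∑ x, if domPos (D := g.region Γ.T) (cut := Γ.cutB g) x ∈ (b i).set ∧ x ∈ Y then u x ^ 2 else 0 := by
    intro c hc
    have := ps_comm_le (psSoft Γ g b w i) (psFar Γ g J ν) u c 0 le_rfl (by
      intro x hx
      have : psFar Γ g J ν x = c := hc _ (hκ (hsupp x hx))
      rw [this]; simp)
    have h0 : 0 ≤ C * ∑ x, if domPos (D := g.region Γ.T) (cut := Γ.cutB g) x ∈ (b i).set ∧ x ∈ Y then u x ^ 2 else 0 :=
      mul_nonneg hC0 hM0
    refine this.trans ?_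
    simpa using h0
  by_cases hJ : κ ∈ J
  · refine hconst 0 fun z hz => ps_farZ_zero g J ν ?_
    exact Finset.mem_biUnion.2 ⟨κ, hJ, hz⟩
  by_cases hadj : ∃ κ' ∈ J, geoAdj κ κ'
  swap
  · push Not at hadj
    exact hconst 1 fun z hz => ps_farZ_one g J ν h1 hg hadj hz
  -- the shell
  have hκY : κ ∈ S ∩ psShell Γ J :=
    Finset.mem_inter.2 ⟨hκS, Finset.mem_filter.2 ⟨hS hκS, hJ, hadj⟩⟩
  have hδ : (0 : ℝ) ≤ 3 / ν * s := by positivity
  have key := ps_comm_le (psSoft Γ g b w i) (psFar Γ g J ν) u (psFarZ g J ν (b i).o) (3 / ν * s) hδ (by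
    intro x hx
    have hz := hsupp x hx
    have hl := ps_farZ_lip g J ν h1 (domPos (D := g.region Γ.T) (cut := Γ.cutB g) x) (b i).o
    refine hl.trans ?_
    apply mul_le_mul_of_nonneg_left _ (by positivity)
    unfold PsBox.set at hz
    rw [Finset.mem_product, Finset.mem_Ico, Finset.mem_Ico] at hz
    obtain ⟨⟨z1, z2⟩, ⟨z3, z4⟩⟩ := hz
    apply max_le
    · rw [← Int.cast_abs]
      have : |(domPos (D := g.region Γ.T) (cut := Γ.cutB g) x).1 - (b i).o.1| ≤ (s : ℤ) := by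
        rw [abs_le]; constructor <;> omega
      exact_mod_cast this
    · rw [← Int.cast_abs]
      have : |(domPos (D := g.region Γ.T) (cut := Γ.cutB g) x).2 - (b i).o.2| ≤ (s : ℤ) := by
        rw [abs_le]; constructor <;> omega
      exact_mod_cast this)
  refine key.trans ?_
  have k1 := ps_soft_sq_le Γ g b w i hcard
  have k2 : w i ^ 2 / (b i).set.card ≤ Lam / (ν : ℝ) ^ 2 := by
    rw [div_le_div_iff₀ hcardR (by positivity)]
    exact hw i
  have k3 : ∑ x, (if psSoft Γ g b w i x ≠ 0 then u x ^ 2 else 0)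
      ≤ ∑ x, if domPos (D := g.region Γ.T) (cut := Γ.cutB g) x ∈ (b i).set ∧ x ∈ Y then u x ^ 2 else 0 := by
    refine Finset.sum_le_sum fun x _ => ?_
    by_cases hx : psSoft Γ g b w i x ≠ 0
    · have hz := hsupp x hx
      have hxY : x ∈ Y := (hmemY x).2 (Finset.mem_biUnion.2 ⟨κ, hκY, hκ hz⟩)
      rw [if_pos hx, if_pos ⟨hz, hxY⟩]
    · rw [if_neg hx]; split_ifs <;> positivity
  have k4 : 0 ≤ ∑ x, (if psSoft Γ g b w i x ≠ 0 then u x ^ 2 else 0) :=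
    Finset.sum_nonneg fun x _ => by split_ifs <;> positivity
  have k5 : (∑ x, psSoft Γ g b w i x ^ 2) * ∑ x, (if psSoft Γ g b w i x ≠ 0 then u x ^ 2 else 0)
      ≤ Lam / (ν : ℝ) ^ 2 * ∑ x, if domPos (D := g.region Γ.T) (cut := Γ.cutB g) x ∈ (b i).set ∧ x ∈ Y then u x ^ 2 else 0 :=
    mul_le_mul (k1.trans k2) k3 k4 (by positivity)
  have k6 : (0 : ℝ) ≤ 2 * (3 / ν * s) ^ 2 := by positivity
  refine (mul_le_mul_of_nonneg_left k5 k6).trans (le_of_eq ?_)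
  rw [hC]
  field_simp
  ring

/-- the cutoff error of `psFar` (from `ps_cutErr_add'`, `ps_far_grad`, `ps_far_soft`).   LEAF L-PS-B4 (~60 l.). -/
theorem ps_far_cutErr (J S : Finset (Fin m₁ × Fin m₂)) (hS : S ⊆ Γ.T) {ν : ℕ} (h3 : 3 ≤ ν) (hg : g.SideGe ν) (H : HLaw (Γ.graph g)) {a : ℝ} (ha : 0 < a)
    {ι : Type} [Fintype ι] (b : ι → PsBox) (w : ι → ℝ) (s : ℕ) (hb : psIsPart g S s b) {Lam : ℝ}
    (hw : ∀ i, w i ^ 2 * (ν : ℝ) ^ 2 ≤ Lam * (b i).set.card) (u : (Γ.graph g).V → ℝ) :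
    psCutErr (psAdd H (psSoft Γ g b w)) a (psFar Γ g J ν) u
      ≤ a⁻¹ * (18 / (ν : ℝ) ^ 2 * psMass (Γ.sites g (psShell Γ J)) u)
        + 18 * Lam * (s : ℝ) ^ 2 / (ν : ℝ) ^ 4 * psMass (Γ.sites g (S ∩ psShell Γ J)) u
        + ∑ o, (H.obs (psFar Γ g J ν * u) o ^ 2 - H.obs u o * H.obs (psFar Γ g J ν * psFar Γ g J ν * u) o) := by
  rw [ps_cutErr_add', psCutErr]
  have h1 := ps_far_grad Γ g J h3 hg u
  have h2 := ps_far_soft Γ g J S hS (by omega : 1 ≤ ν) hg b w s hb hw u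
  have h3' := mul_le_mul_of_nonneg_left h1 (inv_pos.2 ha).le
  linarith

/-- the mass on a softly pinned region is controlled by the form (`ps_soft_mass`, `ps_add_form`, `λ |b_i| ≤ w_i² ν²`, `a⁻¹ en ≤ form`).   LEAF L-PS-B5 (~100 l.). -/
theorem ps_soft_mass_form (S : Finset (Fin m₁ × Fin m₂)) (hS : S ⊆ Γ.T) {ν : ℕ} (h1 : 1 ≤ ν) (H : HLaw (Γ.graph g)) {a : ℝ} (ha : 0 < a)
    {ι : Type} [Fintype ι] (b : ι → PsBox) (w : ι → ℝ) (s : ℕ) (hb : psIsPart g S s b) {lam : ℝ} (hl : 0 < lam)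
    (hw : ∀ i, lam * (b i).set.card ≤ w i ^ 2 * (ν : ℝ) ^ 2) (u : (Γ.graph g).V → ℝ) :
    psMass (Γ.sites g S) u ≤ (2 / lam + 2 * a * (s : ℝ) ^ 2 / (ν : ℝ) ^ 2) * (ν : ℝ) ^ 2 * (psAdd H (psSoft Γ g b w)).form a u := by
  have hν : (0 : ℝ) < ν := by exact_mod_cast (by omega : 0 < ν)
  have h0 := ps_soft_mass Γ g S hS s b hb u
  have hen : HLaw.en u 0 ≤ a * H.form a u := by
    have h0 : 0 ≤ ∑ o, H.obs u o ^ 2 := Finset.sum_nonneg fun o _ => sq_nonneg _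
    have e : a * H.form a u = HLaw.en u 0 + a * ∑ o, H.obs u o ^ 2 := by
      rw [HLaw.form]
      field_simp
    rw [e]
    have := mul_nonneg ha.le h0
    linarith
  have hen0 := ps_en_nonneg u
  have hF0 : 0 ≤ H.form a u := by
    by_contra hneg
    push Not at hneg
    have := mul_neg_of_pos_of_neg ha hneg
    linarith
  rw [ps_add_form]
  have hrow : ∀ i, ((b i).set.card : ℝ) * (∑ x, psSoft Γ g b (fun _ => 1) i x * u x) ^ 2
      ≤ (ν : ℝ) ^ 2 / lam * (∑ x, psSoft Γ g b w i x * u x) ^ 2 := by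
    intro i
    have e : ∑ x, psSoft Γ g b w i x * u x = w i * ∑ x, psSoft Γ g b (fun _ => 1) i x * u x := by
      rw [Finset.mul_sum]
      refine Finset.sum_congr rfl fun x _ => ?_
      simp only [psSoft]
      ring
    rw [e, mul_pow]
    have hA := sq_nonneg (∑ x, psSoft Γ g b (fun _ => 1) i x * u x)
    have h2 : ((b i).set.card : ℝ) ≤ (ν : ℝ) ^ 2 / lam * w i ^ 2 := by
      rw [div_mul_eq_mul_div, le_div_iff₀ hl]
      have := hw i
      linarith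
    calc _ ≤ ((ν : ℝ) ^ 2 / lam * w i ^ 2) * (∑ x, psSoft Γ g b (fun _ => 1) i x * u x) ^ 2 := mul_le_mul_of_nonneg_right h2 hA
      _ = _ := by ring
  have hsum : ∑ i, ((b i).set.card : ℝ) * (∑ x, psSoft Γ g b (fun _ => 1) i x * u x) ^ 2
      ≤ (ν : ℝ) ^ 2 / lam * ∑ i, (∑ x, psSoft Γ g b w i x * u x) ^ 2 := by
    rw [Finset.mul_sum]
    exact Finset.sum_le_sum fun i _ => hrow i
  have hR0 : 0 ≤ ∑ i, (∑ x, psSoft Γ g b w i x * u x) ^ 2 := Finset.sum_nonneg fun i _ => sq_nonneg _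
  have e2 : (2 / lam + 2 * a * (s : ℝ) ^ 2 / (ν : ℝ) ^ 2) * (ν : ℝ) ^ 2 = 2 * ((ν : ℝ) ^ 2 / lam) + 2 * (s : ℝ) ^ 2 * a := by
    field_simp
  rw [e2]
  have hs0 : 0 ≤ 2 * (s : ℝ) ^ 2 := by positivity
  have hc0 : 0 ≤ (ν : ℝ) ^ 2 / lam := by positivity
  have h5 := mul_le_mul_of_nonneg_left hen hs0
  have h6 : 0 ≤ 2 * ((ν : ℝ) ^ 2 / lam) * H.form a u := by positivity
  have h7 : 0 ≤ 2 * (s : ℝ) ^ 2 * a * ∑ i, (∑ x, psSoft Γ g b w i x * u x) ^ 2 := by positivity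
  unfold psMass
  nlinarith

/-! ## 2. the band -/

/-- the shell of the inner layer lies in the band -/
theorem ps_lay_shell {In Kb Out : Finset (Fin m₁ × Fin m₂)} (hL : PsLay Γ In Kb Out) : psShell Γ In ⊆ Kb := by
  intro κ hκ
  obtain ⟨hT, hn, κ', hκ', hadj⟩ := Finset.mem_filter.1 hκ
  have := hL.cover hT
  simp only [Finset.mem_union] at this
  rcases this with (h | h) | h
  · exact absurd h hn
  · exact h
  · exact absurd (geo_adj_symm hadj) (hL.sep κ' hκ' κ h)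

theorem ps_sites_mono {A B : Finset (Fin m₁ × Fin m₂)} (h : A ⊆ B) : Γ.sites g A ⊆ Γ.sites g B := by
  intro x hx
  have hx' : domPos (D := g.region Γ.T) (cut := Γ.cutB g) x ∈ (↑(g.region A) : Set (ℤ × ℤ)) := hx
  show domPos (D := g.region Γ.T) (cut := Γ.cutB g) x ∈ (↑(g.region B) : Set (ℤ × ℤ))
  rw [Finset.mem_coe] at hx' ⊢
  exact Finset.biUnion_subset_biUnion_of_subset_left _ h hx'

/-- LEAF L-PS-B6 (~120 l. for the two lemmas): **the cutoff across the band**, in terms of the mass on the band.   `ps_far_cutErr` with `J = In`, `S = Kb`; the coarse rows have no commutator (`ps_comm_const`: `χ = 0` on `In`,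
`χ = 1` on `Out` by `ps_farZ_one`, `hL.sep`, `geo_adj_symm`);  `ps_lay_shell`, `ps_mass_mono`. -/
theorem ps_band_cut_mass {In Kb Out : Finset (Fin m₁ × Fin m₂)} (hL : PsLay Γ In Kb Out) {ν : ℕ} (h3 : 3 ≤ ν) (hg : g.SideGe ν) (H : HLaw (Γ.graph g))
    (hH : ∀ o, (∀ x, H.B o x ≠ 0 → x ∈ Γ.sites g In) ∨ ∀ x, H.B o x ≠ 0 → x ∈ Γ.sites g Out) {a : ℝ} (ha : 0 < a)
    {ι : Type} [Fintype ι] (b : ι → PsBox) (w : ι → ℝ) (s : ℕ) (hb : psIsPart g Kb s b) {Lam : ℝ} (hL0 : 0 ≤ Lam)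
    (hw : ∀ i, w i ^ 2 * (ν : ℝ) ^ 2 ≤ Lam * (b i).set.card) (v : (Γ.graph g).V → ℝ) :
    psCutErr (psAdd H (psSoft Γ g b w)) a (psFar Γ g In ν) v
      ≤ (18 / a + 18 * Lam * (s : ℝ) ^ 2 / (ν : ℝ) ^ 2) / (ν : ℝ) ^ 2 * psMass (Γ.sites g Kb) v := by
  have hν : (0 : ℝ) < ν := by exact_mod_cast (by omega : 0 < ν)
  have h0 := ps_far_cutErr Γ g In Kb hL.band h3 hg H ha b w s hb hw v
  have hcomm : ∑ o, (H.obs (psFar Γ g In ν * v) o ^ 2 - H.obs v o * H.obs (psFar Γ g In ν * psFar Γ g In ν * v) o) = 0 := by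
    refine Finset.sum_eq_zero fun o _ => ?_
    rcases hH o with h | h
    · refine ps_comm_const (H.B o) (psFar Γ g In ν) v 0 fun x hx => ?_
      have hx' : domPos (D := g.region Γ.T) (cut := Γ.cutB g) x ∈ (↑(g.region In) : Set (ℤ × ℤ)) := h x hx
      exact ps_farZ_zero g In ν (Finset.mem_coe.1 hx')
    · refine ps_comm_const (H.B o) (psFar Γ g In ν) v 1 fun x hx => ?_
      have hx' : domPos (D := g.region Γ.T) (cut := Γ.cutB g) x ∈ (↑(g.region Out) : Set (ℤ × ℤ)) := h x hx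
      obtain ⟨κ, hκ, hz⟩ := Finset.mem_biUnion.1 (Finset.mem_coe.1 hx')
      exact ps_farZ_one g In ν (by omega) hg (fun κ' hκ' hadj => hL.sep κ' hκ' κ hκ (geo_adj_symm hadj)) hz
  rw [hcomm, add_zero] at h0
  have m1 : psMass (Γ.sites g (psShell Γ In)) v ≤ psMass (Γ.sites g Kb) v := ps_mass_mono (ps_sites_mono Γ g (ps_lay_shell Γ hL)) v
  have m2 : psMass (Γ.sites g (Kb ∩ psShell Γ In)) v ≤ psMass (Γ.sites g Kb) v := ps_mass_mono (ps_sites_mono Γ g Finset.inter_subset_left) v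
  have c1 : 0 ≤ a⁻¹ * (18 / (ν : ℝ) ^ 2) := by positivity
  have c2 : 0 ≤ 18 * Lam * (s : ℝ) ^ 2 / (ν : ℝ) ^ 4 := by positivity
  have k1 := mul_le_mul_of_nonneg_left m1 c1
  have k2 := mul_le_mul_of_nonneg_left m2 c2
  have e : (18 / a + 18 * Lam * (s : ℝ) ^ 2 / (ν : ℝ) ^ 2) / (ν : ℝ) ^ 2 = a⁻¹ * (18 / (ν : ℝ) ^ 2) + 18 * Lam * (s : ℝ) ^ 2 / (ν : ℝ) ^ 4 := by
    field_simp
  rw [e, add_mul]
  calc _ ≤ _ := h0
    _ = a⁻¹ * (18 / (ν : ℝ) ^ 2) * psMass (Γ.sites g (psShell Γ In)) v + 18 * Lam * (s : ℝ) ^ 2 / (ν : ℝ) ^ 4 * psMass (Γ.sites g (Kb ∩ psShell Γ In)) v := by ring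
    _ ≤ _ := add_le_add k1 k2

/-- **the cutoff across the band costs little, for every field** (`ps_band_cut_mass`, `ps_soft_mass_form`). -/
theorem ps_band_cut {In Kb Out : Finset (Fin m₁ × Fin m₂)} (hL : PsLay Γ In Kb Out) {ν : ℕ} (h3 : 3 ≤ ν) (hg : g.SideGe ν) (H : HLaw (Γ.graph g))
    (hH : ∀ o, (∀ x, H.B o x ≠ 0 → x ∈ Γ.sites g In) ∨ ∀ x, H.B o x ≠ 0 → x ∈ Γ.sites g Out) {a : ℝ} (ha : 0 < a)
    {ι : Type} [Fintype ι] (b : ι → PsBox) (w : ι → ℝ) (s : ℕ) (hb : psIsPart g Kb s b) {lam Lam : ℝ} (hl : 0 < lam) (hL0 : 0 ≤ Lam)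
    (hw : ∀ i, lam * (b i).set.card ≤ w i ^ 2 * (ν : ℝ) ^ 2 ∧ w i ^ 2 * (ν : ℝ) ^ 2 ≤ Lam * (b i).set.card) (v : (Γ.graph g).V → ℝ) :
    psCutErr (psAdd H (psSoft Γ g b w)) a (psFar Γ g In ν) v
      ≤ (18 / a + 18 * Lam * (s : ℝ) ^ 2 / (ν : ℝ) ^ 2) * (2 / lam + 2 * a * (s : ℝ) ^ 2 / (ν : ℝ) ^ 2) * (psAdd H (psSoft Γ g b w)).form a v := by
  have hν : (0 : ℝ) < ν := by exact_mod_cast (by omega : 0 < ν)
  have h1 := ps_band_cut_mass Γ g hL h3 hg H hH ha b w s hb hL0 (fun i => (hw i).2) v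
  have h2 := ps_soft_mass_form Γ g Kb hL.band (by omega : 1 ≤ ν) H ha b w s hb hl (fun i => (hw i).1) v
  have c1 : 0 ≤ (18 / a + 18 * Lam * (s : ℝ) ^ 2 / (ν : ℝ) ^ 2) / (ν : ℝ) ^ 2 := by positivity
  calc _ ≤ _ := h1
    _ ≤ _ := mul_le_mul_of_nonneg_left h2 c1
    _ = _ := by field_simp

/-- one half of POT-D, any graph -/
theorem ps_bc_half {G : HGraph} (H : HLaw G) {a : ℝ} (ha : 0 < a) (P : Set G.V) (χ : G.V → ℝ) {c : ℝ}
    (hc : ∀ v, psCutErr H a χ v ≤ c * H.form a v) {f f' : G.V → ℝ} (hf : plAdm (plPin H P) f) (hf' : plAdm (plPin H P) f')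
    (h0 : ∀ x, f x ≠ 0 → χ x = 0) (h1 : ∀ x, f' x ≠ 0 → χ x = 1) :
    (plPin H P).gVar a (f + f') - (plPin H P).gVar a (f - f') ≤ 4 * c * (plPin H P).gVar a (f + f') := by
  obtain ⟨v, hv⟩ := pl_opt_exists (plPin H P) ha (pl_adm_add _ hf hf')
  obtain ⟨ψ, hψ⟩ : ∃ ψ : G.V → ℝ, ψ = fun x => 2 * χ x + (-1) := ⟨_, rfl⟩
  have hv0 := (pl_mem_rspan_pin H P v).1 hv.1
  have hm1 : ψ * v ∈ (plPin H P).rspan := by
    rw [pl_mem_rspan_pin]
    intro x hx
    rw [Pi.mul_apply, hv0 x hx, mul_zero]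
  have hm2 : ψ * ψ * v ∈ (plPin H P).rspan := by
    rw [pl_mem_rspan_pin]
    intro x hx
    rw [Pi.mul_apply, hv0 x hx, mul_zero]
  have hfψ : ∀ x, f x * ψ x = - f x := fun x => by
    by_cases hx : f x = 0
    · rw [hx]; ring
    · rw [hψ]
      show f x * (2 * χ x + (-1)) = _
      rw [h0 x hx]; ring
  have hfψ' : ∀ x, f' x * ψ x = f' x := fun x => by
    by_cases hx : f' x = 0
    · rw [hx]; ring
    · rw [hψ]
      show f' x * (2 * χ x + (-1)) = _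
      rw [h1 x hx]; ring
  have e1 : HLaw.pair (f' - f) (ψ * v) = HLaw.pair (f + f') v := by
    unfold HLaw.pair
    refine Finset.sum_congr rfl fun x _ => ?_
    simp only [Pi.sub_apply, Pi.add_apply, Pi.mul_apply]
    linear_combination v x * hfψ' x - v x * hfψ x
  have e2 : HLaw.pair (f + f') (ψ * ψ * v) = HLaw.pair (f + f') v := by
    unfold HLaw.pair
    refine Finset.sum_congr rfl fun x _ => ?_
    simp only [Pi.add_apply, Pi.mul_apply]
    linear_combination (ψ x * v x - v x) * hfψ x + (ψ x * v x + v x) * hfψ' x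
  have k1 := pl_le_gVar (plPin H P) ha (pl_adm_sub _ hf' hf) hm1
  have k2 : (plPin H P).form a (ψ * v) = plB H a v (ψ * ψ * v) + psCutErr H a ψ v := ps_form_cut H a ψ v
  have k3 : plB H a v (ψ * ψ * v) = HLaw.pair (f + f') (ψ * ψ * v) := hv.2 _ hm2
  have k4 : psCutErr H a ψ v = 2 ^ 2 * psCutErr H a χ v := by
    rw [hψ]
    exact ps_cutErr_affine H a 2 (-1) χ v
  have k5 := pl_gVar_eq_pair (plPin H P) ha hv
  have k6 : (plPin H P).gVar a (f + f') = H.form a v := pl_gVar_eq_form (plPin H P) ha hv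
  have k7 : (plPin H P).gVar a (f' - f) = (plPin H P).gVar a (f - f') := by
    rw [← pl_gVar_neg (plPin H P) ha (f - f'), neg_sub]
  have k8 := hc v
  rw [e1, k2, k3, e2, k4, k7, ← k5] at k1
  rw [← k6] at k8
  linarith

/-- POT-D, any graph -/
theorem ps_bc_cov {G : HGraph} (H : HLaw G) {a : ℝ} (ha : 0 < a) (P : Set G.V) (χ : G.V → ℝ) {c : ℝ} (hc0 : 0 ≤ c)
    (hc : ∀ v, psCutErr H a χ v ≤ c * H.form a v) {f f' : G.V → ℝ} (hf : plAdm (plPin H P) f) (hf' : plAdm (plPin H P) f')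
    (h0 : ∀ x, f x ≠ 0 → χ x = 0) (h1 : ∀ x, f' x ≠ 0 → χ x = 1) :
    |plCov (plPin H P) a f f'| ≤ 2 * c * ((plPin H P).gVar a f + (plPin H P).gVar a f') := by
  have k1 := ps_bc_half H ha P χ hc hf hf' h0 h1
  have k2 := ps_bc_half H ha P χ hc hf (pl_adm_neg _ hf') h0 (fun x hx => h1 x fun h => hx (by rw [Pi.neg_apply, h, neg_zero]))
  rw [← sub_eq_add_neg, sub_neg_eq_add] at k2
  have k3 := pl_gVar_parallelogram (plPin H P) ha hf hf'
  have k4 := pl_gVar_nonneg (plPin H P) ha (f + f')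
  have k5 := pl_gVar_nonneg (plPin H P) ha (f - f')
  have k6 : c * (plPin H P).gVar a (f + f') ≤ c * (2 * (plPin H P).gVar a f + 2 * (plPin H P).gVar a f') :=
    mul_le_mul_of_nonneg_left (by linarith) hc0
  have k7 : c * (plPin H P).gVar a (f - f') ≤ c * (2 * (plPin H P).gVar a f + 2 * (plPin H P).gVar a f') :=
    mul_le_mul_of_nonneg_left (by linarith) hc0
  unfold plCov
  rw [abs_le]
  constructor <;> linarith

/-- LEAF L-PS-B7 (~150 l.): **POT-D, cross covariance through the band** (variational).   `H' = psAdd H (psSoft ..)`, `ψ = 2 χ - 1` (`-1` on `In`, `+1` on `Out`), `v` = optimiser of `f + g'` (`g' = ± g`) under the pins `P`: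
`gVar (g' - f) ≥ 2 ⟨g' - f, ψ v⟩ - form (ψ v) = 2 ⟨f + g', v⟩ - form (ψ v)` (`ψ v` vanishes on `P`), `form (ψ v) = B(v, ψ² v) + psCutErr ψ v = ⟨f + g', v⟩ + 4 psCutErr χ v` (`ps_form_cut`, `ps_cutErr_affine`, `ψ² = 1` on the supports),
so `gVar (f + g') - gVar (g' - f) ≤ 4 psCutErr χ v ≤ 4 c form v = 4 c gVar (f + g')`, `gVar (f + g') ≤ 2 gVar f + 2 gVar g` (parallelogram law), `gVar (g' - f) = gVar (f - g')`. -/
theorem ps_band_cov {In Kb Out : Finset (Fin m₁ × Fin m₂)} (hL : PsLay Γ In Kb Out) {ν : ℕ} (h3 : 3 ≤ ν) (hg : g.SideGe ν) (H : HLaw (Γ.graph g))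
    (hH : ∀ o, (∀ x, H.B o x ≠ 0 → x ∈ Γ.sites g In) ∨ ∀ x, H.B o x ≠ 0 → x ∈ Γ.sites g Out) {a : ℝ} (ha : 0 < a)
    {ι : Type} [Fintype ι] (b : ι → PsBox) (w : ι → ℝ) (s : ℕ) (hb : psIsPart g Kb s b) {lam Lam : ℝ} (hl : 0 < lam) (hL0 : 0 ≤ Lam)
    (hw : ∀ i, lam * (b i).set.card ≤ w i ^ 2 * (ν : ℝ) ^ 2 ∧ w i ^ 2 * (ν : ℝ) ^ 2 ≤ Lam * (b i).set.card)
    (P : Set (Γ.graph g).V) {f f' : (Γ.graph g).V → ℝ} (hf : plAdm (plPin (psAdd H (psSoft Γ g b w)) P) f)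
    (hf' : plAdm (plPin (psAdd H (psSoft Γ g b w)) P) f') (hfs : ∀ x, f x ≠ 0 → x ∈ Γ.sites g In) (hfs' : ∀ x, f' x ≠ 0 → x ∈ Γ.sites g Out) :
    |plCov (plPin (psAdd H (psSoft Γ g b w)) P) a f f'|
      ≤ 2 * ((18 / a + 18 * Lam * (s : ℝ) ^ 2 / (ν : ℝ) ^ 2) * (2 / lam + 2 * a * (s : ℝ) ^ 2 / (ν : ℝ) ^ 2))
        * ((plPin (psAdd H (psSoft Γ g b w)) P).gVar a f + (plPin (psAdd H (psSoft Γ g b w)) P).gVar a f') := by
  have hν : (0 : ℝ) < ν := by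
    have : 0 < ν := by omega
    exact_mod_cast this
  refine ps_bc_cov (psAdd H (psSoft Γ g b w)) ha P (psFar Γ g In ν) (by positivity)
    (ps_band_cut Γ g hL h3 hg H hH ha b w s hb hl hL0 hw) hf hf' ?_ ?_
  · intro x hx
    exact ps_farZ_zero g In ν (hfs x hx)
  · intro x hx
    have h2 : domPos (D := g.region Γ.T) (cut := Γ.cutB g) x ∈ g.region Out := hfs' x hx
    obtain ⟨κ, hκ, hz⟩ := Finset.mem_biUnion.1 h2
    exact ps_farZ_one g In ν (by omega) hg (fun κ' hκ' hadj => hL.sep κ' hκ' κ hκ (geo_adj_symm hadj)) hz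

end Graph

end

end Claimed.Agent.R285.Pot
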