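import Claimed.Agent.R285.Pot.LinDual

/-!
# ROW 285, POT-STRIP : DEFINITIONS (owner helper53).   No contract, no sorry.   Prefix `ps`.

Soft band / probes -> hard pin for the real Gaussian reference, uniformly in the mesh.
* abstract part (any `HGraph`): `psAdd H R` (more rows), `psGap H a P S f` (variance with pins `P` minus variance with pins `P ∪ S`), `psCutErr H a φ v` (the error of the cutoff identity),
  `psHarm H a P h` (`h` is harmonic off `P`), `psBal H a P f v` (balayage of `f`), `psLcut δ ρ` (logarithmic cutoff), `psHardy d δ ρ v`.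
* lattice part (`ℤ²`): boxes `psBox`, averages `psAvg`, sup distance to a box.
-/

set_option autoImplicit false

namespace Claimed.Agent.R285.Pot

open scoped Classical

noncomputable section

/-! ## 1. any graph -/

section Abstract

variable {G : HGraph} (H : HLaw G)

/-- the law `H` with additional observation rows `R` -/
def psAdd {ι : Type} [Fintype ι] (R : ι → G.V → ℝ) : HLaw G :=
  @HLaw.mk G H.Λ (H.O ⊕ ι) inferInstance (Sum.elim H.B R)

/-- the gap: reference variance with the pins `P` minus reference variance with the pins `P ∪ S` (same rows) -/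
def psGap (a : ℝ) (P S : Set G.V) (f : G.V → ℝ) : ℝ := (plPin H P).gVar a f - (plPin H (P ∪ S)).gVar a f

/-- the error of the cutoff identity `form (φ v) = B(v, φ² v) + psCutErr` -/
def psCutErr (a : ℝ) (φ v : G.V → ℝ) : ℝ :=
  a⁻¹ * ∑ e, v (G.src e) * v (G.tgt e) * plGrad φ e ^ 2 + ∑ o, (H.obs (φ * v) o ^ 2 - H.obs v o * H.obs (φ * φ * v) o)

/-- `h` vanishes on `P₀` and is harmonic off `P` (`P₀ ⊆ P`): orthogonal to all fields vanishing on `P` -/
def psHarm (a : ℝ) (P : Set G.V) (h : G.V → ℝ) : Prop := ∀ u : G.V → ℝ, (∀ x ∈ P, u x = 0) → plB H a h u = 0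

/-- the row vector of the functional `u ↦ B(v,u)` -/
def psT (a : ℝ) (v : G.V → ℝ) : G.V → ℝ := a⁻¹ • plDiv (plGrad v) + plObsT H (H.obs v)

/-- the logarithmic cutoff: `1` up to `δ`, `0` from `ρ` on, linear in `log t` between -/
def psLcut (δ ρ : ℕ) (t : ℕ) : ℝ :=
  if t ≤ δ then 1 else if ρ ≤ t then 0 else Real.log ((ρ : ℝ) / t) / Real.log ((ρ : ℝ) / δ)

/-- the Hardy sum of `v` with respect to the layer function `d` -/
def psHardy (d : G.V → ℕ) (δ ρ : ℕ) (v : G.V → ℝ) : ℝ :=
  ∑ x, if δ ≤ d x ∧ d x ≤ ρ then v x ^ 2 / (d x : ℝ) ^ 2 else 0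

/-- a layer function: changes by at most one along every edge -/
def psLayer (d : G.V → ℕ) : Prop := ∀ e, d (G.src e) ≤ d (G.tgt e) + 1 ∧ d (G.tgt e) ≤ d (G.src e) + 1

/-- every vertex lies on at most `Δ` edges -/
def psDeg (G : HGraph) (Δ : ℕ) : Prop :=
  ∀ x : G.V, (Finset.univ.filter fun e : G.E => G.src e = x).card + (Finset.univ.filter fun e : G.E => G.tgt e = x).card ≤ Δ

end Abstract

theorem ps_defs_eqns_cite : True := by
  have := @psAdd.eq_1; have := @psGap.eq_1; have := @psCutErr.eq_1; have := @psHarm.eq_1; have := @psT.eq_1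
  have := @psLcut.eq_1; have := @psHardy.eq_1; have := @psLayer.eq_1; have := @psDeg.eq_1
  trivial

end

end Claimed.Agent.R285.Pot
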