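import Claimed.Agent.R285.Pot.StripDefs

/-!
# ROW 285, POT-STRIP : lattice DEFINITIONS (owner helper53).   No contract, no sorry.   Prefix `ps`.

* `psExt v` : extension by zero to `ℤ²` of a field on `domG D cut`;  `psBond z u`, `psLinked D cut z u` : the bond from `z` to `z + u` belongs to the graph.
* `PsFrame` : origin + two orthogonal unit vectors (covers the 8 lattice symmetries), `F.pt t y = o + t e₁ + y e₂`.
* `psDistCell g κ z` : sup distance from `z` to the cell `κ`;  `psDist Γ g A ρ x` : sup distance from `x` to the cells of `A` lying in the COMPONENT of `x`, truncated at `ρ + 1` (a layer function);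
  `psCollar Γ g A δ` : the `δ`-collar of `A` (contains the sites of `A`).   Components matter: sites across a removed face do not belong to the collar.
* `PsBox`, `psIsPart g A s b` : `b` is a partition of the region `A` into boxes with sides `≤ s`, each inside one cell;  `psSoft Γ g b w` : the rows `w i · (average over b i)`.
-/

set_option autoImplicit false

namespace Claimed.Agent.R285.Pot

open scoped Classical

noncomputable section

/-! ## 1. `domG` -/

/-- extension by zero -/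
def psExt {D : Finset (ℤ × ℤ)} {cut : Set Bond} (v : (domG D cut).V → ℝ) : ℤ × ℤ → ℝ :=
  fun z => if h : z ∈ D then v (⟨z, h⟩ : {v : ℤ × ℤ // v ∈ D}) else 0

/-- the bond between `z` and `z + u` (`u` one of the four unit vectors) -/
def psBond (z u : ℤ × ℤ) : Bond :=
  if u = (1, 0) then (z, true) else if u = (-1, 0) then (z + u, true) else if u = (0, 1) then (z, false) else (z + u, false)

/-- `z` and `z + u` are joined by an edge of `domG D cut` -/
def psLinked (D : Finset (ℤ × ℤ)) (cut : Set Bond) (z u : ℤ × ℤ) : Prop := psBond z u ∈ domBonds D cut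

/-- a lattice frame -/
structure PsFrame where
  o : ℤ × ℤ
  e₁ : ℤ × ℤ
  e₂ : ℤ × ℤ

/-- the point with coordinates `(t, y)` -/
def PsFrame.pt (F : PsFrame) (t y : ℤ) : ℤ × ℤ := F.o + t • F.e₁ + y • F.e₂

/-- orthogonal unit vectors -/
def PsFrame.Ok (F : PsFrame) : Prop :=
  ((F.e₁ = (1, 0) ∨ F.e₁ = (-1, 0)) ∧ (F.e₂ = (0, 1) ∨ F.e₂ = (0, -1))) ∨
  ((F.e₁ = (0, 1) ∨ F.e₁ = (0, -1)) ∧ (F.e₂ = (1, 0) ∨ F.e₂ = (-1, 0)))

/-! ## 2. collars in a geometry -/

/-- sup distance from `z` to the box `[lo.1, hi.1] × [lo.2, hi.2]` -/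
def psDistBox (lo hi z : ℤ × ℤ) : ℕ :=
  (max (max (lo.1 - z.1) (z.1 - hi.1)) (max (lo.2 - z.2) (z.2 - hi.2))).toNat

variable {m₁ m₂ : ℕ}

/-- sup distance from `z` to the cell `κ` -/
def psDistCell (g : DGrid m₁ m₂) (κ : Fin m₁ × Fin m₂) (z : ℤ × ℤ) : ℕ :=
  psDistBox (g.x₁ κ.1.castSucc, g.x₂ κ.2.castSucc) (g.x₁ κ.1.succ - 1, g.x₂ κ.2.succ - 1) z

/-- the distances from `x` to the cells of `A` in the component of `x` -/
def psDistSet (Γ : CGeom m₁ m₂) (g : DGrid m₁ m₂) (A : Finset (Fin m₁ × Fin m₂)) (x : (Γ.graph g).V) : Set ℕ :=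
  {n | ∃ κ ∈ Γ.T, ∃ κ₀ ∈ A, domPos (D := g.region Γ.T) (cut := Γ.cutB g) x ∈ g.cell κ ∧ Γ.Conn κ κ₀ ∧
    n = psDistCell g κ₀ (domPos (D := g.region Γ.T) (cut := Γ.cutB g) x)}

/-- the layer function: distance to `A` inside the component, truncated at `ρ + 1` -/
def psDist (Γ : CGeom m₁ m₂) (g : DGrid m₁ m₂) (A : Finset (Fin m₁ × Fin m₂)) (ρ : ℕ) (x : (Γ.graph g).V) : ℕ :=
  sInf ({ρ + 1} ∪ psDistSet Γ g A x)

/-- the `δ`-collar of `A` (with `A`) -/
def psCollar (Γ : CGeom m₁ m₂) (g : DGrid m₁ m₂) (A : Finset (Fin m₁ × Fin m₂)) (δ : ℕ) : Set (Γ.graph g).V :=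
  {x | ∃ n ∈ psDistSet Γ g A x, n ≤ δ}

/-! ## 3. fine partitions and soft rows -/

/-- a box of `ℤ²`: lower left corner and numbers of sites -/
structure PsBox where
  o : ℤ × ℤ
  p : ℕ
  q : ℕ

/-- the sites of a box -/
def PsBox.set (b : PsBox) : Finset (ℤ × ℤ) := Finset.Ico b.o.1 (b.o.1 + b.p) ×ˢ Finset.Ico b.o.2 (b.o.2 + b.q)

/-- `b` is a partition of the region `A` into nonempty boxes with sides `≤ s`, each inside one cell of `A` -/
def psIsPart (g : DGrid m₁ m₂) (A : Finset (Fin m₁ × Fin m₂)) (s : ℕ) {ι : Type} (b : ι → PsBox) : Prop :=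
  (∀ i, ∃ κ ∈ A, (b i).set ⊆ g.cell κ) ∧ (∀ i, 0 < (b i).p ∧ (b i).p ≤ s ∧ 0 < (b i).q ∧ (b i).q ≤ s) ∧
  (∀ i j, i ≠ j → Disjoint (b i).set (b j).set) ∧ ∀ z ∈ g.region A, ∃ i, z ∈ (b i).set

/-- the average over a finite set of sites, as a function on `ℤ²` -/
def psAvg (S : Finset (ℤ × ℤ)) : ℤ × ℤ → ℝ := fun z => if z ∈ S then (S.card : ℝ)⁻¹ else 0

/-- the soft rows `w i · (average over the box b i)` -/
def psSoft (Γ : CGeom m₁ m₂) (g : DGrid m₁ m₂) {ι : Type} (b : ι → PsBox) (w : ι → ℝ) : ι → (Γ.graph g).V → ℝ :=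
  fun i x => w i * psAvg (b i).set (domPos (D := g.region Γ.T) (cut := Γ.cutB g) x)

theorem ps_geodefs_eqns_cite : True := by
  have := @psExt.eq_1; have := @psBond.eq_1; have := @psLinked.eq_1; have := @PsFrame.pt.eq_1; have := @PsFrame.Ok.eq_1
  have := @psDistBox.eq_1; have := @psDistCell.eq_1; have := @psDistSet.eq_1; have := @psDist.eq_1; have := @psCollar.eq_1
  have := @PsBox.set.eq_1; have := @psIsPart.eq_1; have := @psAvg.eq_1; have := @psSoft.eq_1
  trivial

end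

end Claimed.Agent.R285.Pot
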