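import Claimed.Agent.R285.Pot.StripDefs

/-!
# ROW 285, POT-STRIP block 1 : the cutoff identity and the soft -> hard gap (owner helper53).   Paper-free, any `HGraph`, any rows.

* `ps_form_cut` : `form (φ v) = B(v, φ² v) + psCutErr φ v`   (pure algebra; `(v_x φ_x - v_y φ_y)² = (v_x - v_y)(v_x φ_x² - v_y φ_y²) + v_x v_y (φ_x - φ_y)²`).
* `ps_gap_le` (helper115's T-A): `0 ≤ gVar_P f - gVar_{P ∪ S} f ≤ ⟨f, φ² v⟩ + psCutErr φ v` for the optimiser `v` with pins `P` and every `φ = 1` on `S`.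
* `ps_harm_cut` : Caccioppoli identity `form (χ h) = psCutErr χ h` for `h` harmonic off `P`, `χ = 0` on `P`.
-/

set_option autoImplicit false

namespace Claimed.Agent.R285.Pot

open scoped Classical

noncomputable section

variable {G : HGraph} (H : HLaw G)

/-! ## 0. coordinate pins -/

theorem ps_mem_rspan_pin (P : Set G.V) (v : G.V → ℝ) : v ∈ (plPin H P).rspan ↔ ∀ x ∈ P, v x = 0 := by
  constructor
  · intro hv
    refine Submodule.span_induction (p := fun v _ => ∀ x ∈ P, v x = 0) ?_ ?_ ?_ ?_ hv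
    · rintro _ ⟨h, hh, rfl⟩ x hx
      have : h x = 0 := hh x hx
      simp [this]
    · intro x _; rfl
    · intro u w _ _ hu hw x hx
      simp [hu x hx, hw x hx]
    · intro t u _ hu x hx
      simp [hu x hx]
  · intro hv
    have e : v = ∑ y, v y • (fun x => (((if x = y then 1 else 0 : ℤ)) : ℝ)) := by
      funext x
      simp [Finset.sum_apply]
    rw [e]
    refine Submodule.sum_mem _ fun y _ => ?_
    by_cases hy : y ∈ P
    · rw [hv y hy, zero_smul]; exact Submodule.zero_mem _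
    · refine Submodule.smul_mem _ _ (Submodule.subset_span ⟨fun x => if x = y then 1 else 0, ?_, rfl⟩)
      intro x hx
      have : x ≠ y := fun h => hy (h ▸ hx)
      simp [this]

theorem ps_pin_obs (P : Set G.V) (v : G.V → ℝ) (o : H.O) : (plPin H P).obs v o = H.obs v o := rfl

theorem ps_pin_form (P : Set G.V) (a : ℝ) (v : G.V → ℝ) : (plPin H P).form a v = H.form a v := rfl

theorem ps_pin_B (P : Set G.V) (a : ℝ) (u v : G.V → ℝ) : plB (plPin H P) a u v = plB H a u v := rfl

theorem ps_pin_pin (P Q : Set G.V) : plPin (plPin H P) Q = plPin H Q := rfl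

/-- more pins: admissibility passes -/
theorem ps_adm_mono {P Q : Set G.V} (h : P ⊆ Q) {f : G.V → ℝ} (hf : plAdm (plPin H P) f) : plAdm (plPin H Q) f :=
  fun v hv h1 h2 => hf v ((ps_mem_rspan_pin H P v).2 fun x hx => (ps_mem_rspan_pin H Q v).1 hv x (h hx)) h1 h2

/-- more pins: smaller variance -/
theorem ps_gVar_mono {a : ℝ} (ha : 0 < a) {P Q : Set G.V} (h : P ⊆ Q) {f : G.V → ℝ} (hf : plAdm (plPin H P) f) :
    (plPin H Q).gVar a f ≤ (plPin H P).gVar a f :=
  pl_gVar_compare (plPin H P) (plPin H Q) ha hf f id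
    (fun v hv => (ps_mem_rspan_pin H P v).2 fun x hx => (ps_mem_rspan_pin H Q v).1 hv x (h hx)) (fun _ _ => le_rfl) fun _ _ => rfl

theorem ps_gap_nonneg {a : ℝ} (ha : 0 < a) (P S : Set G.V) {f : G.V → ℝ} (hf : plAdm (plPin H P) f) : 0 ≤ psGap H a P S f :=
  sub_nonneg.2 (ps_gVar_mono H ha Set.subset_union_left hf)

/-- the gap is monotone in the added pins -/
theorem ps_gap_mono {a : ℝ} (ha : 0 < a) (P : Set G.V) {S S' : Set G.V} (h : S ⊆ S') {f : G.V → ℝ} (hf : plAdm (plPin H P) f) :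
    psGap H a P S f ≤ psGap H a P S' f := by
  have := ps_gVar_mono H ha (Set.union_subset_union_right P h) (ps_adm_mono H (Set.subset_union_left (t := S)) hf)
  simp only [psGap]; linarith

/-- chain rule of the gaps -/
theorem ps_gap_add (a : ℝ) (P S S' : Set G.V) (f : G.V → ℝ) :
    psGap H a P (S ∪ S') f = psGap H a P S f + psGap H a (P ∪ S) S' f := by
  simp only [psGap, Set.union_assoc]; ring

/-! ## 1. the cutoff identity -/

theorem ps_bond_identity (vx vy px py : ℝ) :
    (py * vy - px * vx) ^ 2 = (vy - vx) * (py * py * vy - px * px * vx) + vx * vy * (py - px) ^ 2 := by ring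

/-- **the cutoff identity** (pure algebra) -/
theorem ps_form_cut (a : ℝ) (φ v : G.V → ℝ) : H.form a (φ * v) = plB H a v (φ * φ * v) + psCutErr H a φ v := by
  rw [pl_form_expand, plB, psCutErr]
  have h1 : ∑ e, plGrad (φ * v) e ^ 2
      = ∑ e, plGrad v e * plGrad (φ * φ * v) e + ∑ e, v (G.src e) * v (G.tgt e) * plGrad φ e ^ 2 := by
    rw [← Finset.sum_add_distrib]
    refine Finset.sum_congr rfl fun e _ => ?_
    simp only [plGrad, Pi.mul_apply]
    exact ps_bond_identity _ _ _ _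
  rw [h1, Finset.sum_sub_distrib]; ring

/-- distance to the pinned optimiser: `gap = form (v_P - v_{P ∪ S})` -/
theorem ps_gap_eq_form {a : ℝ} (ha : 0 < a) {P S : Set G.V} {f v w : G.V → ℝ} (hv : plIsOpt (plPin H P) a f v)
    (hw : plIsOpt (plPin H (P ∪ S)) a f w) : psGap H a P S f = H.form a (w - v) := by
  have hw' : w ∈ (plPin H P).rspan :=
    (ps_mem_rspan_pin H P w).2 fun x hx => (ps_mem_rspan_pin H (P ∪ S) w).1 hw.1 x (Or.inl hx)
  have h1 := pl_opt_square (plPin H P) hv hw'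
  rw [psGap, pl_gVar_eq_form _ ha hv, pl_gVar_eq_form _ ha hw]
  have h2 := pl_opt_pair _ hw
  simp only [ps_pin_form] at h1 h2 ⊢
  linarith

/-- trial bound of the gap -/
theorem ps_gap_le_form {a : ℝ} (ha : 0 < a) {P S : Set G.V} {f v : G.V → ℝ} (hv : plIsOpt (plPin H P) a f v)
    {u : G.V → ℝ} (hu : ∀ x ∈ P ∪ S, u x = 0) : psGap H a P S f ≤ H.form a (u - v) := by
  have hf := pl_adm_of_opt _ hv
  have hu1 : u ∈ (plPin H (P ∪ S)).rspan := (ps_mem_rspan_pin H _ u).2 hu
  have hu2 : u ∈ (plPin H P).rspan := (ps_mem_rspan_pin H _ u).2 fun x hx => hu x (Or.inl hx)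
  have h1 := pl_le_gVar (plPin H (P ∪ S)) ha (ps_adm_mono H Set.subset_union_left hf) hu1
  have h2 := pl_opt_square (plPin H P) hv hu2
  rw [psGap, pl_gVar_eq_form _ ha hv]
  simp only [ps_pin_form] at h1 h2 ⊢
  linarith

/-- **soft -> hard** (T-A of helper115): `v` = optimiser with the pins `P`, `φ = 1` on `S`. -/
theorem ps_gap_le {a : ℝ} (ha : 0 < a) {P S : Set G.V} {f v : G.V → ℝ} (hv : plIsOpt (plPin H P) a f v)
    {φ : G.V → ℝ} (hφ : ∀ x ∈ S, φ x = 1) : psGap H a P S f ≤ HLaw.pair f (φ * φ * v) + psCutErr H a φ v := by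
  have hvP := (ps_mem_rspan_pin H P v).1 hv.1
  have hu : ∀ x ∈ P ∪ S, ((1 - φ) * v) x = 0 := by
    rintro x (hx | hx)
    · simp [hvP x hx]
    · simp [hφ x hx]
  have h1 := ps_gap_le_form H ha hv hu
  have e1 : (1 - φ) * v - v = -(φ * v) := by ring
  have e2 : H.form a (-(φ * v)) = H.form a (φ * v) := by
    have := pl_form_smul H a (-1) (φ * v)
    simpa using this
  rw [e1, e2, ps_form_cut] at h1
  have h2 : φ * φ * v ∈ (plPin H P).rspan := (ps_mem_rspan_pin H P _).2 fun x hx => by simp [hvP x hx]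
  have h3 := hv.2 _ h2
  rw [ps_pin_B] at h3
  linarith

/-- **Caccioppoli identity**: `h` harmonic off `P`, `χ h = 0` on `P`. -/
theorem ps_harm_cut {a : ℝ} {P : Set G.V} {h : G.V → ℝ} (hh : psHarm H a P h) {χ : G.V → ℝ} (hχ : ∀ x ∈ P, χ x = 0 ∨ h x = 0) :
    H.form a (χ * h) = psCutErr H a χ h := by
  rw [ps_form_cut, hh _ fun x hx => ?_, zero_add]
  rcases hχ x hx with h0 | h0 <;> simp [h0]

/-- the difference of two optimisers of the same test is harmonic off the larger pin set -/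
theorem ps_harm_of_opt {a : ℝ} {P S : Set G.V} {f v w : G.V → ℝ} (hv : plIsOpt (plPin H P) a f v)
    (hw : plIsOpt (plPin H (P ∪ S)) a f w) : psHarm H a (P ∪ S) (v - w) := by
  intro u hu
  have h1 := hv.2 u ((ps_mem_rspan_pin H P u).2 fun x hx => hu x (Or.inl hx))
  have h2 := hw.2 u ((ps_mem_rspan_pin H _ u).2 hu)
  rw [ps_pin_B] at h1 h2
  rw [pl_B_sub_left, h1, h2, sub_self]

/-! ## 2. the gap as a quadratic form -/

/-- Cauchy-Schwarz for the gap: covariances -/
theorem ps_cov_gap {a : ℝ} (ha : 0 < a) (P S : Set G.V) {f g : G.V → ℝ} (hf : plAdm (plPin H P) f) (hg : plAdm (plPin H P) g) :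
    (plCov (plPin H P) a f g - plCov (plPin H (P ∪ S)) a f g) ^ 2 ≤ psGap H a P S f * psGap H a P S g := by
  obtain ⟨v, hv⟩ := pl_opt_exists _ ha hf
  obtain ⟨v', hv'⟩ := pl_opt_exists _ ha hg
  obtain ⟨w, hw⟩ := pl_opt_exists _ ha (ps_adm_mono H (Set.subset_union_left (t := S)) hf)
  obtain ⟨w', hw'⟩ := pl_opt_exists _ ha (ps_adm_mono H (Set.subset_union_left (t := S)) hg)
  rw [ps_gap_eq_form H ha hv hw, ps_gap_eq_form H ha hv' hw', pl_cov_eq_B _ ha hv hv', pl_cov_eq_B _ ha hw hw']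
  simp only [ps_pin_B]
  have hwP : w ∈ (plPin H P).rspan :=
    (ps_mem_rspan_pin H P w).2 fun x hx => (ps_mem_rspan_pin H (P ∪ S) w).1 hw.1 x (Or.inl hx)
  have hwP' : w' ∈ (plPin H P).rspan :=
    (ps_mem_rspan_pin H P w').2 fun x hx => (ps_mem_rspan_pin H (P ∪ S) w').1 hw'.1 x (Or.inl hx)
  -- `B(v,v') - B(w,w') = B(w - v, w' - v')`
  have k1 : plB H a v w' = HLaw.pair f w' := hv.2 w' hwP'
  have k2 : plB H a w w' = HLaw.pair f w' := hw.2 w' hw'.1
  have k3 : plB H a v' w = HLaw.pair g w := hv'.2 w hwP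
  have k4 : plB H a w' w = HLaw.pair g w := hw'.2 w hw.1
  have e : plB H a v v' - plB H a w w' = plB H a (w - v) (w' - v') := by
    rw [pl_B_sub_left, pl_B_sub_right, pl_B_sub_right, pl_B_comm H a w v', k3, ← k4, pl_B_comm H a w' w, k1, ← k2]; ring
  rw [e]
  -- Cauchy-Schwarz for the form
  have cs : ∀ x y : G.V → ℝ, plB H a x y ^ 2 ≤ H.form a x * H.form a y := by
    intro x y
    have hx := pl_form_nonneg H ha x
    have hy := pl_form_nonneg H ha y
    have key : ∀ t : ℝ, 0 ≤ H.form a x + 2 * t * plB H a x y + t ^ 2 * H.form a y := by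
      intro t
      have := pl_form_nonneg H ha (x + t • y)
      rw [pl_form_add, pl_form_smul, pl_B_smul_right] at this
      linarith
    rcases hy.eq_or_lt with h0 | h0
    · obtain ⟨g1, g2⟩ := (pl_form_eq_zero_iff H ha y).1 h0.symm
      rw [← h0, mul_zero, pl_B_comm, pl_B_eq_zero_of_null H a g1 g2]; simp
    · have h1 := key (-plB H a x y / H.form a y)
      have e2 : H.form a x + 2 * (-plB H a x y / H.form a y) * plB H a x y + (-plB H a x y / H.form a y) ^ 2 * H.form a y
          = H.form a x - plB H a x y ^ 2 / H.form a y := by field_simp; ring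
      rw [e2, sub_nonneg, div_le_iff₀ h0] at h1
      exact h1
  exact cs _ _

end

end Claimed.Agent.R285.Pot
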