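import Claimed.Agent.R285.Pot.StripGeoDefs

/-!
# ROW 285, POT-STRIP block 3 : weighted line estimates (owner helper53).   Paper-free; Mathlib + the definitions of `domG`.

No Hardy inequality is needed: the crude bound `w(t)² ≤ 2 w(-τ)² + 2 (t+τ) ∑ (∇w)²`, averaged over `τ < δ`, loses one logarithm only.
`ω` = a general weight of the distance: `ω t = 1/t²` on `t ≥ δ` (Hardy sum), `ω = 1` (mass of the collar).
-/

set_option autoImplicit false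

namespace Claimed.Agent.R285.Pot

open scoped Classical

noncomputable section

/-! ## 1. one line -/

/-- sums over integer intervals -/
theorem ps_ln_sum_Ico (f : ℤ → ℝ) (a : ℤ) (n : ℕ) :
    ∑ s ∈ Finset.Ico a (a + n), f s = ∑ k ∈ Finset.range n, f (a + k) := by
  symm
  refine Finset.sum_bij (fun k _ => a + (k : ℤ)) ?_ ?_ ?_ ?_
  · intro k hk
    rw [Finset.mem_range] at hk
    rw [Finset.mem_Ico]
    omega
  · intro k _ k' _ h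
    omega
  · intro s hs
    rw [Finset.mem_Ico] at hs
    refine ⟨(s - a).toNat, ?_, ?_⟩
    · rw [Finset.mem_range]; omega
    · omega
  · intro k _
    rfl

/-- telescoping + Cauchy-Schwarz on a segment of `ℤ` -/
theorem ps_ln_seg (w : ℤ → ℝ) {a b : ℤ} (hab : a ≤ b) :
    (w b - w a) ^ 2 ≤ ((b - a : ℤ) : ℝ) * ∑ s ∈ Finset.Ico a b, (w (s + 1) - w s) ^ 2 := by
  obtain ⟨n, rfl⟩ : ∃ n : ℕ, b = a + n := ⟨(b - a).toNat, by omega⟩
  have htel : w (a + n) - w a = ∑ s ∈ Finset.Ico a (a + n), (w (s + 1) - w s) := by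
    rw [ps_ln_sum_Ico]
    have := Finset.sum_range_sub (fun k : ℕ => w (a + k)) n
    simp only [Nat.cast_zero, add_zero] at this
    rw [← this]
    refine Finset.sum_congr rfl fun k _ => ?_
    push_cast
    rw [add_assoc]
  rw [htel]
  have hcs := sq_sum_le_card_mul_sum_sq (s := Finset.Ico a (a + n)) (f := fun s => w (s + 1) - w s)
  have hcard : ((Finset.Ico a (a + n)).card : ℝ) = ((a + n - a : ℤ) : ℝ) := by
    rw [Int.card_Ico]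
    have : (a + n - a).toNat = n := by omega
    rw [this]; push_cast; ring
  rw [hcard] at hcs
  exact hcs

/-- the same with a larger factor and a larger interval -/
theorem ps_ln_seg' (w : ℤ → ℝ) {a b a' b' : ℤ} (hab : a ≤ b) (ha : a' ≤ a) (hb : b ≤ b') {L : ℝ}
    (hL : ((b - a : ℤ) : ℝ) ≤ L) :
    (w b - w a) ^ 2 ≤ L * ∑ s ∈ Finset.Ico a' b', (w (s + 1) - w s) ^ 2 := by
  have h1 := ps_ln_seg w hab
  have h2 : ∑ s ∈ Finset.Ico a b, (w (s + 1) - w s) ^ 2 ≤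
      ∑ s ∈ Finset.Ico a' b', (w (s + 1) - w s) ^ 2 :=
    Finset.sum_le_sum_of_subset_of_nonneg (Finset.Ico_subset_Ico ha hb) fun _ _ _ => sq_nonneg _
  have h3 : 0 ≤ ∑ s ∈ Finset.Ico a b, (w (s + 1) - w s) ^ 2 := Finset.sum_nonneg fun _ _ => sq_nonneg _
  have h4 : (0 : ℝ) ≤ ((b - a : ℤ) : ℝ) := by exact_mod_cast sub_nonneg.2 hab
  calc (w b - w a) ^ 2 ≤ ((b - a : ℤ) : ℝ) * ∑ s ∈ Finset.Ico a b, (w (s + 1) - w s) ^ 2 := h1
    _ ≤ L * ∑ s ∈ Finset.Ico a' b', (w (s + 1) - w s) ^ 2 :=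
        mul_le_mul hL h2 h3 (h4.trans hL)

/-- LEAF L-PS-LINE1 (Mathlib only).  `w(t) = w(-τ) + ∑_{s=-τ}^{t-1} ∇w(s)`, Cauchy-Schwarz (`t + τ ≤ t + δ` terms), average over `τ ∈ [0, δ)`, multiply by `ω t`, sum. -/
theorem ps_line (w : ℤ → ℝ) (ω : ℕ → ℝ) (hω : ∀ t, 0 ≤ ω t) (δ ρ : ℕ) (hδ : 1 ≤ δ) :
    ∑ t ∈ Finset.Icc 1 ρ, ω t * w (t : ℤ) ^ 2
      ≤ 2 / δ * (∑ t ∈ Finset.Icc 1 ρ, ω t) * ∑ τ ∈ Finset.range δ, w (-(τ : ℤ)) ^ 2
        + 2 * (∑ t ∈ Finset.Icc 1 ρ, ω t * ((t : ℝ) + δ)) * ∑ s ∈ Finset.Ico (-(δ : ℤ) + 1) (ρ : ℤ), (w (s + 1) - w s) ^ 2 := by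
  obtain ⟨A, hA⟩ : ∃ A : ℝ, A = ∑ τ ∈ Finset.range δ, w (-(τ : ℤ)) ^ 2 := ⟨_, rfl⟩
  obtain ⟨E, hE⟩ : ∃ E : ℝ, E = ∑ s ∈ Finset.Ico (-(δ : ℤ) + 1) (ρ : ℤ), (w (s + 1) - w s) ^ 2 :=
    ⟨_, rfl⟩
  rw [← hA, ← hE]
  have hδ0 : (0 : ℝ) < δ := by exact_mod_cast hδ
  have hE0 : 0 ≤ E := hE ▸ Finset.sum_nonneg fun _ _ => sq_nonneg _
  have key : ∀ t ∈ Finset.Icc 1 ρ, w (t : ℤ) ^ 2 ≤ 2 / δ * A + 2 * ((t : ℝ) + δ) * E := by
    intro t ht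
    rw [Finset.mem_Icc] at ht
    have h1 : ∀ τ ∈ Finset.range δ, w (t : ℤ) ^ 2 ≤ 2 * w (-(τ : ℤ)) ^ 2 + 2 * (((t : ℝ) + δ) * E) := by
      intro τ hτ
      rw [Finset.mem_range] at hτ
      have h2 := ps_ln_seg' w (a := -(τ : ℤ)) (b := (t : ℤ)) (a' := -(δ : ℤ) + 1) (b' := (ρ : ℤ))
        (by omega) (by omega) (by omega) (L := (t : ℝ) + δ) (by
          push_cast
          have : (τ : ℝ) ≤ δ := by exact_mod_cast hτ.le
          linarith)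
      rw [← hE] at h2
      nlinarith [sq_nonneg (w (t : ℤ) - 2 * w (-(τ : ℤ)))]
    have h3 := Finset.sum_le_sum h1
    rw [Finset.sum_const, Finset.card_range, nsmul_eq_mul, Finset.sum_add_distrib, ← Finset.mul_sum,
      ← hA, Finset.sum_const, Finset.card_range, nsmul_eq_mul] at h3
    have h4 : w (t : ℤ) ^ 2 = ((δ : ℝ) * w (t : ℤ) ^ 2) / δ := by field_simp
    rw [h4, div_le_iff₀ hδ0]
    calc (δ : ℝ) * w (t : ℤ) ^ 2 ≤ 2 * A + δ * (2 * (((t : ℝ) + δ) * E)) := h3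
      _ = (2 / δ * A + 2 * ((t : ℝ) + δ) * E) * δ := by field_simp
  calc ∑ t ∈ Finset.Icc 1 ρ, ω t * w (t : ℤ) ^ 2
      ≤ ∑ t ∈ Finset.Icc 1 ρ, ω t * (2 / δ * A + 2 * ((t : ℝ) + δ) * E) :=
        Finset.sum_le_sum fun t ht => mul_le_mul_of_nonneg_left (key t ht) (hω t)
    _ = 2 / δ * (∑ t ∈ Finset.Icc 1 ρ, ω t) * A + 2 * (∑ t ∈ Finset.Icc 1 ρ, ω t * ((t : ℝ) + δ)) * E := by
        rw [Finset.mul_sum, Finset.sum_mul, Finset.mul_sum, Finset.sum_mul, ← Finset.sum_add_distrib]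
        exact Finset.sum_congr rfl fun t _ => by ring

/-- LEAF L-PS-LINE2 (Mathlib only): the corner.  `u` on `ℤ²`; the reference cell is `{i ≤ 0, j ≤ 0}`, the path from `(i,j)`, `i, j ≥ 1`, runs along the row `j` to the column `1 - j`, then down this column to the row `-τ`.
`u(i,j)² ≤ 3 (i+j-1) R_j + 3 (j+τ) C_j + 3 u(1-j,-τ)²`; `i + j - 1 ≤ 2 max i j`. -/
theorem ps_corner (u : ℤ → ℤ → ℝ) (ω : ℕ → ℝ) (hω : ∀ t, 0 ≤ ω t) (δ ρ : ℕ) (hδ : 1 ≤ δ) {WE Wc : ℝ}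
    (h1 : ∀ j ∈ Finset.Icc 1 ρ, ∑ i ∈ Finset.Icc 1 ρ, ω (max i j) * (((max i j : ℕ) : ℝ) + δ) ≤ WE)
    (h2 : ∀ j ∈ Finset.Icc 1 ρ, ∑ i ∈ Finset.Icc 1 ρ, ω (max i j) ≤ Wc) :
    ∑ i ∈ Finset.Icc 1 ρ, ∑ j ∈ Finset.Icc 1 ρ, ω (max i j) * u (i : ℤ) (j : ℤ) ^ 2
      ≤ 3 * Wc / δ * ∑ j ∈ Finset.Icc 1 ρ, ∑ τ ∈ Finset.range δ, u (1 - (j : ℤ)) (-(τ : ℤ)) ^ 2
        + 6 * WE * ∑ j ∈ Finset.Icc 1 ρ, ∑ s ∈ Finset.Ico (1 - (ρ : ℤ)) (ρ : ℤ), (u (s + 1) (j : ℤ) - u s (j : ℤ)) ^ 2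
        + 3 * WE * ∑ j ∈ Finset.Icc 1 ρ, ∑ s ∈ Finset.Ico (-(δ : ℤ) + 1) (ρ : ℤ), (u (1 - (j : ℤ)) (s + 1) - u (1 - (j : ℤ)) s) ^ 2 := by
  have hδ0 : (0 : ℝ) < δ := by exact_mod_cast hδ
  obtain ⟨A, hA⟩ : ∃ A : ℕ → ℝ, ∀ j, A j = ∑ τ ∈ Finset.range δ, u (1 - (j : ℤ)) (-(τ : ℤ)) ^ 2 :=
    ⟨_, fun _ => rfl⟩
  obtain ⟨R, hR⟩ : ∃ R : ℕ → ℝ, ∀ j, R j = ∑ s ∈ Finset.Ico (1 - (ρ : ℤ)) (ρ : ℤ),
      (u (s + 1) (j : ℤ) - u s (j : ℤ)) ^ 2 := ⟨_, fun _ => rfl⟩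
  obtain ⟨C, hC⟩ : ∃ C : ℕ → ℝ, ∀ j, C j = ∑ s ∈ Finset.Ico (-(δ : ℤ) + 1) (ρ : ℤ),
      (u (1 - (j : ℤ)) (s + 1) - u (1 - (j : ℤ)) s) ^ 2 := ⟨_, fun _ => rfl⟩
  simp only [← hA, ← hR, ← hC]
  have hA0 : ∀ j, 0 ≤ A j := fun j => by rw [hA]; exact Finset.sum_nonneg fun _ _ => sq_nonneg _
  have hR0 : ∀ j, 0 ≤ R j := fun j => by rw [hR]; exact Finset.sum_nonneg fun _ _ => sq_nonneg _
  have hC0 : ∀ j, 0 ≤ C j := fun j => by rw [hC]; exact Finset.sum_nonneg fun _ _ => sq_nonneg _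
  -- pointwise bound
  have key : ∀ i ∈ Finset.Icc 1 ρ, ∀ j ∈ Finset.Icc 1 ρ, u (i : ℤ) (j : ℤ) ^ 2 ≤
      3 / δ * A j + (((max i j : ℕ) : ℝ) + δ) * (6 * R j + 3 * C j) := by
    intro i hi j hj
    rw [Finset.mem_Icc] at hi hj
    have hmi : (i : ℝ) ≤ ((max i j : ℕ) : ℝ) := by exact_mod_cast le_max_left i j
    have hmj : (j : ℝ) ≤ ((max i j : ℕ) : ℝ) := by exact_mod_cast le_max_right i j
    have hrow := ps_ln_seg' (fun s => u s (j : ℤ)) (a := 1 - (j : ℤ)) (b := (i : ℤ))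
      (a' := 1 - (ρ : ℤ)) (b' := (ρ : ℤ)) (by omega) (by omega) (by omega)
      (L := 2 * (((max i j : ℕ) : ℝ) + δ)) (by
        rw [show (((i : ℤ) - (1 - (j : ℤ)) : ℤ) : ℝ) = (i : ℝ) - (1 - (j : ℝ)) by push_cast; ring]
        linarith)
    rw [← hR] at hrow
    have h3 : ∀ τ ∈ Finset.range δ, u (i : ℤ) (j : ℤ) ^ 2 ≤ 3 * u (1 - (j : ℤ)) (-(τ : ℤ)) ^ 2 +
        (((max i j : ℕ) : ℝ) + δ) * (6 * R j + 3 * C j) := by
      intro τ hτ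
      rw [Finset.mem_range] at hτ
      have hcol := ps_ln_seg' (fun s => u (1 - (j : ℤ)) s) (a := -(τ : ℤ)) (b := (j : ℤ))
        (a' := -(δ : ℤ) + 1) (b' := (ρ : ℤ)) (by omega) (by omega) (by omega)
        (L := ((max i j : ℕ) : ℝ) + δ) (by
          rw [show (((j : ℤ) - -(τ : ℤ) : ℤ) : ℝ) = (j : ℝ) + (τ : ℝ) by push_cast; ring]
          have : (τ : ℝ) ≤ δ := by exact_mod_cast hτ.le
          linarith)
      rw [← hC] at hcol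
      obtain ⟨a, ha⟩ : ∃ a : ℝ, a = u (i : ℤ) (j : ℤ) - u (1 - (j : ℤ)) (j : ℤ) := ⟨_, rfl⟩
      obtain ⟨b, hb⟩ : ∃ b : ℝ, b = u (1 - (j : ℤ)) (j : ℤ) - u (1 - (j : ℤ)) (-(τ : ℤ)) := ⟨_, rfl⟩
      obtain ⟨c, hc⟩ : ∃ c : ℝ, c = u (1 - (j : ℤ)) (-(τ : ℤ)) := ⟨_, rfl⟩
      have hsum : u (i : ℤ) (j : ℤ) = a + b + c := by rw [ha, hb, hc]; ring
      rw [← ha] at hrow
      rw [← hb] at hcol
      rw [hsum, ← hc]
      have h3sq : (a + b + c) ^ 2 ≤ 3 * (a ^ 2 + b ^ 2 + c ^ 2) := by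
        nlinarith [sq_nonneg (a - b), sq_nonneg (b - c), sq_nonneg (a - c)]
      nlinarith
    have h4 := Finset.sum_le_sum h3
    rw [Finset.sum_const, Finset.card_range, nsmul_eq_mul, Finset.sum_add_distrib, ← Finset.mul_sum,
      ← hA, Finset.sum_const, Finset.card_range, nsmul_eq_mul] at h4
    have h5 : u (i : ℤ) (j : ℤ) ^ 2 = ((δ : ℝ) * u (i : ℤ) (j : ℤ) ^ 2) / δ := by field_simp
    rw [h5, div_le_iff₀ hδ0]
    calc (δ : ℝ) * u (i : ℤ) (j : ℤ) ^ 2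
        ≤ 3 * A j + δ * ((((max i j : ℕ) : ℝ) + δ) * (6 * R j + 3 * C j)) := h4
      _ = (3 / δ * A j + (((max i j : ℕ) : ℝ) + δ) * (6 * R j + 3 * C j)) * δ := by field_simp
  rw [Finset.sum_comm]
  have hj : ∀ j ∈ Finset.Icc 1 ρ, ∑ i ∈ Finset.Icc 1 ρ, ω (max i j) * u (i : ℤ) (j : ℤ) ^ 2 ≤
      3 * Wc / δ * A j + 6 * WE * R j + 3 * WE * C j := by
    intro j hj
    calc ∑ i ∈ Finset.Icc 1 ρ, ω (max i j) * u (i : ℤ) (j : ℤ) ^ 2
        ≤ ∑ i ∈ Finset.Icc 1 ρ, ω (max i j) *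
            (3 / δ * A j + (((max i j : ℕ) : ℝ) + δ) * (6 * R j + 3 * C j)) :=
          Finset.sum_le_sum fun i hi => mul_le_mul_of_nonneg_left (key i hi j hj) (hω _)
      _ = (∑ i ∈ Finset.Icc 1 ρ, ω (max i j)) * (3 / δ * A j) +
            (∑ i ∈ Finset.Icc 1 ρ, ω (max i j) * (((max i j : ℕ) : ℝ) + δ)) * (6 * R j + 3 * C j) := by
          rw [Finset.sum_mul, Finset.sum_mul, ← Finset.sum_add_distrib]
          exact Finset.sum_congr rfl fun i _ => by ring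
      _ ≤ Wc * (3 / δ * A j) + WE * (6 * R j + 3 * C j) := by
          have hp1 : 0 ≤ 3 / (δ : ℝ) * A j := mul_nonneg (by positivity) (hA0 j)
          have hp2 : 0 ≤ 6 * R j + 3 * C j := by linarith [hR0 j, hC0 j]
          exact add_le_add (mul_le_mul_of_nonneg_right (h2 j hj) hp1)
            (mul_le_mul_of_nonneg_right (h1 j hj) hp2)
      _ = _ := by ring
  calc ∑ j ∈ Finset.Icc 1 ρ, ∑ i ∈ Finset.Icc 1 ρ, ω (max i j) * u (i : ℤ) (j : ℤ) ^ 2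
      ≤ ∑ j ∈ Finset.Icc 1 ρ, (3 * Wc / δ * A j + 6 * WE * R j + 3 * WE * C j) := Finset.sum_le_sum hj
    _ = _ := by
        rw [Finset.sum_add_distrib, Finset.sum_add_distrib, ← Finset.mul_sum, ← Finset.mul_sum,
          ← Finset.mul_sum]

/-! ## 2. the two weights -/

/-- the Hardy weight -/
def psWH (δ : ℕ) (t : ℕ) : ℝ := if δ ≤ t then 1 / (t : ℝ) ^ 2 else 0

theorem psWH_eqns_cite : True := by
  have := @psWH.eq_1; trivial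

/-- harmonic sums -/
theorem ps_ln_harm {δ : ℕ} (h1 : 1 ≤ δ) : ∀ ρ : ℕ, δ ≤ ρ →
    ∑ i ∈ Finset.Icc δ ρ, 1 / (i : ℝ) ≤ 1 + Real.log ((ρ : ℝ) / δ) := by
  have hδ0 : (0 : ℝ) < δ := by exact_mod_cast h1
  intro ρ hρ
  induction ρ, hρ using Nat.le_induction with
  | base =>
    rw [Finset.Icc_self, Finset.sum_singleton, div_self hδ0.ne', Real.log_one, add_zero,
      div_le_one hδ0]
    exact_mod_cast h1
  | succ ρ hρ ih =>
    have hρ0 : (0 : ℝ) < ρ := by exact_mod_cast (lt_of_lt_of_le h1 hρ)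
    rw [← Finset.insert_Icc_right_eq_Icc_add_one (by omega), Finset.sum_insert (by simp)]
    have hlog : 1 / ((ρ + 1 : ℕ) : ℝ) ≤ Real.log (((ρ + 1 : ℕ) : ℝ) / δ) - Real.log ((ρ : ℝ) / δ) := by
      push_cast
      rw [← Real.log_div (by positivity) (by positivity)]
      have e : ((ρ : ℝ) + 1) / δ / ((ρ : ℝ) / δ) = (((ρ : ℝ)) / ((ρ : ℝ) + 1))⁻¹ := by
        field_simp
      rw [e, Real.log_inv]
      have := Real.log_le_sub_one_of_pos (x := (ρ : ℝ) / ((ρ : ℝ) + 1)) (by positivity)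
      have e2 : (ρ : ℝ) / ((ρ : ℝ) + 1) - 1 = - (1 / ((ρ : ℝ) + 1)) := by field_simp; ring
      linarith
    linarith

/-- sums of inverse squares -/
theorem ps_ln_sq {δ : ℕ} (h1 : 1 ≤ δ) : ∀ ρ : ℕ, δ ≤ ρ →
    ∑ i ∈ Finset.Icc δ ρ, 1 / (i : ℝ) ^ 2 ≤ 2 / (δ : ℝ) - 1 / (ρ : ℝ) := by
  have hδ0 : (0 : ℝ) < δ := by exact_mod_cast h1
  have hδ1 : (1 : ℝ) ≤ δ := by exact_mod_cast h1
  intro ρ hρ
  induction ρ, hρ using Nat.le_induction with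
  | base =>
    rw [Finset.Icc_self, Finset.sum_singleton]
    have : 1 / (δ : ℝ) ^ 2 ≤ 1 / δ := by
      rw [div_le_div_iff₀ (by positivity) hδ0]
      nlinarith
    have e : 2 / (δ : ℝ) - 1 / δ = 1 / δ := by ring
    linarith
  | succ ρ hρ ih =>
    have hρ0 : (0 : ℝ) < ρ := by exact_mod_cast (lt_of_lt_of_le h1 hρ)
    rw [← Finset.insert_Icc_right_eq_Icc_add_one (by omega), Finset.sum_insert (by simp)]
    have hstep : 1 / (((ρ + 1 : ℕ) : ℝ)) ^ 2 ≤ 1 / (ρ : ℝ) - 1 / ((ρ + 1 : ℕ) : ℝ) := by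
      push_cast
      have e : 1 / (ρ : ℝ) - 1 / ((ρ : ℝ) + 1) = 1 / ((ρ : ℝ) * ((ρ : ℝ) + 1)) := by field_simp; ring
      rw [e, div_le_div_iff₀ (by positivity) (by positivity)]
      nlinarith
    linarith

/-- a sum over `i ≤ j` of a constant -/
theorem ps_ln_const {ρ j : ℕ} (hj : j ∈ Finset.Icc 1 ρ) (c : ℝ) :
    ∑ i ∈ Finset.Icc 1 ρ, (if i ≤ j then c else 0) = j * c := by
  rw [Finset.mem_Icc] at hj
  rw [← Finset.sum_filter, Finset.sum_const, nsmul_eq_mul]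
  have : (Finset.Icc 1 ρ).filter (fun i => i ≤ j) = Finset.Icc 1 j := by
    ext i; simp only [Finset.mem_filter, Finset.mem_Icc]; omega
  rw [this, Nat.card_Icc]
  simp

/-- a sum over `δ ≤ i` -/
theorem ps_ln_tail {δ ρ : ℕ} (h1 : 1 ≤ δ) (f : ℕ → ℝ) :
    ∑ i ∈ Finset.Icc 1 ρ, (if δ ≤ i then f i else 0) = ∑ i ∈ Finset.Icc δ ρ, f i := by
  rw [← Finset.sum_filter]
  have : (Finset.Icc 1 ρ).filter (fun i => δ ≤ i) = Finset.Icc δ ρ := by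
    ext i; simp only [Finset.mem_filter, Finset.mem_Icc]; omega
  rw [this]

/-- LEAF L-PS-WGT (Mathlib only): `(m+δ)/m² ≤ 2/m` for `m ≥ δ`; `∑_{i ≤ j} 2/j = 2`; `∑_{j < i ≤ ρ} 1/i ≤ log (ρ/j)`. -/
theorem ps_wh_E {δ ρ : ℕ} (h1 : 1 ≤ δ) (h2 : δ ≤ ρ) : ∀ j ∈ Finset.Icc 1 ρ,
    ∑ i ∈ Finset.Icc 1 ρ, psWH δ (max i j) * (((max i j : ℕ) : ℝ) + δ) ≤ 4 + 2 * Real.log ((ρ : ℝ) / δ) := by
  intro j hj
  have hj' := Finset.mem_Icc.1 hj
  have hj0 : (0 : ℝ) < j := by exact_mod_cast hj'.1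
  have hterm : ∀ i ∈ Finset.Icc 1 ρ, psWH δ (max i j) * (((max i j : ℕ) : ℝ) + δ) ≤
      (if i ≤ j then 2 / (j : ℝ) else 0) + (if δ ≤ i then 2 * (1 / (i : ℝ)) else 0) := by
    intro i hi
    have hi' := Finset.mem_Icc.1 hi
    have hi0 : (0 : ℝ) < i := by exact_mod_cast hi'.1
    have hr : 0 ≤ (if i ≤ j then 2 / (j : ℝ) else 0) + (if δ ≤ i then 2 * (1 / (i : ℝ)) else 0) := by
      split_ifs <;> positivity
    unfold psWH
    split_ifs with hm hij hδi hδi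
    all_goals first
      | (rw [zero_mul]; positivity)
      | skip
    · -- `i ≤ j`, `δ ≤ i`
      rw [max_eq_right hij] at hm ⊢
      have hδj : (δ : ℝ) ≤ j := by exact_mod_cast hm
      have : 1 / (j : ℝ) ^ 2 * ((j : ℝ) + δ) ≤ 2 / j := by
        rw [div_mul_eq_mul_div, one_mul, div_le_div_iff₀ (by positivity) hj0]
        nlinarith
      have h0 : 0 ≤ 2 * (1 / (i : ℝ)) := by positivity
      linarith
    · rw [max_eq_right hij] at hm ⊢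
      have hδj : (δ : ℝ) ≤ j := by exact_mod_cast hm
      have : 1 / (j : ℝ) ^ 2 * ((j : ℝ) + δ) ≤ 2 / j := by
        rw [div_mul_eq_mul_div, one_mul, div_le_div_iff₀ (by positivity) hj0]
        nlinarith
      linarith
    · rw [max_eq_left (by omega : j ≤ i)] at hm ⊢
      have hδi' : (δ : ℝ) ≤ i := by exact_mod_cast hm
      have : 1 / (i : ℝ) ^ 2 * ((i : ℝ) + δ) ≤ 2 * (1 / i) := by
        rw [div_mul_eq_mul_div, one_mul, mul_one_div, div_le_div_iff₀ (by positivity) hi0]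
        nlinarith
      linarith
    · rw [max_eq_left (by omega : j ≤ i)] at hm
      exact absurd hm hδi
  refine (Finset.sum_le_sum hterm).trans ?_
  rw [Finset.sum_add_distrib, ps_ln_const hj, ps_ln_tail h1, ← Finset.mul_sum]
  have h3 := ps_ln_harm h1 ρ h2
  have h4 : (j : ℝ) * (2 / j) = 2 := by field_simp
  linarith

/-- LEAF L-PS-WGT (Mathlib only): `∑_{i > j} 1/i² ≤ 1/j`. -/
theorem ps_wh_c {δ ρ : ℕ} (h1 : 1 ≤ δ) (h2 : δ ≤ ρ) : ∀ j ∈ Finset.Icc 1 ρ,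
    ∑ i ∈ Finset.Icc 1 ρ, psWH δ (max i j) ≤ 3 / δ := by
  intro j hj
  have hj' := Finset.mem_Icc.1 hj
  have hj0 : (0 : ℝ) < j := by exact_mod_cast hj'.1
  have hδ0 : (0 : ℝ) < δ := by exact_mod_cast h1
  have hρ0 : (0 : ℝ) < ρ := by exact_mod_cast (lt_of_lt_of_le h1 h2)
  have hterm : ∀ i ∈ Finset.Icc 1 ρ, psWH δ (max i j) ≤
      (if i ≤ j then 1 / ((j : ℝ) * δ) else 0) + (if δ ≤ i then 1 / (i : ℝ) ^ 2 else 0) := by
    intro i hi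
    have hi' := Finset.mem_Icc.1 hi
    have hi0 : (0 : ℝ) < i := by exact_mod_cast hi'.1
    unfold psWH
    split_ifs with hm hij hδi hδi
    all_goals first
      | positivity
      | skip
    · rw [max_eq_right hij] at hm ⊢
      have hδj : (δ : ℝ) ≤ j := by exact_mod_cast hm
      have : 1 / (j : ℝ) ^ 2 ≤ 1 / ((j : ℝ) * δ) := by
        rw [div_le_div_iff₀ (by positivity) (by positivity)]
        nlinarith
      have h0 : 0 ≤ 1 / (i : ℝ) ^ 2 := by positivity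
      linarith
    · rw [max_eq_right hij] at hm ⊢
      have hδj : (δ : ℝ) ≤ j := by exact_mod_cast hm
      have : 1 / (j : ℝ) ^ 2 ≤ 1 / ((j : ℝ) * δ) := by
        rw [div_le_div_iff₀ (by positivity) (by positivity)]
        nlinarith
      linarith
    · rw [max_eq_left (by omega : j ≤ i)]
      linarith
    · rw [max_eq_left (by omega : j ≤ i)] at hm
      exact absurd hm hδi
  refine (Finset.sum_le_sum hterm).trans ?_
  rw [Finset.sum_add_distrib, ps_ln_const hj, ps_ln_tail h1]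
  have h3 := ps_ln_sq h1 ρ h2
  have h4 : (j : ℝ) * (1 / ((j : ℝ) * δ)) = 1 / δ := by field_simp
  have h5 : 0 < 1 / (ρ : ℝ) := by positivity
  have h6 : 3 / (δ : ℝ) = 1 / δ + 2 / δ := by ring
  linarith

/-- LEAF L-PS-WGT (Mathlib only) -/
theorem ps_w1_E {δ ρ : ℕ} (h2 : δ ≤ ρ) : ∀ j ∈ Finset.Icc 1 ρ,
    ∑ i ∈ Finset.Icc 1 ρ, (1 : ℝ) * (((max i j : ℕ) : ℝ) + δ) ≤ 2 * (ρ : ℝ) ^ 2 := by
  intro j hj
  have hj' := Finset.mem_Icc.1 hj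
  have hterm : ∀ i ∈ Finset.Icc 1 ρ, (1 : ℝ) * (((max i j : ℕ) : ℝ) + δ) ≤ 2 * ρ := by
    intro i hi
    have hi' := Finset.mem_Icc.1 hi
    have h3 : ((max i j : ℕ) : ℝ) ≤ ρ := by exact_mod_cast max_le hi'.2 hj'.2
    have h4 : (δ : ℝ) ≤ ρ := by exact_mod_cast h2
    linarith
  refine (Finset.sum_le_sum hterm).trans ?_
  rw [Finset.sum_const, Nat.card_Icc, nsmul_eq_mul]
  simp only [Nat.add_sub_cancel]
  nlinarith

/-! ## 3. frames in `domG D cut` -/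

variable {D : Finset (ℤ × ℤ)} {cut : Set Bond}

theorem ps_ln_ext_mem (v : (domG D cut).V → ℝ) {z : ℤ × ℤ} (h : z ∈ D) :
    psExt v z = v (⟨z, h⟩ : {v : ℤ × ℤ // v ∈ D}) := dif_pos h

/-- L-PS-FR0: the energy in `ℤ²` notation. -/
theorem ps_en_eq (v : (domG D cut).V → ℝ) : HLaw.en v 0 = ∑ e ∈ domBonds D cut, (psExt v e.snd - psExt v e.1) ^ 2 := by
  unfold HLaw.en
  rw [← Finset.sum_coe_sort (domBonds D cut)]
  refine Finset.sum_congr ?_ fun e _ => ?_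
  · ext e
    exact ⟨fun _ => Finset.mem_univ _, fun _ => Finset.mem_univ _⟩
  · rw [ps_ln_ext_mem v (domBonds_snd e.2), ps_ln_ext_mem v (domBonds_fst e.2)]
    simp only [Pi.zero_apply, add_zero]
    rfl

/-- the increment along a bond -/
theorem ps_ln_bond_sq (f : ℤ × ℤ → ℝ) (z u : ℤ × ℤ)
    (hu : u = (1, 0) ∨ u = (-1, 0) ∨ u = (0, 1) ∨ u = (0, -1)) :
    (f (z + u) - f z) ^ 2 = (f (psBond z u).snd - f (psBond z u).1) ^ 2 := by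
  obtain ⟨a, b⟩ := z
  rcases hu with rfl | rfl | rfl | rfl
  · simp [psBond, Bond.snd]
  · have : (f (a, b) - f (a + -1, b)) ^ 2 = (f (a + -1, b) - f (a, b)) ^ 2 := by ring
    simp [psBond, Bond.snd, this]
  · simp [psBond, Bond.snd]
  · have : (f (a, b) - f (a, b + -1)) ^ 2 = (f (a, b + -1) - f (a, b)) ^ 2 := by ring
    simp [psBond, Bond.snd, this]

/-- L-PS-FR0: an injective family of bonds of the graph carries at most the energy. -/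
theorem ps_en_family (v : (domG D cut).V → ℝ) {α : Type} (I : Finset α) (z : α → ℤ × ℤ) (u : α → ℤ × ℤ)
    (hu : ∀ i ∈ I, u i = (1, 0) ∨ u i = (-1, 0) ∨ u i = (0, 1) ∨ u i = (0, -1)) (hl : ∀ i ∈ I, psLinked D cut (z i) (u i))
    (hinj : ∀ i ∈ I, ∀ j ∈ I, psBond (z i) (u i) = psBond (z j) (u j) → i = j) :
    ∑ i ∈ I, (psExt v (z i + u i) - psExt v (z i)) ^ 2 ≤ HLaw.en v 0 := by
  rw [ps_en_eq, Finset.sum_congr rfl fun i hi => ps_ln_bond_sq (psExt v) (z i) (u i) (hu i hi)]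
  rw [← Finset.sum_image (f := fun e : Bond => (psExt v e.snd - psExt v e.1) ^ 2)
    (g := fun i => psBond (z i) (u i)) hinj]
  refine Finset.sum_le_sum_of_subset_of_nonneg ?_ fun _ _ _ => sq_nonneg _
  intro e he
  obtain ⟨i, hi, rfl⟩ := Finset.mem_image.1 he
  exact hl i hi

/-- unit vectors of a frame -/
theorem ps_ln_unit₁ {F : PsFrame} (hF : F.Ok) :
    F.e₁ = (1, 0) ∨ F.e₁ = (-1, 0) ∨ F.e₁ = (0, 1) ∨ F.e₁ = (0, -1) := by
  rcases hF with ⟨h | h, -⟩ | ⟨h | h, -⟩ <;> simp [h]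

theorem ps_ln_unit₂ {F : PsFrame} (hF : F.Ok) :
    F.e₂ = (1, 0) ∨ F.e₂ = (-1, 0) ∨ F.e₂ = (0, 1) ∨ F.e₂ = (0, -1) := by
  rcases hF with ⟨-, h | h⟩ | ⟨-, h | h⟩ <;> simp [h]

theorem ps_ln_pt_inj {F : PsFrame} (hF : F.Ok) {s y s' y' : ℤ} (h : F.pt s y = F.pt s' y') :
    s = s' ∧ y = y' := by
  obtain ⟨⟨a, b⟩, e₁, e₂⟩ := F
  simp only [PsFrame.Ok] at hF
  simp only [PsFrame.pt] at h
  rcases hF with ⟨rfl | rfl, rfl | rfl⟩ | ⟨rfl | rfl, rfl | rfl⟩ <;>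
    simp [Prod.ext_iff] at h <;> omega

theorem ps_ln_pt_succ₁ (F : PsFrame) (s y : ℤ) : F.pt (s + 1) y = F.pt s y + F.e₁ := by
  simp only [PsFrame.pt, add_smul, one_smul]; abel

theorem ps_ln_pt_succ₂ (F : PsFrame) (s y : ℤ) : F.pt s (y + 1) = F.pt s y + F.e₂ := by
  simp only [PsFrame.pt, add_smul, one_smul]; abel

/-- bonds in a fixed direction -/
theorem ps_ln_bond_inj {z z' u : ℤ × ℤ} (h : psBond z u = psBond z' u) : z = z' := by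
  unfold psBond at h
  split_ifs at h
  · exact (Prod.ext_iff.1 h).1
  · exact add_right_cancel (Prod.ext_iff.1 h).1
  · exact (Prod.ext_iff.1 h).1
  · exact add_right_cancel (Prod.ext_iff.1 h).1

/-- bonds in the two directions of a frame are different -/
theorem ps_ln_bond_ne {F : PsFrame} (hF : F.Ok) (z z' : ℤ × ℤ) : psBond z F.e₁ ≠ psBond z' F.e₂ := by
  intro h
  have h2 := (Prod.ext_iff.1 h).2
  rcases hF with ⟨h1 | h1, h3 | h3⟩ | ⟨h1 | h1, h3 | h3⟩ <;> simp [psBond, h1, h3] at h2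

/-- L-PS-FR1: **flat frame**.  The lines `t ↦ F.pt t y`, `y < len`, `-δ < t ≤ ρ`, lie in the graph.  From `ps_line`, `ps_en_family`. -/
theorem ps_frame_flat (v : (domG D cut).V → ℝ) (F : PsFrame) (hF : F.Ok) (len δ ρ : ℕ) (hδ : 1 ≤ δ)
    (hl : ∀ y ∈ Finset.range len, ∀ s ∈ Finset.Ico (-(δ : ℤ) + 1) (ρ : ℤ), psLinked D cut (F.pt s y) F.e₁)
    (ω : ℕ → ℝ) (hω : ∀ t, 0 ≤ ω t) :
    ∑ y ∈ Finset.range len, ∑ t ∈ Finset.Icc 1 ρ, ω t * psExt v (F.pt t y) ^ 2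
      ≤ 2 / δ * (∑ t ∈ Finset.Icc 1 ρ, ω t) * ∑ y ∈ Finset.range len, ∑ τ ∈ Finset.range δ, psExt v (F.pt (-(τ : ℤ)) y) ^ 2
        + 2 * (∑ t ∈ Finset.Icc 1 ρ, ω t * ((t : ℝ) + δ)) * HLaw.en v 0 := by
  have h1 : ∀ y ∈ Finset.range len, _ := fun y _ =>
    ps_line (fun s => psExt v (F.pt s y)) ω hω δ ρ hδ
  refine (Finset.sum_le_sum h1).trans ?_
  rw [Finset.sum_add_distrib, ← Finset.mul_sum, ← Finset.mul_sum]
  have hc : 0 ≤ 2 * ∑ t ∈ Finset.Icc 1 ρ, ω t * ((t : ℝ) + δ) :=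
    mul_nonneg (by norm_num) (Finset.sum_nonneg fun t _ => mul_nonneg (hω t) (by positivity))
  refine add_le_add le_rfl (mul_le_mul_of_nonneg_left ?_ hc)
  have h2 := ps_en_family v (Finset.range len ×ˢ Finset.Ico (-(δ : ℤ) + 1) (ρ : ℤ))
    (fun p => F.pt p.2 p.1) (fun _ => F.e₁) (fun _ _ => ps_ln_unit₁ hF)
    (fun p hp => hl p.1 (Finset.mem_product.1 hp).1 p.2 (Finset.mem_product.1 hp).2)
    (fun p _ p' _ h => by
      obtain ⟨e1, e2⟩ := ps_ln_pt_inj hF (ps_ln_bond_inj h)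
      exact Prod.ext (by exact_mod_cast e2) e1)
  rw [Finset.sum_product] at h2
  refine le_trans (le_of_eq ?_) h2
  refine Finset.sum_congr rfl fun y _ => Finset.sum_congr rfl fun s _ => ?_
  simp only [ps_ln_pt_succ₁]

/-- L-PS-FR2: **corner frame**.  From `ps_corner`, `ps_en_family` (the bonds of the rows and of the columns are distinct). -/
theorem ps_frame_corner (v : (domG D cut).V → ℝ) (F : PsFrame) (hF : F.Ok) (δ ρ : ℕ) (hδ : 1 ≤ δ) (hρ : δ ≤ ρ)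
    (hl1 : ∀ j ∈ Finset.Icc (1 : ℤ) ρ, ∀ s ∈ Finset.Ico (1 - (ρ : ℤ)) (ρ : ℤ), psLinked D cut (F.pt s j) F.e₁)
    (hl2 : ∀ c ∈ Finset.Icc (1 - (ρ : ℤ)) 0, ∀ s ∈ Finset.Ico (-(δ : ℤ) + 1) (ρ : ℤ), psLinked D cut (F.pt c s) F.e₂)
    (ω : ℕ → ℝ) (hω : ∀ t, 0 ≤ ω t) {WE Wc : ℝ}
    (h1 : ∀ j ∈ Finset.Icc 1 ρ, ∑ i ∈ Finset.Icc 1 ρ, ω (max i j) * (((max i j : ℕ) : ℝ) + δ) ≤ WE)
    (h2 : ∀ j ∈ Finset.Icc 1 ρ, ∑ i ∈ Finset.Icc 1 ρ, ω (max i j) ≤ Wc) :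
    ∑ i ∈ Finset.Icc 1 ρ, ∑ j ∈ Finset.Icc 1 ρ, ω (max i j) * psExt v (F.pt (i : ℤ) (j : ℤ)) ^ 2
      ≤ 3 * Wc / δ * ∑ c ∈ Finset.Icc (1 - (ρ : ℤ)) 0, ∑ τ ∈ Finset.range δ, psExt v (F.pt c (-(τ : ℤ))) ^ 2
        + 6 * WE * HLaw.en v 0 := by
  have hWE : 0 ≤ WE := by
    refine le_trans ?_ (h1 1 (Finset.mem_Icc.2 ⟨le_rfl, hδ.trans hρ⟩))
    exact Finset.sum_nonneg fun i _ => mul_nonneg (hω _) (by positivity)
  refine (ps_corner (fun i j => psExt v (F.pt i j)) ω hω δ ρ hδ h1 h2).trans ?_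
  -- the reference term
  have hre : ∑ j ∈ Finset.Icc 1 ρ, ∑ τ ∈ Finset.range δ, psExt v (F.pt (1 - (j : ℤ)) (-(τ : ℤ))) ^ 2 =
      ∑ c ∈ Finset.Icc (1 - (ρ : ℤ)) 0, ∑ τ ∈ Finset.range δ, psExt v (F.pt c (-(τ : ℤ))) ^ 2 := by
    refine Finset.sum_bij (fun j _ => 1 - (j : ℤ)) ?_ ?_ ?_ ?_
    · intro j hj
      rw [Finset.mem_Icc] at hj ⊢
      omega
    · intro j _ j' _ h
      omega
    · intro c hc
      rw [Finset.mem_Icc] at hc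
      refine ⟨(1 - c).toNat, ?_, ?_⟩
      · rw [Finset.mem_Icc]; omega
      · omega
    · intro j _
      rfl
  rw [hre, add_assoc]
  refine add_le_add le_rfl ?_
  -- the two families of bonds
  have hfam := ps_en_family v
    ((Finset.Icc 1 ρ ×ˢ Finset.Ico (1 - (ρ : ℤ)) (ρ : ℤ)).disjSum
      (Finset.Icc 1 ρ ×ˢ Finset.Ico (-(δ : ℤ) + 1) (ρ : ℤ)))
    (Sum.elim (fun p : ℕ × ℤ => F.pt p.2 p.1) (fun p : ℕ × ℤ => F.pt (1 - (p.1 : ℤ)) p.2))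
    (Sum.elim (fun _ => F.e₁) (fun _ => F.e₂))
    (by
      rintro (p | p) _
      · exact ps_ln_unit₁ hF
      · exact ps_ln_unit₂ hF)
    (by
      rintro (p | p) hp
      · rw [Finset.inl_mem_disjSum, Finset.mem_product, Finset.mem_Icc] at hp
        exact hl1 p.1 (Finset.mem_Icc.2 (by omega)) p.2 hp.2
      · rw [Finset.inr_mem_disjSum, Finset.mem_product, Finset.mem_Icc] at hp
        exact hl2 _ (Finset.mem_Icc.2 (by omega)) p.2 hp.2)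
    (by
      rintro (p | p) _ (p' | p') _ h
      · obtain ⟨e1, e2⟩ := ps_ln_pt_inj hF (ps_ln_bond_inj h)
        exact congrArg Sum.inl (Prod.ext (by exact_mod_cast e2) e1)
      · exact absurd h (ps_ln_bond_ne hF _ _)
      · exact absurd h.symm (ps_ln_bond_ne hF _ _)
      · obtain ⟨e1, e2⟩ := ps_ln_pt_inj hF (ps_ln_bond_inj h)
        exact congrArg Sum.inr (Prod.ext (by omega) e2))
  rw [Finset.sum_disjSum, Finset.sum_product, Finset.sum_product] at hfam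
  simp only [Sum.elim_inl, Sum.elim_inr, ← ps_ln_pt_succ₁, ← ps_ln_pt_succ₂] at hfam
  have hE1 : 0 ≤ ∑ j ∈ Finset.Icc 1 ρ, ∑ s ∈ Finset.Ico (1 - (ρ : ℤ)) (ρ : ℤ),
      (psExt v (F.pt (s + 1) (j : ℤ)) - psExt v (F.pt s (j : ℤ))) ^ 2 :=
    Finset.sum_nonneg fun _ _ => Finset.sum_nonneg fun _ _ => sq_nonneg _
  have hE2 : 0 ≤ ∑ j ∈ Finset.Icc 1 ρ, ∑ s ∈ Finset.Ico (-(δ : ℤ) + 1) (ρ : ℤ),
      (psExt v (F.pt (1 - (j : ℤ)) (s + 1)) - psExt v (F.pt (1 - (j : ℤ)) s)) ^ 2 :=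
    Finset.sum_nonneg fun _ _ => Finset.sum_nonneg fun _ _ => sq_nonneg _
  nlinarith [mul_le_mul_of_nonneg_left hfam hWE, mul_nonneg hWE hE2, mul_nonneg hWE hE1]

/-! ## 4. boxes -/

/-- the variance as a double sum -/
theorem ps_ln_var {α : Type} (S : Finset α) (f : α → ℝ) :
    2 * (S.card : ℝ) * ∑ z ∈ S, (f z - (S.card : ℝ)⁻¹ * ∑ z' ∈ S, f z') ^ 2 =
      ∑ z ∈ S, ∑ z' ∈ S, (f z - f z') ^ 2 := by
  rcases S.eq_empty_or_nonempty with rfl | hS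
  · simp
  have hN : (S.card : ℝ) ≠ 0 := by exact_mod_cast hS.card_pos.ne'
  obtain ⟨T, hT⟩ : ∃ T, T = ∑ z' ∈ S, f z' := ⟨_, rfl⟩
  obtain ⟨Q, hQ⟩ : ∃ Q, Q = ∑ z' ∈ S, f z' ^ 2 := ⟨_, rfl⟩
  rw [← hT]
  have h1 : ∑ z ∈ S, (f z - (S.card : ℝ)⁻¹ * T) ^ 2 =
      Q - 2 * ((S.card : ℝ)⁻¹ * T) * T + S.card * ((S.card : ℝ)⁻¹ * T) ^ 2 := by
    have : ∀ z, (f z - (S.card : ℝ)⁻¹ * T) ^ 2 =
        f z ^ 2 - 2 * ((S.card : ℝ)⁻¹ * T) * f z + ((S.card : ℝ)⁻¹ * T) ^ 2 := fun z => by ring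
    simp only [this, Finset.sum_add_distrib, Finset.sum_sub_distrib, ← Finset.mul_sum,
      Finset.sum_const, nsmul_eq_mul, ← hT, ← hQ]
  have h2 : ∑ z ∈ S, ∑ z' ∈ S, (f z - f z') ^ 2 = 2 * S.card * Q - 2 * T ^ 2 := by
    have : ∀ z z', (f z - f z') ^ 2 = f z ^ 2 - 2 * f z * f z' + f z' ^ 2 := fun z z' => by ring
    simp only [this, Finset.sum_add_distrib, Finset.sum_sub_distrib, ← Finset.mul_sum,
      ← Finset.sum_mul, Finset.sum_const, nsmul_eq_mul, ← hT, ← hQ]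
    ring
  rw [h1, h2]
  field_simp
  ring

theorem ps_ln_seg_sym (w : ℤ → ℝ) {x x' a' b' : ℤ} (h1 : a' ≤ x) (h2 : x ≤ b') (h3 : a' ≤ x')
    (h4 : x' ≤ b') {L : ℝ} (hL : ((b' - a' : ℤ) : ℝ) ≤ L) :
    (w x - w x') ^ 2 ≤ L * ∑ s ∈ Finset.Ico a' b', (w (s + 1) - w s) ^ 2 := by
  rcases le_total x x' with h | h
  · have h5 : ((x' - x : ℤ) : ℝ) ≤ ((b' - a' : ℤ) : ℝ) := by exact_mod_cast (by omega)
    have := ps_ln_seg' w h h1 h4 (L := L) (h5.trans hL)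
    calc (w x - w x') ^ 2 = (w x' - w x) ^ 2 := by ring
      _ ≤ _ := this
  · have h5 : ((x - x' : ℤ) : ℝ) ≤ ((b' - a' : ℤ) : ℝ) := by exact_mod_cast (by omega)
    exact ps_ln_seg' w h h3 h2 (h5.trans hL)

/-- the bonds of a box -/
theorem ps_ln_box_bonds (a c : ℤ) (p q : ℕ) (u : ℤ × ℤ → ℝ) :
    ∑ y ∈ Finset.Ico c (c + q), ∑ t ∈ Finset.Ico a (a + p - 1), (u (t + 1, y) - u (t, y)) ^ 2 +
      ∑ x ∈ Finset.Ico a (a + p), ∑ t ∈ Finset.Ico c (c + q - 1), (u (x, t + 1) - u (x, t)) ^ 2 ≤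
    ∑ e ∈ domBonds (Finset.Ico a (a + p) ×ˢ Finset.Ico c (c + q)) ∅, (u e.snd - u e.1) ^ 2 := by
  have hinj : ∀ i ∈ (Finset.Ico c (c + q) ×ˢ Finset.Ico a (a + p - 1)).disjSum
      (Finset.Ico a (a + p) ×ˢ Finset.Ico c (c + q - 1)),
      ∀ j ∈ (Finset.Ico c (c + q) ×ˢ Finset.Ico a (a + p - 1)).disjSum
      (Finset.Ico a (a + p) ×ˢ Finset.Ico c (c + q - 1)),
      (Sum.elim (fun z : ℤ × ℤ => (((z.2, z.1), true) : Bond)) (fun z : ℤ × ℤ => ((z, false) : Bond))) i =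
      (Sum.elim (fun z : ℤ × ℤ => (((z.2, z.1), true) : Bond)) (fun z : ℤ × ℤ => ((z, false) : Bond))) j →
      i = j := by
    rintro (⟨i1, i2⟩ | i) _ (⟨j1, j2⟩ | j) _ h
    · simp only [Sum.elim_inl, Prod.mk.injEq, and_true] at h
      rw [h.1, h.2]
    · simp at h
    · simp at h
    · simp only [Sum.elim_inr, Prod.mk.injEq, and_true] at h
      rw [h]
  have h1 := Finset.sum_image (f := fun e : Bond => (u e.snd - u e.1) ^ 2) hinj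
  rw [Finset.sum_disjSum, Finset.sum_product, Finset.sum_product] at h1
  simp only [Sum.elim_inl, Sum.elim_inr, Bond.snd, if_true, Bool.false_eq_true, if_false] at h1
  rw [← h1]
  refine Finset.sum_le_sum_of_subset_of_nonneg ?_ fun _ _ _ => sq_nonneg _
  intro e he
  obtain ⟨i, hi, rfl⟩ := Finset.mem_image.1 he
  rcases i with ⟨i1, i2⟩ | ⟨i1, i2⟩
  · rw [Finset.inl_mem_disjSum, Finset.mem_product, Finset.mem_Ico, Finset.mem_Ico] at hi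
    simp only [Sum.elim_inl, domBonds, Finset.mem_filter, Finset.mem_product, Finset.mem_univ,
      and_true, Finset.mem_Ico, Bond.snd, if_true, Set.mem_empty_iff_false, not_false_eq_true]
    omega
  · rw [Finset.inr_mem_disjSum, Finset.mem_product, Finset.mem_Ico, Finset.mem_Ico] at hi
    simp only [Sum.elim_inr, domBonds, Finset.mem_filter, Finset.mem_product, Finset.mem_univ,
      and_true, Finset.mem_Ico, Bond.snd, Bool.false_eq_true, if_false, Set.mem_empty_iff_false,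
      not_false_eq_true]
    omega

/-- L-PS-BOX (Mathlib only): **Poincare inequality on a box**, constant one.
`∑ (u - ū)² = (2N)⁻¹ ∑_{x,y} (u x - u y)²`, path = row of `x`, then column of `y`. -/
theorem ps_box_poincare (b : PsBox) (u : ℤ × ℤ → ℝ) (s : ℕ) (hp : b.p ≤ s) (hq : b.q ≤ s) :
    ∑ z ∈ b.set, (u z - ∑ z' ∈ b.set, psAvg b.set z' * u z') ^ 2
      ≤ (s : ℝ) ^ 2 * ∑ e ∈ domBonds b.set ∅, (u e.snd - u e.1) ^ 2 := by
  obtain ⟨⟨a, c⟩, p, q⟩ := b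
  simp only at hp hq
  obtain ⟨S, hS⟩ : ∃ S, S = Finset.Ico a (a + p) ×ˢ Finset.Ico c (c + q) := ⟨_, rfl⟩
  have hS' : (PsBox.mk (a, c) p q).set = S := hS.symm
  rw [hS']
  rcases S.eq_empty_or_nonempty with h0 | hne
  · rw [h0, Finset.sum_empty]
    exact mul_nonneg (sq_nonneg _) (Finset.sum_nonneg fun _ _ => sq_nonneg _)
  have hN : (0 : ℝ) < S.card := by exact_mod_cast hne.card_pos
  have havg : ∑ z' ∈ S, psAvg S z' * u z' = (S.card : ℝ)⁻¹ * ∑ z' ∈ S, u z' := by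
    rw [Finset.mul_sum]
    exact Finset.sum_congr rfl fun z hz => by simp [psAvg, hz]
  rw [havg]
  have hvar := ps_ln_var S u
  obtain ⟨H, hH⟩ : ∃ H : ℤ → ℝ, ∀ y, H y =
      ∑ t ∈ Finset.Ico a (a + p - 1), (u (t + 1, y) - u (t, y)) ^ 2 := ⟨_, fun _ => rfl⟩
  obtain ⟨V, hV⟩ : ∃ V : ℤ → ℝ, ∀ x, V x =
      ∑ t ∈ Finset.Ico c (c + q - 1), (u (x, t + 1) - u (x, t)) ^ 2 := ⟨_, fun _ => rfl⟩
  have hpair : ∀ z ∈ S, ∀ z' ∈ S, (u z - u z') ^ 2 ≤ 2 * p * H z.2 + 2 * q * V z'.1 := by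
    rintro ⟨x, y⟩ hz ⟨x', y'⟩ hz'
    rw [hS, Finset.mem_product, Finset.mem_Ico, Finset.mem_Ico] at hz hz'
    simp only at hz hz'
    have e1 : (u (x, y) - u (x', y)) ^ 2 ≤ p * H y := by
      rw [hH]
      refine ps_ln_seg_sym (fun t => u (t, y)) (x := x) (x' := x') (by omega) (by omega) (by omega)
        (by omega) ?_
      push_cast; linarith
    have e2 : (u (x', y) - u (x', y')) ^ 2 ≤ q * V x' := by
      rw [hV]
      refine ps_ln_seg_sym (fun t => u (x', t)) (x := y) (x' := y') (by omega) (by omega) (by omega)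
        (by omega) ?_
      push_cast; linarith
    have e3 : (u (x, y) - u (x', y')) ^ 2 ≤
        2 * (u (x, y) - u (x', y)) ^ 2 + 2 * (u (x', y) - u (x', y')) ^ 2 := by
      nlinarith [sq_nonneg ((u (x, y) - u (x', y)) - (u (x', y) - u (x', y')))]
    simp only
    linarith
  have hsum : ∑ z ∈ S, ∑ z' ∈ S, (u z - u z') ^ 2 ≤
      ∑ z ∈ S, ∑ z' ∈ S, (2 * p * H z.2 + 2 * q * V z'.1) :=
    Finset.sum_le_sum fun z hz => Finset.sum_le_sum fun z' hz' => hpair z hz z' hz'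
  have hHs : ∑ z ∈ S, H z.2 = p * ∑ y ∈ Finset.Ico c (c + q), H y := by
    rw [hS, Finset.sum_product]
    simp only
    rw [Finset.sum_const, Int.card_Ico, nsmul_eq_mul]
    simp
  have hVs : ∑ z ∈ S, V z.1 = q * ∑ x ∈ Finset.Ico a (a + p), V x := by
    rw [hS, Finset.sum_product, Finset.mul_sum]
    refine Finset.sum_congr rfl fun x _ => ?_
    simp only
    rw [Finset.sum_const, Int.card_Ico, nsmul_eq_mul]
    simp
  have hexp : ∑ z ∈ S, ∑ z' ∈ S, (2 * p * H z.2 + 2 * q * V z'.1) =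
      2 * S.card * ((p : ℝ) ^ 2 * ∑ y ∈ Finset.Ico c (c + q), H y +
        (q : ℝ) ^ 2 * ∑ x ∈ Finset.Ico a (a + p), V x) := by
    simp only [Finset.sum_add_distrib, Finset.sum_const, nsmul_eq_mul, ← Finset.mul_sum, hHs, hVs]
    ring
  have hb := ps_ln_box_bonds a c p q u
  simp only [← hH, ← hV] at hb
  rw [← hS] at hb
  have hH0 : 0 ≤ ∑ y ∈ Finset.Ico c (c + q), H y :=
    Finset.sum_nonneg fun y _ => by rw [hH]; exact Finset.sum_nonneg fun _ _ => sq_nonneg _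
  have hV0 : 0 ≤ ∑ x ∈ Finset.Ico a (a + p), V x :=
    Finset.sum_nonneg fun y _ => by rw [hV]; exact Finset.sum_nonneg fun _ _ => sq_nonneg _
  have hps : (p : ℝ) ^ 2 ≤ (s : ℝ) ^ 2 := by
    have : (p : ℝ) ≤ s := by exact_mod_cast hp
    exact pow_le_pow_left₀ (by positivity) this 2
  have hqs : (q : ℝ) ^ 2 ≤ (s : ℝ) ^ 2 := by
    have : (q : ℝ) ≤ s := by exact_mod_cast hq
    exact pow_le_pow_left₀ (by positivity) this 2
  have hfin : 2 * (S.card : ℝ) * ∑ z ∈ S, (u z - (S.card : ℝ)⁻¹ * ∑ z' ∈ S, u z') ^ 2 ≤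
      2 * (S.card : ℝ) * ((s : ℝ) ^ 2 * ∑ e ∈ domBonds S ∅, (u e.snd - u e.1) ^ 2) := by
    rw [hvar]
    refine hsum.trans ?_
    rw [hexp]
    refine mul_le_mul_of_nonneg_left ?_ (by positivity)
    calc (p : ℝ) ^ 2 * ∑ y ∈ Finset.Ico c (c + q), H y + (q : ℝ) ^ 2 * ∑ x ∈ Finset.Ico a (a + p), V x
        ≤ (s : ℝ) ^ 2 * ∑ y ∈ Finset.Ico c (c + q), H y + (s : ℝ) ^ 2 * ∑ x ∈ Finset.Ico a (a + p), V x :=
          add_le_add (mul_le_mul_of_nonneg_right hps hH0) (mul_le_mul_of_nonneg_right hqs hV0)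
      _ = (s : ℝ) ^ 2 * (∑ y ∈ Finset.Ico c (c + q), H y + ∑ x ∈ Finset.Ico a (a + p), V x) := by ring
      _ ≤ _ := mul_le_mul_of_nonneg_left hb (sq_nonneg _)
  exact le_of_mul_le_mul_left hfin (by positivity)

end

end Claimed.Agent.R285.Pot
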