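import Claimed.Agent.R285.Pot.StripId

/-!
# ROW 285, POT-STRIP block 2 : logarithmic cutoffs on any graph (owner helper53).   Paper-free.

`φ = psLcut δ ρ ∘ d`, `d` a layer function.  With `L = log (ρ/δ)`:  `∑_e v_x v_y (∇_e φ)² ≤ (2Δ/L²) psHardy d δ ρ v`  (`ps_lcut_grad`).
Rows: the added rows supported in `{φ = 1}` drop out of `psCutErr` (`ps_cutErr_add`); the other rows are estimated by Cauchy-Schwarz (`ps_cutErr_rows`).
`ps_collar_abs` = the abstract soft -> hard estimate used by `Strip.lean`.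
-/

set_option autoImplicit false

namespace Claimed.Agent.R285.Pot

open scoped Classical

noncomputable section

/-! ## 1. the function `psLcut` -/

theorem ps_lcut_one {δ ρ t : ℕ} (h : t ≤ δ) : psLcut δ ρ t = 1 := by simp [psLcut, h]

theorem ps_lcut_zero {δ ρ t : ℕ} (hδ : δ < ρ) (h : ρ ≤ t) : psLcut δ ρ t = 0 := by
  have : ¬ t ≤ δ := by omega
  simp [psLcut, this, h]


theorem ps_lcut_logpos {δ ρ : ℕ} (h1 : 1 ≤ δ) (h2 : δ < ρ) : 0 < Real.log ((ρ : ℝ) / δ) := by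
  have hδ : (0 : ℝ) < δ := by exact_mod_cast h1
  have h : (δ : ℝ) < ρ := by exact_mod_cast h2
  exact Real.log_pos ((one_lt_div hδ).2 h)

theorem ps_lcut_eq {δ ρ : ℕ} (h1 : 1 ≤ δ) (h2 : δ < ρ) {t : ℕ} (ht1 : δ ≤ t) (ht2 : t ≤ ρ) :
    psLcut δ ρ t = Real.log ((ρ : ℝ) / t) / Real.log ((ρ : ℝ) / δ) := by
  have hL := ps_lcut_logpos h1 h2
  rcases Nat.eq_or_lt_of_le ht1 with rfl | h
  · rw [ps_lcut_one le_rfl, div_self hL.ne']
  rcases Nat.eq_or_lt_of_le ht2 with rfl | h'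
  · have hρ : (t : ℝ) ≠ 0 := by
      have : 0 < t := by omega
      exact_mod_cast this.ne'
    rw [ps_lcut_zero h2 le_rfl, div_self hρ, Real.log_one, zero_div]
  · have a1 : ¬ t ≤ δ := by omega
    have a2 : ¬ ρ ≤ t := by omega
    simp [psLcut, a1, a2]

/-- LEAF L-PS-LOG1 -/
theorem ps_lcut_mem {δ ρ : ℕ} (h1 : 1 ≤ δ) (h2 : δ < ρ) (t : ℕ) : 0 ≤ psLcut δ ρ t ∧ psLcut δ ρ t ≤ 1 := by

  have hL := ps_lcut_logpos h1 h2
  rcases Nat.lt_or_ge t δ with h | h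
  · rw [ps_lcut_one h.le]; exact ⟨zero_le_one, le_rfl⟩
  rcases Nat.lt_or_ge ρ t with h' | h'
  · rw [ps_lcut_zero h2 h'.le]; exact ⟨le_rfl, zero_le_one⟩
  rw [ps_lcut_eq h1 h2 h h']
  have hδ : (0 : ℝ) < δ := by exact_mod_cast h1
  have ht : (0 : ℝ) < t := lt_of_lt_of_le hδ (by exact_mod_cast h)
  have hρ : (0 : ℝ) < ρ := lt_of_lt_of_le ht (by exact_mod_cast h')
  have htρ : (t : ℝ) ≤ ρ := by exact_mod_cast h'
  have hδt : (δ : ℝ) ≤ t := by exact_mod_cast h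
  constructor
  · exact div_nonneg (Real.log_nonneg ((one_le_div ht).2 htρ)) hL.le
  · rw [div_le_one hL]
    exact Real.log_le_log (div_pos hρ ht) (div_le_div_of_nonneg_left hρ.le hδ hδt)

/-- LEAF L-PS-LOG1: one step of the logarithmic cutoff (`log ((t+1)/t) ≤ 1/t`) -/
theorem ps_lcut_step {δ ρ : ℕ} (h1 : 1 ≤ δ) (h2 : δ < ρ) (t : ℕ) :
    |psLcut δ ρ (t + 1) - psLcut δ ρ t| ≤ if δ ≤ t ∧ t + 1 ≤ ρ then 1 / ((t : ℝ) * Real.log ((ρ : ℝ) / δ)) else 0 := by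

  have hL := ps_lcut_logpos h1 h2
  by_cases hc : δ ≤ t ∧ t + 1 ≤ ρ
  · rw [if_pos hc]
    obtain ⟨c1, c2⟩ := hc
    rw [ps_lcut_eq h1 h2 (by omega) c2, ps_lcut_eq h1 h2 c1 (by omega)]
    have hδ : (0 : ℝ) < δ := by exact_mod_cast h1
    have ht : (0 : ℝ) < t := lt_of_lt_of_le hδ (by exact_mod_cast c1)
    have ht1 : (0 : ℝ) < ((t + 1 : ℕ) : ℝ) := by positivity
    have hρ : (0 : ℝ) < ρ := lt_of_lt_of_le ht1 (by exact_mod_cast c2)
    rw [Real.log_div hρ.ne' ht1.ne', Real.log_div hρ.ne' ht.ne', ← sub_div, abs_div, abs_of_pos hL,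
      one_div, mul_inv, ← div_eq_mul_inv]
    apply div_le_div_of_nonneg_right _ hL.le
    have e : Real.log ρ - Real.log ((t + 1 : ℕ) : ℝ) - (Real.log ρ - Real.log t)
        = - Real.log (((t + 1 : ℕ) : ℝ) / t) := by
      rw [Real.log_div ht1.ne' ht.ne']; ring
    rw [e, abs_neg]
    have hq : (1 : ℝ) ≤ ((t + 1 : ℕ) : ℝ) / t := by
      rw [one_le_div ht]; push_cast; linarith
    rw [abs_of_nonneg (Real.log_nonneg hq)]
    have := Real.log_le_sub_one_of_pos (lt_of_lt_of_le one_pos hq)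
    have e2 : ((t + 1 : ℕ) : ℝ) / t - 1 = (t : ℝ)⁻¹ := by
      push_cast; field_simp; ring
    linarith
  · rw [if_neg hc]
    rcases Nat.lt_or_ge t δ with h | h
    · rw [ps_lcut_one (by omega : t + 1 ≤ δ), ps_lcut_one h.le]; simp
    · have : ρ ≤ t := by
        by_contra h'
        exact hc ⟨h, by omega⟩
      rw [ps_lcut_zero h2 (by omega : ρ ≤ t + 1), ps_lcut_zero h2 this]; simp

variable {G : HGraph} (H : HLaw G)


theorem ps_lcut_edge {δ ρ : ℕ} (h1 : 1 ≤ δ) (h2 : δ < ρ) (t : ℕ) (a b : ℝ) :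
    a * b * (psLcut δ ρ (t + 1) - psLcut δ ρ t) ^ 2 ≤ 2 / Real.log ((ρ : ℝ) / δ) ^ 2 *
      ((if δ ≤ t ∧ t ≤ ρ then a ^ 2 / (t : ℝ) ^ 2 else 0) + (if δ ≤ t + 1 ∧ t + 1 ≤ ρ then b ^ 2 / ((t + 1 : ℕ) : ℝ) ^ 2 else 0)) := by
  have hL := ps_lcut_logpos h1 h2
  have hs := ps_lcut_step h1 h2 t
  by_cases hc : δ ≤ t ∧ t + 1 ≤ ρ
  · rw [if_pos hc] at hs
    obtain ⟨c1, c2⟩ := hc
    rw [if_pos ⟨c1, by omega⟩, if_pos ⟨by omega, c2⟩]
    have ht1 : (1 : ℝ) ≤ t := by exact_mod_cast (le_trans h1 c1)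
    have ht : (0 : ℝ) < t := by linarith
    set L := Real.log ((ρ : ℝ) / δ) with hLdef
    set D := psLcut δ ρ (t + 1) - psLcut δ ρ t with hD
    have hD2 : D ^ 2 ≤ 1 / ((t : ℝ) ^ 2 * L ^ 2) := by
      have : D ^ 2 ≤ (1 / ((t : ℝ) * L)) ^ 2 := by
        rw [← sq_abs D]
        exact pow_le_pow_left₀ (abs_nonneg _) hs 2
      calc D ^ 2 ≤ (1 / ((t : ℝ) * L)) ^ 2 := this
        _ = 1 / ((t : ℝ) ^ 2 * L ^ 2) := by rw [div_pow, one_pow, mul_pow]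
    have hab : a * b ≤ (a ^ 2 + b ^ 2) / 2 := by nlinarith [sq_nonneg (a - b)]
    have hab0 : 0 ≤ (a ^ 2 + b ^ 2) / 2 := by positivity
    have s1 : a * b * D ^ 2 ≤ (a ^ 2 + b ^ 2) / 2 * (1 / ((t : ℝ) ^ 2 * L ^ 2)) :=
      le_trans (mul_le_mul_of_nonneg_right hab (sq_nonneg D)) (mul_le_mul_of_nonneg_left hD2 hab0)
    refine le_trans s1 ?_
    have hb4 : b ^ 2 / (t : ℝ) ^ 2 ≤ 4 * (b ^ 2 / ((t + 1 : ℕ) : ℝ) ^ 2) := by
      have ht1' : (0 : ℝ) < ((t + 1 : ℕ) : ℝ) := by positivity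
      rw [← mul_div_assoc, div_le_div_iff₀ (by positivity) (by positivity)]
      push_cast
      have : ((t : ℝ) + 1) ^ 2 ≤ 4 * (t : ℝ) ^ 2 := by nlinarith
      nlinarith [sq_nonneg b]
    have ha0 : 0 ≤ a ^ 2 / (t : ℝ) ^ 2 := by positivity
    have e1 : (a ^ 2 + b ^ 2) / 2 * (1 / ((t : ℝ) ^ 2 * L ^ 2)) = 1 / L ^ 2 * ((a ^ 2 / (t : ℝ) ^ 2 + b ^ 2 / (t : ℝ) ^ 2) / 2) := by
      field_simp
    have e2 : 2 / L ^ 2 * (a ^ 2 / (t : ℝ) ^ 2 + b ^ 2 / ((t + 1 : ℕ) : ℝ) ^ 2)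
        = 1 / L ^ 2 * (2 * (a ^ 2 / (t : ℝ) ^ 2 + b ^ 2 / ((t + 1 : ℕ) : ℝ) ^ 2)) := by ring
    rw [e1, e2]
    apply mul_le_mul_of_nonneg_left _ (by positivity)
    linarith
  · rw [if_neg hc] at hs
    have : psLcut δ ρ (t + 1) - psLcut δ ρ t = 0 := abs_nonpos_iff.1 hs
    rw [this]
    have : 0 ≤ 2 / Real.log ((ρ : ℝ) / δ) ^ 2 *
      ((if δ ≤ t ∧ t ≤ ρ then a ^ 2 / (t : ℝ) ^ 2 else 0) + (if δ ≤ t + 1 ∧ t + 1 ≤ ρ then b ^ 2 / ((t + 1 : ℕ) : ℝ) ^ 2 else 0)) := by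
      apply mul_nonneg (by positivity)
      apply add_nonneg <;> split_ifs <;> positivity
    simpa using this

theorem ps_sum_src {G : HGraph} (h : G.V → ℝ) :
    ∑ e, h (G.src e) = ∑ x, ((Finset.univ.filter fun e : G.E => G.src e = x).card : ℝ) * h x := by
  have : ∀ e : G.E, h (G.src e) = ∑ x, if G.src e = x then h x else 0 := by
    intro e; simp
  simp_rw [this]
  rw [Finset.sum_comm]
  refine Finset.sum_congr rfl fun x _ => ?_
  rw [← Finset.sum_filter, Finset.sum_const, nsmul_eq_mul]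

theorem ps_sum_tgt {G : HGraph} (h : G.V → ℝ) :
    ∑ e, h (G.tgt e) = ∑ x, ((Finset.univ.filter fun e : G.E => G.tgt e = x).card : ℝ) * h x := by
  have : ∀ e : G.E, h (G.tgt e) = ∑ x, if G.tgt e = x then h x else 0 := by
    intro e; simp
  simp_rw [this]
  rw [Finset.sum_comm]
  refine Finset.sum_congr rfl fun x _ => ?_
  rw [← Finset.sum_filter, Finset.sum_const, nsmul_eq_mul]

/-- LEAF L-PS-LOG2: the gradient term of `psCutErr` for the logarithmic cutoff.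
Edge with layers `{t, t+1}`, `δ ≤ t`, `t + 1 ≤ ρ`: `|v_x v_y| (∇φ)² ≤ (v_x² + v_y²)/(2 t² L²) ≤ (2/L²)(v_x²/d_x² + v_y²/d_y²)`; every vertex lies on at most `Δ` edges. -/
theorem ps_lcut_grad {Δ : ℕ} (hG : psDeg G Δ) {d : G.V → ℕ} (hd : psLayer d) {δ ρ : ℕ} (h1 : 1 ≤ δ) (h2 : δ < ρ) (v : G.V → ℝ) :
    ∑ e, v (G.src e) * v (G.tgt e) * plGrad (fun x => psLcut δ ρ (d x)) e ^ 2
      ≤ 2 * Δ / Real.log ((ρ : ℝ) / δ) ^ 2 * psHardy d δ ρ v := by

  have hL := ps_lcut_logpos h1 h2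
  set hh : G.V → ℝ := fun x => if δ ≤ d x ∧ d x ≤ ρ then v x ^ 2 / (d x : ℝ) ^ 2 else 0 with hhdef
  have hh0 : ∀ x, 0 ≤ hh x := by
    intro x; simp only [hhdef]; split_ifs <;> positivity
  have hC : 0 ≤ 2 / Real.log ((ρ : ℝ) / δ) ^ 2 := by positivity
  have hedge : ∀ e, v (G.src e) * v (G.tgt e) * plGrad (fun x => psLcut δ ρ (d x)) e ^ 2
      ≤ 2 / Real.log ((ρ : ℝ) / δ) ^ 2 * (hh (G.src e) + hh (G.tgt e)) := by
    intro e
    obtain ⟨e1, e2⟩ := hd e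
    simp only [plGrad]
    rcases Nat.lt_trichotomy (d (G.src e)) (d (G.tgt e)) with h | h | h
    · have : d (G.tgt e) = d (G.src e) + 1 := by omega
      have := ps_lcut_edge h1 h2 (d (G.src e)) (v (G.src e)) (v (G.tgt e))
      simp only [hhdef]
      rw [‹d (G.tgt e) = d (G.src e) + 1›]
      exact this
    · rw [h]
      have : 0 ≤ 2 / Real.log ((ρ : ℝ) / δ) ^ 2 * (hh (G.src e) + hh (G.tgt e)) :=
        mul_nonneg hC (add_nonneg (hh0 _) (hh0 _))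
      simpa using this
    · have hq : d (G.src e) = d (G.tgt e) + 1 := by omega
      have := ps_lcut_edge h1 h2 (d (G.tgt e)) (v (G.tgt e)) (v (G.src e))
      simp only [hhdef]
      rw [hq]
      calc v (G.src e) * v (G.tgt e) * (psLcut δ ρ (d (G.tgt e)) - psLcut δ ρ (d (G.tgt e) + 1)) ^ 2
          = v (G.tgt e) * v (G.src e) * (psLcut δ ρ (d (G.tgt e) + 1) - psLcut δ ρ (d (G.tgt e))) ^ 2 := by ring
        _ ≤ _ := this
        _ = _ := by rw [add_comm]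
  calc ∑ e, v (G.src e) * v (G.tgt e) * plGrad (fun x => psLcut δ ρ (d x)) e ^ 2
      ≤ ∑ e, 2 / Real.log ((ρ : ℝ) / δ) ^ 2 * (hh (G.src e) + hh (G.tgt e)) := Finset.sum_le_sum fun e _ => hedge e
    _ = 2 / Real.log ((ρ : ℝ) / δ) ^ 2 * ∑ x, (((Finset.univ.filter fun e : G.E => G.src e = x).card
          + (Finset.univ.filter fun e : G.E => G.tgt e = x).card : ℕ) : ℝ) * hh x := by
        rw [← Finset.mul_sum, Finset.sum_add_distrib, ps_sum_src, ps_sum_tgt, ← Finset.sum_add_distrib]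
        congr 1
        refine Finset.sum_congr rfl fun x _ => ?_
        push_cast; ring
    _ ≤ 2 / Real.log ((ρ : ℝ) / δ) ^ 2 * ∑ x, (Δ : ℝ) * hh x := by
        apply mul_le_mul_of_nonneg_left _ hC
        refine Finset.sum_le_sum fun x _ => mul_le_mul_of_nonneg_right ?_ (hh0 x)
        exact_mod_cast hG x
    _ = 2 * Δ / Real.log ((ρ : ℝ) / δ) ^ 2 * psHardy d δ ρ v := by
        rw [← Finset.mul_sum, psHardy]; ring

/-! ## 2. the rows in `psCutErr` -/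

/-- LEAF L-PS-ROW1: added rows supported in `{φ = 1}` (or in `{φ = 0}`) drop out. -/
theorem ps_cutErr_add {ι : Type} [Fintype ι] (R : ι → G.V → ℝ) (a : ℝ) (φ v : G.V → ℝ)
    (hR : ∀ i, (∀ x, R i x ≠ 0 → φ x = 1) ∨ ∀ x, R i x ≠ 0 → φ x = 0) : psCutErr (psAdd H R) a φ v = psCutErr H a φ v := by

  have h : ∑ o, ((psAdd H R).obs (φ * v) o ^ 2 - (psAdd H R).obs v o * (psAdd H R).obs (φ * φ * v) o)
      = ∑ o, (H.obs (φ * v) o ^ 2 - H.obs v o * H.obs (φ * φ * v) o)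
        + ∑ i, ((∑ x, R i x * (φ * v) x) ^ 2 - (∑ x, R i x * v x) * ∑ x, R i x * (φ * φ * v) x) :=
    Fintype.sum_sum_type fun o : H.O ⊕ ι => (∑ x, Sum.elim H.B R o x * (φ * v) x) ^ 2
      - (∑ x, Sum.elim H.B R o x * v x) * ∑ x, Sum.elim H.B R o x * (φ * φ * v) x
  have h0 : ∑ i, ((∑ x, R i x * (φ * v) x) ^ 2 - (∑ x, R i x * v x) * ∑ x, R i x * (φ * φ * v) x) = 0 := by
    refine Finset.sum_eq_zero fun i _ => ?_
    rcases hR i with hi | hi
    · have a1 : ∑ x, R i x * (φ * v) x = ∑ x, R i x * v x := by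
        refine Finset.sum_congr rfl fun x _ => ?_
        by_cases hx : R i x = 0
        · simp [hx]
        · simp [hi x hx]
      have a2 : ∑ x, R i x * (φ * φ * v) x = ∑ x, R i x * v x := by
        refine Finset.sum_congr rfl fun x _ => ?_
        by_cases hx : R i x = 0
        · simp [hx]
        · simp [hi x hx]
      rw [a1, a2]; ring
    · have a1 : ∑ x, R i x * (φ * v) x = 0 := by
        refine Finset.sum_eq_zero fun x _ => ?_
        by_cases hx : R i x = 0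
        · simp [hx]
        · simp [hi x hx]
      have a2 : ∑ x, R i x * (φ * φ * v) x = 0 := by
        refine Finset.sum_eq_zero fun x _ => ?_
        by_cases hx : R i x = 0
        · simp [hx]
        · simp [hi x hx]
      rw [a1, a2]; ring
  rw [psCutErr, h, h0, add_zero, psCutErr]


theorem ps_rows_aux {G : HGraph} (H : HLaw G) (ψ v : G.V → ℝ) (U : Set G.V) (h01 : ∀ x, 0 ≤ ψ x ∧ ψ x ≤ 1) (hU : ∀ x, x ∉ U → ψ x = 0) {b2 M : ℝ}
    (hb : ∑ o, ∑ x, (if x ∈ U then H.B o x ^ 2 else 0) ≤ b2) (hM : ∑ x, (if x ∈ U then v x ^ 2 else 0) ≤ M) :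
    ∑ o, H.obs (ψ * v) o ^ 2 ≤ b2 * M := by
  have hM0 : 0 ≤ M := le_trans (Finset.sum_nonneg fun x _ => by split_ifs <;> positivity) hM
  have hg : ∑ x, (ψ x * v x) ^ 2 ≤ M := by
    refine le_trans (Finset.sum_le_sum fun x _ => ?_) hM
    by_cases hx : x ∈ U
    · rw [if_pos hx, mul_pow]
      have : ψ x ^ 2 ≤ 1 := by
        have := h01 x
        nlinarith
      nlinarith [sq_nonneg (v x)]
    · rw [if_neg hx, hU x hx]; simp
  have h1 : ∀ o, H.obs (ψ * v) o ^ 2 ≤ (∑ x, (if x ∈ U then H.B o x ^ 2 else 0)) * M := by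
    intro o
    have e : H.obs (ψ * v) o = ∑ x, (if x ∈ U then H.B o x else 0) * (ψ x * v x) := by
      unfold HLaw.obs
      refine Finset.sum_congr rfl fun x _ => ?_
      by_cases hx : x ∈ U
      · simp [hx]
      · simp [hx, hU x hx]
    rw [e]
    refine le_trans (Finset.sum_mul_sq_le_sq_mul_sq _ _ _) ?_
    have e2 : ∑ x, (if x ∈ U then H.B o x else 0) ^ 2 = ∑ x, (if x ∈ U then H.B o x ^ 2 else 0) := by
      refine Finset.sum_congr rfl fun x _ => ?_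
      by_cases hx : x ∈ U <;> simp [hx]
    rw [e2]
    exact mul_le_mul_of_nonneg_left hg (Finset.sum_nonneg fun x _ => by split_ifs <;> positivity)
  calc ∑ o, H.obs (ψ * v) o ^ 2 ≤ ∑ o, (∑ x, (if x ∈ U then H.B o x ^ 2 else 0)) * M := Finset.sum_le_sum fun o _ => h1 o
    _ = (∑ o, ∑ x, (if x ∈ U then H.B o x ^ 2 else 0)) * M := by rw [Finset.sum_mul]
    _ ≤ b2 * M := mul_le_mul_of_nonneg_right hb hM0

/-- LEAF L-PS-ROW2: Cauchy-Schwarz for the other rows.  `U ⊇ {φ ≠ 0}`, `0 ≤ φ ≤ 1`. -/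
theorem ps_cutErr_rows (φ v : G.V → ℝ) (U : Set G.V) (h01 : ∀ x, 0 ≤ φ x ∧ φ x ≤ 1) (hU : ∀ x, x ∉ U → φ x = 0) {b2 M : ℝ}
    (hb : ∑ o, ∑ x, (if x ∈ U then H.B o x ^ 2 else 0) ≤ b2) (hM : ∑ x, (if x ∈ U then v x ^ 2 else 0) ≤ M) :
    ∑ o, (H.obs (φ * v) o ^ 2 - H.obs v o * H.obs (φ * φ * v) o) ≤ b2 * M + Real.sqrt ((∑ o, H.obs v o ^ 2) * (b2 * M)) := by

  have hA := ps_rows_aux H φ v U h01 hU hb hM
  have hD := ps_rows_aux H (φ * φ) v U (fun x => ⟨mul_nonneg (h01 x).1 (h01 x).1, by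
    have := h01 x
    simp only [Pi.mul_apply]
    nlinarith⟩) (fun x hx => by simp [hU x hx]) hb hM
  rw [Finset.sum_sub_distrib]
  have hcs : (∑ o, H.obs v o * H.obs (φ * φ * v) o) ^ 2 ≤ (∑ o, H.obs v o ^ 2) * (b2 * M) :=
    le_trans (Finset.sum_mul_sq_le_sq_mul_sq _ _ _)
      (mul_le_mul_of_nonneg_left hD (Finset.sum_nonneg fun o _ => sq_nonneg _))
  have := Real.abs_le_sqrt hcs
  have h2 := neg_abs_le (∑ o, H.obs v o * H.obs (φ * φ * v) o)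
  linarith

/-- more rows: the form -/
theorem ps_add_form {ι : Type} [Fintype ι] (R : ι → G.V → ℝ) (a : ℝ) (v : G.V → ℝ) :
    (psAdd H R).form a v = H.form a v + ∑ i, (∑ x, R i x * v x) ^ 2 := by
  have h : ∑ o, (psAdd H R).obs v o ^ 2 = ∑ o, H.obs v o ^ 2 + ∑ i, (∑ x, R i x * v x) ^ 2 :=
    Fintype.sum_sum_type fun o : H.O ⊕ ι => (∑ x, Sum.elim H.B R o x * v x) ^ 2
  rw [HLaw.form, h, HLaw.form, add_assoc]

/-- LEAF L-PS-ROW1: rows supported in the pins do not matter. -/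
theorem ps_add_pin_gVar {ι : Type} [Fintype ι] (R : ι → G.V → ℝ) (a : ℝ) (Q : Set G.V) (hR : ∀ i x, R i x ≠ 0 → x ∈ Q) (f : G.V → ℝ) :
    (plPin (psAdd H R) Q).gVar a f = (plPin H Q).gVar a f := by

  unfold HLaw.gVar
  have hr : (plPin (psAdd H R) Q).rspan = (plPin H Q).rspan := rfl
  refine iSup_congr fun w => ?_
  have hw := (ps_mem_rspan_pin H Q (w : G.V → ℝ)).1 w.2
  have hf : (plPin (psAdd H R) Q).form a (w : G.V → ℝ) = (plPin H Q).form a (w : G.V → ℝ) := by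
    rw [ps_pin_form, ps_pin_form, ps_add_form]
    have : ∑ i, (∑ x, R i x * (w : G.V → ℝ) x) ^ 2 = 0 := by
      refine Finset.sum_eq_zero fun i _ => ?_
      have : ∑ x, R i x * (w : G.V → ℝ) x = 0 := by
        refine Finset.sum_eq_zero fun x _ => ?_
        by_cases hx : R i x = 0
        · simp [hx]
        · simp [hw x (hR i x hx)]
      rw [this]; simp
    rw [this, add_zero]
  rw [hf]

/-! ## 3. the abstract soft -> hard estimate -/

/-- **abstract collar estimate**.  `v` = optimiser of `f` in the law with rows `H ⊕ R` and pins `P`; the rows `R` and the new pins `S` lie in `{d ≤ δ}`.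
GLUE (helper53): `ps_gap_le` with `φ = psLcut δ ρ ∘ d`, `ps_cutErr_add`, `ps_lcut_grad`, `ps_cutErr_rows` (`U = {d < ρ}`), Cauchy-Schwarz for `⟨f, φ² v⟩`. -/
theorem ps_collar_abs {ι : Type} [Fintype ι] (R : ι → G.V → ℝ) {a : ℝ} (ha : 0 < a) {P S : Set G.V} {f v : G.V → ℝ}
    (hv : plIsOpt (plPin (psAdd H R) P) a f v) {Δ : ℕ} (hG : psDeg G Δ) {d : G.V → ℕ} (hd : psLayer d) {δ ρ : ℕ} (h1 : 1 ≤ δ) (h2 : δ < ρ)
    (hS : ∀ x ∈ S, d x ≤ δ) (hR : ∀ i x, R i x ≠ 0 → d x ≤ δ) {F2 M Hd b2 : ℝ}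
    (hF : ∑ x, (if d x < ρ then f x ^ 2 else 0) ≤ F2) (hM : ∑ x, (if d x < ρ then v x ^ 2 else 0) ≤ M)
    (hH : psHardy d δ ρ v ≤ Hd) (hb : ∑ o, ∑ x, (if d x < ρ then H.B o x ^ 2 else 0) ≤ b2) :
    psGap (psAdd H R) a P S f ≤ Real.sqrt (F2 * M) + a⁻¹ * (2 * Δ / Real.log ((ρ : ℝ) / δ) ^ 2 * Hd) + b2 * M
      + Real.sqrt ((psAdd H R).form a v * (b2 * M)) := by

  have hL := ps_lcut_logpos h1 h2
  set φ : G.V → ℝ := fun x => psLcut δ ρ (d x) with hφ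
  have hφS : ∀ x ∈ S, φ x = 1 := fun x hx => ps_lcut_one (hS x hx)
  have h01 : ∀ x, 0 ≤ φ x ∧ φ x ≤ 1 := fun x => ps_lcut_mem h1 h2 (d x)
  obtain ⟨U, hUd⟩ : ∃ U : Set G.V, ∀ x, x ∈ U ↔ d x < ρ := ⟨{x | d x < ρ}, fun x => Iff.rfl⟩
  have hU : ∀ x, x ∉ U → φ x = 0 := by
    intro x hx
    have : ρ ≤ d x := by rw [hUd] at hx; omega
    exact ps_lcut_zero h2 this
  have hM0 : 0 ≤ M := le_trans (Finset.sum_nonneg fun x _ => by split_ifs <;> positivity) hM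
  have hb0 : 0 ≤ b2 := le_trans (Finset.sum_nonneg fun o _ => Finset.sum_nonneg fun x _ => by split_ifs <;> positivity) hb
  have hb' : ∑ o, ∑ x, (if x ∈ U then H.B o x ^ 2 else 0) ≤ b2 := by
    refine le_trans (le_of_eq ?_) hb
    refine Finset.sum_congr rfl fun o _ => Finset.sum_congr rfl fun x _ => ?_
    by_cases hx : d x < ρ <;> simp [hx, hUd]
  have hM' : ∑ x, (if x ∈ U then v x ^ 2 else 0) ≤ M := by
    refine le_trans (le_of_eq ?_) hM
    refine Finset.sum_congr rfl fun x _ => ?_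
    by_cases hx : d x < ρ <;> simp [hx, hUd]
  have g1 := ps_gap_le (psAdd H R) ha hv hφS
  have g2 : psCutErr (psAdd H R) a φ v = psCutErr H a φ v :=
    ps_cutErr_add H R a φ v fun i => Or.inl fun x hx => ps_lcut_one (hR i x hx)
  have g3 := ps_lcut_grad hG hd h1 h2 v
  have g4 := ps_cutErr_rows H φ v U h01 hU hb' hM'
  have hC : 0 ≤ 2 * (Δ : ℝ) / Real.log ((ρ : ℝ) / δ) ^ 2 := by positivity
  have g5 : a⁻¹ * ∑ e, v (G.src e) * v (G.tgt e) * plGrad φ e ^ 2 ≤ a⁻¹ * (2 * Δ / Real.log ((ρ : ℝ) / δ) ^ 2 * Hd) :=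
    mul_le_mul_of_nonneg_left (le_trans g3 (mul_le_mul_of_nonneg_left hH hC)) (inv_nonneg.2 ha.le)
  have g6 : ∑ o, H.obs v o ^ 2 ≤ (psAdd H R).form a v := by
    rw [ps_add_form, HLaw.form]
    have k1 : 0 ≤ a⁻¹ * HLaw.en v 0 := mul_nonneg (inv_nonneg.2 ha.le) (Finset.sum_nonneg fun e _ => sq_nonneg _)
    have k2 : 0 ≤ ∑ i, (∑ x, R i x * v x) ^ 2 := Finset.sum_nonneg fun i _ => sq_nonneg _
    linarith
  have g7 : Real.sqrt ((∑ o, H.obs v o ^ 2) * (b2 * M)) ≤ Real.sqrt ((psAdd H R).form a v * (b2 * M)) :=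
    Real.sqrt_le_sqrt (mul_le_mul_of_nonneg_right g6 (mul_nonneg hb0 hM0))
  have g8 : HLaw.pair f (φ * φ * v) ≤ Real.sqrt (F2 * M) := by
    have e : HLaw.pair f (φ * φ * v) = ∑ x, (if d x < ρ then f x else 0) * (φ x * φ x * v x) := by
      unfold HLaw.pair
      refine Finset.sum_congr rfl fun x _ => ?_
      by_cases hx : d x < ρ
      · simp [hx]
      · have : φ x = 0 := hU x (by rw [hUd]; exact hx)
        simp [hx, this]
    have c1 : ∑ x, (if d x < ρ then f x else 0) ^ 2 ≤ F2 := by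
      refine le_trans (le_of_eq ?_) hF
      refine Finset.sum_congr rfl fun x _ => ?_
      by_cases hx : d x < ρ <;> simp [hx]
    have c2 : ∑ x, (φ x * φ x * v x) ^ 2 ≤ M := by
      refine le_trans (Finset.sum_le_sum fun x _ => ?_) hM
      by_cases hx : d x < ρ
      · rw [if_pos hx, mul_pow]
        have hq : (φ x * φ x) ^ 2 ≤ 1 := by
          have := h01 x
          have h3 : φ x * φ x ≤ 1 := by nlinarith
          have h4 : 0 ≤ φ x * φ x := mul_nonneg this.1 this.1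
          nlinarith
        nlinarith [sq_nonneg (v x)]
      · have : φ x = 0 := hU x (by rw [hUd]; exact hx)
        rw [if_neg hx, this]; simp
    have c3 : (HLaw.pair f (φ * φ * v)) ^ 2 ≤ F2 * M := by
      rw [e]
      refine le_trans (Finset.sum_mul_sq_le_sq_mul_sq _ _ _) ?_
      exact mul_le_mul c1 c2 (Finset.sum_nonneg fun x _ => sq_nonneg _)
        (le_trans (Finset.sum_nonneg fun x _ => sq_nonneg _) c1)
    exact le_trans (le_abs_self _) (Real.abs_le_sqrt c3)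
  rw [g2, psCutErr] at g1
  linarith

end

end Claimed.Agent.R285.Pot
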