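import Claimed.Agent.R285.Pot.StripBand
import Claimed.Agent.R285.Pot.Strip

/-!
# ROW 285, POT-STRIP, part 2 : EXPORTS FOR PIN INTERACTIONS      (owner helper53; consumers PINS T3.2 (helper178), CORE-LIM (helper249), POT-D (helper85))

All statements on `Γ.graph g`, sides in `[ν, Kν]`, `ν ≥ 3`, three layers of cells `PsLay Γ In Kb Out` (`p` in `In`, `A` in `Out`, not adjacent to `Kb`).   To use them for `Sep A p` in a coarse geometry: pass to the 3-fold refinement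
(`In` = cells at index distance `≤ 1` from `p`, `Kb` = distance `2`, `Out` = distance `≥ 3`; `A` is at distance `≥ 4`).    `H' = psAdd H R`: `H` = finitely many arbitrary ("coarse") rows, their NUMBER enters the bounds; `R` = local rows.
THE QUANTITY: `∑_j plGap H' a (P ∪ A) p (u_j)` over ANY orthonormal family `psON H' a P (P ∪ A) u`.   It dominates `2 gPin a P A p` (`ps_gPin_le_trace`) and equals the Gaussian mean of `- 2 log grPin` (`ps_gap_mean_le`, roles of `A`, `p` exchanged).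
* `ps_mass_trace`  THE CORE: trace of the mass on a layer `Y` over an orthonormal family of fields harmonic on `Y` and its shell (two resolutions + Caccioppoli + `ps_mass_trace_abs`).
* `ps_band_trace`, `ps_band_pin`   (P3 / POT-F) band law: the interaction through the band tends to `0` (`λ → ∞` after `s/ν → 0`), uniformly in the mesh.
* `ps_gap_trace`   explicit bound from `psGap H' a P A f ≤ θ ν² |f|²`;   `θ` = coercivity constant: `ps_pin_bdd` (P4, P6);   `θ` small: `ps_probe_pin` (P2: soft probes on `A` exhaust the hard pin), through `ps_soft_l2`.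
* `ps_coer`, `ps_coarse_coer` : uniform coercivity `∑ v² ≤ C ν² form v` for rows which are combinations of cell averages (P5: `ps_gVar_le_coer`).
* `psEqv` : two presentations of the rows with the same Gram matrix give the same reference objects.
-/

set_option autoImplicit false

namespace Claimed.Agent.R285.Pot

open MeasureTheory
open scoped Classical

noncomputable section

/-! ## 0. equivalent presentations of the rows (any graph) -/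

section Eqv

variable {G : HGraph}

/-- the same Gram matrix of the rows -/
def psEqv (H H' : HLaw G) : Prop := ∀ x y, ∑ o, H.B o x * H.B o y = ∑ o, H'.B o x * H'.B o y

theorem psEqv_eqns_cite : True := by have := @psEqv.eq_1; trivial

variable {H H' : HLaw G}

theorem ps_eqv_obs (h : psEqv H H') (u v : G.V → ℝ) : ∑ o, H.obs u o * H.obs v o = ∑ o, H'.obs u o * H'.obs v o := by
  have key : ∀ K : HLaw G, ∑ o, K.obs u o * K.obs v o = ∑ x, ∑ y, u x * v y * ∑ o, K.B o x * K.B o y := by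
    intro K
    unfold HLaw.obs
    have e1 : ∀ o, (∑ x, K.B o x * u x) * (∑ y, K.B o y * v y) = ∑ x, ∑ y, u x * v y * (K.B o x * K.B o y) := by
      intro o
      rw [Finset.sum_mul_sum]
      exact Finset.sum_congr rfl fun x _ => Finset.sum_congr rfl fun y _ => by ring
    rw [Finset.sum_congr rfl fun o _ => e1 o, Finset.sum_comm]
    refine Finset.sum_congr rfl fun x _ => ?_
    rw [Finset.sum_comm]
    exact Finset.sum_congr rfl fun y _ => by rw [Finset.mul_sum]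
  rw [key H, key H']
  exact Finset.sum_congr rfl fun x _ => Finset.sum_congr rfl fun y _ => by rw [h x y]

theorem ps_eqv_pin (h : psEqv H H') (P : Set G.V) : psEqv (plPin H P) (plPin H' P) := h

theorem ps_eqv_harm (a : ℝ) (P : Set G.V) (u : G.V → ℝ) (hp : H.prec a = H'.prec a) :
    plHarm H a P u = plHarm H' a P u := by
  unfold plHarm plGreen plPrec
  rw [hp]

/-- LEAF L-PS-Q (~200 l. for the section): everything depends on the rows only through `∑_o obs u o * obs v o = ∑_{x,y} u x (∑_o B o x B o y) v y`. -/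
theorem ps_eqv_B (h : psEqv H H') (a : ℝ) (u v : G.V → ℝ) : plB H a u v = plB H' a u v := by
  unfold plB
  rw [ps_eqv_obs h]

theorem ps_eqv_form (h : psEqv H H') (a : ℝ) (v : G.V → ℝ) : H.form a v = H'.form a v := by
  unfold HLaw.form
  have := ps_eqv_obs h v v
  simp only [← sq] at this
  rw [this]

theorem ps_eqv_prec (h : psEqv H H') (a : ℝ) : H.prec a = H'.prec a := by
  funext x y
  unfold HLaw.prec
  rw [h x y]

theorem ps_eqv_PD (h : psEqv H H') (P : Set G.V) : plPD H P ↔ plPD H' P := by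
  have key : ∀ v : G.V → ℝ, (∀ o, H.obs v o = 0) ↔ ∀ o, H'.obs v o = 0 := by
    intro v
    have e := ps_eqv_obs h v v
    have z : ∀ K : HLaw G, (∀ o, K.obs v o = 0) ↔ ∑ o, K.obs v o * K.obs v o = 0 := by
      intro K
      rw [Finset.sum_eq_zero_iff_of_nonneg fun o _ => mul_self_nonneg _]
      exact ⟨fun h0 o _ => by rw [h0 o, mul_zero], fun h0 o => mul_self_eq_zero.1 (h0 o (Finset.mem_univ o))⟩
    rw [z H, z H', e]
  unfold plPD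
  simp only [key]

theorem ps_eqv_gVar (h : psEqv H H') (a : ℝ) (P : Set G.V) (f : G.V → ℝ) : (plPin H P).gVar a f = (plPin H' P).gVar a f := by
  unfold HLaw.gVar
  have e : ∀ v : G.V → ℝ, (plPin H P).form a v = (plPin H' P).form a v := fun v => ps_eqv_form (ps_eqv_pin h P) a v
  simp only [e]
  rfl

theorem ps_eqv_gPin (h : psEqv H H') (a : ℝ) (P A p : Set G.V) : H.gPin a P A p = H'.gPin a P A p := by
  unfold HLaw.gPin HLaw.detOff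
  rw [ps_eqv_prec h]

theorem ps_eqv_gap (h : psEqv H H') (a : ℝ) (P A : Set G.V) (u : G.V → ℝ) : plGap H a P A u = plGap H' a P A u := by
  unfold plGap plEn
  rw [ps_eqv_harm a _ _ (ps_eqv_prec h a), ps_eqv_harm a _ _ (ps_eqv_prec h a), ps_eqv_form h, ps_eqv_form h]

theorem ps_eqv_hsp (h : psEqv H H') (a : ℝ) (P Q : Set G.V) : plHsp H a P Q = plHsp H' a P Q := by
  ext u
  show ((∀ x ∈ P, u x = 0) ∧ ∀ w : G.V → ℝ, (∀ x ∈ Q, w x = 0) → plB H a u w = 0)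
    ↔ ((∀ x ∈ P, u x = 0) ∧ ∀ w : G.V → ℝ, (∀ x ∈ Q, w x = 0) → plB H' a u w = 0)
  simp only [ps_eqv_B h]

theorem ps_eqv_ON (h : psEqv H H') (a : ℝ) (P Q : Set G.V) {n : ℕ} (u : Fin n → G.V → ℝ) : psON H a P Q u ↔ psON H' a P Q u := by
  unfold psON
  simp only [ps_eqv_B h, ps_eqv_hsp h]

theorem ps_eqv_Z (h : psEqv H H') (a : ℝ) (P : Set G.V) (u : G.V → ℝ) (F : (G.V → ℝ) → ℝ) : plZ H a P u F = plZ H' a P u F := by
  unfold plZ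
  simp only [ps_eqv_form h]

theorem ps_eqv_meas (h : psEqv H H') (a : ℝ) (P : Set G.V) : plMeas H a P = plMeas H' a P := by
  unfold plMeas
  simp only [ps_eqv_form h, ps_eqv_Z h]

/-- no additional row -/
theorem ps_eqv_empty (H : HLaw G) (R : Empty → G.V → ℝ) : psEqv (psAdd H R) H := by
  intro x y
  show ∑ o : H.O ⊕ Empty, Sum.elim H.B R o x * Sum.elim H.B R o y = _
  rw [Fintype.sum_sum_type]
  simp

/-- more rows on both sides -/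
theorem ps_eqv_add (h : psEqv H H') {ι : Type} [Fintype ι] (R : ι → G.V → ℝ) : psEqv (psAdd H R) (psAdd H' R) := by
  intro x y
  show ∑ o : H.O ⊕ ι, Sum.elim H.B R o x * Sum.elim H.B R o y = ∑ o : H'.O ⊕ ι, Sum.elim H'.B R o x * Sum.elim H'.B R o y
  rw [Fintype.sum_sum_type, Fintype.sum_sum_type]
  simp only [Sum.elim_inl, Sum.elim_inr]
  rw [h x y]

end Eqv

variable {m₁ m₂ : ℕ}

/-! ## 1. the core: trace of the mass on a layer -/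

section Core

variable (Γ : CGeom m₁ m₂) (g : DGrid m₁ m₂)

theorem ps_enIn_le_en {G : HGraph} (Y : Set G.V) (u : G.V → ℝ) : psEnIn Y u ≤ HLaw.en u 0 := by
  unfold psEnIn HLaw.en
  refine Finset.sum_le_sum fun e _ => ?_
  split_ifs
  · simp [plGrad]
  · positivity

theorem ps_mem_sites_iff (Y : Finset (Fin m₁ × Fin m₂)) (x : (Γ.graph g).V) :
    x ∈ Γ.sites g Y ↔ ∃ κ ∈ Y, domPos (D := g.region Γ.T) (cut := Γ.cutB g) x ∈ g.cell κ := by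
  show domPos (D := g.region Γ.T) (cut := Γ.cutB g) x ∈ (↑(g.region Y) : Set (ℤ × ℤ)) ↔ _
  rw [Finset.mem_coe]
  unfold DGrid.region
  rw [Finset.mem_biUnion]

theorem ps_bonds_cell {κ : Fin m₁ × Fin m₂} (hκ : κ ∈ Γ.T) :
    (domBonds (g.region Γ.T) (Γ.cutB g)).filter (fun e => e.1 ∈ g.cell κ ∧ e.snd ∈ g.cell κ) = domBonds (g.cell κ) ∅ := by
  ext e
  simp only [domBonds, Finset.mem_filter, Finset.mem_product, Finset.mem_univ, and_true, Set.mem_empty_iff_false, not_false_eq_true]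
  constructor
  · rintro ⟨_, h1, h2⟩
    exact ⟨h1, h2⟩
  · rintro ⟨h1, h2⟩
    exact ⟨⟨ps_cell_region Γ g hκ h1, ps_cell_region Γ g hκ h2, geo_cell_not_cut g Γ h1 h2⟩, h1, h2⟩

theorem ps_enIn_cell {κ : Fin m₁ × Fin m₂} (hκ : κ ∈ Γ.T) (u : (Γ.graph g).V → ℝ) :
    psEnIn (Γ.sites g {κ}) u = geoEn (g.cell κ) (psExt (D := g.region Γ.T) (cut := Γ.cutB g) u) := by
  unfold psEnIn geoEn
  rw [← ps_bonds_cell Γ g hκ, Finset.sum_filter, ← Finset.sum_coe_sort (domBonds (g.region Γ.T) (Γ.cutB g))]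
  refine Finset.sum_congr ?_ fun e _ => ?_
  · ext e
    exact ⟨fun _ => Finset.mem_univ _, fun _ => Finset.mem_univ _⟩
  · rw [ps_ln_ext_mem u (domBonds_snd e.2), ps_ln_ext_mem u (domBonds_fst e.2)]
    refine if_congr (and_congr (ps_mem_sites_single Γ g κ _) (ps_mem_sites_single Γ g κ _)) rfl rfl

theorem ps_sum_ext_dom {D : Finset (ℤ × ℤ)} {cut : Set Bond} (S : Finset (ℤ × ℤ)) (hS : S ⊆ D) (v : (domG D cut).V → ℝ) :
    ∑ x, (if domPos x ∈ S then (1 : ℝ) else 0) * v x = ∑ z ∈ S, psExt v z := by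
  have a1 : ∑ x, (if domPos x ∈ S then (1 : ℝ) else 0) * v x
      = ∑ x : (domG D cut).V, (fun z => if z ∈ S then psExt v z else 0) (domPos x) := by
    refine Finset.sum_congr rfl fun x _ => ?_
    simp only [ps_ext_pos]
    split_ifs <;> simp
  rw [a1, ps_sum_V (D := D) (cut := cut) (fun z => if z ∈ S then psExt v z else 0), ← Finset.sum_filter, Finset.filter_mem_eq_inter,
    Finset.inter_eq_right.2 hS]

/-- LEAF L-PS-M1 (~200 l.): **resolution of a cell**, for fields on the graph.   `geo_res_rect` for `g.cell κ` (`geo_cell_eq`) gives blocks `B j ⊆ g.cell κ`;  `ℓ j u = ∑_x (if pos x ∈ B j then u x else 0)`;  `f = psExt u`: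
`∑_{z ∈ B j} f z = ℓ j u`, `∑_{z ∈ cell} f z² = psMass (sites {κ}) u` (`ps_sum_V`, `ps_ext_pos`), `geoEn (g.cell κ) f = psEnIn (sites {κ}) u` (the bonds inside a cell of `Γ.T` are edges: `geo_cell_not_cut`). -/
theorem ps_cell_res {W : ℕ} (hW : g.SideLe W) {κ : Fin m₁ × Fin m₂} (hκ : κ ∈ Γ.T) (k : ℕ) :
    ∃ ℓ : Fin (4 ^ k) → ((Γ.graph g).V → ℝ) →ₗ[ℝ] ℝ, ∀ u : (Γ.graph g).V → ℝ, (∀ j, ℓ j u = 0) →
      psMass (Γ.sites g {κ}) u ≤ 2 * (W : ℝ) ^ 2 * ((4 : ℝ) ^ k)⁻¹ * psEnIn (Γ.sites g {κ}) u := by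
  obtain ⟨B, hB, hres⟩ := geo_res_rect (W := W) (hW.1 κ.1) (hW.2 κ.2) k
  rw [← geo_cell_eq] at hB hres
  refine ⟨fun j => ∑ x : (Γ.graph g).V,
    (if domPos (D := g.region Γ.T) (cut := Γ.cutB g) x ∈ B j then (1 : ℝ) else 0) • LinearMap.proj x, fun u h0 => ?_⟩
  have h1 : ∀ j, ∑ z ∈ B j, psExt (D := g.region Γ.T) (cut := Γ.cutB g) u z = 0 := by
    intro j
    rw [← h0 j]
    have a1 : (∑ x : (Γ.graph g).V,
        (if domPos (D := g.region Γ.T) (cut := Γ.cutB g) x ∈ B j then (1 : ℝ) else 0) • (LinearMap.proj x : ((Γ.graph g).V → ℝ) →ₗ[ℝ] ℝ)) u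
        = ∑ x : (Γ.graph g).V, (if domPos (D := g.region Γ.T) (cut := Γ.cutB g) x ∈ B j then (1 : ℝ) else 0) * u x := by
      rw [LinearMap.sum_apply]
      refine Finset.sum_congr rfl fun x _ => ?_
      simp only [LinearMap.smul_apply, LinearMap.proj_apply, smul_eq_mul]
    refine Eq.trans ?_ a1.symm
    exact (ps_sum_ext_dom (D := g.region Γ.T) (cut := Γ.cutB g) (B j) (fun z hz => ps_cell_region Γ g hκ (hB j hz)) u).symm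
  have h2 := hres _ h1
  rw [ps_enIn_cell Γ g hκ]
  refine le_trans (le_of_eq ?_) h2
  exact ps_sum_sites Γ g hκ u

/-- LEAF L-PS-M2 (~120 l. for the two lemmas): the cells are disjoint (`geo_cell_unique`). -/
theorem ps_mass_cells (Y : Finset (Fin m₁ × Fin m₂)) (u : (Γ.graph g).V → ℝ) :
    psMass (Γ.sites g Y) u = ∑ κ ∈ Y, psMass (Γ.sites g {κ}) u := by
  unfold psMass
  rw [Finset.sum_comm]
  refine Finset.sum_congr rfl fun x _ => ?_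
  by_cases hx : x ∈ Γ.sites g Y
  · rw [if_pos hx]
    obtain ⟨κ, hκ, hc⟩ := (ps_mem_sites_iff Γ g Y x).1 hx
    rw [Finset.sum_eq_single_of_mem κ hκ, if_pos ((ps_mem_sites_single Γ g κ x).2 hc)]
    intro κ' _ hne
    rw [if_neg]
    intro h'
    exact hne (geo_cell_unique g ((ps_mem_sites_single Γ g κ' x).1 h') hc)
  · rw [if_neg hx]
    symm
    refine Finset.sum_eq_zero fun κ hκ => ?_
    rw [if_neg]
    intro h'
    exact hx ((ps_mem_sites_iff Γ g Y x).2 ⟨κ, hκ, (ps_mem_sites_single Γ g κ x).1 h'⟩)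

theorem ps_enIn_cells (Y : Finset (Fin m₁ × Fin m₂)) (u : (Γ.graph g).V → ℝ) :
    ∑ κ ∈ Y, psEnIn (Γ.sites g {κ}) u ≤ psEnIn (Γ.sites g Y) u := by
  unfold psEnIn
  rw [Finset.sum_comm]
  refine Finset.sum_le_sum fun e _ => ?_
  by_cases he : ∃ κ ∈ Y, (Γ.graph g).src e ∈ Γ.sites g {κ} ∧ (Γ.graph g).tgt e ∈ Γ.sites g {κ}
  · obtain ⟨κ, hκ, h1, h2⟩ := he
    rw [Finset.sum_eq_single_of_mem κ hκ, if_pos ⟨h1, h2⟩, if_pos]
    · exact ⟨(ps_mem_sites_iff Γ g Y _).2 ⟨κ, hκ, (ps_mem_sites_single Γ g κ _).1 h1⟩,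
        (ps_mem_sites_iff Γ g Y _).2 ⟨κ, hκ, (ps_mem_sites_single Γ g κ _).1 h2⟩⟩
    · intro κ' _ hne
      rw [if_neg]
      rintro ⟨h', -⟩
      exact hne (geo_cell_unique g ((ps_mem_sites_single Γ g κ' _).1 h') ((ps_mem_sites_single Γ g κ _).1 h1))
  · rw [Finset.sum_eq_zero]
    · split_ifs <;> positivity
    · intro κ hκ
      rw [if_neg]
      intro h'
      exact he ⟨κ, hκ, h'⟩

/-- the cutoff of a layer: values -/
theorem ps_cacc_one (Y : Finset (Fin m₁ × Fin m₂)) (ν : ℕ) {x : (Γ.graph g).V} (hx : x ∈ Γ.sites g Y) : psFar Γ g Y ν x = 0 :=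
  ps_farZ_zero g Y ν hx

theorem ps_cacc_zero (Y : Finset (Fin m₁ × Fin m₂)) {ν : ℕ} (h1 : 1 ≤ ν) (hg : g.SideGe ν) {x : (Γ.graph g).V}
    (hx : x ∉ Γ.sites g (Y ∪ psShell Γ Y)) : psFar Γ g Y ν x = 1 := by
  obtain ⟨κ, hκ, hc⟩ := ps_pos_cell Γ g x
  refine ps_farZ_one g Y ν h1 hg (κ := κ) (fun κ' hκ' hadj => hx ?_) hc
  rw [ps_mem_sites_iff]
  refine ⟨κ, ?_, hc⟩
  by_cases hY : κ ∈ Y
  · exact Finset.mem_union_left _ hY
  · exact Finset.mem_union_right _ (Finset.mem_filter.2 ⟨hκ, hY, κ', hκ', hadj⟩)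

/-- Cauchy-Schwarz for the rows -/
theorem ps_cacc_rows {G : HGraph} (H : HLaw G) (v : G.V → ℝ) : ∑ o, H.obs v o ^ 2 ≤ (∑ o, ∑ x, H.B o x ^ 2) * ∑ x, v x ^ 2 := by
  rw [Finset.sum_mul]
  refine Finset.sum_le_sum fun o _ => ?_
  exact Finset.sum_mul_sq_le_sq_mul_sq _ _ _

/-- LEAF L-PS-M3 (~250 l.): **Caccioppoli on a layer.**   `ζ = 1 - psFar Γ g Y ν` (`1` on `Y`, `0` off `Y ∪ psShell Γ Y`: every vertex lies in a cell of `Γ.T`; `ps_farZ_zero`, `ps_farZ_one`).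
`psEnIn (sites Y) u ≤ en (ζ u) ≤ a form' (ζ u)`;  `form' (ζ u) = psCutErr H' a ζ u` (`ps_harm_cut`) `= psCutErr H a ζ u` (`ps_cutErr_add`) ;  gradient part: `plGrad ζ = - plGrad (psFar ..)`, `ps_far_grad`;
rows: `obs u o = 0`, `∑_o obs (ζ u) o ² ≤ (∑_o ∑_x B²) ∑_x (ζ u)² ≤ CB/ν² · psMass (Y ∪ shell) u` (Cauchy-Schwarz, `0 ≤ ζ ≤ 1`). -/
theorem ps_cacc (Y : Finset (Fin m₁ × Fin m₂)) {ν : ℕ} (h3 : 3 ≤ ν) (hg : g.SideGe ν) (H : HLaw (Γ.graph g)) {CB : ℝ}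
    (hCB : ∑ o, ∑ x, H.B o x ^ 2 ≤ CB / (ν : ℝ) ^ 2) {ι : Type} [Fintype ι] (R : ι → (Γ.graph g).V → ℝ)
    (hR : ∀ i, (∀ x, R i x ≠ 0 → x ∈ Γ.sites g Y) ∨ ∀ x, R i x ≠ 0 → x ∉ Γ.sites g (Y ∪ psShell Γ Y)) {a : ℝ} (ha : 0 < a)
    {P Q : Set (Γ.graph g).V} (hQ : ∀ x ∈ Q, x ∈ P ∨ x ∉ Γ.sites g (Y ∪ psShell Γ Y)) {u : (Γ.graph g).V → ℝ}
    (hu : u ∈ plHsp (psAdd H R) a P Q) (h0 : ∀ o, H.obs u o = 0) :
    psEnIn (Γ.sites g Y) u ≤ (18 + a * CB) / (ν : ℝ) ^ 2 * psMass (Γ.sites g (Y ∪ psShell Γ Y)) u := by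
  have h1 : 1 ≤ ν := by omega
  obtain ⟨ζ, hζ⟩ : ∃ ζ : (Γ.graph g).V → ℝ, ζ = fun x => 1 - psFar Γ g Y ν x := ⟨_, rfl⟩
  have z1 : ∀ x ∈ Γ.sites g Y, ζ x = 1 := fun x hx => by rw [hζ]; simp only [ps_cacc_one Γ g Y ν hx, sub_zero]
  have z0 : ∀ x, x ∉ Γ.sites g (Y ∪ psShell Γ Y) → ζ x = 0 := fun x hx => by
    rw [hζ]; simp only [ps_cacc_zero Γ g Y h1 hg hx, sub_self]
  have zm : ∀ x, 0 ≤ ζ x ∧ ζ x ≤ 1 := fun x => by
    have := ps_farZ_mem g Y ν (domPos (D := g.region Γ.T) (cut := Γ.cutB g) x)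
    rw [hζ]
    show 0 ≤ 1 - psFarZ g Y ν _ ∧ 1 - psFarZ g Y ν _ ≤ 1
    constructor <;> linarith [this.1, this.2]
  -- step 1
  have s1 : psEnIn (Γ.sites g Y) u ≤ ∑ e, plGrad (ζ * u) e ^ 2 := by
    unfold psEnIn
    refine Finset.sum_le_sum fun e _ => ?_
    split_ifs with he
    · simp only [plGrad, Pi.mul_apply, z1 _ he.1, z1 _ he.2, one_mul, le_refl]
    · positivity
  -- step 2
  have s2 : ∑ e, plGrad (ζ * u) e ^ 2 ≤ a * (psAdd H R).form a (ζ * u) := by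
    rw [pl_form_expand, mul_add, ← mul_assoc, mul_inv_cancel₀ ha.ne', one_mul]
    have : 0 ≤ a * ∑ o, (psAdd H R).obs (ζ * u) o ^ 2 := mul_nonneg ha.le (Finset.sum_nonneg fun o _ => sq_nonneg _)
    linarith
  -- step 3, 4
  have s3 : (psAdd H R).form a (ζ * u) = psCutErr H a ζ u := by
    rw [ps_harm_cut (psAdd H R) (P := Q) (fun w hw => hu.2 w hw) (χ := ζ) fun x hx => ?_, ps_cutErr_add H R a ζ u fun i => ?_]
    · rcases hR i with hi | hi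
      · exact Or.inl fun x hx => z1 x (hi x hx)
      · exact Or.inr fun x hx => z0 x (hi x hx)
    · rcases hQ x hx with h | h
      · exact Or.inr (hu.1 x h)
      · exact Or.inl (z0 x h)
  -- step 5
  have g1 : ∀ e, plGrad ζ e ^ 2 = plGrad (psFar Γ g Y ν) e ^ 2 := fun e => by
    rw [hζ]; simp only [plGrad]; ring
  have s5 : ∑ e, u ((Γ.graph g).src e) * u ((Γ.graph g).tgt e) * plGrad ζ e ^ 2
      ≤ 18 / (ν : ℝ) ^ 2 * psMass (Γ.sites g (Y ∪ psShell Γ Y)) u := by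
    simp only [g1]
    refine (ps_far_grad Γ g Y h3 hg u).trans (mul_le_mul_of_nonneg_left (ps_mass_mono ?_ u) (by positivity))
    intro x hx
    obtain ⟨κ, hκ, hc⟩ := (ps_mem_sites_iff Γ g _ x).1 hx
    exact (ps_mem_sites_iff Γ g _ x).2 ⟨κ, Finset.mem_union_right _ hκ, hc⟩
  have s6 : ∑ x, (ζ * u) x ^ 2 ≤ psMass (Γ.sites g (Y ∪ psShell Γ Y)) u := by
    unfold psMass
    refine Finset.sum_le_sum fun x _ => ?_
    split_ifs with hx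
    · simp only [Pi.mul_apply, mul_pow]
      have : ζ x ^ 2 ≤ 1 := by nlinarith [(zm x).1, (zm x).2]
      nlinarith [sq_nonneg (u x)]
    · simp only [Pi.mul_apply, z0 x hx, zero_mul]
      norm_num
  have s7 : ∑ o, (H.obs (ζ * u) o ^ 2 - H.obs u o * H.obs (ζ * ζ * u) o)
      ≤ CB / (ν : ℝ) ^ 2 * psMass (Γ.sites g (Y ∪ psShell Γ Y)) u := by
    simp only [h0, zero_mul, sub_zero]
    have c0 : 0 ≤ ∑ o, ∑ x, H.B o x ^ 2 := Finset.sum_nonneg fun o _ => Finset.sum_nonneg fun x _ => sq_nonneg _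
    have c1 : 0 ≤ ∑ x, (ζ * u) x ^ 2 := Finset.sum_nonneg fun x _ => sq_nonneg _
    calc ∑ o, H.obs (ζ * u) o ^ 2 ≤ (∑ o, ∑ x, H.B o x ^ 2) * ∑ x, (ζ * u) x ^ 2 := ps_cacc_rows H _
      _ ≤ CB / (ν : ℝ) ^ 2 * ∑ x, (ζ * u) x ^ 2 := mul_le_mul_of_nonneg_right hCB c1
      _ ≤ _ := mul_le_mul_of_nonneg_left s6 (c0.trans hCB)
  have s8 : a * psCutErr H a ζ u ≤ (18 + a * CB) / (ν : ℝ) ^ 2 * psMass (Γ.sites g (Y ∪ psShell Γ Y)) u := by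
    unfold psCutErr
    rw [mul_add, ← mul_assoc, mul_inv_cancel₀ ha.ne', one_mul]
    have := mul_le_mul_of_nonneg_left s7 ha.le
    have e : (18 + a * CB) / (ν : ℝ) ^ 2 * psMass (Γ.sites g (Y ∪ psShell Γ Y)) u
        = 18 / (ν : ℝ) ^ 2 * psMass (Γ.sites g (Y ∪ psShell Γ Y)) u + a * (CB / (ν : ℝ) ^ 2 * psMass (Γ.sites g (Y ∪ psShell Γ Y)) u) := by ring
    rw [e]
    linarith
  rw [s3] at s2
  exact s1.trans (s2.trans s8)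

/-- LEAF L-PS-M4 (~250 l.): **THE CORE.**   `ps_mass_trace_abs` with `q = |Y ∪ shell| + |H.O|`, `κ' = θ ν²`, `β = 4 K⁴ a (18 + a CB) ν²`.   Functionals at level `k`: index type `((Y ∪ shell) × Fin (4^k)) ⊕ H.O`
(cardinality `|Y ∪ shell| 4^k + |H.O| ≤ 4^k q`): the `ℓ` of `ps_cell_res` (`W = K ν`) for the cells of `Y ∪ psShell Γ Y ⊆ Γ.T`, and `u ↦ H.obs u o`.   On their kernel, `Y₂ = Y ∪ shell`:
`psMass Y u ≤ 2 W² 4^{-k} psEnIn Y u` (`ps_mass_cells`, `ps_cell_res`, `ps_enIn_cells`) `≤ 2 W² 4^{-k} (18 + a CB) ν⁻² psMass Y₂ u` (`ps_cacc`) `≤ 2 W² 4^{-k} (18 + a CB) ν⁻² 2 W² 4^{-k} psEnIn Y₂ u`,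
`psEnIn Y₂ u ≤ en u ≤ a form' u`. -/
theorem ps_mass_trace (Y : Finset (Fin m₁ × Fin m₂)) (hY : Y ⊆ Γ.T) {ν K : ℕ} (h3 : 3 ≤ ν) (hg : g.SideGe ν) (hK : g.SideLe (K * ν))
    (H : HLaw (Γ.graph g)) {CB : ℝ} (hCB : ∑ o, ∑ x, H.B o x ^ 2 ≤ CB / (ν : ℝ) ^ 2) {ι : Type} [Fintype ι] (R : ι → (Γ.graph g).V → ℝ)
    (hR : ∀ i, (∀ x, R i x ≠ 0 → x ∈ Γ.sites g Y) ∨ ∀ x, R i x ≠ 0 → x ∉ Γ.sites g (Y ∪ psShell Γ Y)) {a : ℝ} (ha : 0 < a)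
    {P Q : Set (Γ.graph g).V} (hQ : ∀ x ∈ Q, x ∈ P ∨ x ∉ Γ.sites g (Y ∪ psShell Γ Y)) {θ : ℝ} (hθ0 : 0 ≤ θ)
    (hθ : ∀ u ∈ plHsp (psAdd H R) a P Q, psMass (Γ.sites g Y) u ≤ θ * (ν : ℝ) ^ 2 * (psAdd H R).form a u)
    {n : ℕ} {u : Fin n → (Γ.graph g).V → ℝ} (hu : psON (psAdd H R) a P Q u) (k₁ : ℕ) :
    ∑ j, psMass (Γ.sites g Y) (u j)
      ≤ (((Y ∪ psShell Γ Y).card + Fintype.card H.O : ℕ) : ℝ)
        * (4 / 3 * (4 : ℝ) ^ k₁ * θ + 16 / 3 * ((4 : ℝ) ^ k₁)⁻¹ * (4 * (K : ℝ) ^ 4 * a * (18 + a * CB))) * (ν : ℝ) ^ 2 := by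
  classical
  set Y₂ : Finset (Fin m₁ × Fin m₂) := Y ∪ psShell Γ Y with hY₂
  have hY₂T : Y₂ ⊆ Γ.T := Finset.union_subset hY (Finset.filter_subset _ _)
  have hν : (0 : ℝ) < (ν : ℝ) := by
    have : 0 < ν := by omega
    exact_mod_cast this
  have hν2 : (0 : ℝ) < (ν : ℝ) ^ 2 := by positivity
  have hCB0 : 0 ≤ CB := by
    have h1 : (0 : ℝ) ≤ ∑ o, ∑ x, H.B o x ^ 2 := Finset.sum_nonneg fun o _ => Finset.sum_nonneg fun x _ => sq_nonneg _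
    have h2 : 0 ≤ CB / (ν : ℝ) ^ 2 := h1.trans hCB
    by_contra hneg
    exact absurd h2 (not_le.2 (div_neg_of_neg_of_pos (not_le.1 hneg) hν2))
  have hc : 0 ≤ 18 + a * CB := by positivity
  have key := ps_mass_trace_abs (psAdd H R) a P Q (Γ.sites g Y) (Y₂.card + Fintype.card H.O) (θ * (ν : ℝ) ^ 2)
    (4 * (K : ℝ) ^ 4 * a * (18 + a * CB) * (ν : ℝ) ^ 2) (by positivity) (by positivity) hθ ?_ hu k₁
  · refine key.trans (le_of_eq ?_)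
    ring
  intro k
  -- the functionals
  choose ℓ hℓ using fun κ : {κ // κ ∈ Y₂} => ps_cell_res Γ g hK (hY₂T κ.2) k
  let obsL : H.O → ((Γ.graph g).V → ℝ) →ₗ[ℝ] ℝ := fun o => ∑ x, H.B o x • LinearMap.proj x
  have hobsL : ∀ o v, obsL o v = H.obs v o := by
    intro o v
    simp [obsL, HLaw.obs, LinearMap.sum_apply]
  refine ⟨({κ // κ ∈ Y₂} × Fin (4 ^ k)) ⊕ H.O, inferInstance,
    Sum.elim (fun p => ℓ p.1 p.2) obsL, ?_, ?_⟩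
  · rw [Fintype.card_sum, Fintype.card_prod, Fintype.card_coe, Fintype.card_fin]
    have h4 : 1 ≤ 4 ^ k := Nat.one_le_pow _ _ (by norm_num)
    nlinarith [Nat.zero_le (Fintype.card H.O), Nat.zero_le Y₂.card]
  intro v hv hker
  have hk1 : ∀ (κ : {κ // κ ∈ Y₂}) (j : Fin (4 ^ k)), ℓ κ j v = 0 := fun κ j => hker (Sum.inl (κ, j))
  have hk2 : ∀ o, H.obs v o = 0 := fun o => by rw [← hobsL]; exact hker (Sum.inr o)
  set W : ℝ := ((K * ν : ℕ) : ℝ) with hW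
  set c : ℝ := 2 * W ^ 2 * ((4 : ℝ) ^ k)⁻¹ with hcdef
  have hc0 : 0 ≤ c := by positivity
  -- resolution on any union of cells of `Y₂`
  have hres : ∀ Z : Finset (Fin m₁ × Fin m₂), Z ⊆ Y₂ → psMass (Γ.sites g Z) v ≤ c * psEnIn (Γ.sites g Z) v := by
    intro Z hZ
    rw [ps_mass_cells]
    calc ∑ κ ∈ Z, psMass (Γ.sites g {κ}) v ≤ ∑ κ ∈ Z, c * psEnIn (Γ.sites g {κ}) v :=
          Finset.sum_le_sum fun κ hκ => hℓ ⟨κ, hZ hκ⟩ v (hk1 ⟨κ, hZ hκ⟩)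
      _ = c * ∑ κ ∈ Z, psEnIn (Γ.sites g {κ}) v := by rw [Finset.mul_sum]
      _ ≤ c * psEnIn (Γ.sites g Z) v := mul_le_mul_of_nonneg_left (ps_enIn_cells Γ g Z v) hc0
  have h1 := hres Y Finset.subset_union_left
  have h2 := ps_cacc Γ g Y h3 hg H hCB R hR ha hQ hv hk2
  have h3' := hres Y₂ (Finset.Subset.refl _)
  have h4 : psEnIn (Γ.sites g Y₂) v ≤ a * (psAdd H R).form a v := by
    refine (ps_enIn_le_en _ v).trans ?_
    have h5 : (0 : ℝ) ≤ ∑ o, (psAdd H R).obs v o ^ 2 := Finset.sum_nonneg fun o _ => sq_nonneg _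
    have h6 : a * (psAdd H R).form a v = HLaw.en v 0 + a * ∑ o, (psAdd H R).obs v o ^ 2 := by
      unfold HLaw.form
      field_simp
    rw [h6]
    nlinarith
  have hd0 : 0 ≤ (18 + a * CB) / (ν : ℝ) ^ 2 := by positivity
  calc psMass (Γ.sites g Y) v ≤ c * psEnIn (Γ.sites g Y) v := h1
    _ ≤ c * ((18 + a * CB) / (ν : ℝ) ^ 2 * psMass (Γ.sites g Y₂) v) := mul_le_mul_of_nonneg_left h2 hc0
    _ ≤ c * ((18 + a * CB) / (ν : ℝ) ^ 2 * (c * (a * (psAdd H R).form a v))) := by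
        refine mul_le_mul_of_nonneg_left (mul_le_mul_of_nonneg_left (h3'.trans ?_) hd0) hc0
        exact mul_le_mul_of_nonneg_left h4 hc0
    _ = ((16 : ℝ) ^ k)⁻¹ * (4 * (K : ℝ) ^ 4 * a * (18 + a * CB) * (ν : ℝ) ^ 2) * (psAdd H R).form a v := by
        have e16 : ((16 : ℝ) ^ k)⁻¹ = ((4 : ℝ) ^ k)⁻¹ * ((4 : ℝ) ^ k)⁻¹ := by
          rw [← mul_inv, ← mul_pow]; norm_num
        rw [e16, hcdef, hW]
        push_cast
        field_simp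
        ring

end Core

/-! ## 2. the band law (P3, POT-F) -/

section Band

variable (Γ : CGeom m₁ m₂) (g : DGrid m₁ m₂)

/-- the soft rows are carried by the region of the partition -/
theorem ps_bt_soft_supp {m₁ m₂ : ℕ} (Γ : CGeom m₁ m₂) (g : DGrid m₁ m₂) {S : Finset (Fin m₁ × Fin m₂)} {ι : Type} (b : ι → PsBox) (w : ι → ℝ) {s : ℕ}
    (hb : psIsPart g S s b) (i : ι) (x : (Γ.graph g).V) (hx : psSoft Γ g b w i x ≠ 0) : x ∈ Γ.sites g S := by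
  obtain ⟨κ, hκ, hsub⟩ := hb.1 i
  have h1 : domPos (D := g.region Γ.T) (cut := Γ.cutB g) x ∈ (b i).set := by
    by_contra h
    apply hx
    unfold psSoft psAvg
    rw [if_neg h, mul_zero]
  exact Finset.mem_coe.2 (Finset.mem_biUnion.2 ⟨κ, hκ, hsub h1⟩)

/-- LEAF L-PS-P1 (~200 l.): **the interaction through the band, explicit.**   `χ = psFar Γ g In ν` (`0` on `p`, `1` on `A`);  `plGap ≤ psCutErr H' a χ (u j)` (`ps_hsp_gap_le_cut`) `≤ c₁ ν⁻² psMass Kb (u j)` (`ps_band_cut_mass`);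
`ps_mass_trace` with `Y = Kb`, `θ = 2/λ + 2 a s²/ν²` (`ps_soft_mass_form`); the rows `psSoft` are carried by the sites of `Kb` (`psIsPart`). -/
theorem ps_band_trace {In Kb Out : Finset (Fin m₁ × Fin m₂)} (hL : PsLay Γ In Kb Out) {ν K : ℕ} (h3 : 3 ≤ ν) (hg : g.SideGe ν) (hK : g.SideLe (K * ν))
    (H : HLaw (Γ.graph g)) (hH : ∀ o, (∀ x, H.B o x ≠ 0 → x ∈ Γ.sites g In) ∨ ∀ x, H.B o x ≠ 0 → x ∈ Γ.sites g Out) {CB : ℝ}
    (hCB : ∑ o, ∑ x, H.B o x ^ 2 ≤ CB / (ν : ℝ) ^ 2) {a : ℝ} (ha : 0 < a)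
    {ι : Type} [Fintype ι] (b : ι → PsBox) (w : ι → ℝ) (s : ℕ) (hb : psIsPart g Kb s b) {lam Lam : ℝ} (hl : 0 < lam) (hL0 : 0 ≤ Lam)
    (hw : ∀ i, lam * (b i).set.card ≤ w i ^ 2 * (ν : ℝ) ^ 2 ∧ w i ^ 2 * (ν : ℝ) ^ 2 ≤ Lam * (b i).set.card)
    {P A p : Set (Γ.graph g).V} (hPD : plPD (psAdd H (psSoft Γ g b w)) P) (hp : p ⊆ Γ.sites g In)
    (hA : ∀ x ∈ A, x ∈ Γ.sites g Out ∧ x ∉ Γ.sites g (Kb ∪ psShell Γ Kb))
    {n : ℕ} {u : Fin n → (Γ.graph g).V → ℝ} (hu : psON (psAdd H (psSoft Γ g b w)) a P (P ∪ A) u) (k₁ : ℕ) :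
    ∑ j, plGap (psAdd H (psSoft Γ g b w)) a (P ∪ A) p (u j)
      ≤ (18 / a + 18 * Lam * (s : ℝ) ^ 2 / (ν : ℝ) ^ 2) * ((((Kb ∪ psShell Γ Kb).card + Fintype.card H.O : ℕ) : ℝ)
        * (4 / 3 * (4 : ℝ) ^ k₁ * (2 / lam + 2 * a * (s : ℝ) ^ 2 / (ν : ℝ) ^ 2)
          + 16 / 3 * ((4 : ℝ) ^ k₁)⁻¹ * (4 * (K : ℝ) ^ 4 * a * (18 + a * CB)))) := by
  have hν : (0 : ℝ) < ν := by
    have : 0 < ν := by omega
    exact_mod_cast this
  have hχp : ∀ x ∈ p, psFar Γ g In ν x = 0 := fun x hx => ps_farZ_zero g In ν (hp hx)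
  have hχA : ∀ x ∈ A, psFar Γ g In ν x = 1 := fun x hx => by
    have h2 : domPos (D := g.region Γ.T) (cut := Γ.cutB g) x ∈ g.region Out := (hA x hx).1
    obtain ⟨κ, hκ, hz⟩ := Finset.mem_biUnion.1 h2
    exact ps_farZ_one g In ν (by omega) hg (fun κ' hκ' hadj => hL.sep κ' hκ' κ hκ (geo_adj_symm hadj)) hz
  have hc1 : 0 ≤ 18 / a + 18 * Lam * (s : ℝ) ^ 2 / (ν : ℝ) ^ 2 := by positivity
  have h1 : ∀ j, plGap (psAdd H (psSoft Γ g b w)) a (P ∪ A) p (u j)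
      ≤ (18 / a + 18 * Lam * (s : ℝ) ^ 2 / (ν : ℝ) ^ 2) / (ν : ℝ) ^ 2 * psMass (Γ.sites g Kb) (u j) := fun j =>
    (ps_hsp_gap_le_cut (psAdd H (psSoft Γ g b w)) ha hPD A p (hu.1 j) hχA hχp).trans
      (ps_band_cut_mass Γ g hL h3 hg H hH ha b w s hb hL0 (fun i => (hw i).2) (u j))
  have h2 := ps_mass_trace Γ g Kb hL.band h3 hg hK H hCB (psSoft Γ g b w)
    (fun i => Or.inl fun x hx => ps_bt_soft_supp Γ g b w hb i x hx) ha (P := P) (Q := P ∪ A)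
    (fun x hx => hx.elim Or.inl fun h => Or.inr (hA x h).2)
    (θ := 2 / lam + 2 * a * (s : ℝ) ^ 2 / (ν : ℝ) ^ 2) (by positivity)
    (fun v _ => ps_soft_mass_form Γ g Kb hL.band (by omega) H ha b w s hb hl (fun i => (hw i).1) v) hu k₁
  calc ∑ j, plGap (psAdd H (psSoft Γ g b w)) a (P ∪ A) p (u j)
      ≤ ∑ j, (18 / a + 18 * Lam * (s : ℝ) ^ 2 / (ν : ℝ) ^ 2) / (ν : ℝ) ^ 2 * psMass (Γ.sites g Kb) (u j) :=
        Finset.sum_le_sum fun j _ => h1 j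
    _ = (18 / a + 18 * Lam * (s : ℝ) ^ 2 / (ν : ℝ) ^ 2) / (ν : ℝ) ^ 2 * ∑ j, psMass (Γ.sites g Kb) (u j) := by
        rw [Finset.mul_sum]
    _ ≤ (18 / a + 18 * Lam * (s : ℝ) ^ 2 / (ν : ℝ) ^ 2) / (ν : ℝ) ^ 2 * _ :=
        mul_le_mul_of_nonneg_left h2 (by positivity)
    _ = _ := by
        field_simp

end Band

theorem ps_bp_mono {c c₁ q q₀ I I' : ℝ} (hc0 : 0 ≤ c) (hc : c ≤ c₁) (hq0 : 0 ≤ q) (hq : q ≤ q₀) (hI : I ≤ I') (hI' : 0 ≤ I') :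
    c * (q * I) ≤ c₁ * (q₀ * I') := by
  have h1 : q * I ≤ q₀ * I' := (mul_le_mul_of_nonneg_left hI hq0).trans (mul_le_mul_of_nonneg_right hq hI')
  have h2 : 0 ≤ q₀ * I' := mul_nonneg (hq0.trans hq) hI'
  exact (mul_le_mul_of_nonneg_left h1 hc0).trans (mul_le_mul_of_nonneg_right hc h2)

/-- the choice of the constants of `ps_band_pin` -/
theorem ps_bp_consts (c₁ q₀ β₁ a ε : ℝ) (hc : 0 ≤ c₁) (hq : 0 ≤ q₀) (ha : 0 < a) (hε : 0 < ε) :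
    ∃ (k₁ : ℕ) (lam₀ : ℝ), 0 < lam₀ ∧ ∀ lam : ℝ, lam₀ ≤ lam → ∃ σ : ℝ, 0 < σ ∧ σ ^ 2 * lam ≤ 1 ∧
      ∀ t : ℝ, 0 ≤ t → t ≤ σ ^ 2 →
        c₁ * (q₀ * (4 / 3 * (4 : ℝ) ^ k₁ * (2 / lam + 2 * a * t) + 16 / 3 * ((4 : ℝ) ^ k₁)⁻¹ * β₁)) ≤ ε := by
  obtain ⟨E, hE⟩ : ∃ E : ℝ, E = c₁ * q₀ := ⟨_, rfl⟩
  have hE0 : 0 ≤ E := by rw [hE]; positivity
  obtain ⟨k₁, hk₁⟩ := pow_unbounded_of_one_lt (E * (16 / 3) * β₁ / (ε / 2)) (by norm_num : (1 : ℝ) < 4)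
  have h4 : (0 : ℝ) < 4 ^ k₁ := by positivity
  have hT2 : E * (16 / 3 * ((4 : ℝ) ^ k₁)⁻¹ * β₁) ≤ ε / 2 := by
    rw [div_lt_iff₀ (by positivity)] at hk₁
    have : E * (16 / 3 * ((4 : ℝ) ^ k₁)⁻¹ * β₁) = E * (16 / 3) * β₁ / 4 ^ k₁ := by field_simp
    rw [this, div_le_iff₀ h4]
    linarith
  obtain ⟨D, hD⟩ : ∃ D : ℝ, D = E * (4 / 3 * (4 : ℝ) ^ k₁) := ⟨_, rfl⟩
  have hD0 : 0 ≤ D := by rw [hD]; positivity
  refine ⟨k₁, 8 * D / ε + 1, by positivity, fun lam hlam => ?_⟩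
  have hlam0 : 0 < lam := lt_of_lt_of_le (by positivity) hlam
  have hT1 : D * (2 / lam) ≤ ε / 4 := by
    have h1 : 8 * D + ε ≤ ε * lam := by
      have := mul_le_mul_of_nonneg_left hlam hε.le
      have e : ε * (8 * D / ε + 1) = 8 * D + ε := by field_simp
      linarith
    have e : D * (2 / lam) = 2 * D / lam := by ring
    rw [e, div_le_iff₀ hlam0]
    linarith
  obtain ⟨τ, hτ⟩ : ∃ τ : ℝ, τ = min (1 / lam) (ε / (8 * a * D + 1)) := ⟨_, rfl⟩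
  have hτ0 : 0 < τ := by rw [hτ]; exact lt_min (by positivity) (by positivity)
  have hσ2 : Real.sqrt τ ^ 2 = τ := Real.sq_sqrt hτ0.le
  refine ⟨Real.sqrt τ, Real.sqrt_pos.2 hτ0, ?_, fun t ht0 ht => ?_⟩
  · rw [hσ2]
    have : τ ≤ 1 / lam := by rw [hτ]; exact min_le_left _ _
    calc τ * lam ≤ 1 / lam * lam := by gcongr
      _ = 1 := by field_simp
  · rw [hσ2] at ht
    have h2 : τ ≤ ε / (8 * a * D + 1) := by rw [hτ]; exact min_le_right _ _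
    have h3 : t * (8 * a * D + 1) ≤ ε := by
      have := ht.trans h2
      rwa [le_div_iff₀ (by positivity)] at this
    have hT3 : D * (2 * a * t) ≤ ε / 4 := by nlinarith
    calc c₁ * (q₀ * (4 / 3 * (4 : ℝ) ^ k₁ * (2 / lam + 2 * a * t) + 16 / 3 * ((4 : ℝ) ^ k₁)⁻¹ * β₁))
        = D * (2 / lam) + D * (2 * a * t) + E * (16 / 3 * ((4 : ℝ) ^ k₁)⁻¹ * β₁) := by rw [hD, hE]; ring
      _ ≤ ε := by linarith

/-- LEAF L-PS-P2 (~200 l. of real estimates): **P3 / POT-F: the pin interaction of the band law tends to `0`**, uniformly in the mesh, in the geometry and in the fine partition.   Order: `ε`; `λ ≥ λ₀`; `s ≤ σ ν`.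
From `ps_band_trace` with `Λ = M λ`:  impose `σ² ≤ 1/λ`: `c₁ ≤ 18/a + 18 M`;  `q ≤ m₁ m₂ + N`;  choose `k₁` with `c₁ q (16/3) 4^{-k₁} β₁ ≤ ε/2`, then `λ₀` with `c₁ q (4/3) 4^{k₁} (2/λ₀) ≤ ε/4`, then `σ` with `c₁ q (4/3) 4^{k₁} 2 a σ² ≤ ε/4`.
Second part: `ps_gPin_le_trace` (`A ∩ p = ∅`: a cell of `In ∩ Out` would be adjacent to itself). -/
theorem ps_band_pin (m₁ m₂ K N : ℕ) {a : ℝ} (ha : 0 < a) (CB M : ℝ) {ε : ℝ} (hε : 0 < ε) :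
    ∃ lam₀ : ℝ, 0 < lam₀ ∧ ∀ lam : ℝ, lam₀ ≤ lam → ∃ σ : ℝ, 0 < σ ∧ ∀ (Γ : CGeom m₁ m₂) (g : DGrid m₁ m₂) (ν : ℕ), 3 ≤ ν → g.SideGe ν → g.SideLe (K * ν) →
    ∀ In Kb Out : Finset (Fin m₁ × Fin m₂), PsLay Γ In Kb Out → ∀ H : HLaw (Γ.graph g), Fintype.card H.O ≤ N →
    (∀ o, (∀ x, H.B o x ≠ 0 → x ∈ Γ.sites g In) ∨ ∀ x, H.B o x ≠ 0 → x ∈ Γ.sites g Out) → ∑ o, ∑ x, H.B o x ^ 2 ≤ CB / (ν : ℝ) ^ 2 →
    ∀ (ι : Type) [Fintype ι] (b : ι → PsBox) (w : ι → ℝ) (s : ℕ), psIsPart g Kb s b → (s : ℝ) ≤ σ * ν →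
    (∀ i, lam * (b i).set.card ≤ w i ^ 2 * (ν : ℝ) ^ 2 ∧ w i ^ 2 * (ν : ℝ) ^ 2 ≤ M * lam * (b i).set.card) →
    ∀ P A p : Set (Γ.graph g).V, plPD (psAdd H (psSoft Γ g b w)) P → p ⊆ Γ.sites g In →
    (∀ x ∈ A, x ∈ Γ.sites g Out ∧ x ∉ Γ.sites g (Kb ∪ psShell Γ Kb)) →
    (∀ (n : ℕ) (u : Fin n → (Γ.graph g).V → ℝ), psON (psAdd H (psSoft Γ g b w)) a P (P ∪ A) u →
      ∑ j, plGap (psAdd H (psSoft Γ g b w)) a (P ∪ A) p (u j) ≤ ε) ∧ (psAdd H (psSoft Γ g b w)).gPin a P A p ≤ ε := by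
  obtain ⟨β₁, hβ₁⟩ : ∃ β₁ : ℝ, β₁ = 4 * (K : ℝ) ^ 4 * a * (18 + a * max CB 0) := ⟨_, rfl⟩
  have hβ0 : 0 ≤ β₁ := by
    rw [hβ₁]
    have := le_max_right CB 0
    positivity
  obtain ⟨k₁, lam₀, hlam₀, hc⟩ := ps_bp_consts (18 / a + 18 * |M|) ((m₁ * m₂ + N : ℕ) : ℝ) β₁ a ε (by positivity) (by positivity) ha hε
  refine ⟨lam₀, hlam₀, fun lam hlam => ?_⟩
  obtain ⟨σ, hσ, hσl, hc⟩ := hc lam hlam
  have hlam0 : 0 < lam := lt_of_lt_of_le hlam₀ hlam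
  refine ⟨σ, hσ, fun Γ g ν h3 hg hK In Kb Out hL H hN hH hCB ι _ b w s hb hs hw P A p hPD hp hA => ?_⟩
  have hν : (0 : ℝ) < ν := by
    have : 0 < ν := by omega
    exact_mod_cast this
  have key : ∀ (n : ℕ) (u : Fin n → (Γ.graph g).V → ℝ), psON (psAdd H (psSoft Γ g b w)) a P (P ∪ A) u →
      ∑ j, plGap (psAdd H (psSoft Γ g b w)) a (P ∪ A) p (u j) ≤ ε := by
    intro n u hu
    have hw' : ∀ i, lam * (b i).set.card ≤ w i ^ 2 * (ν : ℝ) ^ 2 ∧ w i ^ 2 * (ν : ℝ) ^ 2 ≤ |M| * lam * (b i).set.card := fun i =>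
      ⟨(hw i).1, (hw i).2.trans (by
        have := le_abs_self M
        gcongr)⟩
    have h := ps_band_trace Γ g hL h3 hg hK H hH hCB ha b w s hb hlam0 (by positivity : 0 ≤ |M| * lam) hw' hPD hp hA hu k₁
    obtain ⟨t, ht⟩ : ∃ t : ℝ, t = (s : ℝ) ^ 2 / (ν : ℝ) ^ 2 := ⟨_, rfl⟩
    have ht0 : 0 ≤ t := by rw [ht]; positivity
    have htσ : t ≤ σ ^ 2 := by
      rw [ht, div_le_iff₀ (by positivity), ← mul_pow]
      exact pow_le_pow_left₀ (by positivity) hs 2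
    have e1 : 18 * (|M| * lam) * (s : ℝ) ^ 2 / (ν : ℝ) ^ 2 = 18 * (|M| * (t * lam)) := by rw [ht]; ring
    have e2 : 2 * a * (s : ℝ) ^ 2 / (ν : ℝ) ^ 2 = 2 * a * t := by rw [ht]; ring
    rw [e1, e2] at h
    have htl : t * lam ≤ 1 := (mul_le_mul_of_nonneg_right htσ hlam0.le).trans hσl
    refine h.trans ((ps_bp_mono (by positivity) ?_ (by positivity) ?_ ?_ ?_).trans (hc t ht0 htσ))
    · have : |M| * (t * lam) ≤ |M| * 1 := mul_le_mul_of_nonneg_left htl (abs_nonneg M)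
      linarith
    · have h1 : (Kb ∪ psShell Γ Kb).card ≤ m₁ * m₂ := by
        have := Finset.card_le_univ (Kb ∪ psShell Γ Kb)
        simpa using this
      exact_mod_cast Nat.add_le_add h1 hN
    · have h1 : 4 * (K : ℝ) ^ 4 * a * (18 + a * CB) ≤ β₁ := by
        rw [hβ₁]
        have := le_max_left CB 0
        gcongr
      gcongr
    · positivity
  refine ⟨key, ?_⟩
  have hd : A ∩ p ⊆ P := by
    rintro x ⟨hxA, hxp⟩
    exfalso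
    have h1 : domPos x ∈ g.region Out := (hA x hxA).1
    have h2 : domPos x ∈ g.region In := hp hxp
    obtain ⟨κ', hκ', hx'⟩ := Finset.mem_biUnion.1 h1
    obtain ⟨κ, hκ, hx⟩ := Finset.mem_biUnion.1 h2
    have := geo_cell_unique g hx hx'
    subst this
    exact hL.sep κ hκ κ hκ' (geo_adj_refl κ)
  have := ps_gPin_le_trace (psAdd H (psSoft Γ g b w)) ha hPD A p hd key
  linarith

/-! ## 3. general rows: bounds from the gap of variances (P2, P4, P6) -/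

section Gap

variable (Γ : CGeom m₁ m₂) (g : DGrid m₁ m₂)

theorem ps_sq_cut_le {c b : ℝ} (h0 : 0 ≤ c) (h1 : c ≤ 1) : (c * b) ^ 2 ≤ b ^ 2 := by
  have h2 : c ^ 2 ≤ 1 := by nlinarith
  have h3 : c ^ 2 * b ^ 2 ≤ 1 * b ^ 2 := mul_le_mul_of_nonneg_right h2 (sq_nonneg b)
  have e : (c * b) ^ 2 = c ^ 2 * b ^ 2 := by ring
  linarith

/-- LEAF L-PS-P3 (~300 l.): **explicit bound from `psGap ≤ θ ν² |f|²`.**   `H' = psAdd H R`, the rows `R` carried by `A`.   `χ = psFar Γ g In ν`;  `plGap ≤ psCutErr H' a χ u = psCutErr H a χ u` (`ps_hsp_gap_le_cut`, `ps_cutErr_add`: `χ = 1` on `A`)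
`= a⁻¹ (gradient part) + ∑_o (commutator)`.   Gradient part: `ps_far_grad`, `ps_lay_shell`, then `ps_mass_trace` (`Y = Kb`) where `hθ` comes from `ps_hsp_pair_sq_le` with `f = 1_Y u`:
`(psMass Y u)² = ⟨f,u⟩² ≤ θ ν² psMass Y u · form' u`.   Commutators: `ps_rows_trace` for the law `H'` and the vectors `H.B o`; `hG`; `∑_x (χ B)² ≤ ∑_x B²` (`ps_farZ_mem`). -/
theorem ps_gap_trace {In Kb Out : Finset (Fin m₁ × Fin m₂)} (hL : PsLay Γ In Kb Out) {ν K : ℕ} (h3 : 3 ≤ ν) (hg : g.SideGe ν) (hK : g.SideLe (K * ν))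
    (H : HLaw (Γ.graph g)) {CB : ℝ} (hCB : ∑ o, ∑ x, H.B o x ^ 2 ≤ CB / (ν : ℝ) ^ 2) {a : ℝ} (ha : 0 < a)
    {ι : Type} [Fintype ι] (R : ι → (Γ.graph g).V → ℝ) {P A p : Set (Γ.graph g).V} (hPD : plPD (psAdd H R) P) (hR : ∀ i x, R i x ≠ 0 → x ∈ A)
    (hp : p ⊆ Γ.sites g In) (hA : ∀ x ∈ A, x ∈ Γ.sites g Out ∧ x ∉ Γ.sites g (Kb ∪ psShell Γ Kb)) {θ : ℝ} (hθ0 : 0 ≤ θ)
    (hG : ∀ f : (Γ.graph g).V → ℝ, psGap (psAdd H R) a P A f ≤ θ * (ν : ℝ) ^ 2 * ∑ x, f x ^ 2)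
    {n : ℕ} {u : Fin n → (Γ.graph g).V → ℝ} (hu : psON (psAdd H R) a P (P ∪ A) u) (k₁ : ℕ) :
    ∑ j, plGap (psAdd H R) a (P ∪ A) p (u j)
      ≤ 18 / a * ((((Kb ∪ psShell Γ Kb).card + Fintype.card H.O : ℕ) : ℝ)
        * (4 / 3 * (4 : ℝ) ^ k₁ * θ + 16 / 3 * ((4 : ℝ) ^ k₁)⁻¹ * (4 * (K : ℝ) ^ 4 * a * (18 + a * CB)))) + 2 * θ * CB := by
  have hν0 : (0 : ℝ) < ν := by exact_mod_cast (by omega : 0 < ν)
  obtain ⟨χ, hχ⟩ : ∃ χ : (Γ.graph g).V → ℝ, χ = psFar Γ g In ν := ⟨_, rfl⟩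
  have hχ01 : ∀ x, 0 ≤ χ x ∧ χ x ≤ 1 := fun x => by rw [hχ]; exact ps_farZ_mem g In ν _
  have hχA : ∀ x ∈ A, χ x = 1 := by
    intro x hx
    have h1 : domPos (D := g.region Γ.T) (cut := Γ.cutB g) x ∈ g.region Out := Finset.mem_coe.1 (hA x hx).1
    obtain ⟨κ, hκ, hz⟩ := Finset.mem_biUnion.1 h1
    rw [hχ]
    exact ps_farZ_one g In ν (by omega) hg (fun κ' hκ' hadj => hL.sep κ' hκ' κ hκ (geo_adj_symm hadj)) hz
  have hχp : ∀ x ∈ p, χ x = 0 := by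
    intro x hx
    rw [hχ]
    exact ps_farZ_zero g In ν (Finset.mem_coe.1 (hp hx))
  -- the cutoff error
  have s1 : ∀ j, plGap (psAdd H R) a (P ∪ A) p (u j) ≤ psCutErr H a χ (u j) := by
    intro j
    have := ps_hsp_gap_le_cut (psAdd H R) ha hPD A p (hu.1 j) hχA hχp
    rwa [ps_cutErr_add H R a χ (u j) (fun i => Or.inl fun x hx => hχA x (hR i x hx))] at this
  -- the gradient part
  have s2 : ∀ j, ∑ e, u j ((Γ.graph g).src e) * u j ((Γ.graph g).tgt e) * plGrad χ e ^ 2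
      ≤ 18 / (ν : ℝ) ^ 2 * psMass (Γ.sites g Kb) (u j) := by
    intro j
    rw [hχ]
    refine (ps_far_grad Γ g In h3 hg (u j)).trans (mul_le_mul_of_nonneg_left (ps_mass_mono ?_ _) (by positivity))
    intro x hx
    exact Finset.mem_coe.2 (Finset.biUnion_subset_biUnion_of_subset_left _ (ps_lay_shell Γ hL) (Finset.mem_coe.1 hx))
  -- the mass on the band is controlled by the form on the energy space
  have hθ : ∀ v ∈ plHsp (psAdd H R) a P (P ∪ A), psMass (Γ.sites g Kb) v ≤ θ * (ν : ℝ) ^ 2 * (psAdd H R).form a v := by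
    intro v hv
    obtain ⟨f, hf⟩ : ∃ f : (Γ.graph g).V → ℝ, ∀ x, f x = if x ∈ Γ.sites g Kb then v x else 0 := ⟨_, fun _ => rfl⟩
    have e1 : HLaw.pair f v = psMass (Γ.sites g Kb) v := by
      unfold HLaw.pair psMass
      refine Finset.sum_congr rfl fun x _ => ?_
      rw [hf]
      split_ifs <;> ring
    have e2 : ∑ x, f x ^ 2 = psMass (Γ.sites g Kb) v := by
      unfold psMass
      refine Finset.sum_congr rfl fun x _ => ?_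
      rw [hf]
      split_ifs <;> ring
    have h1 := ps_hsp_pair_sq_le (psAdd H R) ha hPD A hv f
    have h2 := hG f
    rw [e1] at h1
    rw [e2] at h2
    have hF := pl_form_nonneg (psAdd H R) ha v
    have hM := ps_mass_nonneg (Γ.sites g Kb) v
    rcases hM.eq_or_lt with h0 | h0
    · rw [← h0]; positivity
    · have h4 := h1.trans (mul_le_mul_of_nonneg_right h2 hF)
      refine le_of_mul_le_mul_left ?_ h0
      calc psMass (Γ.sites g Kb) v * psMass (Γ.sites g Kb) v = psMass (Γ.sites g Kb) v ^ 2 := by ring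
        _ ≤ θ * (ν : ℝ) ^ 2 * psMass (Γ.sites g Kb) v * (psAdd H R).form a v := h4
        _ = psMass (Γ.sites g Kb) v * (θ * (ν : ℝ) ^ 2 * (psAdd H R).form a v) := by ring
  have s4 := ps_mass_trace Γ g Kb hL.band h3 hg hK H hCB R (fun i => Or.inr fun x hx => (hA x (hR i x hx)).2) ha
    (P := P) (Q := P ∪ A) (fun x hx => hx.elim Or.inl fun h => Or.inr (hA x h).2) hθ0 hθ hu k₁
  -- the commutators
  have s5 := ps_rows_trace (psAdd H R) ha hPD A hu χ H.B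
  have s6 : ∑ o, (psGap (psAdd H R) a P A (χ * H.B o) + psGap (psAdd H R) a P A (H.B o) / 2
      + psGap (psAdd H R) a P A (χ * χ * H.B o) / 2) ≤ 2 * θ * CB := by
    have hk : 0 ≤ θ * (ν : ℝ) ^ 2 := by positivity
    have t1 : ∀ o, psGap (psAdd H R) a P A (χ * H.B o) + psGap (psAdd H R) a P A (H.B o) / 2
        + psGap (psAdd H R) a P A (χ * χ * H.B o) / 2 ≤ 2 * (θ * (ν : ℝ) ^ 2) * ∑ x, H.B o x ^ 2 := by
      intro o
      have a1 : psGap (psAdd H R) a P A (χ * H.B o) ≤ θ * (ν : ℝ) ^ 2 * ∑ x, H.B o x ^ 2 :=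
        (hG _).trans (mul_le_mul_of_nonneg_left (Finset.sum_le_sum fun x _ => ps_sq_cut_le (hχ01 x).1 (hχ01 x).2) hk)
      have a2 : psGap (psAdd H R) a P A (χ * χ * H.B o) ≤ θ * (ν : ℝ) ^ 2 * ∑ x, H.B o x ^ 2 :=
        (hG _).trans (mul_le_mul_of_nonneg_left (Finset.sum_le_sum fun x _ =>
          ps_sq_cut_le (mul_nonneg (hχ01 x).1 (hχ01 x).1) (mul_le_one₀ (hχ01 x).2 (hχ01 x).1 (hχ01 x).2)) hk)
      have a3 := hG (H.B o)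
      linarith
    refine (Finset.sum_le_sum fun o _ => t1 o).trans ?_
    rw [← Finset.mul_sum]
    have t2 := mul_le_mul_of_nonneg_left hCB (by positivity : 0 ≤ 2 * (θ * (ν : ℝ) ^ 2))
    have e : 2 * (θ * (ν : ℝ) ^ 2) * (CB / (ν : ℝ) ^ 2) = 2 * θ * CB := by field_simp
    linarith
  -- conclusion
  have s7 : ∑ j, psCutErr H a χ (u j)
      = a⁻¹ * ∑ j, ∑ e, u j ((Γ.graph g).src e) * u j ((Γ.graph g).tgt e) * plGrad χ e ^ 2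
        + ∑ j, ∑ o, ((∑ x, H.B o x * (χ * u j) x) ^ 2 - (∑ x, H.B o x * u j x) * ∑ x, H.B o x * (χ * χ * u j) x) := by
    rw [Finset.mul_sum, ← Finset.sum_add_distrib]
    rfl
  have s8 : a⁻¹ * ∑ j, ∑ e, u j ((Γ.graph g).src e) * u j ((Γ.graph g).tgt e) * plGrad χ e ^ 2
      ≤ 18 / a * ((((Kb ∪ psShell Γ Kb).card + Fintype.card H.O : ℕ) : ℝ)
        * (4 / 3 * (4 : ℝ) ^ k₁ * θ + 16 / 3 * ((4 : ℝ) ^ k₁)⁻¹ * (4 * (K : ℝ) ^ 4 * a * (18 + a * CB)))) := by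
    have t1 : ∑ j, ∑ e, u j ((Γ.graph g).src e) * u j ((Γ.graph g).tgt e) * plGrad χ e ^ 2
        ≤ 18 / (ν : ℝ) ^ 2 * ∑ j, psMass (Γ.sites g Kb) (u j) := by
      rw [Finset.mul_sum]
      exact Finset.sum_le_sum fun j _ => s2 j
    have t2 := mul_le_mul_of_nonneg_left s4 (by positivity : 0 ≤ 18 / (ν : ℝ) ^ 2)
    have t3 := mul_le_mul_of_nonneg_left (t1.trans t2) (by positivity : 0 ≤ a⁻¹)
    refine t3.trans (le_of_eq ?_)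
    field_simp
  calc ∑ j, plGap (psAdd H R) a (P ∪ A) p (u j) ≤ ∑ j, psCutErr H a χ (u j) := Finset.sum_le_sum fun j _ => s1 j
    _ ≤ _ := by rw [s7]; linarith

/-- LEAF L-PS-P4 (~150 l.): **P4, P6: the interaction of two separated pins is bounded**, uniformly in the mesh, for every coercive law.   `ps_gap_trace` with `R` = no row (`ι = Empty`; `ps_eqv_empty`, `ps_eqv_gap`, `ps_eqv_ON`, `ps_eqv_PD`, `ps_eqv_gVar`),
`θ = Cc` (`psGap ≤ gVar_P f ≤ Cc ν² |f|²`: `ps_gVar_le_coer`, `gVar_{P ∪ A} f ≥ 0`), `k₁ = 0`. -/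
theorem ps_pin_bdd {In Kb Out : Finset (Fin m₁ × Fin m₂)} (hL : PsLay Γ In Kb Out) {ν K : ℕ} (h3 : 3 ≤ ν) (hg : g.SideGe ν) (hK : g.SideLe (K * ν))
    (H : HLaw (Γ.graph g)) {CB : ℝ} (hCB : ∑ o, ∑ x, H.B o x ^ 2 ≤ CB / (ν : ℝ) ^ 2) {a : ℝ} (ha : 0 < a) {P A p : Set (Γ.graph g).V} {Cc : ℝ} (hCc : 0 ≤ Cc)
    (hco : ∀ v : (Γ.graph g).V → ℝ, (∀ x ∈ P, v x = 0) → ∑ x, v x ^ 2 ≤ Cc * (ν : ℝ) ^ 2 * H.form a v)
    (hp : p ⊆ Γ.sites g In) (hA : ∀ x ∈ A, x ∈ Γ.sites g Out ∧ x ∉ Γ.sites g (Kb ∪ psShell Γ Kb))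
    {n : ℕ} {u : Fin n → (Γ.graph g).V → ℝ} (hu : psON H a P (P ∪ A) u) :
    ∑ j, plGap H a (P ∪ A) p (u j)
      ≤ 18 / a * ((((Kb ∪ psShell Γ Kb).card + Fintype.card H.O : ℕ) : ℝ) * (4 / 3 * Cc + 16 / 3 * (4 * (K : ℝ) ^ 4 * a * (18 + a * CB)))) + 2 * Cc * CB := by
  have hE : psEqv (psAdd H (fun e : Empty => e.elim)) H := ps_eqv_empty H _
  have hPD : plPD (psAdd H (fun e : Empty => e.elim)) P := (ps_eqv_PD hE P).2 (ps_PD_of_coer H hco)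
  have hG : ∀ f : (Γ.graph g).V → ℝ, psGap (psAdd H (fun e : Empty => e.elim)) a P A f ≤ Cc * (ν : ℝ) ^ 2 * ∑ x, f x ^ 2 := by
    intro f
    unfold psGap
    rw [ps_eqv_gVar hE, ps_eqv_gVar hE]
    have h1 := ps_gVar_le_coer H ha (by positivity : 0 ≤ Cc * (ν : ℝ) ^ 2) hco f
    have h2 := pl_gVar_nonneg (plPin H (P ∪ A)) ha f
    linarith
  have h := ps_gap_trace Γ g hL h3 hg hK H hCB ha (fun e : Empty => e.elim) hPD (fun i => i.elim) hp hA hCc hG ((ps_eqv_ON hE a P (P ∪ A) u).2 hu) 0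
  simp only [ps_eqv_gap hE, pow_zero, inv_one, mul_one] at h
  exact h

end Gap

/-- **the `ℓ²` form of `ps_est`**: `ps_core` + counting + `ps_est_num` with `Cf2 = ν² |f|²`. -/
theorem ps_est_l2 {m₁ m₂ : ℕ} (Γ : CGeom m₁ m₂) (hΓ : Γ.NoDiag) (K : ℕ) {a : ℝ} (ha : 0 < a) (CB : ℝ) :
    ∃ C C₀ : ℝ, 0 < C ∧ 0 < C₀ ∧ ∀ (g : DGrid m₁ m₂) (ν : ℕ), g.SideGe ν → g.SideLe (K * ν) → ∀ H : HLaw (Γ.graph g),
    (∀ x, ∑ o, H.B o x ^ 2 ≤ CB / (ν : ℝ) ^ 4) → ∀ A : Finset (Fin m₁ × Fin m₂), A ⊆ Γ.T →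
    ∀ (ι : Type) [Fintype ι] (R : ι → (Γ.graph g).V → ℝ), (∀ i x, R i x ≠ 0 → x ∈ Γ.sites g A) →
    ∀ (P : Set (Γ.graph g).V) (f v : (Γ.graph g).V → ℝ), plIsOpt (plPin (psAdd H R) P) a f v →
    ∀ δ ρ : ℕ, 1 ≤ δ → δ < ρ → ρ < ν → ∀ mA τ ζ L : ℝ,
    ∑ x, (if x ∈ Γ.sites g A then v x ^ 2 else 0) ≤ mA → 0 ≤ τ → τ ≤ 1 → 0 ≤ ζ → 1 ≤ L → L ≤ Real.log ((ρ : ℝ) / δ) →
    (1 + C * (ρ / δ)) * mA + C * ((m₁ * m₂ : ℕ) : ℝ) * (ρ : ℝ) ^ 2 * (a * (psAdd H R).form a v)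
      ≤ τ ^ 2 * (ν : ℝ) ^ 2 * (psAdd H R).form a v →
    C / (δ : ℝ) ^ 2 * mA ≤ ζ * (psAdd H R).form a v →
    psGap (psAdd H R) a P (psCollar Γ g A δ) f
      ≤ (C₀ * (τ + 1 / L) + 8 * ζ / a) * ((psAdd H R).form a v + (ν : ℝ) ^ 2 * ∑ x, f x ^ 2) := by
  obtain ⟨C, hC, hcore⟩ := ps_core
  obtain ⟨m, hm⟩ : ∃ m : ℝ, m = ((m₁ * m₂ : ℕ) : ℝ) := ⟨_, rfl⟩
  have hm0 : 0 ≤ m := by rw [hm]; positivity
  obtain ⟨q, hq⟩ : ∃ q : ℝ, q = m * ((K : ℝ) + 2) ^ 2 + 1 := ⟨_, rfl⟩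
  have hq1 : 1 ≤ q := by
    rw [hq]
    have : 0 ≤ m * ((K : ℝ) + 2) ^ 2 := by positivity
    linarith
  have hq0 : 0 ≤ q := by linarith
  obtain ⟨B, hB⟩ : ∃ B : ℝ, B = max CB 0 := ⟨_, rfl⟩
  have hB0 : 0 ≤ B := by rw [hB]; exact le_max_right _ _
  have hCBB : CB ≤ B := by rw [hB]; exact le_max_left _ _
  refine ⟨C, (q + 1) + q * B + (q * B + 1) + 48 * C * m, hC, by positivity, ?_⟩
  intro g ν hge hle H hrow A hA ι _ R hR P f v hv δ ρ h1 h2 h3 mA τ ζ L hmA hτ0 hτ1 hζ hL hLL hM hZ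
  rw [← hm] at hM
  have hν0 : (0 : ℝ) < ν := by exact_mod_cast (by omega : 0 < ν)
  have hδ0 : (0 : ℝ) < δ := by exact_mod_cast h1
  have hρ0 : (0 : ℝ) < ρ := by exact_mod_cast (by omega : 0 < ρ)
  have hρν : (ρ : ℝ) ≤ ν := by exact_mod_cast h3.le
  have hV0 : 0 ≤ (psAdd H R).form a v := pl_form_nonneg _ ha v
  have hen0 : 0 ≤ HLaw.en v 0 := Finset.sum_nonneg fun e _ => sq_nonneg _
  have hen : HLaw.en v 0 ≤ a * (psAdd H R).form a v := ps_en_le_form _ ha v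
  have hmA0 : 0 ≤ mA := le_trans (Finset.sum_nonneg fun x _ => by split_ifs <;> positivity) hmA
  have hAm : (A.card : ℝ) ≤ m := by
    rw [hm]
    have : A.card ≤ m₁ * m₂ := by
      have := Finset.card_le_univ A
      simpa [Fintype.card_prod] using this
    exact_mod_cast this
  obtain ⟨S, hS⟩ : ∃ S : ℝ, S = ∑ x, f x ^ 2 := ⟨_, rfl⟩
  have hS0 : 0 ≤ S := by rw [hS]; exact Finset.sum_nonneg fun x _ => sq_nonneg _
  rw [← hS]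
  -- the number of sites of the collar
  obtain ⟨cc, hcc⟩ : ∃ cc : ℝ, cc = ((Finset.univ.filter fun x : (Γ.graph g).V => x ∈ psCollar Γ g A ρ).card : ℝ) :=
    ⟨_, rfl⟩
  have hcc0 : 0 ≤ cc := by rw [hcc]; positivity
  have hccle : cc ≤ q * (ν : ℝ) ^ 2 := by
    have h := ps_collar_card Γ g A (K * ν) ρ hle
    rw [← hcc] at h
    refine h.trans ?_
    have e1 : (((K * ν : ℕ) : ℝ) + 2 * ρ) ^ 2 ≤ (((K : ℝ) + 2) * ν) ^ 2 := by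
      refine pow_le_pow_left₀ (by positivity) ?_ 2
      push_cast
      linarith
    have e2 : q * (ν : ℝ) ^ 2 = m * (((K : ℝ) + 2) * ν) ^ 2 + (ν : ℝ) ^ 2 := by rw [hq]; ring
    rw [e2]
    have := mul_le_mul hAm e1 (by positivity) hm0
    have h5 : 0 ≤ (ν : ℝ) ^ 2 := by positivity
    linarith
  have hF2 : ∑ x, (if x ∈ psCollar Γ g A ρ then f x ^ 2 else 0) ≤ q * ((ν : ℝ) ^ 2 * S) / (ν : ℝ) ^ 2 := by
    have s1 : ∑ x, (if x ∈ psCollar Γ g A ρ then f x ^ 2 else 0) ≤ S := by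
      rw [hS]
      refine Finset.sum_le_sum fun x _ => ?_
      split_ifs
      · exact le_rfl
      · positivity
    have e : q * ((ν : ℝ) ^ 2 * S) / (ν : ℝ) ^ 2 = q * S := by field_simp
    rw [e]
    have := mul_le_mul_of_nonneg_right hq1 hS0
    linarith
  have hb2 : ∑ o, ∑ x, (if x ∈ psCollar Γ g A ρ then H.B o x ^ 2 else 0) ≤ q * B / (ν : ℝ) ^ 2 := by
    rw [Finset.sum_comm]
    have s1 : ∑ x, ∑ o, (if x ∈ psCollar Γ g A ρ then H.B o x ^ 2 else 0)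
        ≤ ∑ x, (if x ∈ psCollar Γ g A ρ then B / (ν : ℝ) ^ 4 else 0) := by
      refine Finset.sum_le_sum fun x _ => ?_
      by_cases hx : x ∈ psCollar Γ g A ρ
      · simp only [if_pos hx]
        refine (hrow x).trans ?_
        exact div_le_div_of_nonneg_right hCBB (by positivity)
      · simp only [if_neg hx, Finset.sum_const_zero, le_refl]
    rw [ps_sum_ite_const, ← hcc] at s1
    refine s1.trans ?_
    have s2 : cc * (B / (ν : ℝ) ^ 4) ≤ q * (ν : ℝ) ^ 2 * (B / (ν : ℝ) ^ 4) :=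
      mul_le_mul_of_nonneg_right hccle (by positivity)
    have e : q * (ν : ℝ) ^ 2 * (B / (ν : ℝ) ^ 4) = q * B / (ν : ℝ) ^ 2 := by
      field_simp
    linarith
  have key := hcore m₁ m₂ Γ hΓ g ν hge A hA H ι R hR a ha P f v hv δ ρ h1 h2 h3 mA _ _ hmA hF2 hb2
  exact ps_est_num ha hC (Nat.cast_nonneg _) hAm hq0 hB0 hV0 (by positivity : 0 ≤ (ν : ℝ) ^ 2 * S) hen0 hen hmA0 hρ0 hδ0 hν0
    hτ0 hτ1 hζ hL hLL rfl rfl hM hZ key

/-- LEAF L-PS-P5 (~350 l. of real estimates; from `ps_core`, as L-PS-E2): **soft rows -> hard pin, `ℓ²` form.**   `v` = optimiser of `f` for `H' = psAdd H (psSoft ..)`, pins `P`; `V = gVar f = form' v ≤ Cc ν² |f|²` (`ps_gVar_le_coer`; `form ≤ form'`: `ps_add_form`);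
`en v ≤ a V`, `mA ≤ (2/λ + 2 a s²/ν²) ν² V` (`ps_soft_mass_form`), `F2 ≤ |f|²`, `b2 ≤ CB |A| (K+2)²/ν²` (`ps_collar_card`);  `psGap (sites A) ≤ psGap (psCollar δ)` (`ps_gap_mono`), `δ = ⌊η ν⌋`, `ρ = ⌊η_ρ ν⌋`, `η = η_ρ e^{-L}/2`.
With `X = (1 + C ρ/δ) mA + C |A| ρ² en v ≤ x ν² V`, `x = (1 + 4 C e^L)(2/λ + 2 a σ²) + C |A| a η_ρ²`:   `√(F2 X) ≤ √(x Cc) ν² |f|²`,  second term `≤ (8 C |A| (4+2L')/L'² + 8 C (a L'²)⁻¹ (2/η)² (2/λ + 2 a σ²)) V`,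
`b2 X ≤ CB' x V`, `√(V b2 X) ≤ √(CB' x) V`.   Choose `L`, `η_ρ`, then `λ`, `σ` (`σ ≤ η`: `s ≥ 1` gives `ν ≥ 1/η`; `A = ∅`: the gap is `0`). -/
theorem ps_soft_l2 {m₁ m₂ : ℕ} (Γ : CGeom m₁ m₂) (hΓ : Γ.NoDiag) (K : ℕ) {a : ℝ} (ha : 0 < a) (CB Cc : ℝ) {ε : ℝ} (hε : 0 < ε) :
    ∃ lam σ : ℝ, 0 < lam ∧ 0 < σ ∧ ∀ (g : DGrid m₁ m₂) (ν : ℕ), g.SideGe ν → g.SideLe (K * ν) → ∀ H : HLaw (Γ.graph g),
    (∀ x, ∑ o, H.B o x ^ 2 ≤ CB / (ν : ℝ) ^ 4) → ∀ A : Finset (Fin m₁ × Fin m₂), A ⊆ Γ.T → ∀ P : Set (Γ.graph g).V,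
    (∀ v : (Γ.graph g).V → ℝ, (∀ x ∈ P, v x = 0) → ∑ x, v x ^ 2 ≤ Cc * (ν : ℝ) ^ 2 * H.form a v) →
    ∀ (ι : Type) [Fintype ι] (b : ι → PsBox) (w : ι → ℝ) (s : ℕ), psIsPart g A s b → (s : ℝ) ≤ σ * ν →
    (∀ i, lam * (b i).set.card ≤ w i ^ 2 * (ν : ℝ) ^ 2) →
    ∀ f : (Γ.graph g).V → ℝ, psGap (psAdd H (psSoft Γ g b w)) a P (Γ.sites g A) f ≤ ε * (ν : ℝ) ^ 2 * ∑ x, f x ^ 2 := by
  obtain ⟨ε', hε'd⟩ : ∃ ε' : ℝ, ε' = ε / (|Cc| + 1) := ⟨_, rfl⟩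
  have hCc1 : 0 < |Cc| + 1 := by positivity
  have hε' : 0 < ε' := by rw [hε'd]; positivity
  have hεε : ε' * (|Cc| + 1) = ε := by rw [hε'd]; field_simp
  obtain ⟨C, C₀, hC, hC₀, hest⟩ := ps_est_l2 Γ hΓ K ha CB
  obtain ⟨L, τ₀, ηρ, hL1, hτ0, hτ1, hη0, hη1, hc1, hc2⟩ :=
    ps_consts hC hC₀ (Nat.cast_nonneg (m₁ * m₂) : (0 : ℝ) ≤ ((m₁ * m₂ : ℕ) : ℝ)) ha hε'
  obtain ⟨η, hηd⟩ : ∃ η : ℝ, η = ηρ * Real.exp (-L) / 2 := ⟨_, rfl⟩
  have hηpos : 0 < η := by rw [hηd]; positivity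
  have hE0 : 0 < Real.exp L := Real.exp_pos _
  have hηE : 2 * (Real.exp L * η) = ηρ := by
    rw [hηd, Real.exp_neg]
    field_simp
  obtain ⟨μ₀, hμd⟩ : ∃ μ₀ : ℝ, μ₀ = min (τ₀ ^ 2 / (2 * (1 + 4 * C * Real.exp L))) (a * ε' * η ^ 2 / (64 * C)) := ⟨_, rfl⟩
  have hμ0 : 0 < μ₀ := by rw [hμd]; exact lt_min (by positivity) (by positivity)
  have hμ1 : (1 + 4 * C * Real.exp L) * μ₀ ≤ τ₀ ^ 2 / 2 := by
    have h : μ₀ ≤ τ₀ ^ 2 / (2 * (1 + 4 * C * Real.exp L)) := by rw [hμd]; exact min_le_left _ _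
    rw [le_div_iff₀ (by positivity)] at h
    linarith
  have hμ2 : 64 * C * μ₀ ≤ a * ε' * η ^ 2 := by
    have h : μ₀ ≤ a * ε' * η ^ 2 / (64 * C) := by rw [hμd]; exact min_le_right _ _
    rw [le_div_iff₀ (by positivity)] at h
    linarith
  obtain ⟨σ, hσd⟩ : ∃ σ : ℝ, σ = min η (min 1 (μ₀ / (4 * a))) := ⟨_, rfl⟩
  have hσ0 : 0 < σ := by rw [hσd]; exact lt_min hηpos (lt_min one_pos (by positivity))
  have hση : σ ≤ η := by rw [hσd]; exact min_le_left _ _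
  have hσ1 : σ ≤ 1 := by rw [hσd]; exact (min_le_right _ _).trans (min_le_left _ _)
  have hσμ : 4 * a * σ ≤ μ₀ := by
    have h : σ ≤ μ₀ / (4 * a) := by rw [hσd]; exact (min_le_right _ _).trans (min_le_right _ _)
    rw [le_div_iff₀ (by positivity)] at h
    linarith
  have hμle : 2 / (4 / μ₀) + 2 * a * σ ^ 2 ≤ μ₀ := by
    have e1 : 2 / (4 / μ₀) = μ₀ / 2 := by field_simp; norm_num
    have h2 : σ ^ 2 ≤ σ := ps_aux3 hσ0.le hσ1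
    have h3 : 2 * a * σ ^ 2 ≤ 2 * a * σ := mul_le_mul_of_nonneg_left h2 (by positivity)
    rw [e1]
    linarith
  refine ⟨4 / μ₀, σ, by positivity, hσ0, ?_⟩
  intro g ν hge hle H hrow A hA P hco ι _ b w s hb hs hw f
  obtain ⟨R, hRd⟩ : ∃ R : ι → (Γ.graph g).V → ℝ, R = psSoft Γ g b w := ⟨_, rfl⟩
  have hR : ∀ i x, R i x ≠ 0 → x ∈ Γ.sites g A := fun i x h => ps_soft_supp Γ g hb w i x (by rw [← hRd]; exact h)
  have hmass := ps_soft_mA Γ g hA hb w (by positivity : (0:ℝ) < 4 / μ₀) ha hs hw H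
  rw [← hRd] at hmass ⊢
  obtain ⟨S, hS⟩ : ∃ S : ℝ, S = ∑ x, f x ^ 2 := ⟨_, rfl⟩
  have hS0 : 0 ≤ S := by rw [hS]; exact Finset.sum_nonneg fun x _ => sq_nonneg _
  rw [← hS]
  -- coercivity of the law with the soft rows
  have hco' : ∀ v : (Γ.graph g).V → ℝ, (∀ x ∈ P, v x = 0) → ∑ x, v x ^ 2 ≤ |Cc| * (ν : ℝ) ^ 2 * (psAdd H R).form a v := by
    intro v hv
    have h1 := hco v hv
    have h2 : 0 ≤ H.form a v := pl_form_nonneg H ha v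
    have h3 : H.form a v ≤ (psAdd H R).form a v := by
      rw [ps_add_form]
      have : 0 ≤ ∑ i, (∑ x, R i x * v x) ^ 2 := Finset.sum_nonneg fun i _ => sq_nonneg _
      linarith
    have h4 : Cc * (ν : ℝ) ^ 2 * H.form a v ≤ |Cc| * (ν : ℝ) ^ 2 * H.form a v :=
      mul_le_mul_of_nonneg_right (mul_le_mul_of_nonneg_right (le_abs_self Cc) (by positivity)) h2
    have h5 : |Cc| * (ν : ℝ) ^ 2 * H.form a v ≤ |Cc| * (ν : ℝ) ^ 2 * (psAdd H R).form a v :=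
      mul_le_mul_of_nonneg_left h3 (by positivity)
    linarith
  have hPD : plPD (psAdd H R) P := ps_PD_of_coer (psAdd H R) hco'
  have hadm : plAdm (plPin (psAdd H R) P) f := pl_adm_of_PD (psAdd H R) hPD f
  have hgVle : (plPin (psAdd H R) P).gVar a f ≤ |Cc| * (ν : ℝ) ^ 2 * S := by
    rw [hS]
    exact ps_gVar_le_coer (psAdd H R) ha (by positivity) hco' f
  rcases A.eq_empty_or_nonempty with hAe | hAne
  · subst hAe
    refine (ps_gap_mono (psAdd H R) ha P (ps_sites_sub_collar Γ g hA 0) hadm).trans ?_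
    rw [ps_collar_empty, psGap, Set.union_empty, sub_self]
    positivity
  · have hs1 : 1 ≤ s := ps_part_side g hAne hb
    have hs1R : (1 : ℝ) ≤ s := by exact_mod_cast hs1
    have hν0 : (0 : ℝ) < ν := by
      by_contra hcon
      have : (ν : ℝ) = 0 := le_antisymm (not_lt.1 hcon) (Nat.cast_nonneg _)
      rw [this, mul_zero] at hs
      linarith
    have hην : 1 ≤ η * ν := by
      have := mul_le_mul_of_nonneg_right hση hν0.le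
      linarith
    obtain ⟨d1, d2, d3⟩ := ps_floor_half hην
    obtain ⟨δ', hδ'⟩ : ∃ δ' : ℕ, δ' = ⌊η * ν⌋₊ := ⟨_, rfl⟩
    rw [← hδ'] at d1 d2 d3
    have hδ'0 : (0 : ℝ) < δ' := by exact_mod_cast d1
    refine (ps_gap_mono (psAdd H R) ha P (ps_sites_sub_collar Γ g hA δ') hadm).trans ?_
    obtain ⟨v, hv⟩ := pl_opt_exists _ ha hadm
    have hV : (plPin (psAdd H R) P).gVar a f = (psAdd H R).form a v := by
      rw [pl_gVar_eq_form _ ha hv, ps_pin_form]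
    rw [hV] at hgVle
    obtain ⟨V, hVd⟩ : ∃ V : ℝ, V = (psAdd H R).form a v := ⟨_, rfl⟩
    have hV0 : 0 ≤ V := by rw [hVd]; exact pl_form_nonneg _ ha v
    obtain ⟨r1, r2, r3, r4⟩ := ps_rho hη0 hη1 hL1 d1 (by rw [← hηd]; exact d3)
    obtain ⟨ρ, hρd⟩ : ∃ ρ : ℕ, ρ = ⌊ηρ * ν⌋₊ := ⟨_, rfl⟩
    rw [← hρd] at r1 r2 r3 r4
    have hνV : 0 ≤ (ν : ℝ) ^ 2 * V := by positivity
    have hmA : ∑ x, (if x ∈ Γ.sites g A then v x ^ 2 else 0) ≤ μ₀ * ((ν : ℝ) ^ 2 * V) := by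
      refine (hmass v).trans ?_
      rw [← hVd, mul_assoc]
      exact mul_le_mul_of_nonneg_right hμle hνV
    have hratio : (ρ : ℝ) / δ' ≤ 4 * Real.exp L := by
      rw [div_le_iff₀ hδ'0]
      have h1 : 4 * Real.exp L * (η * ν / 2) ≤ 4 * Real.exp L * δ' := mul_le_mul_of_nonneg_left d2 (by positivity)
      have e1 : 4 * Real.exp L * (η * ν / 2) = 2 * (Real.exp L * η) * ν := by ring
      rw [e1, hηE] at h1
      linarith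
    have hM : (1 + C * ((ρ : ℝ) / δ')) * (μ₀ * ((ν : ℝ) ^ 2 * V)) + C * ((m₁ * m₂ : ℕ) : ℝ) * (ρ : ℝ) ^ 2 * (a * V)
        ≤ τ₀ ^ 2 * (ν : ℝ) ^ 2 * V := by
      have k0 : 1 + C * ((ρ : ℝ) / δ') ≤ 1 + 4 * C * Real.exp L := by
        have := mul_le_mul_of_nonneg_left hratio hC.le
        linarith
      have k1 : (1 + C * ((ρ : ℝ) / δ')) * (μ₀ * ((ν : ℝ) ^ 2 * V)) ≤ (1 + 4 * C * Real.exp L) * (μ₀ * ((ν : ℝ) ^ 2 * V)) :=
        mul_le_mul_of_nonneg_right k0 (by positivity)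
      have k2 : (1 + 4 * C * Real.exp L) * (μ₀ * ((ν : ℝ) ^ 2 * V)) ≤ τ₀ ^ 2 / 2 * ((ν : ℝ) ^ 2 * V) := by
        rw [← mul_assoc]
        exact mul_le_mul_of_nonneg_right hμ1 hνV
      have k3 : (ρ : ℝ) ^ 2 ≤ (ηρ * ν) ^ 2 := pow_le_pow_left₀ (Nat.cast_nonneg _) r3 2
      have k4 : C * ((m₁ * m₂ : ℕ) : ℝ) * (ρ : ℝ) ^ 2 ≤ C * ((m₁ * m₂ : ℕ) : ℝ) * (ηρ * ν) ^ 2 :=
        mul_le_mul_of_nonneg_left k3 (by positivity)
      have k5 := mul_le_mul_of_nonneg_right k4 (mul_nonneg ha.le hV0)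
      have e1 : C * ((m₁ * m₂ : ℕ) : ℝ) * (ηρ * ν) ^ 2 * (a * V)
          = C * ((m₁ * m₂ : ℕ) : ℝ) * a * ηρ ^ 2 * ((ν : ℝ) ^ 2 * V) := by ring
      have k6 : C * ((m₁ * m₂ : ℕ) : ℝ) * a * ηρ ^ 2 * ((ν : ℝ) ^ 2 * V) ≤ τ₀ ^ 2 / 2 * ((ν : ℝ) ^ 2 * V) :=
        mul_le_mul_of_nonneg_right hc2 hνV
      have e2 : τ₀ ^ 2 * (ν : ℝ) ^ 2 * V = τ₀ ^ 2 / 2 * ((ν : ℝ) ^ 2 * V) + τ₀ ^ 2 / 2 * ((ν : ℝ) ^ 2 * V) := by ring
      rw [e2]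
      linarith
    have hZ : C / (δ' : ℝ) ^ 2 * (μ₀ * ((ν : ℝ) ^ 2 * V)) ≤ a * ε' / 16 * V := by
      have k1 : (η * ν / 2) ^ 2 ≤ (δ' : ℝ) ^ 2 := pow_le_pow_left₀ (by positivity) d2 2
      have k2 : C * μ₀ * (ν : ℝ) ^ 2 ≤ a * ε' / 16 * (δ' : ℝ) ^ 2 := by
        have k3 : a * ε' / 16 * (η * ν / 2) ^ 2 ≤ a * ε' / 16 * (δ' : ℝ) ^ 2 := mul_le_mul_of_nonneg_left k1 (by positivity)
        have k4 : 64 * C * μ₀ * (ν : ℝ) ^ 2 ≤ a * ε' * η ^ 2 * (ν : ℝ) ^ 2 := mul_le_mul_of_nonneg_right hμ2 (by positivity)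
        have e1 : a * ε' / 16 * (η * ν / 2) ^ 2 = a * ε' * η ^ 2 * (ν : ℝ) ^ 2 / 64 := by ring
        linarith
      have e2 : C / (δ' : ℝ) ^ 2 * (μ₀ * ((ν : ℝ) ^ 2 * V)) = C * μ₀ * (ν : ℝ) ^ 2 / (δ' : ℝ) ^ 2 * V := by ring
      rw [e2]
      refine mul_le_mul_of_nonneg_right ?_ hV0
      rw [div_le_iff₀ (by positivity)]
      exact k2
    rw [hVd] at hmA hM hZ
    have key := hest g ν hge hle H hrow A hA ι R hR P f v hv δ' ρ d1 r1 r2 _ τ₀ (a * ε' / 16) L hmA hτ0.le hτ1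
      (by positivity) hL1 r4 hM hZ
    rw [← hS, ← hVd] at key
    rw [← hVd] at hgVle
    have hW : 0 ≤ V + (ν : ℝ) ^ 2 * S := by positivity
    have e8 : 8 * (a * ε' / 16) / a = ε' / 2 := by field_simp; norm_num
    rw [e8] at key
    have k1 : (C₀ * (τ₀ + 1 / L) + ε' / 2) * (V + (ν : ℝ) ^ 2 * S) ≤ ε' * (V + (ν : ℝ) ^ 2 * S) :=
      mul_le_mul_of_nonneg_right (by linarith) hW
    have k2 : ε' * (V + (ν : ℝ) ^ 2 * S) ≤ ε' * (|Cc| * (ν : ℝ) ^ 2 * S + (ν : ℝ) ^ 2 * S) :=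
      mul_le_mul_of_nonneg_left (by linarith) hε'.le
    have e9 : ε' * (|Cc| * (ν : ℝ) ^ 2 * S + (ν : ℝ) ^ 2 * S) = ε' * (|Cc| + 1) * (ν : ℝ) ^ 2 * S := by ring
    rw [e9, hεε] at k2
    linarith

section P6Aux

variable (Γ : CGeom m₁ m₂) (g : DGrid m₁ m₂)

theorem ps_p6_mem_sites (A : Finset (Fin m₁ × Fin m₂)) (x : (Γ.graph g).V) :
    x ∈ Γ.sites g A ↔ ∃ κ ∈ A, domPos (D := g.region Γ.T) (cut := Γ.cutB g) x ∈ g.cell κ := by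
  show domPos (D := g.region Γ.T) (cut := Γ.cutB g) x ∈ (↑(g.region A) : Set (ℤ × ℤ)) ↔ _
  rw [Finset.mem_coe]
  unfold DGrid.region
  rw [Finset.mem_biUnion]

theorem ps_p6_sites_mono {A B : Finset (Fin m₁ × Fin m₂)} (h : A ⊆ B) : Γ.sites g A ⊆ Γ.sites g B := by
  intro x hx
  rw [ps_p6_mem_sites] at hx ⊢
  obtain ⟨κ, hκ, hx⟩ := hx
  exact ⟨κ, h hκ, hx⟩

theorem ps_p6_sites_disj {A B : Finset (Fin m₁ × Fin m₂)} (h : Disjoint A B) {x : (Γ.graph g).V} (hA : x ∈ Γ.sites g A) : x ∉ Γ.sites g B := by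
  intro hB
  rw [ps_p6_mem_sites] at hA hB
  obtain ⟨κ, hκ, hx⟩ := hA
  obtain ⟨κ', hκ', hx'⟩ := hB
  have := geo_cell_unique g hx hx'
  subst this
  exact Finset.disjoint_left.1 h hκ hκ'

theorem ps_p6_card_V {W : ℕ} (hW : g.SideLe W) : (Fintype.card (Γ.graph g).V : ℝ) ≤ (m₁ : ℝ) * m₂ * (W : ℝ) ^ 2 := by
  have h1 : (Fintype.card (Γ.graph g).V : ℝ) = ((g.region Γ.T).card : ℝ) := by
    have := ps_sum_V (D := g.region Γ.T) (cut := Γ.cutB g) (fun _ => (1 : ℝ))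
    simp only [Finset.sum_const, Finset.card_univ, nsmul_eq_mul, mul_one] at this
    exact this
  rw [h1]
  have h2 : (g.region Γ.T).card ≤ ∑ κ ∈ Γ.T, (g.cell κ).card := Finset.card_biUnion_le
  have h3 : ((g.region Γ.T).card : ℝ) ≤ ∑ κ ∈ Γ.T, ((g.cell κ).card : ℝ) := by exact_mod_cast h2
  refine h3.trans ?_
  have h4 : ∑ κ ∈ Γ.T, ((g.cell κ).card : ℝ) ≤ ∑ _κ ∈ Γ.T, (W : ℝ) ^ 2 := Finset.sum_le_sum fun κ _ => geo_cell_card_le g hW κ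
  refine h4.trans ?_
  rw [Finset.sum_const, nsmul_eq_mul]
  refine mul_le_mul_of_nonneg_right ?_ (by positivity)
  have h5 : Γ.T.card ≤ m₁ * m₂ := by
    have := Finset.card_le_univ Γ.T
    simpa using this
  exact_mod_cast h5

theorem ps_p6_card_le (S : Finset (Fin m₁ × Fin m₂)) : S.card ≤ m₁ * m₂ := by
  have := Finset.card_le_univ S
  simpa using this

/-- pointwise bound of the rows -> bound of their Hilbert-Schmidt norm -/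
theorem ps_p6_rows_hs {ν K : ℕ} (h1 : 1 ≤ ν) (hK : g.SideLe (K * ν)) (H : HLaw (Γ.graph g)) {CB : ℝ} (hB : ∀ x, ∑ o, H.B o x ^ 2 ≤ CB / (ν : ℝ) ^ 4) :
    ∑ o, ∑ x, H.B o x ^ 2 ≤ ((m₁ : ℝ) * m₂ * (K : ℝ) ^ 2 * max CB 0) / (ν : ℝ) ^ 2 := by
  have hν : (0 : ℝ) < ν := by exact_mod_cast h1
  rw [Finset.sum_comm]
  have h2 : ∑ x, ∑ o, H.B o x ^ 2 ≤ ∑ _x : (Γ.graph g).V, max CB 0 / (ν : ℝ) ^ 4 :=
    Finset.sum_le_sum fun x _ => (hB x).trans (div_le_div_of_nonneg_right (le_max_left _ _) (by positivity))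
  refine h2.trans ?_
  rw [Finset.sum_const, Finset.card_univ, nsmul_eq_mul]
  have h3 := ps_p6_card_V Γ g hK
  have h4 : 0 ≤ max CB 0 / (ν : ℝ) ^ 4 := div_nonneg (le_max_right _ _) (by positivity)
  refine (mul_le_mul_of_nonneg_right h3 h4).trans (le_of_eq ?_)
  push_cast
  field_simp

end P6Aux

/-- the choice of the constants of `ps_probe_pin` -/
theorem ps_p6_consts {c₂ cq CB' ε : ℝ} (hc₂ : 0 ≤ c₂) (hcq : 0 ≤ cq) (hCB' : 0 ≤ CB') (hε : 0 < ε) :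
    ∃ (k₁ : ℕ) (θ : ℝ), 0 < θ ∧ cq * (4 : ℝ) ^ k₁ * θ + c₂ * ((4 : ℝ) ^ k₁)⁻¹ + 2 * θ * CB' ≤ ε := by
  obtain ⟨k₁, hk₁⟩ := exists_pow_lt_of_lt_one (show 0 < ε / (2 * (c₂ + 1)) by positivity) (show (1 / 4 : ℝ) < 1 by norm_num)
  have e1 : ((4 : ℝ) ^ k₁)⁻¹ = (1 / 4 : ℝ) ^ k₁ := by rw [one_div, inv_pow]
  have h1 : c₂ * ((4 : ℝ) ^ k₁)⁻¹ ≤ ε / 2 := by
    rw [e1]
    have h2 : c₂ * (1 / 4 : ℝ) ^ k₁ ≤ (c₂ + 1) * (ε / (2 * (c₂ + 1))) :=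
      mul_le_mul (by linarith) hk₁.le (by positivity) (by positivity)
    refine h2.trans (le_of_eq ?_)
    field_simp
  refine ⟨k₁, ε / (2 * (cq * (4 : ℝ) ^ k₁ + 2 * CB' + 1)), by positivity, ?_⟩
  have h3 : (cq * (4 : ℝ) ^ k₁ + 2 * CB') * (ε / (2 * (cq * (4 : ℝ) ^ k₁ + 2 * CB' + 1))) ≤ ε / 2 := by
    have h4 : 0 ≤ cq * (4 : ℝ) ^ k₁ + 2 * CB' := by positivity
    generalize cq * (4 : ℝ) ^ k₁ + 2 * CB' = t at *
    rw [mul_div_assoc', div_le_div_iff₀ (by positivity) (by norm_num)]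
    nlinarith
  generalize ε / (2 * (cq * (4 : ℝ) ^ k₁ + 2 * CB' + 1)) = θ at *
  nlinarith

/-- LEAF L-PS-P6 (~200 l.): **P2: soft probes exhaust the hard pin.**   `ps_gap_trace` with `R = psSoft ..` on `A`, `θ` from `ps_soft_l2`:  `∑_o ∑_x B² ≤ CB m₁ m₂ K²/ν²` (`|D| ≤ m₁ m₂ K² ν²`), `q ≤ m₁ m₂ + N`;
choose `k₁` with `(18/a) q (16/3) 4^{-k₁} β₁ ≤ ε/2`, then `θ` with `(18/a) q (4/3) 4^{k₁} θ + 2 θ CB' ≤ ε/2`.   `plPD`: `ps_PD_of_coer`, `form ≤ form'`.   Second part: `ps_gPin_le_trace`.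
USE: `ps_probe_ratio`: `gzr P / gzr (P ∪ p) - exp (- gPin_H) = exp (- gPin_H) (exp (gPin_{H'}) - 1) ≤ exp ε - 1`. -/
theorem ps_probe_pin {m₁ m₂ : ℕ} (Γ : CGeom m₁ m₂) (hΓ : Γ.NoDiag) (K N : ℕ) {a : ℝ} (ha : 0 < a) (CB Cc : ℝ) {ε : ℝ} (hε : 0 < ε) :
    ∃ lam σ : ℝ, 0 < lam ∧ 0 < σ ∧ ∀ (g : DGrid m₁ m₂) (ν : ℕ), 3 ≤ ν → g.SideGe ν → g.SideLe (K * ν) → ∀ H : HLaw (Γ.graph g), Fintype.card H.O ≤ N →
    (∀ x, ∑ o, H.B o x ^ 2 ≤ CB / (ν : ℝ) ^ 4) → ∀ In Kb Out : Finset (Fin m₁ × Fin m₂), PsLay Γ In Kb Out →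
    ∀ A : Finset (Fin m₁ × Fin m₂), A ⊆ Γ.T → A ⊆ Out → Disjoint A (Kb ∪ psShell Γ Kb) → ∀ P p : Set (Γ.graph g).V, p ⊆ Γ.sites g In →
    (∀ v : (Γ.graph g).V → ℝ, (∀ x ∈ P, v x = 0) → ∑ x, v x ^ 2 ≤ Cc * (ν : ℝ) ^ 2 * H.form a v) →
    ∀ (ι : Type) [Fintype ι] (b : ι → PsBox) (w : ι → ℝ) (s : ℕ), psIsPart g A s b → (s : ℝ) ≤ σ * ν →
    (∀ i, lam * (b i).set.card ≤ w i ^ 2 * (ν : ℝ) ^ 2) →
    (∀ (n : ℕ) (u : Fin n → (Γ.graph g).V → ℝ), psON (psAdd H (psSoft Γ g b w)) a P (P ∪ Γ.sites g A) u →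
      ∑ j, plGap (psAdd H (psSoft Γ g b w)) a (P ∪ Γ.sites g A) p (u j) ≤ ε) ∧ (psAdd H (psSoft Γ g b w)).gPin a P (Γ.sites g A) p ≤ ε := by
  have hCB' : 0 ≤ (m₁ : ℝ) * m₂ * (K : ℝ) ^ 2 * max CB 0 := mul_nonneg (by positivity) (le_max_right _ _)
  set CB' : ℝ := (m₁ : ℝ) * m₂ * (K : ℝ) ^ 2 * max CB 0 with hCB'def
  have hq : (0 : ℝ) ≤ (m₁ : ℝ) * m₂ + N := by positivity
  obtain ⟨k₁, θ, hθ, hsum⟩ := ps_p6_consts (c₂ := 18 / a * (((m₁ : ℝ) * m₂ + N) * (16 / 3 * (4 * (K : ℝ) ^ 4 * a * (18 + a * CB')))))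
    (cq := 18 / a * (((m₁ : ℝ) * m₂ + N) * (4 / 3))) (by positivity) (by positivity) hCB' hε
  obtain ⟨lam, σ, hlam, hσ, hsoft⟩ := ps_soft_l2 Γ hΓ K ha CB Cc hθ
  refine ⟨lam, σ, hlam, hσ, ?_⟩
  intro g ν h3 hg hK H hN hB In Kb Out hL A hAT hAO hAd P p hp hco ι _ b w s hb hs hw
  have hco' : ∀ v : (Γ.graph g).V → ℝ, (∀ x ∈ P, v x = 0) → ∑ x, v x ^ 2 ≤ |Cc| * (ν : ℝ) ^ 2 * (psAdd H (psSoft Γ g b w)).form a v := by
    intro v hv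
    have h1 := hco v hv
    have h2 : H.form a v ≤ (psAdd H (psSoft Γ g b w)).form a v := by
      rw [ps_add_form]
      have : 0 ≤ ∑ i, (∑ x, psSoft Γ g b w i x * v x) ^ 2 := Finset.sum_nonneg fun i _ => sq_nonneg _
      linarith
    have h0 : 0 ≤ H.form a v := by
      unfold HLaw.form HLaw.en
      have : 0 ≤ ∑ o, H.obs v o ^ 2 := Finset.sum_nonneg fun i _ => sq_nonneg _
      have : 0 ≤ ∑ e, (v ((Γ.graph g).tgt e) - v ((Γ.graph g).src e) + (0 : (Γ.graph g).E → ℝ) e) ^ 2 := Finset.sum_nonneg fun i _ => sq_nonneg _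
      positivity
    calc ∑ x, v x ^ 2 ≤ Cc * (ν : ℝ) ^ 2 * H.form a v := h1
      _ ≤ |Cc| * (ν : ℝ) ^ 2 * H.form a v := by gcongr; exact le_abs_self _
      _ ≤ |Cc| * (ν : ℝ) ^ 2 * (psAdd H (psSoft Γ g b w)).form a v := by gcongr
  have hPD : plPD (psAdd H (psSoft Γ g b w)) P := ps_PD_of_coer _ hco'
  have hA : ∀ x ∈ Γ.sites g A, x ∈ Γ.sites g Out ∧ x ∉ Γ.sites g (Kb ∪ psShell Γ Kb) := fun x hx =>
    ⟨ps_p6_sites_mono Γ g hAO hx, ps_p6_sites_disj Γ g hAd hx⟩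
  have htr : ∀ (n : ℕ) (u : Fin n → (Γ.graph g).V → ℝ), psON (psAdd H (psSoft Γ g b w)) a P (P ∪ Γ.sites g A) u →
      ∑ j, plGap (psAdd H (psSoft Γ g b w)) a (P ∪ Γ.sites g A) p (u j) ≤ ε := by
    intro n u hu
    have h1 := ps_gap_trace Γ g hL h3 hg hK H (ps_p6_rows_hs Γ g (by omega) hK H hB) ha (psSoft Γ g b w) hPD (ps_soft_supp Γ g hb w) hp hA hθ.le
      (hsoft g ν hg hK H hB A hAT P hco ι b w s hb hs hw) hu k₁
    refine h1.trans (le_trans ?_ hsum)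
    have hq1 : ((((Kb ∪ psShell Γ Kb).card + Fintype.card H.O : ℕ) : ℝ)) ≤ (m₁ : ℝ) * m₂ + N := by
      have := ps_p6_card_le (Kb ∪ psShell Γ Kb)
      have h2 : (Kb ∪ psShell Γ Kb).card + Fintype.card H.O ≤ m₁ * m₂ + N := by omega
      exact_mod_cast h2
    have h4 : (0 : ℝ) < (4 : ℝ) ^ k₁ := by positivity
    have hX : 0 ≤ 4 / 3 * (4 : ℝ) ^ k₁ * θ + 16 / 3 * ((4 : ℝ) ^ k₁)⁻¹ * (4 * (K : ℝ) ^ 4 * a * (18 + a * CB')) := by positivity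
    have h5 : 18 / a * ((((Kb ∪ psShell Γ Kb).card + Fintype.card H.O : ℕ) : ℝ)
        * (4 / 3 * (4 : ℝ) ^ k₁ * θ + 16 / 3 * ((4 : ℝ) ^ k₁)⁻¹ * (4 * (K : ℝ) ^ 4 * a * (18 + a * CB'))))
        ≤ 18 / a * (((m₁ : ℝ) * m₂ + N) * (4 / 3 * (4 : ℝ) ^ k₁ * θ + 16 / 3 * ((4 : ℝ) ^ k₁)⁻¹ * (4 * (K : ℝ) ^ 4 * a * (18 + a * CB')))) :=
      mul_le_mul_of_nonneg_left (mul_le_mul_of_nonneg_right hq1 hX) (by positivity)
    refine (add_le_add_left h5 (2 * θ * CB')).trans (le_of_eq ?_)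
    ring
  refine ⟨htr, ?_⟩
  have hd : Γ.sites g A ∩ p ⊆ P := by
    rintro x ⟨hxA, hxp⟩
    exfalso
    have h1 := (ps_p6_mem_sites Γ g Out x).1 (ps_p6_sites_mono Γ g hAO hxA)
    have h2 := (ps_p6_mem_sites Γ g In x).1 (hp hxp)
    obtain ⟨κ, hκ, hx⟩ := h1
    obtain ⟨κ', hκ', hx'⟩ := h2
    have := geo_cell_unique g hx hx'
    subst this
    exact hL.sep κ hκ' κ hκ (geo_adj_refl κ)
  have := ps_gPin_le_trace _ ha hPD (Γ.sites g A) p hd htr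
  linarith

/-! ## 4. uniform coercivity (P5) -/

/-- LEAF L-PS-C1 (~150 l., Mathlib only): a definite quadratic form on a finite dimensional space is coercive.   (Compactness of the unit sphere of `{m : m = 0 on 𝒫, m = 0 off T}`, or `LinearMap`/`Matrix.PosDef` eigenvalues.) -/
theorem ps_coarse_coer {m₁ m₂ : ℕ} (Γ : CGeom m₁ m₂) (Pn : Finset (Fin m₁ × Fin m₂)) {N : ℕ} (row : Fin N → Fin m₁ × Fin m₂ → ℝ)
    (hdef : ∀ m : Fin m₁ × Fin m₂ → ℝ, (∀ κ ∈ Pn, m κ = 0) → (∀ κ κ', Γ.Adj κ κ' → m κ = m κ') → (∀ o, ∑ κ ∈ Γ.T, row o κ * m κ = 0) → ∀ κ ∈ Γ.T, m κ = 0) :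
    ∃ c₀ : ℝ, 0 ≤ c₀ ∧ ∀ m : Fin m₁ × Fin m₂ → ℝ, (∀ κ ∈ Pn, m κ = 0) →
      ∑ κ ∈ Γ.T, m κ ^ 2 ≤ c₀ * (∑ κ ∈ Γ.T, ∑ κ' ∈ Γ.T, (if Γ.Adj κ κ' then (m κ - m κ') ^ 2 else 0) + ∑ o, (∑ κ ∈ Γ.T, row o κ * m κ) ^ 2) := by
  obtain ⟨Q, hQ⟩ : ∃ Q : (Fin m₁ × Fin m₂ → ℝ) → ℝ, Q = fun m =>
      ∑ κ ∈ Γ.T, ∑ κ' ∈ Γ.T, (if Γ.Adj κ κ' then (m κ - m κ') ^ 2 else 0) + ∑ o, (∑ κ ∈ Γ.T, row o κ * m κ) ^ 2 := ⟨_, rfl⟩
  have hA0 : ∀ m : Fin m₁ × Fin m₂ → ℝ, ∀ κ κ', 0 ≤ (if Γ.Adj κ κ' then (m κ - m κ') ^ 2 else 0) := fun m κ κ' => by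
    split_ifs
    · positivity
    · exact le_rfl
  have hQ1 : ∀ m : Fin m₁ × Fin m₂ → ℝ, 0 ≤ ∑ κ ∈ Γ.T, ∑ κ' ∈ Γ.T, (if Γ.Adj κ κ' then (m κ - m κ') ^ 2 else 0) :=
    fun m => Finset.sum_nonneg fun κ _ => Finset.sum_nonneg fun κ' _ => hA0 m κ κ'
  have hQ2 : ∀ m : Fin m₁ × Fin m₂ → ℝ, 0 ≤ ∑ o, (∑ κ ∈ Γ.T, row o κ * m κ) ^ 2 :=
    fun m => Finset.sum_nonneg fun o _ => sq_nonneg _
  have hQ0 : ∀ m, 0 ≤ Q m := fun m => by rw [hQ]; exact add_nonneg (hQ1 m) (hQ2 m)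
  have hQc : Continuous Q := by
    rw [hQ]
    refine Continuous.add ?_ (by fun_prop)
    refine continuous_finsetSum _ fun κ _ => continuous_finsetSum _ fun κ' _ => ?_
    split_ifs
    · fun_prop
    · exact continuous_const
  -- scaling + restriction
  have hQs : ∀ (t : ℝ) (m : Fin m₁ × Fin m₂ → ℝ), Q (fun κ => t * (if κ ∈ Γ.T then m κ else 0)) = t ^ 2 * Q m := by
    intro t m
    rw [hQ]
    simp only [mul_add, Finset.mul_sum]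
    congr 1
    · refine Finset.sum_congr rfl fun κ hκ => Finset.sum_congr rfl fun κ' hκ' => ?_
      rw [if_pos hκ, if_pos hκ']
      split_ifs
      · ring
      · ring
    · refine Finset.sum_congr rfl fun o _ => ?_
      have : ∑ κ ∈ Γ.T, row o κ * (t * if κ ∈ Γ.T then m κ else 0) = t * ∑ κ ∈ Γ.T, row o κ * m κ := by
        rw [Finset.mul_sum]
        refine Finset.sum_congr rfl fun κ hκ => ?_
        rw [if_pos hκ]; ring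
      rw [this]; ring
  have hQz : ∀ m : Fin m₁ × Fin m₂ → ℝ, (∀ κ ∈ Pn, m κ = 0) → Q m = 0 → ∀ κ ∈ Γ.T, m κ = 0 := by
    intro m hm hq
    rw [hQ] at hq
    have h1 : ∑ κ ∈ Γ.T, ∑ κ' ∈ Γ.T, (if Γ.Adj κ κ' then (m κ - m κ') ^ 2 else 0) = 0 := by
      have := hQ1 m; have := hQ2 m; linarith
    have h2 : ∑ o, (∑ κ ∈ Γ.T, row o κ * m κ) ^ 2 = 0 := by
      have := hQ1 m; have := hQ2 m; linarith
    refine hdef m hm (fun κ κ' hadj => ?_) (fun o => ?_)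
    · have h3 := (Finset.sum_eq_zero_iff_of_nonneg fun κ _ => Finset.sum_nonneg fun κ' _ => hA0 m κ κ').1 h1 κ hadj.1
      have h4 := (Finset.sum_eq_zero_iff_of_nonneg fun κ' _ => hA0 m κ κ').1 h3 κ' hadj.2.1
      rw [if_pos hadj] at h4
      have := pow_eq_zero_iff (two_ne_zero) |>.1 h4
      linarith
    · have h3 := (Finset.sum_eq_zero_iff_of_nonneg fun o _ => sq_nonneg _).1 h2 o (Finset.mem_univ o)
      exact pow_eq_zero_iff (two_ne_zero) |>.1 h3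
  obtain ⟨Kset, hK⟩ : ∃ Kset : Set (Fin m₁ × Fin m₂ → ℝ), Kset =
      {m | (∀ κ ∈ Pn, m κ = 0) ∧ (∀ κ, κ ∉ Γ.T → m κ = 0) ∧ ∑ κ ∈ Γ.T, m κ ^ 2 = 1} := ⟨_, rfl⟩
  have hKcl : IsClosed Kset := by
    rw [hK]
    have e : {m : Fin m₁ × Fin m₂ → ℝ | (∀ κ ∈ Pn, m κ = 0) ∧ (∀ κ, κ ∉ Γ.T → m κ = 0) ∧ ∑ κ ∈ Γ.T, m κ ^ 2 = 1}
        = (⋂ κ ∈ Pn, {m | m κ = 0}) ∩ ((⋂ κ, ⋂ (_ : κ ∉ Γ.T), {m | m κ = 0}) ∩ {m | ∑ κ ∈ Γ.T, m κ ^ 2 = 1}) := by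
      ext m; simp
    rw [e]
    refine IsClosed.inter ?_ (IsClosed.inter ?_ ?_)
    · exact isClosed_biInter fun κ _ => isClosed_eq (continuous_apply κ) continuous_const
    · exact isClosed_iInter fun κ => isClosed_iInter fun _ => isClosed_eq (continuous_apply κ) continuous_const
    · exact isClosed_eq (by fun_prop) continuous_const
  have hKb : Bornology.IsBounded Kset := by
    refine (Metric.isBounded_closedBall (x := (0 : Fin m₁ × Fin m₂ → ℝ)) (r := 1)).subset fun m hm => ?_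
    rw [hK] at hm
    rw [mem_closedBall_zero_iff, pi_norm_le_iff_of_nonneg zero_le_one]
    intro κ
    by_cases hκ : κ ∈ Γ.T
    · have h1 : m κ ^ 2 ≤ ∑ κ ∈ Γ.T, m κ ^ 2 := Finset.single_le_sum (f := fun κ => m κ ^ 2) (fun κ _ => sq_nonneg _) hκ
      rw [hm.2.2] at h1
      rw [Real.norm_eq_abs]
      exact abs_le_one_iff_mul_self_le_one.2 (by nlinarith)
    · rw [hm.2.1 κ hκ]; simp
  have hKc : IsCompact Kset := Metric.isCompact_of_isClosed_isBounded hKcl hKb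
  -- normalisation
  have hnorm : ∀ m : Fin m₁ × Fin m₂ → ℝ, (∀ κ ∈ Pn, m κ = 0) → 0 < ∑ κ ∈ Γ.T, m κ ^ 2 →
      (fun κ => (Real.sqrt (∑ κ ∈ Γ.T, m κ ^ 2))⁻¹ * (if κ ∈ Γ.T then m κ else 0)) ∈ Kset := by
    intro m hm hn
    rw [hK]
    refine ⟨fun κ hκ => by simp [hm κ hκ], fun κ hκ => by simp [hκ], ?_⟩
    have : ∀ κ ∈ Γ.T, ((Real.sqrt (∑ κ ∈ Γ.T, m κ ^ 2))⁻¹ * (if κ ∈ Γ.T then m κ else 0)) ^ 2
        = (∑ κ ∈ Γ.T, m κ ^ 2)⁻¹ * m κ ^ 2 := fun κ hκ => by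
      rw [if_pos hκ, mul_pow, inv_pow, Real.sq_sqrt hn.le]
    rw [Finset.sum_congr rfl this, ← Finset.mul_sum, inv_mul_cancel₀ hn.ne']
  by_cases hne : Kset.Nonempty
  · obtain ⟨m₀, hm₀, hmin⟩ := hKc.exists_isMinOn hne hQc.continuousOn
    have hq0 : 0 < Q m₀ := by
      rcases (hQ0 m₀).lt_or_eq with h | h
      · exact h
      · exfalso
        rw [hK] at hm₀
        have h1 := hQz m₀ hm₀.1 h.symm
        have h2 : ∑ κ ∈ Γ.T, m₀ κ ^ 2 = 0 := Finset.sum_eq_zero fun κ hκ => by rw [h1 κ hκ]; simp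
        rw [hm₀.2.2] at h2
        exact one_ne_zero h2
    refine ⟨(Q m₀)⁻¹, by positivity, fun m hm => ?_⟩
    have hgoal : ∑ κ ∈ Γ.T, m κ ^ 2 ≤ (Q m₀)⁻¹ * Q m := by
      rcases (Finset.sum_nonneg fun κ (_ : κ ∈ Γ.T) => sq_nonneg (m κ)).lt_or_eq with hn | hn
      · have h1 := hmin (hnorm m hm hn)
        simp only [Set.mem_ofPred_eq] at h1
        rw [hQs, inv_pow, Real.sq_sqrt hn.le] at h1
        rw [inv_mul_eq_div, le_div_iff₀ hq0]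
        rw [inv_mul_eq_div, le_div_iff₀ hn] at h1
        linarith
      · rw [← hn]
        exact mul_nonneg (by positivity) (hQ0 m)
    rw [hQ] at hgoal
    rw [hQ]
    exact hgoal
  · refine ⟨0, le_rfl, fun m hm => ?_⟩
    rw [zero_mul]
    by_contra hcon
    exact hne ⟨_, hnorm m hm (not_le.1 hcon)⟩

/-- pairing with the average over one cell -/
theorem ps_cc_avg {m₁ m₂ : ℕ} (Γ : CGeom m₁ m₂) (g : DGrid m₁ m₂) (κ : Fin m₁ × Fin m₂) (v : (Γ.graph g).V → ℝ) :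
    ∑ x, Γ.avgRow g {κ} x * v x
      = if κ ∈ Γ.T then ((g.cell κ).card : ℝ)⁻¹ * ∑ z ∈ g.cell κ, psExt (D := g.region Γ.T) (cut := Γ.cutB g) v z else 0 := by
  have h1 : ∀ x : (Γ.graph g).V, Γ.avgRow g {κ} x * v x
      = (fun z => (if z ∈ g.cell κ then ((g.region ({κ} ∩ Γ.T)).card : ℝ)⁻¹ else 0)
          * psExt (D := g.region Γ.T) (cut := Γ.cutB g) v z) (domPos (D := g.region Γ.T) (cut := Γ.cutB g) x) := by
    intro x
    have e := ps_ext_pos (D := g.region Γ.T) (cut := Γ.cutB g) v x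
    simp only
    rw [e]
    unfold CGeom.avgRow
    congr 1
    exact if_congr (ps_mem_sites_single Γ g κ x) rfl rfl
  have h2 := ps_sum_V (D := g.region Γ.T) (cut := Γ.cutB g) (fun z => (if z ∈ g.cell κ then ((g.region ({κ} ∩ Γ.T)).card : ℝ)⁻¹ else 0)
          * psExt (D := g.region Γ.T) (cut := Γ.cutB g) v z)
  refine (Finset.sum_congr rfl fun x _ => h1 x).trans (h2.trans ?_)
  split_ifs with hκ
  · have e1 : ({κ} ∩ Γ.T : Finset _) = {κ} := Finset.inter_eq_left.2 (Finset.singleton_subset_iff.2 hκ)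
    have e2 : g.region {κ} = g.cell κ := by unfold DGrid.region; rw [Finset.singleton_biUnion]
    rw [e1, e2, Finset.mul_sum]
    rw [← Finset.sum_subset (s₁ := g.cell κ) (fun z hz => ps_cell_region Γ g hκ hz)
      (fun z _ hz => by rw [if_neg hz, zero_mul])]
    exact Finset.sum_congr rfl fun z hz => by rw [if_pos hz]
  · refine Finset.sum_eq_zero fun z hz => ?_
    rw [if_neg, zero_mul]
    intro hzc
    obtain ⟨κ', hκ', hz'⟩ := Finset.mem_biUnion.1 hz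
    exact hκ (ps_cell_unique g hzc hz' ▸ hκ')

/-- rows which are combinations of cell averages -/
theorem ps_cc_obs {m₁ m₂ : ℕ} (Γ : CGeom m₁ m₂) (g : DGrid m₁ m₂) (H : HLaw (Γ.graph g)) (r : H.O → Fin m₁ × Fin m₂ → ℝ)
    (hB : ∀ o x, H.B o x = ∑ κ, r o κ * Γ.avgRow g {κ} x) (v : (Γ.graph g).V → ℝ) (o : H.O) :
    H.obs v o = ∑ κ ∈ Γ.T, r o κ * (((g.cell κ).card : ℝ)⁻¹ * ∑ z ∈ g.cell κ, psExt (D := g.region Γ.T) (cut := Γ.cutB g) v z) := by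
  unfold HLaw.obs
  simp only [hB, Finset.sum_mul]
  rw [Finset.sum_comm]
  have h1 : ∀ κ, ∑ x, r o κ * Γ.avgRow g {κ} x * v x = if κ ∈ Γ.T then
      r o κ * (((g.cell κ).card : ℝ)⁻¹ * ∑ z ∈ g.cell κ, psExt (D := g.region Γ.T) (cut := Γ.cutB g) v z) else 0 := by
    intro κ
    have := ps_cc_avg Γ g κ v
    have e : ∑ x, r o κ * Γ.avgRow g {κ} x * v x = r o κ * ∑ x, Γ.avgRow g {κ} x * v x := by
      rw [Finset.mul_sum]; exact Finset.sum_congr rfl fun x _ => by ring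
    rw [e, this]
    split_ifs <;> simp
  rw [Finset.sum_congr rfl fun κ _ => h1 κ, Finset.sum_ite_mem, Finset.univ_inter]

/-- bounded multiplicity -/
theorem ps_cc_mult {ι : Type} (E : Finset Bond) (w : Bond → ℝ) (hw : ∀ e, 0 ≤ w e) (Ps : Finset ι) (B : ι → Finset Bond)
    (hB : ∀ p ∈ Ps, B p ⊆ E) (n : ℕ) (hn : ∀ e ∈ E, (Ps.filter fun p => e ∈ B p).card ≤ n) :
    ∑ p ∈ Ps, ∑ e ∈ B p, w e ≤ n * ∑ e ∈ E, w e := by
  have h1 : ∀ p ∈ Ps, ∑ e ∈ B p, w e = ∑ e ∈ E, if e ∈ B p then w e else 0 := by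
    intro p hp
    rw [Finset.sum_ite_mem, Finset.inter_eq_right.2 (hB p hp)]
  rw [Finset.sum_congr rfl h1, Finset.sum_comm, Finset.mul_sum]
  refine Finset.sum_le_sum fun e he => ?_
  rw [← Finset.sum_filter, Finset.sum_const, nsmul_eq_mul]
  exact mul_le_mul_of_nonneg_right (by exact_mod_cast hn e he) (hw e)

theorem ps_cc_jensen (S : Finset (ℤ × ℤ)) {n : ℝ} (hn : 0 < n) (hS : n ≤ S.card) (f : ℤ × ℤ → ℝ) (M : ℝ) :
    ((S.card : ℝ)⁻¹ * ∑ z ∈ S, f z - M) ^ 2 ≤ n⁻¹ * ∑ z ∈ S, (f z - M) ^ 2 := by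
  have hc : (0 : ℝ) < S.card := lt_of_lt_of_le hn hS
  have e1 : (S.card : ℝ)⁻¹ * ∑ z ∈ S, f z - M = (S.card : ℝ)⁻¹ * ∑ z ∈ S, (f z - M) := by
    rw [Finset.sum_sub_distrib, Finset.sum_const, nsmul_eq_mul]
    field_simp
  have h1 : (∑ z ∈ S, (f z - M)) ^ 2 ≤ S.card * ∑ z ∈ S, (f z - M) ^ 2 := sq_sum_le_card_mul_sum_sq
  have h0 : 0 ≤ ∑ z ∈ S, (f z - M) ^ 2 := Finset.sum_nonneg fun _ _ => sq_nonneg _
  rw [e1, mul_pow]
  calc ((S.card : ℝ)⁻¹) ^ 2 * (∑ z ∈ S, (f z - M)) ^ 2 ≤ ((S.card : ℝ)⁻¹) ^ 2 * (S.card * ∑ z ∈ S, (f z - M) ^ 2) := by gcongr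
    _ = (S.card : ℝ)⁻¹ * ∑ z ∈ S, (f z - M) ^ 2 := by field_simp
    _ ≤ n⁻¹ * ∑ z ∈ S, (f z - M) ^ 2 := by gcongr

/-- the means over the two halves of a rectangle -/
theorem ps_cc_two {p₁ q₁ p₂ q₂ : ℤ} {L : ℕ} (h₁ : q₁ - p₁ ≤ L) (h₂ : q₂ - p₂ ≤ L) (A B : Finset (ℤ × ℤ)) (hd : Disjoint A B)
    (hAB : A ∪ B = geoRect p₁ q₁ p₂ q₂) {n : ℝ} (hn : 0 < n) (hA : n ≤ A.card) (hB' : n ≤ B.card) (f : ℤ × ℤ → ℝ) :
    ((A.card : ℝ)⁻¹ * ∑ z ∈ A, f z - (B.card : ℝ)⁻¹ * ∑ z ∈ B, f z) ^ 2 ≤ 2 / n * (L : ℝ) ^ 2 * geoEn (A ∪ B) f := by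
  obtain ⟨M, hM⟩ : ∃ M : ℝ, M = (((A ∪ B).card : ℝ))⁻¹ * ∑ z ∈ A ∪ B, f z := ⟨_, rfl⟩
  have hcA : (0 : ℝ) < A.card := lt_of_lt_of_le hn hA
  have hcR : (0 : ℝ) < (A ∪ B).card := by
    have : A.card ≤ (A ∪ B).card := Finset.card_le_card Finset.subset_union_left
    exact lt_of_lt_of_le hcA (by exact_mod_cast this)
  have hmean : ∑ z ∈ A ∪ B, (f z - M) = 0 := by
    rw [Finset.sum_sub_distrib, Finset.sum_const, nsmul_eq_mul, hM]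
    field_simp
    ring
  have hP := geo_poincare_rect h₁ h₂ (fun z => f z - M) (by rw [← hAB]; exact hmean)
  rw [← hAB, geo_en_sub_const] at hP
  have hE := geo_en_nonneg (A ∪ B) f
  have hL : (L : ℝ) * ((L : ℝ) - 1) ≤ (L : ℝ) ^ 2 := by
    have : (0 : ℝ) ≤ L := Nat.cast_nonneg L
    nlinarith
  have hP' : ∑ z ∈ A ∪ B, (f z - M) ^ 2 ≤ (L : ℝ) ^ 2 * geoEn (A ∪ B) f :=
    hP.trans (mul_le_mul_of_nonneg_right hL hE)
  rw [Finset.sum_union hd] at hP'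
  have jA := ps_cc_jensen A hn hA f M
  have jB := ps_cc_jensen B hn hB' f M
  have e : 2 / n * (L : ℝ) ^ 2 * geoEn (A ∪ B) f = 2 * (n⁻¹ * ((L : ℝ) ^ 2 * geoEn (A ∪ B) f)) := by
    field_simp
  rw [e]
  have h3 : n⁻¹ * (∑ z ∈ A, (f z - M) ^ 2 + ∑ z ∈ B, (f z - M) ^ 2) ≤ n⁻¹ * ((L : ℝ) ^ 2 * geoEn (A ∪ B) f) :=
    mul_le_mul_of_nonneg_left hP' (by positivity)
  rw [mul_add] at h3
  nlinarith [sq_nonneg (((A.card : ℝ)⁻¹ * ∑ z ∈ A, f z - M) + ((B.card : ℝ)⁻¹ * ∑ z ∈ B, f z - M))]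

/-- two adjacent cells form a rectangle -/
theorem ps_cc_rect {m₁ m₂ : ℕ} (Γ : CGeom m₁ m₂) (g : DGrid m₁ m₂) {W : ℕ} (hW : g.SideLe W) {κ κ' : Fin m₁ × Fin m₂} (h : Γ.Adj κ κ') :
    ∃ p₁ q₁ p₂ q₂ : ℤ, g.cell κ ∪ g.cell κ' = geoRect p₁ q₁ p₂ q₂ ∧ q₁ - p₁ ≤ ((2 * W : ℕ) : ℤ) ∧ q₂ - p₂ ≤ ((2 * W : ℕ) : ℤ) := by
  obtain ⟨_, _, h⟩ := h
  have a1 := hW.1 κ.1
  have a2 := hW.1 κ'.1
  have b1 := hW.2 κ.2
  have b2 := hW.2 κ'.2
  have c1 : g.x₁ κ.1.castSucc < g.x₁ κ.1.succ := g.mono₁ Fin.castSucc_lt_succ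
  have c2 : g.x₁ κ'.1.castSucc < g.x₁ κ'.1.succ := g.mono₁ Fin.castSucc_lt_succ
  have d1 : g.x₂ κ.2.castSucc < g.x₂ κ.2.succ := g.mono₂ Fin.castSucc_lt_succ
  have d2 : g.x₂ κ'.2.castSucc < g.x₂ κ'.2.succ := g.mono₂ Fin.castSucc_lt_succ
  rcases h with ⟨e1, e2, _⟩ | ⟨e1, e2, _⟩ | ⟨e1, e2, _⟩ | ⟨e1, e2, _⟩
  · have e3 := ps_fin_succ e1
    refine ⟨g.x₁ κ.1.castSucc, g.x₁ κ'.1.succ, g.x₂ κ.2.castSucc, g.x₂ κ.2.succ, ?_, ?_, ?_⟩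
    · ext z
      rw [Finset.mem_union, geo_mem_cell, geo_mem_cell, geo_mem_rect, ← e2, e3]
      rw [e3] at c2
      omega
    · rw [e3] at a2; push_cast; omega
    · push_cast; omega
  · have e3 := ps_fin_succ e2
    refine ⟨g.x₁ κ.1.castSucc, g.x₁ κ.1.succ, g.x₂ κ.2.castSucc, g.x₂ κ'.2.succ, ?_, ?_, ?_⟩
    · ext z
      rw [Finset.mem_union, geo_mem_cell, geo_mem_cell, geo_mem_rect, ← e1, e3]
      rw [e3] at d2
      omega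
    · push_cast; omega
    · rw [e3] at b2; push_cast; omega
  · have e3 := ps_fin_succ e1
    refine ⟨g.x₁ κ'.1.castSucc, g.x₁ κ.1.succ, g.x₂ κ.2.castSucc, g.x₂ κ.2.succ, ?_, ?_, ?_⟩
    · ext z
      rw [Finset.mem_union, geo_mem_cell, geo_mem_cell, geo_mem_rect, ← e2, e3]
      rw [e3] at c1
      omega
    · rw [e3] at a1; push_cast; omega
    · push_cast; omega
  · have e3 := ps_fin_succ e2
    refine ⟨g.x₁ κ.1.castSucc, g.x₁ κ.1.succ, g.x₂ κ'.2.castSucc, g.x₂ κ.2.succ, ?_, ?_, ?_⟩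
    · ext z
      rw [Finset.mem_union, geo_mem_cell, geo_mem_cell, geo_mem_rect, ← e1, e3]
      rw [e3] at d1
      omega
    · push_cast; omega
    · rw [e3] at b1; push_cast; omega

theorem ps_cc_adj_ne {m₁ m₂ : ℕ} (Γ : CGeom m₁ m₂) {κ κ' : Fin m₁ × Fin m₂} (h : Γ.Adj κ κ') : κ ≠ κ' := by
  rintro rfl
  obtain ⟨_, _, h⟩ := h
  rcases h with ⟨e1, _, _⟩ | ⟨_, e2, _⟩ | ⟨e1, _, _⟩ | ⟨_, e2, _⟩ <;> omega

/-- the means over two adjacent cells -/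
theorem ps_cc_pair {m₁ m₂ : ℕ} (Γ : CGeom m₁ m₂) (g : DGrid m₁ m₂) {ν K : ℕ} (h1 : 1 ≤ ν) (hg : g.SideGe ν) (hK : g.SideLe (K * ν))
    {κ κ' : Fin m₁ × Fin m₂} (h : Γ.Adj κ κ') (f : ℤ × ℤ → ℝ) :
    (((g.cell κ).card : ℝ)⁻¹ * ∑ z ∈ g.cell κ, f z - ((g.cell κ').card : ℝ)⁻¹ * ∑ z ∈ g.cell κ', f z) ^ 2
      ≤ 8 * (K : ℝ) ^ 2 * geoEn (g.cell κ ∪ g.cell κ') f := by
  obtain ⟨p₁, q₁, p₂, q₂, hR, s1, s2⟩ := ps_cc_rect Γ g hK h
  have hν : (0 : ℝ) < ν := by exact_mod_cast h1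
  have hd : Disjoint (g.cell κ) (g.cell κ') :=
    Finset.disjoint_left.2 fun z hz hz' => ps_cc_adj_ne Γ h (geo_cell_unique g hz hz')
  have := ps_cc_two s1 s2 (g.cell κ) (g.cell κ') hd hR (n := (ν : ℝ) ^ 2) (by positivity) (geo_cell_card_ge g hg κ)
    (geo_cell_card_ge g hg κ') f
  refine this.trans (le_of_eq ?_)
  push_cast
  field_simp
  ring

theorem ps_cc_adj_nbr {m₁ m₂ : ℕ} (Γ : CGeom m₁ m₂) {κ κ' : Fin m₁ × Fin m₂} (h : Γ.Adj κ κ') : κ' ∈ psNbr Γ κ := by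
  unfold psNbr
  rw [Finset.mem_filter]
  refine ⟨Finset.mem_univ _, h.2.1, Relation.ReflTransGen.single (ps_adj_symm Γ h), (ps_cc_adj_ne Γ h).symm, ?_⟩
  obtain ⟨_, _, h⟩ := h
  rcases h with ⟨e1, e2, _⟩ | ⟨e1, e2, _⟩ | ⟨e1, e2, _⟩ | ⟨e1, e2, _⟩
  · rw [e2]; omega
  · rw [e1]; omega
  · rw [e2]; omega
  · rw [e1]; omega

/-- the energies of the pairs of adjacent cells -/
theorem ps_cc_pairs {m₁ m₂ : ℕ} (Γ : CGeom m₁ m₂) (g : DGrid m₁ m₂) (v : (Γ.graph g).V → ℝ) :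
    ∑ κ ∈ Γ.T, ∑ κ' ∈ Γ.T, (if Γ.Adj κ κ' then geoEn (g.cell κ ∪ g.cell κ') (psExt (D := g.region Γ.T) (cut := Γ.cutB g) v) else 0)
      ≤ 18 * HLaw.en v 0 := by
  have hen := ps_en_eq (D := g.region Γ.T) (cut := Γ.cutB g) v
  refine le_trans ?_ (le_of_eq (congrArg (fun t => 18 * t) hen.symm))
  obtain ⟨f, hf⟩ : ∃ f, f = psExt (D := g.region Γ.T) (cut := Γ.cutB g) v := ⟨_, rfl⟩
  rw [← hf]
  have h := ps_cc_mult (domBonds (g.region Γ.T) (Γ.cutB g)) (fun e => (f e.snd - f e.1) ^ 2) (fun _ => sq_nonneg _)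
    ((Γ.T ×ˢ Γ.T).filter fun p => Γ.Adj p.1 p.2) (fun p => domBonds (g.cell p.1 ∪ g.cell p.2) ∅) ?_ 18 ?_
  · refine le_trans (le_of_eq ?_) (h.trans (le_of_eq (by norm_num)))
    rw [Finset.sum_filter, Finset.sum_product]
    rfl
  · intro p hp e he
    obtain ⟨hp1, hadj⟩ := Finset.mem_filter.1 hp
    obtain ⟨a1, a2, _⟩ := geo_mem_domBonds.1 he
    rcases Finset.mem_union.1 a1 with b1 | b1 <;> rcases Finset.mem_union.1 a2 with b2 | b2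
    · exact ps_bond_mem Γ g b1 b2 hadj.1 hadj.1 (Or.inl rfl)
    · exact ps_bond_mem Γ g b1 b2 hadj.1 hadj.2.1 (Or.inr hadj)
    · exact ps_bond_mem Γ g b1 b2 hadj.2.1 hadj.1 (Or.inr (ps_adj_symm Γ hadj))
    · exact ps_bond_mem Γ g b1 b2 hadj.2.1 hadj.2.1 (Or.inl rfl)
  · intro e he
    obtain ⟨a1, _, _⟩ := geo_mem_domBonds.1 he
    obtain ⟨κ₁, _, hz⟩ := Finset.mem_biUnion.1 a1
    have hsub : (((Γ.T ×ˢ Γ.T).filter fun p => Γ.Adj p.1 p.2).filter fun p => e ∈ domBonds (g.cell p.1 ∪ g.cell p.2) ∅)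
        ⊆ (psNbr Γ κ₁).image (fun κ' => (κ₁, κ')) ∪ (psNbr Γ κ₁).image (fun κ' => (κ', κ₁)) := by
      intro p hp
      obtain ⟨hp1, hp2⟩ := Finset.mem_filter.1 hp
      obtain ⟨_, hadj⟩ := Finset.mem_filter.1 hp1
      obtain ⟨b1, _, _⟩ := geo_mem_domBonds.1 hp2
      rw [Finset.mem_union, Finset.mem_image, Finset.mem_image]
      rcases Finset.mem_union.1 b1 with c | c
      · have e1 : p.1 = κ₁ := geo_cell_unique g c hz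
        left
        refine ⟨p.2, ?_, ?_⟩
        · rw [← e1]; exact ps_cc_adj_nbr Γ hadj
        · rw [← e1]
      · have e1 : p.2 = κ₁ := geo_cell_unique g c hz
        right
        refine ⟨p.1, ?_, ?_⟩
        · rw [← e1]; exact ps_cc_adj_nbr Γ (ps_adj_symm Γ hadj)
        · rw [← e1]
    refine (Finset.card_le_card hsub).trans ((Finset.card_union_le _ _).trans ?_)
    have c1 := (Finset.card_image_le (s := psNbr Γ κ₁) (f := fun κ' => (κ₁, κ'))).trans (ps_nbr_card Γ κ₁)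
    have c2 := (Finset.card_image_le (s := psNbr Γ κ₁) (f := fun κ' => (κ', κ₁))).trans (ps_nbr_card Γ κ₁)
    omega

/-- the pure-real end of `ps_coer` -/
theorem ps_cc_real {K ν a c₀ S E A O F M : ℝ} (hc0 : 0 ≤ c₀) (hE : E ≤ a * F) (hO : O ≤ F)
    (hA : A ≤ 8 * K ^ 2 * (18 * E)) (hM : M ≤ c₀ * (A + O)) (hS : S ≤ (K * ν) ^ 2 * E + (K * ν) ^ 2 * M) :
    S ≤ K ^ 2 * (a + c₀ * (8 * K ^ 2 * 18 * a + 1)) * ν ^ 2 * F := by
  have hW : 0 ≤ (K * ν) ^ 2 := sq_nonneg _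
  have hK2 : 0 ≤ 8 * K ^ 2 * 18 := by positivity
  have h1 : A ≤ 8 * K ^ 2 * 18 * (a * F) := by
    have := mul_le_mul_of_nonneg_left hE hK2
    linarith
  have h2 : M ≤ c₀ * (8 * K ^ 2 * 18 * (a * F) + F) := hM.trans (mul_le_mul_of_nonneg_left (by linarith) hc0)
  have h3 : (K * ν) ^ 2 * E + (K * ν) ^ 2 * M ≤ (K * ν) ^ 2 * (a * F) + (K * ν) ^ 2 * (c₀ * (8 * K ^ 2 * 18 * (a * F) + F)) :=
    add_le_add (mul_le_mul_of_nonneg_left hE hW) (mul_le_mul_of_nonneg_left h2 hW)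
  refine hS.trans (h3.trans (le_of_eq ?_))
  ring

/-- LEAF L-PS-C2 (~400 l.): **uniform coercivity** for rows which are combinations of cell averages.   `m κ` = average of `v` over `κ`.
(1) `∑_{x ∈ κ} (v - m κ)² ≤ W² en(v; κ)` (`geo_poincare_rect`, `W = K ν`);  (2) `Γ.Adj κ κ'`: `κ ∪ κ'` is a rectangle with sides `≤ 2W` all of whose bonds are edges; Poincaré on it and Jensen: `(m κ - m κ')² ≤ (2/ν²) ∑_{κ ∪ κ'} (v - mean)² ≤ 8 K² en(v; κ ∪ κ')`;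
every edge lies in at most `8` of the ordered pairs;  (3) `obs v o = ∑_{κ ∈ T} r o κ m κ`;  (4) `hc` with `m`;  (5) `∑_x v² = ∑_κ (∑_{x ∈ κ} (v - m κ)² + |κ| (m κ)²) ≤ K² ν² (a + c₀ (64 K² a + 1)) form v`. -/
theorem ps_coer (K : ℕ) {a : ℝ} (ha : 0 < a) {c₀ : ℝ} (hc0 : 0 ≤ c₀) : ∃ C : ℝ, 0 ≤ C ∧ ∀ (m₁ m₂ : ℕ) (Γ : CGeom m₁ m₂) (g : DGrid m₁ m₂) (ν : ℕ), 1 ≤ ν →
    g.SideGe ν → g.SideLe (K * ν) → ∀ (H : HLaw (Γ.graph g)) (r : H.O → Fin m₁ × Fin m₂ → ℝ), (∀ o x, H.B o x = ∑ κ, r o κ * Γ.avgRow g {κ} x) →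
    ∀ Pn : Finset (Fin m₁ × Fin m₂), (∀ m : Fin m₁ × Fin m₂ → ℝ, (∀ κ ∈ Pn, m κ = 0) →
      ∑ κ ∈ Γ.T, m κ ^ 2 ≤ c₀ * (∑ κ ∈ Γ.T, ∑ κ' ∈ Γ.T, (if Γ.Adj κ κ' then (m κ - m κ') ^ 2 else 0) + ∑ o, (∑ κ ∈ Γ.T, r o κ * m κ) ^ 2)) →
    ∀ v : (Γ.graph g).V → ℝ, (∀ x ∈ Γ.sites g Pn, v x = 0) → ∑ x, v x ^ 2 ≤ C * (ν : ℝ) ^ 2 * H.form a v := by
  refine ⟨(K : ℝ) ^ 2 * (a + c₀ * (8 * (K : ℝ) ^ 2 * 18 * a + 1)), by positivity, ?_⟩
  intro m₁ m₂ Γ g ν h1 hg hK H r hB Pn hc v hv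
  obtain ⟨f, hf⟩ : ∃ f, f = psExt (D := g.region Γ.T) (cut := Γ.cutB g) v := ⟨_, rfl⟩
  obtain ⟨m, hm⟩ : ∃ m : Fin m₁ × Fin m₂ → ℝ, m = fun κ => ((g.cell κ).card : ℝ)⁻¹ * ∑ z ∈ g.cell κ, f z := ⟨_, rfl⟩
  -- the pinned cells
  have hm0 : ∀ κ ∈ Pn, m κ = 0 := by
    intro κ hκ
    rw [hm]
    simp only
    rw [Finset.sum_eq_zero, mul_zero]
    intro z hz
    rw [hf]
    by_cases hzD : z ∈ g.region Γ.T
    · rw [ps_ln_ext_mem v hzD]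
      apply hv
      exact (ps_mem_sites_iff Γ g Pn _).2 ⟨κ, hκ, hz⟩
    · unfold psExt
      rw [dif_neg hzD]
  have hM := hc m hm0
  -- the observations
  have hobs : ∀ o, ∑ κ ∈ Γ.T, r o κ * m κ = H.obs v o := by
    intro o
    rw [ps_cc_obs Γ g H r hB v o, hm, hf]
  simp only [hobs] at hM
  -- the pairs
  have hA : ∑ κ ∈ Γ.T, ∑ κ' ∈ Γ.T, (if Γ.Adj κ κ' then (m κ - m κ') ^ 2 else 0) ≤ 8 * (K : ℝ) ^ 2 * (18 * HLaw.en v 0) := by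
    refine le_trans ?_ (mul_le_mul_of_nonneg_left (ps_cc_pairs Γ g v) (by positivity))
    rw [Finset.mul_sum]
    refine Finset.sum_le_sum fun κ _ => ?_
    rw [Finset.mul_sum]
    refine Finset.sum_le_sum fun κ' _ => ?_
    split_ifs with hadj
    · rw [hm, ← hf]
      exact ps_cc_pair Γ g h1 hg hK hadj f
    · simp
  -- the mass
  have hS : ∑ x, v x ^ 2 ≤ ((K : ℝ) * ν) ^ 2 * HLaw.en v 0 + ((K : ℝ) * ν) ^ 2 * ∑ κ ∈ Γ.T, m κ ^ 2 := by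
    have e1 : ∑ x, v x ^ 2 = psMass (Γ.sites g Γ.T) v := by
      unfold psMass
      refine Finset.sum_congr rfl fun x _ => ?_
      rw [if_pos]
      exact (ps_mem_sites_iff Γ g Γ.T x).2 (ps_pos_cell Γ g x)
    rw [e1, ps_mass_cells]
    have e2 : ∀ κ ∈ Γ.T, psMass (Γ.sites g {κ}) v ≤ ((K : ℝ) * ν) ^ 2 * psEnIn (Γ.sites g {κ}) v + ((K : ℝ) * ν) ^ 2 * m κ ^ 2 := by
      intro κ hκ
      unfold psMass
      rw [ps_sum_sites Γ g hκ v, ps_enIn_cell Γ g hκ v, ← hf]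
      have hP := geo_poincare_mean (L := K * ν) (hK.1 κ.1) (hK.2 κ.2) f
      rw [← geo_cell_eq] at hP
      have hcl := geo_cell_card_le g hK κ
      have hcp : (0 : ℝ) < (g.cell κ).card := by
        have := Finset.card_pos.2 (geo_cell_nonempty g κ)
        exact_mod_cast this
      have hE := geo_en_nonneg (g.cell κ) f
      push_cast at hP hcl
      have hL : ((K : ℝ) * ν) * ((K : ℝ) * ν - 1) ≤ ((K : ℝ) * ν) ^ 2 := by
        have : (0 : ℝ) ≤ (K : ℝ) * ν := by positivity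
        nlinarith
      have e3 : ((g.cell κ).card : ℝ)⁻¹ * (∑ x ∈ g.cell κ, f x) ^ 2 = (g.cell κ).card * m κ ^ 2 := by
        rw [hm]
        field_simp
      rw [e3] at hP
      refine hP.trans (add_le_add (mul_le_mul_of_nonneg_right hL hE) (mul_le_mul_of_nonneg_right hcl (sq_nonneg _)))
    refine (Finset.sum_le_sum e2).trans ?_
    rw [Finset.sum_add_distrib, ← Finset.mul_sum, ← Finset.mul_sum]
    refine add_le_add (mul_le_mul_of_nonneg_left ?_ (sq_nonneg _)) le_rfl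
    exact (ps_enIn_cells Γ g Γ.T v).trans (ps_enIn_le_en _ v)
  have hO : ∑ o, H.obs v o ^ 2 ≤ H.form a v := by
    rw [HLaw.form]
    have : 0 ≤ a⁻¹ * HLaw.en v 0 := mul_nonneg (by positivity) (Finset.sum_nonneg fun _ _ => sq_nonneg _)
    linarith
  exact ps_cc_real hc0 (ps_en_le_form H ha v) hO hA hM hS

/-- LEAF L-PS-C3 (~120 l.): properness on ONE grid gives the definiteness of the coarse form (`v` = the field which is `m κ` on the cell `κ`: gradients vanish inside cells and across uncut faces, the other bonds are not edges). -/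
theorem ps_coarse_def {m₁ m₂ : ℕ} (Γ : CGeom m₁ m₂) (g : DGrid m₁ m₂) (H : HLaw (Γ.graph g)) (r : H.O → Fin m₁ × Fin m₂ → ℝ)
    (hB : ∀ o x, H.B o x = ∑ κ, r o κ * Γ.avgRow g {κ} x) (Pn : Finset (Fin m₁ × Fin m₂)) (hPD : plPD H (Γ.sites g Pn))
    (m : Fin m₁ × Fin m₂ → ℝ) (h0 : ∀ κ ∈ Pn, m κ = 0) (h1 : ∀ κ κ', Γ.Adj κ κ' → m κ = m κ') (h2 : ∀ o, ∑ κ ∈ Γ.T, r o κ * m κ = 0) :
    ∀ κ ∈ Γ.T, m κ = 0 := by
  obtain ⟨v, hv⟩ : ∃ v : (Γ.graph g).V → ℝ, ∀ x κ, domPos (D := g.region Γ.T) (cut := Γ.cutB g) x ∈ g.cell κ → v x = m κ := by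
    refine ⟨fun x => m (Classical.choose (ps_pos_cell Γ g x)), fun x κ hx => ?_⟩
    have := (Classical.choose_spec (ps_pos_cell Γ g x)).2
    simp only
    rw [ps_cell_unique g this hx]
  have hext : ∀ κ ∈ Γ.T, ∀ z ∈ g.cell κ, psExt (D := g.region Γ.T) (cut := Γ.cutB g) v z = m κ := by
    intro κ hκ z hz
    rw [ps_ln_ext_mem v (ps_cell_region Γ g hκ hz)]
    exact hv _ κ hz
  have hzero : v = 0 := by
    apply hPD v
    · intro x hx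
      have hx' : domPos (D := g.region Γ.T) (cut := Γ.cutB g) x ∈ g.region Pn := Finset.mem_coe.1 hx
      obtain ⟨κ, hκ, hz⟩ := Finset.mem_biUnion.1 hx'
      rw [hv x κ hz, h0 κ hκ]
    · intro e
      obtain ⟨κ, _, hs⟩ := ps_pos_cell Γ g ((Γ.graph g).src e)
      obtain ⟨κ', _, ht⟩ := ps_pos_cell Γ g ((Γ.graph g).tgt e)
      unfold plGrad
      rw [hv _ κ hs, hv _ κ' ht]
      rcases ps_edge_cells Γ g e hs ht with rfl | hadj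
      · ring
      · rw [h1 κ κ' hadj]; ring
    · intro o
      rw [ps_cc_obs Γ g H r hB v o, ← h2 o]
      refine Finset.sum_congr rfl fun κ hκ => ?_
      have hc : ((g.cell κ).card : ℝ) ≠ 0 := by
        have := Finset.card_pos.2 (geo_cell_nonempty g κ)
        exact_mod_cast this.ne'
      rw [Finset.sum_congr rfl (hext κ hκ), Finset.sum_const, nsmul_eq_mul, inv_mul_cancel_left₀ hc]
  intro κ hκ
  obtain ⟨z, hz⟩ := geo_cell_nonempty g κ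
  rw [← hext κ hκ z hz, hzero]
  unfold psExt
  split_ifs <;> rfl

end

end Claimed.Agent.R285.Pot
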