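import Claimed.Agent.R285.Pot.StripLog
import Claimed.Agent.R285.Pot.LinSum
import Claimed.Agent.R285.Pot.LinInt
import Claimed.Agent.R285.Pot.DecRow

/-!
# ROW 285, POT-STRIP, part 2 : PIN INTERACTIONS AS TRACES, any graph      (owner helper53).   Paper-free.   Prefix `ps`.

`plHsp H a P Q` (helper83) = fields vanishing on `P`, harmonic off `Q`.   `psON H a P Q u` = a `plB`-orthonormal family of `plHsp`.   `psMass Y u = ∑_{x ∈ Y} u(x)²`.
THE SCHEME (`Q = P ∪ A`, `χ = 1` on `A`, `χ = 0` on `p`):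
  `gPin a P A p ≤ ½ ∑_j plGap (P ∪ A) p (u_j)` (helper83)  `≤ ½ ∑_j psCutErr χ (u_j)` (`ps_hsp_gap_le_cut`),
  `psCutErr χ u = a⁻¹ ∑_e u u (∇χ)² + ∑_o (commutator of the row o)`;  the gradient part is `≤ c ν⁻² psMass Y u` (`Y` = transition region of `χ`), its trace is bounded by `ps_mass_trace_abs`
  (`psMass Y ≤ κ' form` on `plHsp`, `≤ 16^{-k} β form` on the kernel of `4^k q` functionals);  the trace of the commutators of finitely many rows is bounded by Bessel's inequality (`ps_rows_trace`).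
The same trace is the Gaussian mean of `-2 log grPin` (`ps_gap_mean_le`).
-/

set_option autoImplicit false

namespace Claimed.Agent.R285.Pot

open MeasureTheory
open scoped Classical

noncomputable section

variable {G : HGraph} (H : HLaw G)

/-- `∑_{x ∈ Y} u(x)²` -/
def psMass (Y : Set G.V) (u : G.V → ℝ) : ℝ := ∑ x, if x ∈ Y then u x ^ 2 else 0

/-- an orthonormal family of the energy space of the data on `Q` -/
def psON (a : ℝ) (P Q : Set G.V) {n : ℕ} (u : Fin n → G.V → ℝ) : Prop :=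
  (∀ j, u j ∈ plHsp H a P Q) ∧ ∀ i j, plB H a (u i) (u j) = if i = j then 1 else 0

theorem ps_tr_eqns_cite : True := by
  have := @psMass.eq_1; have := @psON.eq_1; trivial

theorem ps_mass_nonneg (Y : Set G.V) (u : G.V → ℝ) : 0 ≤ psMass Y u :=
  Finset.sum_nonneg fun x _ => by split_ifs <;> positivity

theorem ps_mass_mono {Y Y' : Set G.V} (h : Y ⊆ Y') (u : G.V → ℝ) : psMass Y u ≤ psMass Y' u := by
  refine Finset.sum_le_sum fun x _ => ?_
  by_cases hx : x ∈ Y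
  · rw [if_pos hx, if_pos (h hx)]
  · rw [if_neg hx]; split_ifs <;> positivity

/-- LEAF L-PS-T1: **the extra energy of a zero pin on `p` is at most the cutoff error.**
`plEn (P ∪ A) u = form u` (`pl_harm_unique`: `u` is its own harmonic extension);  `plEn ((P ∪ A) ∪ p) (plRes (P ∪ A) u) ≤ form (χ u)` (`pl_en_le`; on `P`: `u = 0`, on `A`: `χ = 1`, on `p`: `χ = 0`);
`form (χ u) = B(u, χ² u) + psCutErr` (`ps_form_cut`), `B(u, χ² u) = B(u,u) + B(u, (χ² - 1) u)` and `(χ² - 1) u = 0` on `P ∪ A`. -/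
theorem ps_hsp_gap_le_cut {a : ℝ} (ha : 0 < a) {P : Set G.V} (h : plPD H P) (A p : Set G.V) {u : G.V → ℝ} (hu : u ∈ plHsp H a P (P ∪ A))
    {χ : G.V → ℝ} (hA : ∀ x ∈ A, χ x = 1) (hp : ∀ x ∈ p, χ x = 0) : plGap H a (P ∪ A) p u ≤ psCutErr H a χ u := by
  have hPA : plPD H (P ∪ A) := pl_PD_mono H h Set.subset_union_left
  have hPAp : plPD H ((P ∪ A) ∪ p) := pl_PD_mono H hPA Set.subset_union_left
  have e1 : plEn H a (P ∪ A) u = H.form a u := by
    rw [plEn, ← pl_harm_unique H ha hPA u (v := u) (fun _ _ => rfl) hu.2]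
  have h2 : plEn H a ((P ∪ A) ∪ p) (plRes (P ∪ A) u) ≤ H.form a (χ * u) := by
    refine pl_en_le H ha hPAp _ fun x hx => ?_
    by_cases hxQ : x ∈ P ∪ A
    · rw [pl_res_of_mem u hxQ, Pi.mul_apply]
      rcases hxQ with hxP | hxA
      · rw [hu.1 x hxP, mul_zero]
      · rw [hA x hxA, one_mul]
    · rw [pl_res_of_not_mem u hxQ, Pi.mul_apply, hp x (hx.resolve_left hxQ), zero_mul]
  have h3 : plB H a u (χ * χ * u) = H.form a u := by
    have e : χ * χ * u = u + (χ * χ * u - u) := by abel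
    rw [e, pl_B_add_right, ← pl_form_eq, hu.2 _ fun x hx => ?_, add_zero]
    rcases hx with hxP | hxA
    · simp [hu.1 x hxP]
    · simp [hA x hxA]
  rw [ps_form_cut, h3] at h2
  rw [plGap, e1]
  linarith

/-- Cauchy-Schwarz for the polarised form -/
theorem ps_B_sq_le {a : ℝ} (ha : 0 < a) (x y : G.V → ℝ) : plB H a x y ^ 2 ≤ H.form a x * H.form a y := by
  have hx := pl_form_nonneg H ha x
  have hy := pl_form_nonneg H ha y
  have key : ∀ t : ℝ, 0 ≤ H.form a x + 2 * t * plB H a x y + t ^ 2 * H.form a y := by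
    intro t
    have := pl_form_nonneg H ha (x + t • y)
    rw [pl_form_add, pl_form_smul, pl_B_smul_right] at this
    linarith
  rcases hy.eq_or_lt with h0 | h0
  · obtain ⟨g1, g2⟩ := (pl_form_eq_zero_iff H ha y).1 h0.symm
    rw [← h0, mul_zero, pl_B_comm, pl_B_eq_zero_of_null H a g1 g2]; simp
  · have h1 := key (-plB H a x y / H.form a y)
    have e2 : H.form a x + 2 * (-plB H a x y / H.form a y) * plB H a x y + (-plB H a x y / H.form a y) ^ 2 * H.form a y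
        = H.form a x - plB H a x y ^ 2 / H.form a y := by field_simp; ring
    rw [e2, sub_nonneg, div_le_iff₀ h0] at h1
    exact h1

/-- the representer of a test on the energy space of the data on `P ∪ A` -/
theorem ps_hsp_rep {a : ℝ} (ha : 0 < a) {P : Set G.V} (h : plPD H P) (A : Set G.V) (f : G.V → ℝ) :
    ∃ z : G.V → ℝ, H.form a z = psGap H a P A f ∧ ∀ u ∈ plHsp H a P (P ∪ A), HLaw.pair f u = plB H a z u := by
  have hPA : plPD H (P ∪ A) := pl_PD_mono H h Set.subset_union_left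
  have hv := pl_Gf_opt H ha h f
  have hw := pl_Gf_opt H ha hPA f
  refine ⟨plGf H a P f - plGf H a (P ∪ A) f, ?_, fun u hu => ?_⟩
  · rw [ps_gap_eq_form H ha hv hw, pl_form_sub, pl_form_sub, pl_B_comm H a (plGf H a P f)]
    ring
  · have h1 := hv.2 u ((ps_mem_rspan_pin H P u).2 hu.1)
    rw [ps_pin_B] at h1
    have h2 : plB H a (plGf H a (P ∪ A) f) u = 0 := by
      rw [pl_B_comm]
      exact hu.2 _ ((ps_mem_rspan_pin H (P ∪ A) _).1 hw.1)
    rw [pl_B_sub_left, h1, h2, sub_zero]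

/-- LEAF L-PS-T2: `⟨f,u⟩² ≤ gap(f) · form u` on the energy space of the data on `P ∪ A`.
`v, w` = optimisers of `f` under the pins `P`, `P ∪ A` (`pl_Gf_opt`): `⟨f,u⟩ = B(v,u)`, `B(w,u) = 0`; Cauchy-Schwarz for `plB`; `form (v - w) = psGap` (`ps_gap_eq_form`). -/
theorem ps_hsp_pair_sq_le {a : ℝ} (ha : 0 < a) {P : Set G.V} (h : plPD H P) (A : Set G.V) {u : G.V → ℝ} (hu : u ∈ plHsp H a P (P ∪ A))
    (f : G.V → ℝ) : HLaw.pair f u ^ 2 ≤ psGap H a P A f * H.form a u := by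
  obtain ⟨z, hz1, hz2⟩ := ps_hsp_rep H ha h A f
  rw [hz2 u hu, ← hz1]
  exact ps_B_sq_le H ha z u

theorem ps_B_sum_right (a : ℝ) {ι : Type*} (s : Finset ι) (z : G.V → ℝ) (w : ι → G.V → ℝ) :
    plB H a z (∑ j ∈ s, w j) = ∑ j ∈ s, plB H a z (w j) := by
  induction s using Finset.induction_on with
  | empty => simp [pl_B_zero_right]
  | insert j s hj ih => rw [Finset.sum_insert hj, Finset.sum_insert hj, pl_B_add_right, ih]

/-- Bessel's inequality for an orthonormal family of the form -/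
theorem ps_bessel_abs {a : ℝ} (ha : 0 < a) {n : ℕ} {u : Fin n → G.V → ℝ}
    (ho : ∀ i j, plB H a (u i) (u j) = if i = j then 1 else 0) (z : G.V → ℝ) :
    ∑ j, plB H a z (u j) ^ 2 ≤ H.form a z := by
  obtain ⟨c, hc⟩ : ∃ c : Fin n → ℝ, ∀ j, c j = plB H a z (u j) := ⟨_, fun _ => rfl⟩
  obtain ⟨s, hs⟩ : ∃ s : G.V → ℝ, s = ∑ j, c j • u j := ⟨_, rfl⟩
  have h1 : plB H a z s = ∑ j, c j ^ 2 := by
    rw [hs, ps_B_sum_right]
    refine Finset.sum_congr rfl fun j _ => ?_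
    rw [pl_B_smul_right, ← hc j]
    ring
  have h2 : ∀ i, plB H a (u i) s = c i := by
    intro i
    rw [hs, ps_B_sum_right]
    have : ∀ j ∈ Finset.univ, plB H a (u i) (c j • u j) = if i = j then c j else 0 := by
      intro j _
      rw [pl_B_smul_right, ho i j]
      split_ifs <;> simp
    rw [Finset.sum_congr rfl this]
    simp
  have h3 : H.form a s = ∑ j, c j ^ 2 := by
    rw [pl_form_eq]
    nth_rewrite 2 [hs]
    rw [ps_B_sum_right]
    refine Finset.sum_congr rfl fun j _ => ?_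
    rw [pl_B_smul_right, pl_B_comm, h2 j]
    ring
  have h4 := pl_form_nonneg H ha (z - s)
  rw [pl_form_sub, h1, h3] at h4
  have e : ∑ j, plB H a z (u j) ^ 2 = ∑ j, c j ^ 2 := Finset.sum_congr rfl fun j _ => by rw [hc j]
  rw [e]
  linarith

/-- LEAF L-PS-T2 (same leaf): Bessel's inequality.   `z = v - w` as above, `⟨f,u_j⟩ = B(z,u_j)`;  `0 ≤ form (z - ∑_j B(z,u_j) u_j) = form z - ∑_j B(z,u_j)²`. -/
theorem ps_hsp_bessel {a : ℝ} (ha : 0 < a) {P : Set G.V} (h : plPD H P) (A : Set G.V) {n : ℕ} {u : Fin n → G.V → ℝ}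
    (hu : psON H a P (P ∪ A) u) (f : G.V → ℝ) : ∑ j, HLaw.pair f (u j) ^ 2 ≤ psGap H a P A f := by
  obtain ⟨z, hz1, hz2⟩ := ps_hsp_rep H ha h A f
  rw [← hz1]
  have e : ∑ j, HLaw.pair f (u j) ^ 2 = ∑ j, plB H a z (u j) ^ 2 :=
    Finset.sum_congr rfl fun j _ => by rw [hz2 (u j) (hu.1 j)]
  rw [e]
  exact ps_bessel_abs H ha hu.2 z

/-- LEAF L-PS-T3: the trace of the commutators of finitely many row vectors `B o` (ANY vectors: in the applications a part of the rows of `H`).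
`⟨B, χ u⟩ = ⟨χ B, u⟩`, `- x y ≤ x²/2 + y²/2`, `ps_hsp_bessel` three times. -/
theorem ps_rows_trace {a : ℝ} (ha : 0 < a) {P : Set G.V} (h : plPD H P) (A : Set G.V) {n : ℕ} {u : Fin n → G.V → ℝ}
    (hu : psON H a P (P ∪ A) u) (χ : G.V → ℝ) {κ : Type} [Fintype κ] (B : κ → G.V → ℝ) :
    ∑ j, ∑ o, ((∑ x, B o x * (χ * u j) x) ^ 2 - (∑ x, B o x * u j x) * ∑ x, B o x * (χ * χ * u j) x)
      ≤ ∑ o, (psGap H a P A (χ * B o) + psGap H a P A (B o) / 2 + psGap H a P A (χ * χ * B o) / 2) := by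
  rw [Finset.sum_comm]
  refine Finset.sum_le_sum fun o _ => ?_
  have b1 := ps_hsp_bessel H ha h A hu (χ * B o)
  have b2 := ps_hsp_bessel H ha h A hu (B o)
  have b3 := ps_hsp_bessel H ha h A hu (χ * χ * B o)
  have ht : ∀ j, (∑ x, B o x * (χ * u j) x) ^ 2 - (∑ x, B o x * u j x) * ∑ x, B o x * (χ * χ * u j) x
      ≤ HLaw.pair (χ * B o) (u j) ^ 2 + HLaw.pair (B o) (u j) ^ 2 / 2 + HLaw.pair (χ * χ * B o) (u j) ^ 2 / 2 := by
    intro j
    have e1 : ∑ x, B o x * (χ * u j) x = HLaw.pair (χ * B o) (u j) := by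
      unfold HLaw.pair
      refine Finset.sum_congr rfl fun x _ => ?_
      simp only [Pi.mul_apply]
      ring
    have e2 : ∑ x, B o x * u j x = HLaw.pair (B o) (u j) := rfl
    have e3 : ∑ x, B o x * (χ * χ * u j) x = HLaw.pair (χ * χ * B o) (u j) := by
      unfold HLaw.pair
      refine Finset.sum_congr rfl fun x _ => ?_
      simp only [Pi.mul_apply]
      ring
    rw [e1, e2, e3]
    nlinarith [sq_nonneg (HLaw.pair (B o) (u j) + HLaw.pair (χ * χ * B o) (u j))]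
  refine (Finset.sum_le_sum fun j _ => ht j).trans ?_
  rw [Finset.sum_add_distrib, Finset.sum_add_distrib, ← Finset.sum_div, ← Finset.sum_div]
  linarith

theorem ps_geo_A (K : ℕ) : (1 : ℝ) + ∑ k ∈ Finset.range K, (4 : ℝ) ^ (k + 1) ≤ 4 / 3 * 4 ^ K := by
  induction K with
  | zero => norm_num
  | succ K ih =>
    rw [Finset.sum_range_succ, pow_succ]
    have : (0 : ℝ) < 4 ^ K := by positivity
    linarith

theorem ps_geo_B (k₁ j : ℕ) : ∑ i ∈ Finset.range j, (4 : ℝ) ^ (k₁ + i + 1) * ((16 : ℝ) ^ (k₁ + i))⁻¹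
    = 16 / 3 * (((4 : ℝ) ^ k₁)⁻¹ - ((4 : ℝ) ^ (k₁ + j))⁻¹) := by
  induction j with
  | zero => simp
  | succ j ih =>
    rw [Finset.sum_range_succ, ih]
    have e16 : (16 : ℝ) ^ (k₁ + j) = 4 ^ (k₁ + j) * 4 ^ (k₁ + j) := by rw [← mul_pow]; norm_num
    rw [e16, ← add_assoc, pow_succ]
    have hx : (0 : ℝ) < 4 ^ (k₁ + j) := by positivity
    have hy : (0 : ℝ) < 4 ^ k₁ := by positivity
    field_simp
    ring

/-- LEAF L-PS-T4 (Mathlib + `pd_trace_le`): **trace from two bounds.**   `pd_trace_le` with `m k = 4^k q` (pad the functionals by zeros: `Fintype.equivFin`, `Fin.castLE`), `κ k = κ'` for `k < k₁`, `16^{-k} β` for `k ≥ k₁`: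
`q κ' + ∑_{k<k₁} 4^{k+1} q κ' ≤ (4/3) 4^{k₁} q κ'`,  `∑_{k₁ ≤ k < N} 4^{k+1} q 16^{-k} β ≤ (16/3) 4^{-k₁} q β`,  `n 16^{-N} β → 0`. -/
theorem ps_trace_two {n : ℕ} (Q : Matrix (Fin n) (Fin n) ℝ) (hQ : Q.PosSemidef) (q : ℕ) (κ' β : ℝ) (hκ' : 0 ≤ κ') (hβ : 0 ≤ β)
    (h0 : ∀ c : Fin n → ℝ, c ⬝ᵥ Q.mulVec c ≤ κ' * (c ⬝ᵥ c))
    (hk : ∀ k : ℕ, ∃ (ι : Type) (_ : Fintype ι) (ℓ : ι → (Fin n → ℝ) →ₗ[ℝ] ℝ), Fintype.card ι ≤ 4 ^ k * q ∧
      ∀ c : Fin n → ℝ, (∀ j, ℓ j c = 0) → c ⬝ᵥ Q.mulVec c ≤ ((16 : ℝ) ^ k)⁻¹ * β * (c ⬝ᵥ c)) (k₁ : ℕ) :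
    Q.trace ≤ q * (4 / 3 * (4 : ℝ) ^ k₁ * κ' + 16 / 3 * ((4 : ℝ) ^ k₁)⁻¹ * β) := by
  choose ι hι ℓ hcard hbd using hk
  obtain ⟨κ, hκd⟩ : ∃ κ : ℕ → ℝ, ∀ k, κ k = if k < k₁ then κ' else ((16 : ℝ) ^ k)⁻¹ * β := ⟨_, fun _ => rfl⟩
  have hκ0 : ∀ k, 0 ≤ κ k := by
    intro k
    rw [hκd]
    split_ifs <;> positivity
  -- padded functionals
  obtain ⟨ℓ', hℓ'⟩ : ∃ ℓ' : ∀ k, Fin (4 ^ k * q) → (Fin n → ℝ) →ₗ[ℝ] ℝ, ∀ k (c : Fin n → ℝ), (∀ j, ℓ' k j c = 0) → ∀ i, ℓ k i c = 0 := by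
    refine ⟨fun k j => if h : j.val < @Fintype.card (ι k) (hι k) then
      ℓ k ((@Fintype.equivFin (ι k) (hι k)).symm ⟨j.val, h⟩) else 0, ?_⟩
    intro k c hj i
    have hlt : ((@Fintype.equivFin (ι k) (hι k)) i).val < @Fintype.card (ι k) (hι k) := ((@Fintype.equivFin (ι k) (hι k)) i).2
    have := hj ⟨((@Fintype.equivFin (ι k) (hι k)) i).val, lt_of_lt_of_le hlt (hcard k)⟩
    simp only [dif_pos hlt, Fin.eta, Equiv.symm_apply_apply] at this
    exact this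
  have hk' : ∀ (k : ℕ) (c : Fin n → ℝ), (∀ j, ℓ' k j c = 0) → c ⬝ᵥ Q.mulVec c ≤ κ k * (c ⬝ᵥ c) := by
    intro k c hc
    rw [hκd]
    split_ifs
    · exact h0 c
    · exact hbd k c (hℓ' k c hc)
  have main := pd_trace_le Q hQ (fun k => 4 ^ k * q) κ' κ hκ' hκ0 h0 ℓ' hk'
  obtain ⟨RHS, hRHS⟩ : ∃ RHS : ℝ, RHS = q * (4 / 3 * (4 : ℝ) ^ k₁ * κ' + 16 / 3 * ((4 : ℝ) ^ k₁)⁻¹ * β) := ⟨_, rfl⟩
  rw [← hRHS]
  have hq0 : (0 : ℝ) ≤ q := Nat.cast_nonneg _
  have bound : ∀ j : ℕ, Q.trace ≤ RHS + n * β * (1 / 16 : ℝ) ^ j := by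
    intro j
    refine (main (k₁ + j)).trans ?_
    rw [Finset.sum_range_add]
    have s1 : ∑ k ∈ Finset.range k₁, ((4 ^ (k + 1) * q : ℕ) : ℝ) * κ k = q * κ' * ∑ k ∈ Finset.range k₁, (4 : ℝ) ^ (k + 1) := by
      rw [Finset.mul_sum]
      refine Finset.sum_congr rfl fun k hk => ?_
      rw [hκd, if_pos (Finset.mem_range.1 hk)]
      push_cast
      ring
    have s2 : ∑ i ∈ Finset.range j, ((4 ^ (k₁ + i + 1) * q : ℕ) : ℝ) * κ (k₁ + i)
        = q * β * ∑ i ∈ Finset.range j, (4 : ℝ) ^ (k₁ + i + 1) * ((16 : ℝ) ^ (k₁ + i))⁻¹ := by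
      rw [Finset.mul_sum]
      refine Finset.sum_congr rfl fun i _ => ?_
      rw [hκd, if_neg (by omega)]
      push_cast
      ring
    have s3 : κ (k₁ + j) ≤ β * (1 / 16 : ℝ) ^ j := by
      rw [hκd, if_neg (by omega), mul_comm]
      refine mul_le_mul_of_nonneg_left ?_ hβ
      rw [one_div, inv_pow]
      exact inv_anti₀ (by positivity) (pow_le_pow_right₀ (by norm_num) (by omega))
    have s4 : (n : ℝ) * κ (k₁ + j) ≤ n * (β * (1 / 16 : ℝ) ^ j) := mul_le_mul_of_nonneg_left s3 (Nat.cast_nonneg _)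
    rw [s1, s2, ps_geo_B]
    have a1 := mul_le_mul_of_nonneg_left (ps_geo_A k₁) (mul_nonneg hq0 hκ')
    have a2 : 0 ≤ q * β * (16 / 3 * ((4 : ℝ) ^ (k₁ + j))⁻¹) := by positivity
    have e0 : (((4 ^ 0 * q : ℕ) : ℝ)) = q := by push_cast; ring
    rw [e0, hRHS]
    have e1 : (q : ℝ) * κ' * (1 + ∑ k ∈ Finset.range k₁, (4 : ℝ) ^ (k + 1))
        = q * κ' + q * κ' * ∑ k ∈ Finset.range k₁, (4 : ℝ) ^ (k + 1) := by ring
    have e2 : (q : ℝ) * β * (16 / 3 * (((4 : ℝ) ^ k₁)⁻¹ - ((4 : ℝ) ^ (k₁ + j))⁻¹))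
        = q * β * (16 / 3 * ((4 : ℝ) ^ k₁)⁻¹) - q * β * (16 / 3 * ((4 : ℝ) ^ (k₁ + j))⁻¹) := by ring
    have e3 : (q : ℝ) * (4 / 3 * (4 : ℝ) ^ k₁ * κ' + 16 / 3 * ((4 : ℝ) ^ k₁)⁻¹ * β)
        = q * κ' * (4 / 3 * 4 ^ k₁) + q * β * (16 / 3 * ((4 : ℝ) ^ k₁)⁻¹) := by ring
    rw [e2, e3]
    linarith
  have ht : Filter.Tendsto (fun j : ℕ => RHS + n * β * (1 / 16 : ℝ) ^ j) Filter.atTop (nhds (RHS + n * β * 0)) :=
    tendsto_const_nhds.add ((tendsto_pow_atTop_nhds_zero_of_lt_one (by norm_num) (by norm_num)).const_mul _)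
  have := ge_of_tendsto' ht bound
  simpa using this

/-- `plB` of a linear combination (left) -/
theorem ps_B_comb_left (a : ℝ) {n : ℕ} (u : Fin n → G.V → ℝ) (c : Fin n → ℝ) (v : G.V → ℝ) :
    plB H a (∑ j, c j • u j) v = ∑ j, c j * plB H a (u j) v := by
  have key : ∀ s : Finset (Fin n), plB H a (∑ j ∈ s, c j • u j) v = ∑ j ∈ s, c j * plB H a (u j) v := by
    intro s
    induction s using Finset.induction_on with
    | empty => simp [pl_B_zero_left]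
    | insert j s hj ih => rw [Finset.sum_insert hj, Finset.sum_insert hj, pl_B_add_left, pl_B_smul_left, ih]
  exact key _

/-- the form of a linear combination of an orthonormal family -/
theorem ps_form_comb_on (a : ℝ) {n : ℕ} {u : Fin n → G.V → ℝ} (hon : ∀ i j, plB H a (u i) (u j) = if i = j then 1 else 0)
    (c : Fin n → ℝ) : H.form a (∑ j, c j • u j) = c ⬝ᵥ c := by
  rw [pl_form_eq, ps_B_comb_left]
  unfold dotProduct
  refine Finset.sum_congr rfl fun i _ => ?_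
  rw [pl_B_comm, ps_B_comb_left]
  congr 1
  simp only [pl_B_comm H a _ (u i), hon, mul_ite, mul_one, mul_zero, Finset.sum_ite_eq, Finset.mem_univ, if_true]

/-- LEAF L-PS-T5: **the trace of a mass over an orthonormal family.**   `Q_ij = ∑_{x ∈ Y} u_i(x) u_j(x)` (PSD), `c ⬝ Q c = psMass Y (∑ c_j u_j)`, `form (∑ c_j u_j) = c ⬝ c`, functionals `ℓ ∘ (c ↦ ∑ c_j u_j)`;
`ps_trace_two`.   Model: the proof of `pd_trace_cut` in `DecHS.lean`. -/
theorem ps_mass_trace_abs (a : ℝ) (P Q Y : Set G.V) (q : ℕ) (κ' β : ℝ) (hκ' : 0 ≤ κ') (hβ : 0 ≤ β)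
    (h0 : ∀ u ∈ plHsp H a P Q, psMass Y u ≤ κ' * H.form a u)
    (hk : ∀ k : ℕ, ∃ (ι : Type) (_ : Fintype ι) (ℓ : ι → (G.V → ℝ) →ₗ[ℝ] ℝ), Fintype.card ι ≤ 4 ^ k * q ∧
      ∀ u ∈ plHsp H a P Q, (∀ j, ℓ j u = 0) → psMass Y u ≤ ((16 : ℝ) ^ k)⁻¹ * β * H.form a u)
    {n : ℕ} {u : Fin n → G.V → ℝ} (hu : psON H a P Q u) (k₁ : ℕ) :
    ∑ j, psMass Y (u j) ≤ q * (4 / 3 * (4 : ℝ) ^ k₁ * κ' + 16 / 3 * ((4 : ℝ) ^ k₁)⁻¹ * β) := by
  obtain ⟨M, hM⟩ : ∃ M : Matrix (Fin n) (Fin n) ℝ,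
      M = Matrix.of fun i j => ∑ x, if x ∈ Y then u i x * u j x else 0 := ⟨_, rfl⟩
  have hquad : ∀ c : Fin n → ℝ, c ⬝ᵥ M.mulVec c = psMass Y (∑ j, c j • u j) := by
    intro c
    rw [hM]
    simp only [dotProduct, Matrix.mulVec, Matrix.of_apply, psMass, Finset.sum_apply, Pi.smul_apply, smul_eq_mul]
    simp only [Finset.sum_mul, Finset.mul_sum]
    rw [Finset.sum_comm]
    have : ∀ i : Fin n, ∑ j, ∑ x, c j * ((if x ∈ Y then u j x * u i x else 0) * c i)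
        = ∑ x, ∑ j, c j * ((if x ∈ Y then u j x * u i x else 0) * c i) := fun i => Finset.sum_comm
    simp only [this]
    rw [Finset.sum_comm]
    refine Finset.sum_congr rfl fun x _ => ?_
    by_cases hx : x ∈ Y
    · simp only [if_pos hx, sq, Finset.sum_mul, Finset.mul_sum]
      refine Finset.sum_congr rfl fun i _ => Finset.sum_congr rfl fun j _ => ?_
      ring
    · simp [if_neg hx]
  have hnorm : ∀ c : Fin n → ℝ, H.form a (∑ j, c j • u j) = c ⬝ᵥ c := ps_form_comb_on H a hu.2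
  have hmem : ∀ c : Fin n → ℝ, (∑ j, c j • u j) ∈ plHsp H a P Q := fun c =>
    Submodule.sum_mem _ fun j _ => Submodule.smul_mem _ _ (hu.1 j)
  have hpsd : M.PosSemidef := by
    refine Matrix.PosSemidef.of_dotProduct_mulVec_nonneg ?_ fun c => ?_
    · rw [hM]
      ext i j
      simp only [Matrix.conjTranspose_apply, Matrix.of_apply, star_trivial]
      exact Finset.sum_congr rfl fun x _ => by simp only [mul_comm]
    · rw [star_trivial, hquad]
      exact ps_mass_nonneg _ _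
  have h0' : ∀ c : Fin n → ℝ, c ⬝ᵥ M.mulVec c ≤ κ' * (c ⬝ᵥ c) := by
    intro c
    rw [hquad, ← hnorm]
    exact h0 _ (hmem c)
  have hk' : ∀ k : ℕ, ∃ (ι : Type) (_ : Fintype ι) (ℓ : ι → (Fin n → ℝ) →ₗ[ℝ] ℝ), Fintype.card ι ≤ 4 ^ k * q ∧
      ∀ c : Fin n → ℝ, (∀ j, ℓ j c = 0) → c ⬝ᵥ M.mulVec c ≤ ((16 : ℝ) ^ k)⁻¹ * β * (c ⬝ᵥ c) := by
    intro k
    obtain ⟨ι, fι, ℓ, hcard, hℓ⟩ := hk k
    refine ⟨ι, fι, fun j => (ℓ j).comp (Fintype.linearCombination ℝ u), hcard, fun c hc => ?_⟩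
    rw [hquad, ← hnorm]
    refine hℓ _ (hmem c) fun j => ?_
    have := hc j
    simpa [Fintype.linearCombination_apply] using this
  have key := ps_trace_two M hpsd q κ' β hκ' hβ h0' hk' k₁
  have htr : M.trace = ∑ j, psMass Y (u j) := by
    rw [hM]
    simp only [Matrix.trace, Matrix.diag_apply, Matrix.of_apply, psMass, sq]
  rw [← htr]
  exact key

/-- from the trace to the pin interaction -/
theorem ps_gPin_le_trace {a : ℝ} (ha : 0 < a) {P : Set G.V} (h : plPD H P) (A p : Set G.V) (hd : A ∩ p ⊆ P) {Bd : ℝ}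
    (hB : ∀ (n : ℕ) (u : Fin n → G.V → ℝ), psON H a P (P ∪ A) u → ∑ j, plGap H a (P ∪ A) p (u j) ≤ Bd) :
    H.gPin a P A p ≤ Bd / 2 := by
  obtain ⟨n, u, h1, h2, h3, h4⟩ := pl_gPin_le_sum' H ha h A p hd
  have := hB n u ⟨fun j => ⟨h1 j, h2 j⟩, h3⟩
  linarith

/-- from the trace to the Gaussian mean of `- 2 log grPin` (`plrPin H a (P ∪ p) A φ = exp (-(plGap H a (P ∪ p) A φ)/2)`: `pl_rPin_eq`) -/
theorem ps_gap_mean_le {a : ℝ} (ha : 0 < a) {P : Set G.V} (h : plPD H P) (A p : Set G.V) {Bd : ℝ}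
    (hB : ∀ (n : ℕ) (u : Fin n → G.V → ℝ), psON H a P (P ∪ p) u → ∑ j, plGap H a (P ∪ p) A (u j) ≤ Bd) :
    ∫ φ, plGap H a (P ∪ p) A φ ∂plMeas H a P ≤ Bd := by
  obtain ⟨n, u, hu⟩ := pl_onb_exists H ha h (P ∪ p)
  have hQ := pl_PD_mono H h (Set.subset_union_left (t := p))
  have h1 := hB n u ⟨hu.mem, hu.orth⟩
  simp only [pl_gap_eq_form_L H ha hQ] at h1 ⊢
  rwa [pl_form_comp_mean_eq_sum H ha h Set.subset_union_left hu _ fun w hw => pl_gapL_of_zero H ha hQ A hw]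

/-- more rows keep properness -/
theorem ps_probe_PD {ι : Type} [Fintype ι] (R : ι → G.V → ℝ) {P : Set G.V} (h : plPD H P) : plPD (psAdd H R) P :=
  fun v hv he ho => h v hv he fun o => ho (Sum.inl o)

/-- rows carried by `S` do not change the determinant off `S` -/
theorem ps_probe_detOff {ι : Type} [Fintype ι] (R : ι → G.V → ℝ) (a : ℝ) {S : Set G.V} (hR : ∀ i x, R i x ≠ 0 → x ∈ S) :
    (psAdd H R).detOff a S = H.detOff a S := by
  unfold HLaw.detOff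
  congr 1
  ext x y
  simp only [Matrix.submatrix_apply, HLaw.prec]
  congr 1
  have h : ∑ o, (psAdd H R).B o x.1 * (psAdd H R).B o y.1 = ∑ o, H.B o x.1 * H.B o y.1 + ∑ i, R i x.1 * R i y.1 :=
    Fintype.sum_sum_type fun o : H.O ⊕ ι => Sum.elim H.B R o x.1 * Sum.elim H.B R o y.1
  rw [h]
  have h0 : ∑ i, R i x.1 * R i y.1 = 0 := by
    refine Finset.sum_eq_zero fun i _ => ?_
    have : R i x.1 = 0 := by
      by_contra hne
      exact x.2 (hR i _ hne)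
    rw [this, zero_mul]
  rw [h0, add_zero]

theorem ps_sqrt_eq_exp {c d : ℝ} (hc : 0 < c) (hd : 0 < d) : Real.sqrt (c / d) = Real.exp ((Real.log c - Real.log d) / 2) := by
  rw [Real.sqrt_eq_rpow, Real.rpow_def_of_pos (div_pos hc hd), Real.log_div hc.ne' hd.ne']
  congr 1
  ring

/-- LEAF L-PS-T6: **soft probes**: rows carried by `A` do not change the determinants off `A`.
`pl_Z_one_eq` (4 times; `plPD (psAdd H R) P` from `plPD H P`), `detOff (psAdd H R) (P ∪ A) = detOff H (P ∪ A)` and the same with `P ∪ A ∪ p` (the entries of `prec` off `A` agree: `Fintype.sum_sum_type`, `R i x = 0`),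
`Real.sqrt`/`Real.exp`/`Real.log` algebra with `pl_detOff_pos`. -/
theorem ps_probe_ratio {ι : Type} [Fintype ι] (R : ι → G.V → ℝ) {a : ℝ} (ha : 0 < a) {P : Set G.V} (h : plPD H P) (A p : Set G.V)
    (hR : ∀ i x, R i x ≠ 0 → x ∈ A) :
    (plZ (psAdd H R) a P 0 (fun _ => 1) / plZ H a P 0 fun _ => 1) / (plZ (psAdd H R) a (P ∪ p) 0 (fun _ => 1) / plZ H a (P ∪ p) 0 fun _ => 1)
      = Real.exp (-(H.gPin a P A p)) * Real.exp ((psAdd H R).gPin a P A p) := by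
  have h' := ps_probe_PD H R h
  have hp := pl_PD_mono H h (Set.subset_union_left (t := p))
  have hp' := ps_probe_PD H R hp
  have e1 : (psAdd H R).detOff a (P ∪ A) = H.detOff a (P ∪ A) :=
    ps_probe_detOff H R a fun i x hx => Or.inr (hR i x hx)
  have e2 : (psAdd H R).detOff a (P ∪ A ∪ p) = H.detOff a (P ∪ A ∪ p) :=
    ps_probe_detOff H R a fun i x hx => Or.inl (Or.inr (hR i x hx))
  have c1 : (0 : ℝ) < (2 * Real.pi) ^ plCard P := by have := Real.pi_pos; positivity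
  have c2 : (0 : ℝ) < (2 * Real.pi) ^ plCard (P ∪ p) := by have := Real.pi_pos; positivity
  rw [pl_Z_one_eq H ha h, pl_Z_one_eq (psAdd H R) ha h', pl_Z_one_eq H ha hp, pl_Z_one_eq (psAdd H R) ha hp',
    ps_sqrt_eq_exp c1 (pl_detOff_pos H ha h), ps_sqrt_eq_exp c1 (pl_detOff_pos _ ha h'),
    ps_sqrt_eq_exp c2 (pl_detOff_pos H ha hp), ps_sqrt_eq_exp c2 (pl_detOff_pos _ ha hp'),
    ← Real.exp_sub, ← Real.exp_sub, ← Real.exp_sub, ← Real.exp_add]
  congr 1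
  unfold HLaw.gPin
  rw [e1, e2]
  ring

end

end Claimed.Agent.R285.Pot
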